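import Vale.Agent.P031.Defs
import Vale.Agent.P003.Mertens

/-! P031, [MERT]: Mertens' theorems and the masses of the cells. -/

namespace P031

open Finset Filter Topology

namespace MertAux

open Vale.Agent.P003.MertensAux

/-- `∑_{p ≤ n} log p / (p (p-1))` is bounded. -/
theorem tele_log (n : ℕ) (hn : 1 ≤ n) :
    ∑ p ∈ Nat.primesLE n, Real.log p / ((p : ℝ) * ((p : ℝ) - 1)) ≤
      Real.log 2 + 2 - (Real.log ((n : ℝ) + 1) + 2) / n := by
  induction n, hn using Nat.le_induction with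
  | base => simp; norm_num
  | succ n hn ih =>
    rw [primesLE_succ_sum (fun p => Real.log p / ((p : ℝ) * ((p : ℝ) - 1)))]
    have hn1 : (1 : ℝ) ≤ n := by exact_mod_cast hn
    have hn0 : (0 : ℝ) < n := by linarith
    have hl : 0 ≤ Real.log ((n : ℝ) + 1) := Real.log_nonneg (by linarith)
    have hstep : Real.log ((n : ℝ) + 1) / (((n : ℝ) + 1) * n) ≤
        (Real.log ((n : ℝ) + 1) + 2) / n - (Real.log ((n : ℝ) + 1 + 1) + 2) / ((n : ℝ) + 1) := by
      have h1 : Real.log ((n : ℝ) + 1 + 1) ≤ Real.log ((n : ℝ) + 1) + 1 / ((n : ℝ) + 1) := by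
        have h2 : Real.log ((n : ℝ) + 1 + 1) - Real.log ((n : ℝ) + 1) =
            Real.log (((n : ℝ) + 1 + 1) / ((n : ℝ) + 1)) := by
          rw [Real.log_div (by positivity) (by positivity)]
        have h3 := Real.log_le_sub_one_of_pos
          (show 0 < ((n : ℝ) + 1 + 1) / ((n : ℝ) + 1) by positivity)
        have h4 : ((n : ℝ) + 1 + 1) / ((n : ℝ) + 1) - 1 = 1 / ((n : ℝ) + 1) := by
          field_simp
          ring
        linarith
      have h5 : (Real.log ((n : ℝ) + 1) + 2) / n - (Real.log ((n : ℝ) + 1 + 1) + 2) / ((n : ℝ) + 1)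
          = ((Real.log ((n : ℝ) + 1) + 2) * ((n : ℝ) + 1) -
            (Real.log ((n : ℝ) + 1 + 1) + 2) * n) / (((n : ℝ) + 1) * n) := by
        field_simp
      rw [h5]
      apply div_le_div_of_nonneg_right _ (by positivity)
      have h6 : (Real.log ((n : ℝ) + 1 + 1)) * n ≤
          (Real.log ((n : ℝ) + 1) + 1 / ((n : ℝ) + 1)) * n :=
        mul_le_mul_of_nonneg_right h1 hn0.le
      have h7 : 1 / ((n : ℝ) + 1) * n ≤ 1 := by
        rw [one_div_mul_eq_div, div_le_one (by positivity)]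
        linarith
      nlinarith
    have hpos : 0 ≤ Real.log ((n : ℝ) + 1) / (((n : ℝ) + 1) * n) := by positivity
    push_cast
    have e1 : (n : ℝ) + 1 - 1 = n := by ring
    split_ifs
    · rw [e1]
      linarith
    · linarith

/-- Legendre: `log n! ≤ n ∑_{p ≤ n} log p / (p-1)`. -/
theorem log_factorial_le (n : ℕ) :
    Real.log (n.factorial : ℝ) ≤ n * ∑ p ∈ Nat.primesLE n, Real.log p / ((p : ℝ) - 1) := by
  have h0 : n.factorial ≠ 0 := n.factorial_ne_zero
  have h1 : (n.factorial : ℝ) = ∏ p ∈ Nat.primesLE n, (p : ℝ) ^ (n.factorial.factorization p) := by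
    have h2 := Nat.prod_factorization_pow_eq_self h0
    conv_lhs => rw [← h2]
    rw [Finsupp.prod]
    push_cast
    apply Finset.prod_subset
    · intro p hp
      rw [Nat.support_factorization, Nat.mem_primeFactors] at hp
      rw [Nat.mem_primesLE]
      exact ⟨(hp.1.dvd_factorial).1 hp.2.1, hp.1⟩
    · intro p _ hp
      rw [Finsupp.notMem_support_iff] at hp
      rw [hp, pow_zero]
  rw [h1, Real.log_prod]
  · rw [Finset.mul_sum]
    refine Finset.sum_le_sum (fun p hp => ?_)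
    have hpp := (Nat.mem_primesLE.1 hp).2
    have hp2 : (2 : ℝ) ≤ p := by exact_mod_cast hpp.two_le
    rw [Real.log_pow]
    have h3 : ((p : ℝ) - 1) * (n.factorial.factorization p : ℝ) ≤ n := by
      have := Fact.mk hpp
      have h4 := sub_one_mul_padicValNat_factorial (p := p) n
      have h5 : (p - 1) * padicValNat p n.factorial ≤ n := by
        rw [h4]; omega
      rw [Nat.factorization_def _ hpp]
      have h6 : (((p - 1) * padicValNat p n.factorial : ℕ) : ℝ) ≤ n := by exact_mod_cast h5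
      rw [Nat.cast_mul, Nat.cast_sub hpp.one_lt.le] at h6
      simpa using h6
    have hlog : 0 ≤ Real.log p := Real.log_nonneg (by linarith)
    have h7 : (n.factorial.factorization p : ℝ) ≤ n / ((p : ℝ) - 1) := by
      rw [le_div_iff₀ (by linarith)]
      linarith
    calc (n.factorial.factorization p : ℝ) * Real.log p ≤ n / ((p : ℝ) - 1) * Real.log p :=
          mul_le_mul_of_nonneg_right h7 hlog
      _ = n * (Real.log p / ((p : ℝ) - 1)) := by ring
  · intro p hp
    have hpp := (Nat.mem_primesLE.1 hp).2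
    have : (p : ℝ) ≠ 0 := by exact_mod_cast hpp.ne_zero
    positivity

theorem log_factorial_ge' (n : ℕ) (hn : 1 ≤ n) :
    n * Real.log n - n ≤ Real.log (n.factorial : ℝ) := by
  have hn0 : (0 : ℝ) < n := by exact_mod_cast hn
  have hf : (0 : ℝ) < n.factorial := by exact_mod_cast n.factorial_pos
  have h1 := Real.pow_div_factorial_le_exp (x := (n : ℝ)) hn0.le n
  have h2 := Real.log_le_log (by positivity) h1
  rw [Real.log_exp, Real.log_div (by positivity) hf.ne', Real.log_pow] at h2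
  linarith

theorem S1_ge (n : ℕ) (hn : 1 ≤ n) : Real.log n - (Real.log 2 + 3) ≤ S1 n := by
  have hn0 : (0 : ℝ) < n := by exact_mod_cast hn
  have h1 := log_factorial_le n
  have h2 := log_factorial_ge' n hn
  have h3 : Real.log n - 1 ≤ ∑ p ∈ Nat.primesLE n, Real.log p / ((p : ℝ) - 1) := by
    have h4 : n * (Real.log n - 1) ≤ n * ∑ p ∈ Nat.primesLE n, Real.log p / ((p : ℝ) - 1) := by
      linarith
    exact le_of_mul_le_mul_left h4 hn0
  have h5 : ∑ p ∈ Nat.primesLE n, Real.log p / ((p : ℝ) - 1) =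
      S1 n + ∑ p ∈ Nat.primesLE n, Real.log p / ((p : ℝ) * ((p : ℝ) - 1)) := by
    unfold S1
    rw [← Finset.sum_add_distrib]
    refine Finset.sum_congr rfl (fun p hp => ?_)
    have hpp := (Nat.mem_primesLE.1 hp).2
    have hp2 : (2 : ℝ) ≤ p := by exact_mod_cast hpp.two_le
    have : (p : ℝ) - 1 ≠ 0 := by linarith
    have : (p : ℝ) ≠ 0 := by linarith
    field_simp
    ring
  have h6 := tele_log n hn
  have h7 : 0 ≤ (Real.log ((n : ℝ) + 1) + 2) / n := by
    have : 0 ≤ Real.log ((n : ℝ) + 1) := Real.log_nonneg (by linarith)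
    positivity
  linarith

end MertAux

open MertAux Vale.Agent.P003.MertensAux

theorem sum_log_div : ∃ C : ℝ, ∀ n : ℕ, 2 ≤ n →
    |∑ p ∈ Nat.primesLE n, Real.log p / p - Real.log n| ≤ C := by
  refine ⟨Real.log 4 + (Real.log 2 + 3), fun n hn => ?_⟩
  have h1 := S1_le n (by omega)
  have h2 := S1_ge n (by omega)
  have h3 : 0 < Real.log 4 := Real.log_pos (by norm_num)
  have h4 : 0 < Real.log 2 := Real.log_pos (by norm_num)
  unfold S1 at h1 h2
  rw [abs_le]
  constructor <;> linarith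

namespace MertAux

/-- telescoping criterion. -/
theorem exists_limit (b u : ℕ → ℝ) (D : ℝ) (hD : 0 ≤ D) (hu : ∀ n, 2 ≤ n → 0 ≤ u n)
    (h : ∀ n, 2 ≤ n → |b (n + 1) - b n| ≤ D * (u n - u (n + 1))) :
    ∃ B : ℝ, ∀ n, 2 ≤ n → |b n - B| ≤ D * u n := by
  have hmono : Monotone (fun n => b (n + 2) - D * u (n + 2)) := by
    apply monotone_nat_of_le_succ
    intro n
    have h1 := (abs_le.1 (h (n + 2) (by omega))).1
    have e : n + 1 + 2 = n + 2 + 1 := by ring
    rw [e]
    linarith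
  have hanti : Antitone (fun n => b (n + 2) + D * u (n + 2)) := by
    apply antitone_nat_of_succ_le
    intro n
    have h1 := (abs_le.1 (h (n + 2) (by omega))).2
    have e : n + 1 + 2 = n + 2 + 1 := by ring
    rw [e]
    linarith
  have hle : ∀ i j, b (i + 2) - D * u (i + 2) ≤ b (j + 2) + D * u (j + 2) := by
    intro i j
    have h1 := hmono (le_max_left i j)
    have h2 := hanti (le_max_right i j)
    simp only at h1 h2
    have h3 := mul_nonneg hD (hu (max i j + 2) (by omega))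
    linarith
  refine ⟨⨆ i, (b (i + 2) - D * u (i + 2)), fun n hn => ?_⟩
  obtain ⟨m, rfl⟩ : ∃ m, n = m + 2 := ⟨n - 2, by omega⟩
  have hbdd : BddAbove (Set.range (fun i => b (i + 2) - D * u (i + 2))) :=
    ⟨b (0 + 2) + D * u (0 + 2), by rintro _ ⟨i, rfl⟩; exact hle i 0⟩
  have h1 := le_ciSup hbdd m
  have h2 : (⨆ i, (b (i + 2) - D * u (i + 2))) ≤ b (m + 2) + D * u (m + 2) :=
    ciSup_le (fun i => hle i m)
  rw [abs_le]
  constructor <;> linarith

end MertAux

theorem mertens_two : ∃ B C : ℝ, ∀ n : ℕ, 2 ≤ n →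
    |∑ p ∈ Nat.primesLE n, (1 : ℝ) / p - Real.log (Real.log n) - B| ≤ C / Real.log n := by
  obtain ⟨C0, hC0⟩ := sum_log_div
  have hC0' : 0 ≤ C0 := (abs_nonneg _).trans (hC0 2 le_rfl)
  obtain ⟨B, hB⟩ := exists_limit
    (fun n => S0 n - S1 n / Real.log n - Real.log (Real.log n)) (fun n => 1 / Real.log n) (C0 + 1)
    (by linarith) (fun n hn => by
      have : (1 : ℝ) ≤ n := by exact_mod_cast (by omega : 1 ≤ n)
      exact div_nonneg zero_le_one (Real.log_nonneg this)) (by
    intro n hn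
    have hn2 : (2 : ℝ) ≤ n := by exact_mod_cast hn
    have hlog : 0 < Real.log n := Real.log_pos (by linarith)
    have hlog' : Real.log n < Real.log ((n : ℝ) + 1) := Real.log_lt_log (by linarith) (by linarith)
    have hlog1 : 0 < Real.log ((n : ℝ) + 1) := hlog.trans hlog'
    have e1 : S0 (n + 1) - S1 (n + 1) / Real.log ((n + 1 : ℕ) : ℝ) =
        S0 n - S1 n / Real.log ((n : ℝ) + 1) := by
      unfold S0 S1
      rw [primesLE_succ_sum, primesLE_succ_sum]
      push_cast
      have hn1 : ((n : ℝ) + 1) ≠ 0 := by positivity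
      split_ifs
      · field_simp
        ring
      · ring
    rw [e1]
    push_cast
    have hE := hC0 n hn
    have hS : S1 n = ∑ p ∈ Nat.primesLE n, Real.log p / p := rfl
    rw [← hS] at hE
    obtain ⟨hE1, hE2⟩ := abs_le.1 hE
    have hd : 0 ≤ 1 / Real.log n - 1 / Real.log ((n : ℝ) + 1) := by
      have := one_div_le_one_div_of_le hlog hlog'.le
      linarith
    -- the logarithmic part
    have hup : 1 - Real.log n / Real.log ((n : ℝ) + 1) ≤
        Real.log (Real.log ((n : ℝ) + 1)) - Real.log (Real.log n) := by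
      rw [← Real.log_div hlog1.ne' hlog.ne']
      have := Real.log_le_sub_one_of_pos (div_pos hlog hlog1)
      have h5 : Real.log (Real.log n / Real.log ((n : ℝ) + 1)) =
          - Real.log (Real.log ((n : ℝ) + 1) / Real.log n) := by
        rw [← Real.log_inv, inv_div]
      linarith
    have hlo : Real.log (Real.log ((n : ℝ) + 1)) - Real.log (Real.log n) ≤
        Real.log ((n : ℝ) + 1) / Real.log n - 1 := by
      rw [← Real.log_div hlog1.ne' hlog.ne']
      exact Real.log_le_sub_one_of_pos (div_pos hlog1 hlog)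
    have hΔ : Real.log ((n : ℝ) + 1) - Real.log n ≤ 1 := by
      rw [← Real.log_div (by positivity) (by positivity)]
      have h6 := Real.log_le_sub_one_of_pos (show 0 < ((n : ℝ) + 1) / n by positivity)
      have h7 : ((n : ℝ) + 1) / n - 1 = 1 / n := by
        field_simp
        ring
      have h8 : 1 / (n : ℝ) ≤ 1 := by
        rw [div_le_one (by linarith)]
        linarith
      linarith
    have hq : Real.log ((n : ℝ) + 1) / Real.log n - 1 -
        (1 - Real.log n / Real.log ((n : ℝ) + 1)) ≤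
        1 / Real.log n - 1 / Real.log ((n : ℝ) + 1) := by
      have h9 : Real.log ((n : ℝ) + 1) / Real.log n - 1 -
          (1 - Real.log n / Real.log ((n : ℝ) + 1)) =
          (Real.log ((n : ℝ) + 1) - Real.log n) * (Real.log ((n : ℝ) + 1) - Real.log n) /
            (Real.log n * Real.log ((n : ℝ) + 1)) := by
        field_simp
      have h10 : 1 / Real.log n - 1 / Real.log ((n : ℝ) + 1) =
          (Real.log ((n : ℝ) + 1) - Real.log n) / (Real.log n * Real.log ((n : ℝ) + 1)) := by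
        field_simp
      rw [h9, h10]
      apply div_le_div_of_nonneg_right _ (by positivity)
      have h11 : 0 ≤ Real.log ((n : ℝ) + 1) - Real.log n := by linarith
      nlinarith
    have hmain : S0 n - S1 n / Real.log ((n : ℝ) + 1) - Real.log (Real.log ((n : ℝ) + 1)) -
        (S0 n - S1 n / Real.log n - Real.log (Real.log n)) =
        (S1 n - Real.log n) * (1 / Real.log n - 1 / Real.log ((n : ℝ) + 1)) +
        ((1 - Real.log n / Real.log ((n : ℝ) + 1)) -
          (Real.log (Real.log ((n : ℝ) + 1)) - Real.log (Real.log n))) := by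
      field_simp
      ring
    rw [hmain]
    have h12 : |(S1 n - Real.log n) * (1 / Real.log n - 1 / Real.log ((n : ℝ) + 1))| ≤
        C0 * (1 / Real.log n - 1 / Real.log ((n : ℝ) + 1)) := by
      rw [abs_mul, abs_of_nonneg hd]
      exact mul_le_mul_of_nonneg_right hE hd
    have h13 : |(1 - Real.log n / Real.log ((n : ℝ) + 1)) -
          (Real.log (Real.log ((n : ℝ) + 1)) - Real.log (Real.log n))| ≤
        1 / Real.log n - 1 / Real.log ((n : ℝ) + 1) := by
      rw [abs_le]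
      constructor <;> linarith
    calc _ ≤ _ := abs_add_le _ _
      _ ≤ _ := add_le_add h12 h13
      _ = _ := by ring)
  refine ⟨B + 1, 2 * C0 + 1, fun n hn => ?_⟩
  have hn2 : (2 : ℝ) ≤ n := by exact_mod_cast hn
  have hlog : 0 < Real.log n := Real.log_pos (by linarith)
  have h1 := hB n hn
  have h2 := hC0 n hn
  have hS : S1 n = ∑ p ∈ Nat.primesLE n, Real.log p / p := rfl
  rw [← hS] at h2
  have h3 : ∑ p ∈ Nat.primesLE n, (1 : ℝ) / p - Real.log (Real.log n) - (B + 1) =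
      (S0 n - S1 n / Real.log n - Real.log (Real.log n) - B) +
        (S1 n - Real.log n) / Real.log n := by
    unfold S0
    field_simp
    ring
  rw [h3]
  have h4 : |(S1 n - Real.log n) / Real.log n| ≤ C0 / Real.log n := by
    rw [abs_div, abs_of_pos hlog]
    exact div_le_div_of_nonneg_right h2 hlog.le
  calc _ ≤ _ := abs_add_le _ _
    _ ≤ _ := add_le_add h1 h4
    _ = _ := by ring

namespace MertAux

/-- the largest natural number `< e^{e^c}`. -/
noncomputable def nc (c : ℕ) : ℕ := ⌈Real.exp (Real.exp c)⌉₊ - 1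

theorem lt_iff {p c : ℕ} (hp : p.Prime) (hc : 1 ≤ c) : lv p < c ↔ p ≤ nc c := by
  have hp2 : (2 : ℝ) ≤ p := by exact_mod_cast hp.two_le
  have hlog : 0 < Real.log p := Real.log_pos (by linarith)
  unfold lv nc
  rw [Nat.floor_lt' (by omega), Real.log_lt_iff_lt_exp hlog, Real.log_lt_iff_lt_exp (by linarith),
    ← Nat.lt_ceil]
  have : 0 < ⌈Real.exp (Real.exp c)⌉₊ := Nat.ceil_pos.2 (Real.exp_pos _)
  omega

theorem nc_lt (c : ℕ) : (nc c : ℝ) < Real.exp (Real.exp c) := by
  have h : 0 < ⌈Real.exp (Real.exp c)⌉₊ := Nat.ceil_pos.2 (Real.exp_pos _)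
  rw [← Nat.lt_ceil]
  unfold nc
  omega

theorem le_nc (c : ℕ) : Real.exp (Real.exp c) ≤ nc c + 1 := by
  have h : 0 < ⌈Real.exp (Real.exp c)⌉₊ := Nat.ceil_pos.2 (Real.exp_pos _)
  have h1 := Nat.le_ceil (Real.exp (Real.exp c))
  have h2 : nc c + 1 = ⌈Real.exp (Real.exp c)⌉₊ := by
    unfold nc
    omega
  have h3 : (nc c : ℝ) + 1 = (⌈Real.exp (Real.exp c)⌉₊ : ℝ) := by exact_mod_cast h2
  linarith

theorem exp_one_gt : (2.7 : ℝ) < Real.exp 1 := by
  have := Real.exp_one_gt_d9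
  linarith

theorem exp_ge (c : ℕ) (hc : 1 ≤ c) : (2.7 : ℝ) < Real.exp c := by
  have h1 : Real.exp 1 ≤ Real.exp c := Real.exp_le_exp.2 (by exact_mod_cast hc)
  linarith [exp_one_gt]

theorem exp_exp_ge (c : ℕ) (hc : 1 ≤ c) : (7 : ℝ) < Real.exp (Real.exp c) := by
  have h1 : Real.exp 2 < Real.exp (Real.exp c) := Real.exp_lt_exp.2 (by linarith [exp_ge c hc])
  have h2 : Real.exp 2 = Real.exp 1 * Real.exp 1 := by
    rw [← Real.exp_add]; norm_num
  have h3 := exp_one_gt
  nlinarith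

theorem nc_ge (c : ℕ) (hc : 1 ≤ c) : (6 : ℝ) < nc c := by
  have h1 := exp_exp_ge c hc
  have h2 := le_nc c
  linarith

/-- `e^c - 1 ≤ log (nc c) ≤ e^c`. -/
theorem log_nc (c : ℕ) (hc : 1 ≤ c) :
    Real.exp c - 1 ≤ Real.log (nc c) ∧ Real.log (nc c) ≤ Real.exp c := by
  have h0 := nc_ge c hc
  constructor
  · rw [Real.le_log_iff_exp_le (by linarith)]
    have h1 : Real.exp (Real.exp c - 1) * Real.exp 1 = Real.exp (Real.exp c) := by
      rw [← Real.exp_add]; congr 1; ring
    have h2 := le_nc c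
    have h3 := exp_one_gt
    have h4 := Real.exp_pos (Real.exp c - 1)
    have h5 : 2 * Real.exp (Real.exp c - 1) ≤ nc c + 1 := by nlinarith
    have h6 := nc_lt c
    nlinarith
  · have h1 := nc_lt c
    have h2 := Real.log_le_log (by linarith) h1.le
    rwa [Real.log_exp] at h2

/-- `|log log (nc c) - c| ≤ 2 e^{-c}`. -/
theorem loglog_nc (c : ℕ) (hc : 1 ≤ c) :
    |Real.log (Real.log (nc c)) - c| ≤ 2 * Real.exp (-(c : ℝ)) := by
  obtain ⟨h1, h2⟩ := log_nc c hc
  have h3 := exp_ge c hc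
  have h4 : 0 < Real.log (nc c) := by linarith
  have h5 := Real.log_le_log h4 h2
  rw [Real.log_exp] at h5
  have h6 := Real.log_le_log (by linarith) h1
  have h7 : (c : ℝ) - 2 * Real.exp (-(c : ℝ)) ≤ Real.log (Real.exp c - 1) := by
    rw [Real.le_log_iff_exp_le (by linarith)]
    -- exp (c - 2 x) ≤ exp c - 1 with x = exp (-c)
    have hx : 0 < Real.exp (-(c : ℝ)) := Real.exp_pos _
    have hx1 : Real.exp c * Real.exp (-(c : ℝ)) = 1 := by
      rw [← Real.exp_add]; simp
    have hx2 : Real.exp (-(c : ℝ)) ≤ 1 / 2 := by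
      rw [le_div_iff₀ (by norm_num)]
      nlinarith
    have h8 : Real.exp ((c : ℝ) - 2 * Real.exp (-(c : ℝ))) =
        Real.exp c * Real.exp (-(2 * Real.exp (-(c : ℝ)))) := by
      rw [← Real.exp_add]; congr 1
    rw [h8]
    have h9 : Real.exp (-(2 * Real.exp (-(c : ℝ)))) ≤ 1 - Real.exp (-(c : ℝ)) := by
      have h10 := Real.add_one_le_exp (2 * Real.exp (-(c : ℝ)))
      rw [Real.exp_neg]
      have h11 : (0 : ℝ) < 2 * Real.exp (-(c : ℝ)) + 1 := by linarith
      have h12 := inv_anti₀ h11 h10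
      have h13 : (2 * Real.exp (-(c : ℝ)) + 1)⁻¹ ≤ 1 - Real.exp (-(c : ℝ)) := by
        rw [inv_le_iff_one_le_mul₀ h11]
        nlinarith
      linarith
    have h14 := mul_le_mul_of_nonneg_left h9 (Real.exp_pos c).le
    have h15 : Real.exp (c : ℝ) * (1 - Real.exp (-(c : ℝ))) = Real.exp c - 1 := by
      rw [mul_sub, hx1, mul_one]
    linarith
  rw [abs_le]
  constructor
  · linarith
  · have := Real.exp_pos (-(c : ℝ))
    linarith

theorem inv_log_nc (c : ℕ) (hc : 1 ≤ c) : 1 / Real.log (nc c) ≤ 2 * Real.exp (-(c : ℝ)) := by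
  obtain ⟨h1, _⟩ := log_nc c hc
  have h3 := exp_ge c hc
  have hx1 : Real.exp c * Real.exp (-(c : ℝ)) = 1 := by
    rw [← Real.exp_add]; simp
  have hx : 0 < Real.exp (-(c : ℝ)) := Real.exp_pos _
  rw [div_le_iff₀ (by linarith)]
  have h4 : Real.exp c / 2 ≤ Real.log (nc c) := by linarith
  nlinarith

theorem nc_mono {a b : ℕ} (h : a ≤ b) : nc a ≤ nc b := by
  unfold nc
  have : ⌈Real.exp (Real.exp a)⌉₊ ≤ ⌈Real.exp (Real.exp b)⌉₊ := by
    apply Nat.ceil_mono
    apply Real.exp_le_exp.2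
    apply Real.exp_le_exp.2
    exact_mod_cast h
  omega

theorem mem_PL {a b p : ℕ} : p ∈ PL a b ↔ p.Prime ∧ a ≤ lv p ∧ lv p < b := by
  unfold PL
  rw [Finset.mem_filter, Nat.mem_primesLE]
  constructor
  · rintro ⟨⟨_, h1⟩, h2⟩
    exact ⟨h1, h2⟩
  · rintro ⟨h1, h2⟩
    refine ⟨⟨?_, h1⟩, h2⟩
    have h3 := (lt_iff h1 (by omega : 1 ≤ b)).1 h2.2
    apply Nat.le_floor
    have h4 : (p : ℝ) ≤ nc b := by exact_mod_cast h3
    exact h4.trans (nc_lt b).le

theorem PL_zero_left {b : ℕ} (hb : 1 ≤ b) : PL 0 b = Nat.primesLE (nc b) := by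
  ext p
  rw [mem_PL, Nat.mem_primesLE]
  constructor
  · rintro ⟨h1, _, h2⟩
    exact ⟨(lt_iff h1 hb).1 h2, h1⟩
  · rintro ⟨h1, h2⟩
    exact ⟨h2, Nat.zero_le _, (lt_iff h2 hb).2 h1⟩

theorem PL_eq {a b : ℕ} (ha : 1 ≤ a) (hab : a ≤ b) :
    PL a b = Nat.primesLE (nc b) \ Nat.primesLE (nc a) := by
  ext p
  rw [mem_PL, Finset.mem_sdiff, Nat.mem_primesLE, Nat.mem_primesLE]
  constructor
  · rintro ⟨h1, h2, h3⟩
    refine ⟨⟨(lt_iff h1 (by omega)).1 h3, h1⟩, fun h => ?_⟩
    have := (lt_iff h1 ha).2 h.1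
    omega
  · rintro ⟨⟨h1, h2⟩, h3⟩
    refine ⟨h2, ?_, (lt_iff h2 (by omega)).2 h1⟩
    by_contra h4
    exact h3 ⟨(lt_iff h2 ha).1 (by omega), h2⟩

theorem primesLE_subset {m n : ℕ} (h : m ≤ n) : Nat.primesLE m ⊆ Nat.primesLE n := by
  intro p hp
  rw [Nat.mem_primesLE] at hp ⊢
  exact ⟨hp.1.trans h, hp.2⟩

/-- `∑_{m < p ≤ n} (1/(p-1) - 1/p) ≤ 1/m - 1/n`. -/
theorem tele_diff (m n : ℕ) (hm : 1 ≤ m) (hmn : m ≤ n) :
    ∑ p ∈ Nat.primesLE n \ Nat.primesLE m, (1 / ((p : ℝ) - 1) - 1 / p) ≤ 1 / m - 1 / n := by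
  rw [Finset.sum_sdiff_eq_sub (primesLE_subset hmn)]
  induction n, hmn using Nat.le_induction with
  | base => simp
  | succ n hn ih =>
    rw [primesLE_succ_sum (fun p => 1 / ((p : ℝ) - 1) - 1 / p)]
    have hn1 : (1 : ℝ) ≤ n := by exact_mod_cast (by omega : 1 ≤ n)
    have h1 : 1 / ((n : ℝ) + 1) ≤ 1 / n := one_div_le_one_div_of_le (by linarith) (by linarith)
    push_cast
    split_ifs
    · have : (n : ℝ) + 1 - 1 = n := by ring
      rw [this]
      linarith
    · linarith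

theorem level_aux {B C : ℝ} (hBC : ∀ n : ℕ, 2 ≤ n →
    |∑ p ∈ Nat.primesLE n, (1 : ℝ) / p - Real.log (Real.log n) - B| ≤ C / Real.log n)
    (hC : 0 ≤ C) (c : ℕ) (hc : 1 ≤ c) :
    |∑ p ∈ Nat.primesLE (nc c), (1 : ℝ) / p - c - B| ≤ (2 * C + 2) * Real.exp (-(c : ℝ)) := by
  have h0 : 2 ≤ nc c := by
    have h := nc_ge c hc
    have h' : 6 < nc c := by exact_mod_cast h
    omega
  have h1 := hBC (nc c) h0
  have h2 := loglog_nc c hc
  have h3 : C / Real.log (nc c) ≤ C * (2 * Real.exp (-(c : ℝ))) := by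
    rw [div_eq_mul_one_div]
    exact mul_le_mul_of_nonneg_left (inv_log_nc c hc) hC
  have h4 : ∑ p ∈ Nat.primesLE (nc c), (1 : ℝ) / p - c - B =
      (∑ p ∈ Nat.primesLE (nc c), (1 : ℝ) / p - Real.log (Real.log (nc c)) - B) +
        (Real.log (Real.log (nc c)) - c) := by ring
  rw [h4]
  calc _ ≤ _ := abs_add_le _ _
    _ ≤ C * (2 * Real.exp (-(c : ℝ))) + 2 * Real.exp (-(c : ℝ)) := add_le_add (h1.trans h3) h2
    _ = _ := by ring

end MertAux

/-- mass of one cell, `1 + O(e^{-c})`. -/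
theorem cell_mass : ∃ C : ℝ, 0 < C ∧ ∀ c : ℕ,
    |∑ p ∈ PL c (c + 1), (1 : ℝ) / ((p : ℝ) - 1) - 1| ≤ C * Real.exp (-(c : ℝ)) := by
  obtain ⟨B, C, hBC⟩ := mertens_two
  have hC : 0 ≤ C := by
    have h1 := hBC 2 le_rfl
    have h2 : 0 < Real.log ((2 : ℕ) : ℝ) := Real.log_pos (by norm_num)
    have h3 := (abs_nonneg _).trans h1
    by_contra h
    push Not at h
    have := div_neg_of_neg_of_pos h h2
    linarith
  refine ⟨(4 * C + 6) + |∑ p ∈ PL 0 1, (1 : ℝ) / ((p : ℝ) - 1) - 1|, by positivity,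
    fun c => ?_⟩
  rcases Nat.eq_zero_or_pos c with rfl | hc
  · simp only [Nat.cast_zero, neg_zero, Real.exp_zero, mul_one, zero_add]
    linarith
  · have hsub := primesLE_subset (nc_mono (Nat.le_succ c))
    have hE : 0 < Real.exp (-(c : ℝ)) := Real.exp_pos _
    have h1 := level_aux hBC hC c hc
    have h2 := level_aux hBC hC (c + 1) (by omega)
    have h3 : Real.exp (-((c + 1 : ℕ) : ℝ)) ≤ Real.exp (-(c : ℝ)) := by
      apply Real.exp_le_exp.2
      push_cast
      linarith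
    have h4 : (2 * C + 2) * Real.exp (-((c + 1 : ℕ) : ℝ)) ≤ (2 * C + 2) * Real.exp (-(c : ℝ)) :=
      mul_le_mul_of_nonneg_left h3 (by linarith)
    have hm1 : 1 ≤ nc c := by
      have h := nc_ge c hc
      have h' : 6 < nc c := by exact_mod_cast h
      omega
    have h5 := tele_diff (nc c) (nc (c + 1)) hm1 (nc_mono (Nat.le_succ c))
    have h6 : 0 ≤ ∑ p ∈ Nat.primesLE (nc (c + 1)) \ Nat.primesLE (nc c),
        (1 / ((p : ℝ) - 1) - 1 / p) := by
      apply Finset.sum_nonneg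
      intro p hp
      rw [Finset.mem_sdiff, Nat.mem_primesLE] at hp
      have hp2 : (2 : ℝ) ≤ p := by exact_mod_cast hp.1.2.two_le
      have := one_div_le_one_div_of_le (by linarith : (0 : ℝ) < p - 1) (by linarith : (p : ℝ) - 1 ≤ p)
      linarith
    rw [PL_eq hc (Nat.le_succ c)]
    have h7 : ∑ p ∈ Nat.primesLE (nc (c + 1)) \ Nat.primesLE (nc c), (1 : ℝ) / ((p : ℝ) - 1) =
        (∑ p ∈ Nat.primesLE (nc (c + 1)), (1 : ℝ) / p - ∑ p ∈ Nat.primesLE (nc c), (1 : ℝ) / p) +
        ∑ p ∈ Nat.primesLE (nc (c + 1)) \ Nat.primesLE (nc c),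
          (1 / ((p : ℝ) - 1) - 1 / p) := by
      rw [← Finset.sum_sdiff_eq_sub hsub, ← Finset.sum_add_distrib]
      refine Finset.sum_congr rfl (fun p _ => ?_)
      ring
    have h8 : 1 / (nc c : ℝ) - 1 / (nc (c + 1) : ℝ) ≤ 2 * Real.exp (-(c : ℝ)) := by
      have h9 : 1 / (nc c : ℝ) ≤ 1 / Real.log (nc c) := by
        have hp := nc_ge c hc
        apply one_div_le_one_div_of_le
        · exact Real.log_pos (by linarith)
        · have := Real.log_le_sub_one_of_pos (by linarith : (0 : ℝ) < nc c)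
          linarith
      have h10 := inv_log_nc c hc
      have h11 : 0 ≤ 1 / (nc (c + 1) : ℝ) := by positivity
      linarith
    rw [h7]
    obtain ⟨h1a, h1b⟩ := abs_le.1 h1
    obtain ⟨h2a, h2b⟩ := abs_le.1 h2
    push_cast at h2a h2b h4
    have hA := abs_nonneg (∑ p ∈ PL 0 1, (1 : ℝ) / ((p : ℝ) - 1) - 1)
    have hAE := mul_nonneg hA hE.le
    rw [abs_le]
    constructor <;> nlinarith

theorem level_mass : ∃ C : ℝ, 0 < C ∧ ∀ a b : ℕ, a ≤ b →
    |∑ p ∈ PL a b, (1 : ℝ) / p - ((b : ℝ) - a)| ≤ C := by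
  obtain ⟨B, C, hBC⟩ := mertens_two
  have hC : 0 ≤ C := by
    have h1 := hBC 2 le_rfl
    have h2 : 0 < Real.log ((2 : ℕ) : ℝ) := Real.log_pos (by norm_num)
    have h3 := (abs_nonneg _).trans h1
    by_contra h
    push Not at h
    have := div_neg_of_neg_of_pos h h2
    linarith
  have hT : ∀ c : ℕ, 1 ≤ c → |∑ p ∈ Nat.primesLE (nc c), (1 : ℝ) / p - c| ≤ 2 * C + 2 + |B| := by
    intro c hc
    have h1 := level_aux hBC hC c hc
    have h2 : (2 * C + 2) * Real.exp (-(c : ℝ)) ≤ 2 * C + 2 := by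
      have : Real.exp (-(c : ℝ)) ≤ 1 := Real.exp_le_one_iff.2 (by simp)
      nlinarith
    have h3 : ∑ p ∈ Nat.primesLE (nc c), (1 : ℝ) / p - c =
        (∑ p ∈ Nat.primesLE (nc c), (1 : ℝ) / p - c - B) + B := by ring
    rw [h3]
    have := abs_add_le (∑ p ∈ Nat.primesLE (nc c), (1 : ℝ) / p - c - B) B
    linarith
  have hB := abs_nonneg B
  refine ⟨2 * (2 * C + 2 + |B|), by positivity, fun a b hab => ?_⟩
  rcases Nat.eq_zero_or_pos b with rfl | hb
  · have ha : a = 0 := by omega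
    subst ha
    have h1 : PL 0 0 = ∅ := by
      rw [Finset.eq_empty_iff_forall_notMem]
      intro p hp
      rw [mem_PL] at hp
      omega
    rw [h1]
    simp
    positivity
  rcases Nat.eq_zero_or_pos a with rfl | ha
  · rw [PL_zero_left hb]
    have := hT b hb
    simp only [Nat.cast_zero, sub_zero]
    linarith
  · rw [PL_eq ha hab, Finset.sum_sdiff_eq_sub (primesLE_subset (nc_mono hab))]
    have h1 := hT a ha
    have h2 := hT b hb
    have h3 : ∑ p ∈ Nat.primesLE (nc b), (1 : ℝ) / p - ∑ p ∈ Nat.primesLE (nc a), (1 : ℝ) / p -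
        ((b : ℝ) - a) = (∑ p ∈ Nat.primesLE (nc b), (1 : ℝ) / p - b) -
        (∑ p ∈ Nat.primesLE (nc a), (1 : ℝ) / p - a) := by ring
    rw [h3]
    have := abs_sub (∑ p ∈ Nat.primesLE (nc b), (1 : ℝ) / p - b)
        (∑ p ∈ Nat.primesLE (nc a), (1 : ℝ) / p - a)
    linarith

end P031
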