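import Vale.Agent.P031.Defs

/-! P031: canonical lists of the elements of `SS k` (largest prime first). -/

namespace P031

open Finset
open scoped Classical

/-! ### levels -/

theorem lv_of_lt_three {q : ℕ} (h : q < 3) : lv q = 0 := by
  unfold lv
  rw [Nat.floor_eq_zero]
  have h1 : Real.log q ≤ 1 := by
    have hq : (q : ℝ) ≤ 2 := by exact_mod_cast (by omega : q ≤ 2)
    rcases Nat.eq_zero_or_pos q with h0 | h0
    · subst h0; simp
    · have h0' : (0:ℝ) < q := by exact_mod_cast h0
      calc Real.log q ≤ Real.log 2 := Real.log_le_log h0' hq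
        _ ≤ 1 := by have := Real.log_two_lt_d9; linarith
  have h0 : 0 ≤ Real.log q := Real.log_natCast_nonneg q
  have := Real.log_nonpos h0 h1
  linarith

theorem lv_mono {a b : ℕ} (h : a ≤ b) : lv a ≤ lv b := by
  by_cases ha : a < 3
  · rw [lv_of_lt_three ha]; exact Nat.zero_le _
  · push Not at ha
    unfold lv
    apply Nat.floor_le_floor
    have h3 : (3:ℝ) ≤ a := by exact_mod_cast ha
    have hl : 0 < Real.log a := Real.log_pos (by linarith)
    apply Real.log_le_log hl
    apply Real.log_le_log (by linarith)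
    exact_mod_cast h

theorem three_le_of_lv {q : ℕ} (h : 1 ≤ lv q) : 3 ≤ q := by
  by_contra hc
  rw [lv_of_lt_three (by omega)] at h
  omega

/-! ### SS -/

theorem SS_pos {k w : ℕ} (h : w ∈ SS k) : 0 < w := by
  obtain ⟨L, m, hm, hL, -, rfl⟩ := h
  apply Nat.mul_pos
  · apply Nat.pos_of_ne_zero
    intro h0
    rw [Multiset.prod_eq_zero_iff] at h0
    rw [Multiset.mem_map] at h0
    obtain ⟨q, hq, h1⟩ := h0
    have := (hL q hq).1.two_le
    omega
  · exact Nat.totient_pos.2 hm

theorem SS_mul {k q w : ℕ} (hq : q.Prime) (hk : k ≤ lv q) (hw : w ∈ SS k) :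
    (q - 1) * w ∈ SS k := by
  obtain ⟨L, m, hm, hL, hs, rfl⟩ := hw
  refine ⟨q ::ₘ L, m, hm, ?_, hs, ?_⟩
  · intro r hr
    rw [Multiset.mem_cons] at hr
    rcases hr with rfl | hr
    · exact ⟨hq, hk⟩
    · exact hL r hr
  · simp [mul_assoc]

theorem SS_smooth {k m : ℕ} (hm : 0 < m) (hs : ∀ p, p.Prime → p ∣ m → lv p < k) :
    Nat.totient m ∈ SS k :=
  ⟨0, m, hm, by simp, hs, by simp⟩

theorem one_mem_SS (k : ℕ) : 1 ∈ SS k := by
  have := SS_smooth (k := k) (m := 1) one_pos (by
    intro p hp h1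
    exact absurd (Nat.dvd_one.1 h1) hp.one_lt.ne')
  simpa using this

/-- `q` is a prime of level `≥ k` that can be split off from `w` inside `SS k`. -/
def IsTop (k w q : ℕ) : Prop := q.Prime ∧ k ≤ lv q ∧ (q - 1) ∣ w ∧ w / (q - 1) ∈ SS k

theorem isTop_le {k w q : ℕ} (hw : 0 < w) (h : IsTop k w q) : q ≤ w + 1 := by
  have := Nat.le_of_dvd hw h.2.2.1
  omega

theorem isTop_mul {k w q : ℕ} (hq : q.Prime) (hk : k ≤ lv q) (hw : w ∈ SS k) :
    IsTop k ((q - 1) * w) q := by
  refine ⟨hq, hk, Nat.dvd_mul_right _ _, ?_⟩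
  have : 0 < q - 1 := by have := hq.two_le; omega
  rw [Nat.mul_div_cancel_left _ this]
  exact hw

/-- The largest top prime. -/
noncomputable def topq (k w : ℕ) : ℕ := Nat.findGreatest (IsTop k w) (w + 1)

theorem topq_spec {k w : ℕ} (hw : 0 < w) (h : ∃ q, IsTop k w q) : IsTop k w (topq k w) := by
  obtain ⟨q, hq⟩ := h
  exact Nat.findGreatest_spec (isTop_le hw hq) hq

theorem le_topq {k w q : ℕ} (hw : 0 < w) (h : IsTop k w q) : q ≤ topq k w :=
  Nat.le_findGreatest (isTop_le hw h) h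

theorem topq_eq {k w q : ℕ} (hw : 0 < w) (h : IsTop k w q) (h2 : ∀ r, IsTop k w r → r ≤ q) :
    topq k w = q :=
  le_antisymm (h2 _ (topq_spec hw ⟨q, h⟩)) (le_topq hw h)

theorem isTop_lt {k w q : ℕ} (hk : 1 ≤ k) (hw : 0 < w) (h : IsTop k w q) : w / (q - 1) < w := by
  have h3 := three_le_of_lv (le_trans hk h.2.1)
  exact Nat.div_lt_self hw (by omega)

/-- The canonical list: largest top prime first, then recurse on the quotient. -/
noncomputable def can (k : ℕ) (w : ℕ) : List ℕ :=
  if h : 0 < w ∧ 2 < topq k w ∧ IsTop k w (topq k w) then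
    topq k w :: can k (w / (topq k w - 1))
  else []
termination_by w
decreasing_by
  exact Nat.div_lt_self h.1 (by omega)

/-- One step of the recursion. -/
noncomputable def sfx1 (k w : ℕ) : ℕ := w / (topq k w - 1)

theorem can_eq_nil {k w : ℕ} (h : ¬ ∃ q, IsTop k w q) : can k w = [] := by
  rw [can]
  rw [dif_neg]
  rintro ⟨-, -, h3⟩
  exact h ⟨_, h3⟩

theorem can_eq_cons {k w : ℕ} (hk : 1 ≤ k) (hw : 0 < w) (h : ∃ q, IsTop k w q) :
    can k w = topq k w :: can k (w / (topq k w - 1)) := by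
  have h1 := topq_spec hw h
  have h3 := three_le_of_lv (le_trans hk h1.2.1)
  rw [can, dif_pos ⟨hw, by omega, h1⟩]

theorem can_eq_nil_iff {k w : ℕ} (hk : 1 ≤ k) (hw : 0 < w) :
    can k w = [] ↔ ¬ ∃ q, IsTop k w q := by
  constructor
  · intro h h2
    rw [can_eq_cons hk hw h2] at h
    exact absurd h (List.cons_ne_nil _ _)
  · exact can_eq_nil

/-- Induction principle along the canonical list. -/
theorem can_induction {k : ℕ} (hk : 1 ≤ k) (P : ℕ → Prop)
    (h0 : ∀ w, w ∈ SS k → (¬ ∃ q, IsTop k w q) → P w)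
    (h1 : ∀ w, w ∈ SS k → (∃ q, IsTop k w q) → w / (topq k w - 1) ∈ SS k →
      P (w / (topq k w - 1)) → P w) :
    ∀ w, w ∈ SS k → P w := by
  intro w
  induction w using Nat.strong_induction_on with
  | _ w ih =>
    intro hw
    by_cases h : ∃ q, IsTop k w q
    · have hw0 := SS_pos hw
      have ht := topq_spec hw0 h
      exact h1 w hw h ht.2.2.2 (ih _ (isTop_lt hk hw0 ht) ht.2.2.2)
    · exact h0 w hw h

theorem mem_can {k w q : ℕ} (hk : 1 ≤ k) (hw : w ∈ SS k) (h : q ∈ can k w) :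
    q.Prime ∧ k ≤ lv q := by
  revert h
  refine can_induction hk (fun w => q ∈ can k w → q.Prime ∧ k ≤ lv q) ?_ ?_ w hw
  · intro w _ hn h
    rw [can_eq_nil hn] at h
    exact absurd h List.not_mem_nil
  · intro w hw he _ ih h
    rw [can_eq_cons hk (SS_pos hw) he, List.mem_cons] at h
    rcases h with h | h
    · have := topq_spec (SS_pos hw) he
      rw [h]
      exact ⟨this.1, this.2.1⟩
    · exact ih h

/-- All entries of the canonical list are top primes. -/
theorem isTop_of_mem_can {k w q : ℕ} (hk : 1 ≤ k) (hw : w ∈ SS k) (h : q ∈ can k w) :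
    IsTop k w q := by
  revert h
  refine can_induction hk (fun w => q ∈ can k w → IsTop k w q) ?_ ?_ w hw
  · intro w _ hn h
    rw [can_eq_nil hn] at h
    exact absurd h List.not_mem_nil
  · intro w hw he hw2 ih h
    rw [can_eq_cons hk (SS_pos hw) he, List.mem_cons] at h
    have ht := topq_spec (SS_pos hw) he
    rcases h with h | h
    · rw [h]; exact ht
    · have h2 := ih h
      have hw0 := SS_pos hw
      obtain ⟨c, hc⟩ := ht.2.2.1
      have ht0 : 0 < topq k w - 1 := by have := ht.1.two_le; omega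
      have e1 : w / (topq k w - 1) = c := Nat.div_eq_of_eq_mul_right ht0 hc
      rw [e1] at h2
      obtain ⟨hq, hkq, ⟨d, hd⟩, h4⟩ := h2
      have hq0 : 0 < q - 1 := by have := hq.two_le; omega
      have e2 : c / (q - 1) = d := Nat.div_eq_of_eq_mul_right hq0 hd
      rw [e2] at h4
      refine ⟨hq, hkq, ?_, ?_⟩
      · rw [hc, hd]
        exact ⟨(topq k w - 1) * d, by ring⟩
      · have e3 : w / (q - 1) = (topq k w - 1) * d := by
          have : w = (q - 1) * ((topq k w - 1) * d) := by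
            conv_lhs => rw [hc, hd]
            ring
          conv_lhs => rw [this]
          exact Nat.mul_div_cancel_left _ hq0
        rw [e3]
        exact SS_mul ht.1 ht.2.1 h4

theorem can_sorted {k w : ℕ} (hk : 1 ≤ k) (hw : w ∈ SS k) : (can k w).Pairwise (· ≥ ·) := by
  refine can_induction hk (fun w => (can k w).Pairwise (· ≥ ·)) ?_ ?_ w hw
  · intro w _ hn
    rw [can_eq_nil hn]
    exact List.Pairwise.nil
  · intro w hw he hw2 ih
    have hm : ∀ q ∈ can k w, q ≤ topq k w := fun q hq =>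
      le_topq (SS_pos hw) (isTop_of_mem_can hk hw hq)
    rw [can_eq_cons hk (SS_pos hw) he] at hm ⊢
    rw [List.pairwise_cons]
    exact ⟨fun q hq => hm q (List.mem_cons_of_mem _ hq), ih⟩

/-- The remaining part after removing all entries of the canonical list. -/
noncomputable def rest (k w : ℕ) : ℕ := w / ((can k w).map (fun q => q - 1)).prod

/-- product of `q - 1` over a list. -/
def pm (l : List ℕ) : ℕ := (l.map (fun q => q - 1)).prod

@[simp] theorem pm_nil : pm [] = 1 := rfl
@[simp] theorem pm_cons (q : ℕ) (l : List ℕ) : pm (q :: l) = (q - 1) * pm l := by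
  simp [pm]
@[simp] theorem pm_append (l l' : List ℕ) : pm (l ++ l') = pm l * pm l' := by
  simp [pm]

theorem pm_pos {l : List ℕ} (h : ∀ q ∈ l, q.Prime) : 0 < pm l := by
  induction l with
  | nil => simp
  | cons a l ih =>
    rw [pm_cons]
    have := (h a (List.mem_cons_self)).two_le
    exact Nat.mul_pos (by omega) (ih fun q hq => h q (List.mem_cons_of_mem _ hq))

theorem pm_can_mul_rest_aux {k w : ℕ} (hk : 1 ≤ k) (hw : w ∈ SS k) :
    pm (can k w) * rest k w = w ∧ rest k w ∈ SS k ∧ ¬ ∃ q, IsTop k (rest k w) q := by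
  refine can_induction hk (fun w => pm (can k w) * rest k w = w ∧ rest k w ∈ SS k ∧
    ¬ ∃ q, IsTop k (rest k w) q) ?_ ?_ w hw
  · intro w hw hn
    have e : can k w = [] := can_eq_nil hn
    have e2 : rest k w = w := by simp [rest, e]
    rw [e, e2]
    exact ⟨by simp, hw, hn⟩
  · intro w hw he hw2 ih
    have ht := topq_spec (SS_pos hw) he
    have e := can_eq_cons hk (SS_pos hw) he
    obtain ⟨c, hc⟩ := ht.2.2.1
    have ht0 : 0 < topq k w - 1 := by have := ht.1.two_le; omega
    have e1 : w / (topq k w - 1) = c := Nat.div_eq_of_eq_mul_right ht0 hc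
    rw [e1] at ih e hw2
    have hcp : ∀ q ∈ can k c, q.Prime := fun q hq => (mem_can hk hw2 hq).1
    have e3 : rest k w = rest k c := by
      unfold rest
      rw [e]
      simp only [List.map_cons, List.prod_cons]
      rw [← Nat.div_div_eq_div_mul]
      congr 1
    rw [e3, e, pm_cons, mul_assoc, ih.1]
    exact ⟨hc.symm, ih.2⟩

theorem pm_can_mul_rest {k w : ℕ} (hk : 1 ≤ k) (hw : w ∈ SS k) :
    pm (can k w) * rest k w = w := (pm_can_mul_rest_aux hk hw).1

theorem rest_mem {k w : ℕ} (hk : 1 ≤ k) (hw : w ∈ SS k) : rest k w ∈ SS k :=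
  (pm_can_mul_rest_aux hk hw).2.1

theorem rest_no_top {k w : ℕ} (hk : 1 ≤ k) (hw : w ∈ SS k) : ¬ ∃ q, IsTop k (rest k w) q :=
  (pm_can_mul_rest_aux hk hw).2.2

/-- An element of `SS k` without top prime is the totient of a `k`-smooth number. -/
theorem exists_totient_of_no_top {k w : ℕ} (hw : w ∈ SS k) (h : ¬ ∃ q, IsTop k w q) :
    ∃ m, 0 < m ∧ (∀ p, p.Prime → p ∣ m → lv p < k) ∧ w = Nat.totient m := by
  obtain ⟨L, m, hm, hL, hs, rfl⟩ := hw
  have hL0 : L = 0 := by
    by_contra hne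
    obtain ⟨q, hq⟩ := Multiset.exists_mem_of_ne_zero hne
    apply h
    obtain ⟨L', rfl⟩ := Multiset.exists_cons_of_mem hq
    refine ⟨q, ?_⟩
    have := isTop_mul (k := k) (w := (L'.map (fun q => q - 1)).prod * Nat.totient m)
      (hL q hq).1 (hL q hq).2 ⟨L', m, hm, fun r hr => hL r (Multiset.mem_cons_of_mem hr), hs, rfl⟩
    simpa [mul_assoc] using this
  subst hL0
  exact ⟨m, hm, hs, by simp⟩

/-- `can ((q-1) w) = q :: can w` when `q` is the largest top prime. -/
theorem can_mul {k q w : ℕ} (hk : 1 ≤ k) (hq : q.Prime) (hkq : k ≤ lv q) (hw : w ∈ SS k)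
    (h : ∀ r, IsTop k ((q - 1) * w) r → r ≤ q) : can k ((q - 1) * w) = q :: can k w := by
  have hmem := SS_mul hq hkq hw
  have ht := isTop_mul hq hkq hw
  have e : topq k ((q - 1) * w) = q := topq_eq (SS_pos hmem) ht h
  rw [can_eq_cons hk (SS_pos hmem) ⟨q, ht⟩, e]
  have : 0 < q - 1 := by have := hq.two_le; omega
  rw [Nat.mul_div_cancel_left _ this]

theorem can_mul_iff {k q w : ℕ} (hk : 1 ≤ k) (hq : q.Prime) (hkq : k ≤ lv q) (hw : w ∈ SS k) :
    can k ((q - 1) * w) = q :: can k w ↔ ∀ r, IsTop k ((q - 1) * w) r → r ≤ q := by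
  constructor
  · intro h r hr
    have hmem := SS_mul hq hkq hw
    have ht := isTop_mul hq hkq hw
    rw [can_eq_cons hk (SS_pos hmem) ⟨q, ht⟩] at h
    have := (List.cons.inj h).1
    rw [← this]
    exact le_topq (SS_pos hmem) hr
  · exact can_mul hk hq hkq hw

/-- The value of a list with a rest. -/
theorem mem_SS_pm {k : ℕ} {l : List ℕ} {r : ℕ} (hl : ∀ q ∈ l, q.Prime ∧ k ≤ lv q)
    (hr : r ∈ SS k) : pm l * r ∈ SS k := by
  induction l with
  | nil => simpa using hr
  | cons a l ih =>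
    rw [pm_cons, mul_assoc]
    have ha := hl a List.mem_cons_self
    exact SS_mul ha.1 ha.2 (ih fun q hq => hl q (List.mem_cons_of_mem _ hq))

/-- Splitting of the canonical list: if `can w = l₁ ++ l₂` then with `w₂ = pm l₂ * rest w`:
`w = pm l₁ * w₂`, `w₂ ∈ SS k`, `can w₂ = l₂`, `rest w₂ = rest w`. -/
theorem can_split {k : ℕ} (hk : 1 ≤ k) :
    ∀ (l₁ : List ℕ) {l₂ : List ℕ} {w : ℕ}, w ∈ SS k → can k w = l₁ ++ l₂ →
      w = pm l₁ * (pm l₂ * rest k w) ∧ pm l₂ * rest k w ∈ SS k ∧
      can k (pm l₂ * rest k w) = l₂ ∧ rest k (pm l₂ * rest k w) = rest k w := by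
  intro l₁
  induction l₁ with
  | nil =>
    intro l₂ w hw h
    simp only [List.nil_append] at h
    have h1 := pm_can_mul_rest hk hw
    rw [h] at h1
    rw [h1]
    simp only [pm_nil, one_mul]
    exact ⟨trivial, hw, h, trivial⟩
  | cons a l₁ ih =>
    intro l₂ w hw h
    have hne : ∃ q, IsTop k w q := by
      by_contra hn
      rw [can_eq_nil hn] at h
      exact absurd h (by simp)
    have hw0 := SS_pos hw
    have ht := topq_spec hw0 hne
    have e := can_eq_cons hk hw0 hne
    rw [e] at h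
    simp only [List.cons_append] at h
    obtain ⟨h1, h2⟩ := List.cons.inj h
    have hw2 := ht.2.2.2
    obtain ⟨i1, i2, i3, i4⟩ := ih hw2 h2
    -- rest of quotient
    have hrest : rest k w = rest k (w / (topq k w - 1)) := by
      unfold rest
      rw [e]
      simp only [List.map_cons, List.prod_cons]
      rw [← Nat.div_div_eq_div_mul]
    rw [← hrest] at i1 i2 i3 i4
    refine ⟨?_, i2, i3, i4⟩
    rw [pm_cons, ← h1, mul_assoc, ← i1]
    exact (Nat.mul_div_cancel' ht.2.2.1).symm

theorem rest_pos {k w : ℕ} (hk : 1 ≤ k) (hw : w ∈ SS k) : 0 < rest k w :=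
  SS_pos (rest_mem hk hw)

end P031
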