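import Vale.Agent.P031.Defs

/-! P031: the regions `R+` and `R-` (head lists over a fixed tail). -/

namespace P031

open Finset

/-- The relaxed conditions on a head list, over the tail `t`:
for every entry `c` with followers `l ++ t`: `al 1 (l ++ t) ≤ (1+θ) c`, next entry `≤ c`. -/
def okP (θ : ℝ) (t : List ℕ) : List ℕ → Prop
  | [] => True
  | c :: l => al 1 (l ++ t) ≤ (1 + θ) * c ∧ (l ++ t).headI ≤ c ∧ okP θ t l

/-- The strict conditions on a head list, over the tail `t`. -/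
def okM (θ : ℝ) (t : List ℕ) : List ℕ → Prop
  | [] => True
  | c :: l => al 1 (l ++ t) ≤ (1 - θ) * c ∧ (l ++ t).headI + 2 ≤ c ∧ okM θ t l

/-- `R+`: head lists of length `J` over the tail `t`. -/
def RP (θ Y : ℝ) (J : ℕ) (t : List ℕ) : Set (List ℕ) :=
  {h | h.length = J ∧ okP θ t h ∧ ((h ++ t).headI : ℝ) ≤ Y + 1 ∧
    al 1 (h ++ t) ≤ (1 + θ) * Y}

/-- `R-`: head lists of length `J` over the tail `t`. -/
def RM (θ Y : ℝ) (J : ℕ) (t : List ℕ) : Set (List ℕ) :=
  {h | h.length = J ∧ okM θ t h ∧ ((h ++ t).headI : ℝ) ≤ (1 - θ) * Y ∧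
    al 1 (h ++ t) ≤ (1 - θ) * Y}

end P031
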