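import Vale.Agent.P031.DefsB
import Vale.Agent.P031.Can
import Vale.Agent.P031.GeomDefs

/-! P031: definitions for the assembly (helper65). -/

namespace P031

open Finset
open scoped Classical

/-- the largest `N` with `N^100 ≤ c`. -/
def Nf (c : ℕ) : ℕ := Nat.findGreatest (fun n => n ^ 100 ≤ c) c

theorem Nf_pow_le (c : ℕ) : Nf c ^ 100 ≤ c := by
  have : (fun n => n ^ 100 ≤ c) (Nf c) :=
    Nat.findGreatest_spec (P := fun n => n ^ 100 ≤ c) (m := 0) (Nat.zero_le _) (by simp)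
  exact this

theorem lt_Nf_succ (c : ℕ) : c < (Nf c + 1) ^ 100 := by
  by_contra h
  push Not at h
  have h1 : Nf c + 1 ≤ c := le_trans (Nat.le_self_pow (by norm_num) _) h
  have h2 : Nf c + 1 ≤ Nf c :=
    Nat.le_findGreatest (P := fun n => n ^ 100 ≤ c) h1 h
  omega

theorem le_Nf {n c : ℕ} (h : n ^ 100 ≤ c) : n ≤ Nf c :=
  Nat.le_findGreatest (P := fun n => n ^ 100 ≤ c) (le_trans (Nat.le_self_pow (by norm_num) _) h) h

theorem Nf_mono {a b : ℕ} (h : a ≤ b) : Nf a ≤ Nf b := le_Nf (le_trans (Nf_pow_le a) h)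

/-- `q` is `N`-normal for all relevant `N ≥ m`. -/
def Good (m q : ℕ) : Prop :=
  q.Prime ∧ ∀ N, m ≤ N → N ^ 10 ≤ lv q → lv q + 2 ≤ 3 * N ^ 100 → Normal N q

/-- The canonical primes of level `≥ j`. -/
noncomputable def up (k j w : ℕ) : List ℕ := (can k w).filter (fun q => decide (j ≤ lv q))

/-- What remains after removing the canonical primes of level `≥ j`. -/
noncomputable def lowp (k j w : ℕ) : ℕ :=
  pm ((can k w).filter (fun q => decide (lv q < j))) * rest k w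

/-- admissible tails: exactly one canonical prime of level `≥ M`. -/
structure Tail (M k ω : ℕ) : Prop where
  mem : ω ∈ SS k
  one : (up k M ω).length = 1
  good : ∀ q ∈ up k (Nf M ^ 10) ω, Good (Nf M) q
  cnt : 4 * (up k (Nf M ^ 10) ω).length ≤ Nf M
  rst : (lowp k (Nf M ^ 10) ω : ℝ) ≤ Real.exp (Real.exp (2 * (Nf M : ℝ) ^ 10))

/-- level list of a tail. -/
noncomputable def hl (M k ω : ℕ) : List ℕ := (up k (Nf M ^ 10) ω).map lv

/-- Good primes of level `c`. -/
noncomputable def GP (m c : ℕ) : Finset ℕ := (PL c (c + 1)).filter (fun q => Good m q)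

/-- lists of elements of the cells `P c`. -/
noncomputable def PLs (P : ℕ → Finset ℕ) : List ℕ → Finset (List ℕ)
  | [] => {[]}
  | c :: cs => (P c ×ˢ PLs P cs).image (fun p => p.1 :: p.2)

/-- A set as a finset (`∅` if infinite). -/
noncomputable def fins {α : Type} (S : Set α) : Finset α := if h : S.Finite then h.toFinset else ∅

theorem mem_fins {α : Type} {S : Set α} (h : S.Finite) {a : α} : a ∈ fins S ↔ a ∈ S := by
  unfold fins
  rw [dif_pos h, Set.Finite.mem_toFinset]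

theorem card_fins {α : Type} (S : Set α) : (fins S).card = S.ncard := by
  unfold fins
  by_cases h : S.Finite
  · rw [dif_pos h, Set.ncard_eq_toFinset_card S h]
  · rw [dif_neg h, Set.Infinite.ncard h]
    simp

/-- the tails up to `X`. -/
noncomputable def tails (M k X : ℕ) : Finset ℕ := (Icc 1 X).filter (fun ω => Tail M k ω)

/-- the level lists of the tails. -/
noncomputable def Tl (M k X : ℕ) : Finset (List ℕ) := (tails M k X).image (hl M k)

/-- the weight of a level list. -/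
noncomputable def Wt (M k X : ℕ) (t : List ℕ) : ℝ :=
  ∑ ω ∈ (tails M k X).filter (fun ω => hl M k ω = t), (1 : ℝ) / ω

/-- tuples (heads, tail) with region `R`. -/
noncomputable def TT (R : ℕ → List ℕ → Set (List ℕ)) (M k X Jm : ℕ) : Finset (List ℕ × ℕ) :=
  (tails M k X).biUnion fun ω => (range Jm).biUnion fun J => (fins (R J (hl M k ω))).biUnion
    fun h => (PLs (GP (Nf M)) h).image (fun l => (l, ω))

/-- value of a tuple. -/
def val (T : List ℕ × ℕ) : ℕ := pm T.1 * T.2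

/-- `R+` tuples. -/
noncomputable def TP (M k X : ℕ) (θ Y : ℝ) : Finset (List ℕ × ℕ) :=
  TT (RP θ Y) M k X (⌊Y⌋₊ + 1)

/-- `R-` tuples. -/
noncomputable def TM (M k X : ℕ) (θ Y : ℝ) : Finset (List ℕ × ℕ) :=
  TT (RM θ Y) M k X (⌊Y⌋₊ + 1)

/-- `θ = 4 m^{-10}`. -/
noncomputable def th (M : ℕ) : ℝ := 4 / (Nf M : ℝ) ^ 10

/-- `k = log_2 M`. -/
def kk (M : ℕ) : ℕ := Nat.log 2 M

/-- the sum over the region, as in `geom`. -/
noncomputable def SR (R : ℕ → List ℕ → Set (List ℕ)) (M k X : ℕ) (Y : ℝ) : ℝ :=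
  ∑ J ∈ range (⌊Y⌋₊ + 1), ∑ t ∈ Tl M k X, Wt M k X t * ((R J t).ncard : ℝ)

theorem mem_PLs_iff {P : ℕ → Finset ℕ} : ∀ {cs l : List ℕ},
    l ∈ PLs P cs ↔ List.Forall₂ (fun q c => q ∈ P c) l cs := by
  intro cs
  induction cs with
  | nil =>
    intro l
    simp [PLs, List.forall₂_nil_right_iff]
  | cons c cs ih =>
    intro l
    constructor
    · intro h
      simp only [PLs, Finset.mem_image, Finset.mem_product] at h
      obtain ⟨⟨a, b⟩, ⟨h1, h2⟩, rfl⟩ := h
      exact List.Forall₂.cons h1 (ih.1 h2)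
    · intro h
      cases h with
      | cons h1 h2 =>
        simp only [PLs, Finset.mem_image, Finset.mem_product]
        exact ⟨(_, _), ⟨h1, ih.2 h2⟩, rfl⟩

/-- `PL` cells: level. -/
theorem lv_of_mem_PL {c q : ℕ} (h : q ∈ PL c (c + 1)) : lv q = c := by
  simp only [PL, Finset.mem_filter] at h
  omega

theorem prime_of_mem_PL {a b q : ℕ} (h : q ∈ PL a b) : q.Prime := by
  simp only [PL, Finset.mem_filter, Nat.mem_primesLE] at h
  exact h.1.2

theorem lt_exp_of_lv_lt {q b : ℕ} (h : lv q < b) : (q : ℝ) < Real.exp (Real.exp b) := by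
  by_cases hq : q < 3
  · have h1 : (q : ℝ) ≤ 2 := by exact_mod_cast (by omega : q ≤ 2)
    have h2 : (1:ℝ) ≤ b := by exact_mod_cast (by omega : 1 ≤ b)
    have h3 : (b:ℝ) + 1 ≤ Real.exp b := Real.add_one_le_exp _
    have h4 : Real.exp b + 1 ≤ Real.exp (Real.exp b) := Real.add_one_le_exp _
    linarith
  · push Not at hq
    have h3 : (3:ℝ) ≤ q := by exact_mod_cast hq
    have hl : 0 < Real.log q := Real.log_pos (by linarith)
    unfold lv at h
    have h4 : Real.log (Real.log q) < b := (Nat.floor_lt' (by omega)).1 h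
    have h5 : Real.log q < Real.exp b := by
      rwa [Real.log_lt_iff_lt_exp hl] at h4
    rwa [Real.log_lt_iff_lt_exp (by linarith)] at h5

theorem mem_PL_iff {a b q : ℕ} : q ∈ PL a b ↔ q.Prime ∧ a ≤ lv q ∧ lv q < b := by
  simp only [PL, Finset.mem_filter, Nat.mem_primesLE]
  constructor
  · rintro ⟨⟨-, h2⟩, h3⟩
    exact ⟨h2, h3⟩
  · rintro ⟨h1, h2, h3⟩
    exact ⟨⟨Nat.le_floor (lt_exp_of_lv_lt h3).le, h1⟩, h2, h3⟩

theorem mem_GP_iff {m c q : ℕ} : q ∈ GP m c ↔ Good m q ∧ lv q = c := by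
  unfold GP
  rw [Finset.mem_filter, mem_PL_iff]
  constructor
  · rintro ⟨⟨h1, h2, h3⟩, h4⟩
    exact ⟨h4, by omega⟩
  · rintro ⟨h1, h2⟩
    exact ⟨⟨h1.1, by omega, by omega⟩, h1⟩

theorem mem_PLs_GP_iff {m : ℕ} {h l : List ℕ} :
    l ∈ PLs (GP m) h ↔ (∀ q ∈ l, Good m q) ∧ l.map lv = h := by
  rw [mem_PLs_iff]
  induction l generalizing h with
  | nil =>
    rw [List.forall₂_nil_left_iff]
    constructor
    · rintro rfl; simp
    · rintro ⟨-, h2⟩; simpa using h2.symm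
  | cons a l ih =>
    cases h with
    | nil => simp
    | cons c cs =>
      rw [List.forall₂_cons, ih, mem_GP_iff]
      simp only [List.mem_cons, forall_eq_or_imp, List.map_cons, List.cons.injEq]
      tauto

/-- membership in `TT` for finite regions of lists of length `J`. -/
theorem mem_TT_iff {R : ℕ → List ℕ → Set (List ℕ)} (hfin : ∀ J t, (R J t).Finite)
    (hlen : ∀ J t h, h ∈ R J t → h.length = J) {M k X Jm : ℕ} {l : List ℕ} {ω : ℕ} :
    (l, ω) ∈ TT R M k X Jm ↔ (1 ≤ ω ∧ ω ≤ X ∧ Tail M k ω) ∧ l.length < Jm ∧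
      (∀ q ∈ l, Good (Nf M) q) ∧ l.map lv ∈ R l.length (hl M k ω) := by
  unfold TT tails
  simp only [Finset.mem_biUnion, Finset.mem_filter, Finset.mem_Icc, Finset.mem_range,
    Finset.mem_image, Prod.mk.injEq]
  constructor
  · rintro ⟨ω', ⟨⟨h1, h2⟩, h3⟩, J, hJ, h, hh, l', hl', rfl, rfl⟩
    rw [mem_fins (hfin _ _)] at hh
    rw [mem_PLs_GP_iff] at hl'
    have e := hlen _ _ _ hh
    rw [← hl'.2, List.length_map] at e
    subst e
    refine ⟨⟨h1, h2, h3⟩, hJ, hl'.1, ?_⟩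
    rw [hl'.2]; exact hh
  · rintro ⟨⟨h1, h2, h3⟩, hJ, h4, h5⟩
    refine ⟨ω, ⟨⟨h1, h2⟩, h3⟩, l.length, hJ, l.map lv, ?_, l, ?_, rfl, rfl⟩
    · rw [mem_fins (hfin _ _)]; exact h5
    · rw [mem_PLs_GP_iff]; exact ⟨h4, rfl⟩

end P031
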