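import Vale.Agent.P031.DefsB

/-! P031 [BG]: background sums. -/

namespace P031

open Finset

theorem cm_eq (z : ℕ → ℝ) (n : ℕ) : cm z n = n.factorization.prod (fun p k => z p ^ k) := rfl

theorem cm_mul (z : ℕ → ℝ) (m n : ℕ) (hm : 0 < m) (hn : 0 < n) :
    cm z (m * n) = cm z m * cm z n := by
  rw [cm_eq, cm_eq, cm_eq, Nat.factorization_mul hm.ne' hn.ne']
  exact Finsupp.prod_add_index' (fun _ => pow_zero _) (fun _ _ _ => pow_add _ _ _)

theorem cm_one (z : ℕ → ℝ) : cm z 1 = 1 := by simp [cm]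

theorem cm_prime (z : ℕ → ℝ) {p : ℕ} (hp : p.Prime) : cm z p = z p := by
  rw [cm, Nat.Prime.primeFactors hp, Finset.prod_singleton, Nat.Prime.factorization_self hp,
    pow_one]

theorem cm_nonneg (z : ℕ → ℝ) (hz : ∀ p, 0 ≤ z p) (n : ℕ) : 0 ≤ cm z n :=
  Finset.prod_nonneg fun p _ => pow_nonneg (hz p) _

/-- the multiplicative map `n ↦ cm z n / n` -/
noncomputable def cmHom (z : ℕ → ℝ) : ℕ →* ℝ where
  toFun n := cm z n / n
  map_one' := by rw [cm_one]; norm_num
  map_mul' m n := by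
    rcases Nat.eq_zero_or_pos m with hm | hm
    · subst hm; simp
    rcases Nat.eq_zero_or_pos n with hn | hn
    · subst hn; simp
    rw [cm_mul z m n hm hn]
    push_cast
    exact mul_div_mul_comm _ _ _ _

theorem bg_inv_sum (T : ℕ) : ∑ p ∈ Nat.primesLE T, (1 : ℝ) / (p * (p - 1)) ≤ 1 := by
  have h1 : ∀ n : ℕ, ∑ k ∈ Finset.Icc 2 (n + 1), (1 : ℝ) / (k * (k - 1)) = 1 - 1 / (n + 1) := by
    intro n
    induction n with
    | zero => simp
    | succ n ih =>
      rw [Finset.sum_Icc_succ_top (by omega), ih]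
      push_cast
      field_simp
      ring
  have hsub : Nat.primesLE T ⊆ Finset.Icc 2 (T + 1) := by
    intro p hp
    rw [Nat.mem_primesLE] at hp
    rw [Finset.mem_Icc]
    exact ⟨hp.2.two_le, by omega⟩
  have h2 : ∀ k ∈ Finset.Icc 2 (T + 1), k ∉ Nat.primesLE T → (0 : ℝ) ≤ 1 / (k * (k - 1)) := by
    intro k hk _
    rw [Finset.mem_Icc] at hk
    have : (2 : ℝ) ≤ k := by exact_mod_cast hk.1
    apply div_nonneg one_pos.le
    apply mul_nonneg <;> linarith
  calc ∑ p ∈ Nat.primesLE T, (1 : ℝ) / (p * (p - 1))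
      ≤ ∑ k ∈ Finset.Icc 2 (T + 1), (1 : ℝ) / (k * (k - 1)) :=
        Finset.sum_le_sum_of_subset_of_nonneg hsub h2
    _ = 1 - 1 / (T + 1) := h1 T
    _ ≤ 1 := by
        have : (0 : ℝ) ≤ 1 / ((T : ℝ) + 1) := by positivity
        linarith

theorem bg_factor {p : ℕ} (hp : p.Prime) {z : ℝ} (h0 : 0 ≤ z) (h1 : z ≤ 1) :
    (1 - z / p)⁻¹ ≤ Real.exp (z / p + 1 / (p * (p - 1))) := by
  have hp2 : (2 : ℝ) ≤ p := by exact_mod_cast hp.two_le
  have hp0 : (0 : ℝ) < p := by linarith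
  set x : ℝ := z / p with hx
  have hx0 : 0 ≤ x := by positivity
  have hx1 : x ≤ 1 / p := by
    rw [hx]; gcongr
  have hxh : x ≤ 1 / 2 := by
    refine hx1.trans ?_
    apply one_div_le_one_div_of_le (by norm_num) hp2
  have h1x : 0 < 1 - x := by linarith
  have e1 : (1 - x)⁻¹ = x / (1 - x) + 1 := by
    field_simp
    ring
  rw [e1]
  refine (Real.add_one_le_exp _).trans ?_
  apply Real.exp_le_exp.mpr
  have e2 : x / (1 - x) = x + x * x / (1 - x) := by
    field_simp
    ring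
  rw [e2]
  have e3 : x * x / (1 - x) ≤ 1 / (p * (p - 1)) := by
    have h3 : 1 - 1 / (p : ℝ) ≤ 1 - x := by linarith
    have h4 : 0 < 1 - 1 / (p : ℝ) := by
      have : 1 / (p : ℝ) ≤ 1 / 2 := one_div_le_one_div_of_le (by norm_num) hp2
      linarith
    calc x * x / (1 - x) ≤ (1 / p) * (1 / p) / (1 - 1 / (p : ℝ)) := by gcongr
      _ = 1 / (p * (p - 1)) := by
        have : (p : ℝ) - 1 ≠ 0 := by
          have : (0 : ℝ) < p - 1 := by linarith
          exact this.ne'
        field_simp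
  linarith

theorem cm_sum (z : ℕ → ℝ) (hz : ∀ p, 0 ≤ z p ∧ z p ≤ 1) (T : ℕ) :
    ∑ n ∈ Icc 1 T, cm z n / n ≤ Real.exp (∑ p ∈ Nat.primesLE T, z p / p + 1) := by
  have hf : ∀ {p : ℕ}, p.Prime → ‖cmHom z p‖ < 1 := by
    intro p hp
    change ‖cm z p / p‖ < 1
    rw [cm_prime z hp]
    have hp2 : (2 : ℝ) ≤ p := by exact_mod_cast hp.two_le
    rw [Real.norm_of_nonneg (div_nonneg (hz p).1 (by linarith)), div_lt_one (by linarith)]
    linarith [(hz p).2]
  obtain ⟨hs, hsum⟩ := EulerProduct.summable_and_hasSum_smoothNumbers_prod_primesBelow_geometric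
    hf (T + 1)
  have h1 : ∑ n ∈ Icc 1 T, cm z n / n ≤ ∏ p ∈ (T + 1).primesBelow, (1 - cmHom z p)⁻¹ := by
    have hmem : ∀ n ∈ Icc 1 T, n ∈ (T + 1).smoothNumbers := by
      intro n hn
      rw [Finset.mem_Icc] at hn
      rw [Nat.mem_smoothNumbers']
      intro p _ hpn
      have := Nat.le_of_dvd hn.1 hpn
      omega
    let F : {n // n ∈ Icc 1 T} → (T + 1).smoothNumbers := fun n => ⟨n.1, hmem n.1 n.2⟩
    have hF : Function.Injective F := by
      intro a b hab
      apply Subtype.ext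
      exact congrArg (fun x : (T + 1).smoothNumbers => (x : ℕ)) hab
    have h2 : ∑ n ∈ Icc 1 T, cm z n / n =
        ∑ m ∈ (Finset.univ : Finset {n // n ∈ Icc 1 T}).map ⟨F, hF⟩, cmHom z m := by
      rw [Finset.sum_map]
      rw [← Finset.sum_coe_sort (Icc 1 T) (fun n => cm z n / n)]
      rfl
    rw [h2, ← hsum.tsum_eq]
    apply Summable.sum_le_tsum _ _ hsum.summable
    intro m _
    change 0 ≤ cm z m / m
    exact div_nonneg (cm_nonneg z (fun p => (hz p).1) _) (Nat.cast_nonneg _)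
  refine h1.trans ?_
  have h3 : ∏ p ∈ (T + 1).primesBelow, (1 - cmHom z p)⁻¹ ≤
      ∏ p ∈ Nat.primesLE T, Real.exp (z p / p + 1 / (p * (p - 1))) := by
    apply Finset.prod_le_prod
    · intro p hp
      have hp' := Nat.prime_of_mem_primesBelow hp
      have := hf hp'
      rw [Real.norm_eq_abs] at this
      have := (abs_lt.mp this).2
      rw [inv_nonneg]; linarith
    · intro p hp
      have hp' := Nat.prime_of_mem_primesBelow hp
      have : cmHom z p = z p / p := by
        change cm z p / p = _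
        rw [cm_prime z hp']
      rw [this]
      exact bg_factor hp' (hz p).1 (hz p).2
  refine h3.trans ?_
  rw [← Real.exp_sum, Finset.sum_add_distrib]
  apply Real.exp_le_exp.mpr
  linarith [bg_inv_sum T]

end P031
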