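import Vale.Agent.P031.DefsB

/-! P031 [MS]: the matrix sieve. -/

namespace P031

open Finset Filter Topology
open scoped Classical

section

variable {ι κ : Type} [Fintype ι] [DecidableEq ι] [Fintype κ] [DecidableEq κ]

/-- multiplier matrix -/
def msM (i1 : ι) (j1 : κ) (P : ℕ) (i : ι) (j : κ) : ℕ := if i = i1 ∧ j = j1 then P else 1

/-- `d` with the entry `(i1, j1)` multiplied by `P` -/
def msU (d : ι → κ → ℕ) (i1 : ι) (j1 : κ) (P : ℕ) : ι → κ → ℕ :=
  fun i j => msM i1 j1 P i j * d i j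

omit [Fintype ι] in
theorem msM_row (i1 : ι) (j1 : κ) (P : ℕ) (i : ι) :
    ∏ j, msM i1 j1 P i j = if i = i1 then P else 1 := by
  by_cases h : i = i1
  · simp [msM, h]
  · simp [msM, h]

omit [Fintype κ] in
theorem msM_col (i1 : ι) (j1 : κ) (P : ℕ) (j : κ) :
    ∏ i, msM i1 j1 P i j = if j = j1 then P else 1 := by
  by_cases h : j = j1
  · simp [msM, h]
  · simp [msM, h]

theorem msM_all (i1 : ι) (j1 : κ) (P : ℕ) : ∏ i, ∏ j, msM i1 j1 P i j = P := by
  simp only [msM_row]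
  simp

theorem msU_row (d : ι → κ → ℕ) (i1 : ι) (j1 : κ) (P : ℕ) (i : ι) :
    ∏ j, msU d i1 j1 P i j = (if i = i1 then P else 1) * ∏ j, d i j := by
  simp only [msU, Finset.prod_mul_distrib, msM_row]

theorem msU_col (d : ι → κ → ℕ) (i1 : ι) (j1 : κ) (P : ℕ) (j : κ) :
    ∏ i, msU d i1 j1 P i j = (if j = j1 then P else 1) * ∏ i, d i j := by
  simp only [msU, Finset.prod_mul_distrib, msM_col]

theorem msU_all (d : ι → κ → ℕ) (i1 : ι) (j1 : κ) (P : ℕ) :
    ∏ i, ∏ j, msU d i1 j1 P i j = P * ∏ i, ∏ j, d i j := by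
  simp only [msU, Finset.prod_mul_distrib, msM_all]

/-- the conditions on the removed prime -/
def msR (A : Finset ι) (B : Finset κ) (X : ι → ℝ) (X' : κ → ℝ) (i1 : ι) (j1 : κ)
    (d : ι → κ → ℕ) (P : ℕ) : Prop :=
  P.Prime ∧ (∀ i ∈ A, X i ≤ P) ∧ (∀ j ∈ B, X' j ≤ P) ∧
    (i1 ∈ A → ((∏ j, d i1 j) * P + 1).Prime) ∧ (j1 ∈ B → ((∏ i, d i j1) * P + 1).Prime) ∧
    (i1 ∈ A → j1 ∈ B → (∏ j, d i1 j) ≠ ∏ i, d i j1)

theorem ms_peel (T : ℕ) (X : ι → ℝ) (X' : κ → ℝ) (W : ℝ) (A : Finset ι) (B : Finset κ)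
    (hne : A.Nonempty ∨ B.Nonempty) (d : ι → κ → ℕ) (hd : ∀ i j, 1 ≤ d i j ∧ d i j ≤ T)
    (hA : Adm A B X X' W d) :
    ∃ (i1 : ι) (j1 : κ) (P : ℕ) (d' : ι → κ → ℕ), (i1 ∈ A ∨ j1 ∈ B) ∧ P ≤ T ∧
      (∀ i j, 1 ≤ d' i j ∧ d' i j ≤ T) ∧ Adm (A.erase i1) (B.erase j1) X X' W d' ∧
      msR A B X X' i1 j1 d' P ∧ msU d' i1 j1 P = d := by
  obtain ⟨hA1, hA2, hA3, hA4⟩ := hA
  set Q : Set ℕ := {p | p.Prime ∧ ((∃ i ∈ A, p ∣ ∏ j, d i j) ∨ (∃ j ∈ B, p ∣ ∏ i, d i j))}
    with hQ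
  have hpos : 0 < ∏ i, ∏ j, d i j :=
    Finset.prod_pos fun i _ => Finset.prod_pos fun j _ => (hd i j).1
  have hrowdvd : ∀ i, ∏ j, d i j ∣ ∏ i, ∏ j, d i j := fun i =>
    Finset.dvd_prod_of_mem (fun i => ∏ j, d i j) (Finset.mem_univ i)
  have hcoldvd : ∀ j, ∏ i, d i j ∣ ∏ i, ∏ j, d i j := fun j => by
    rw [Finset.prod_comm]
    exact Finset.dvd_prod_of_mem (fun j => ∏ i, d i j) (Finset.mem_univ j)
  have hQne : Q.Nonempty := by
    rcases hne with ⟨i, hi⟩ | ⟨j, hj⟩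
    · obtain ⟨-, P, hP, -, hPd⟩ := hA1 i hi
      exact ⟨P, hP, Or.inl ⟨i, hi, hPd⟩⟩
    · obtain ⟨-, P, hP, -, hPd⟩ := hA2 j hj
      exact ⟨P, hP, Or.inr ⟨j, hj, hPd⟩⟩
  have hQb : BddAbove Q := by
    refine ⟨∏ i, ∏ j, d i j, ?_⟩
    rintro p ⟨-, ⟨i, -, h⟩ | ⟨j, -, h⟩⟩
    · exact Nat.le_of_dvd hpos (h.trans (hrowdvd i))
    · exact Nat.le_of_dvd hpos (h.trans (hcoldvd j))
  set P := sSup Q with hPdef
  obtain ⟨hPp, hPd⟩ : P ∈ Q := Nat.sSup_mem hQne hQb
  have hPmax : ∀ p ∈ Q, p ≤ P := fun p hp => le_csSup hQb hp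
  have hXP : ∀ i ∈ A, X i ≤ P := by
    intro i hi
    obtain ⟨-, p, hp, hXp, hpd⟩ := hA1 i hi
    exact hXp.trans (by exact_mod_cast hPmax p ⟨hp, Or.inl ⟨i, hi, hpd⟩⟩)
  have hXP' : ∀ j ∈ B, X' j ≤ P := by
    intro j hj
    obtain ⟨-, p, hp, hXp, hpd⟩ := hA2 j hj
    exact hXp.trans (by exact_mod_cast hPmax p ⟨hp, Or.inr ⟨j, hj, hpd⟩⟩)
  obtain ⟨i1, j1, hij, hPij⟩ : ∃ i1 j1, (i1 ∈ A ∨ j1 ∈ B) ∧ P ∣ d i1 j1 := by
    rcases hPd with ⟨i, hi, h⟩ | ⟨j, hj, h⟩
    · obtain ⟨j, -, hj⟩ := (Prime.dvd_finsetProd_iff hPp.prime _).mp h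
      exact ⟨i, j, Or.inl hi, hj⟩
    · obtain ⟨i, -, hi⟩ := (Prime.dvd_finsetProd_iff hPp.prime _).mp h
      exact ⟨i, j, Or.inr hj, hi⟩
  set d' : ι → κ → ℕ := fun i j => if i = i1 ∧ j = j1 then d i j / P else d i j with hd'
  have hU : msU d' i1 j1 P = d := by
    funext i j
    simp only [msU, msM, hd']
    by_cases h : i = i1 ∧ j = j1
    · rw [if_pos h, if_pos h, h.1, h.2]
      exact Nat.mul_div_cancel' hPij
    · rw [if_neg h, if_neg h, one_mul]
  have hrow : ∀ i, ∏ j, d i j = (if i = i1 then P else 1) * ∏ j, d' i j := by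
    intro i
    rw [← msU_row, hU]
  have hcol : ∀ j, ∏ i, d i j = (if j = j1 then P else 1) * ∏ i, d' i j := by
    intro j
    rw [← msU_col, hU]
  have hrow' : ∀ i, i ≠ i1 → ∏ j, d' i j = ∏ j, d i j := by
    intro i hi
    rw [hrow i, if_neg hi, one_mul]
  have hcol' : ∀ j, j ≠ j1 → ∏ i, d' i j = ∏ i, d i j := by
    intro j hj
    rw [hcol j, if_neg hj, one_mul]
  refine ⟨i1, j1, P, d', hij, ?_, ?_, ?_, ?_, hU⟩
  · exact (Nat.le_of_dvd (hd i1 j1).1 hPij).trans (hd i1 j1).2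
  · intro i j
    simp only [hd']
    split_ifs with h
    · rw [h.1, h.2]
      exact ⟨Nat.div_pos (Nat.le_of_dvd (hd i1 j1).1 hPij) hPp.pos,
        (Nat.div_le_self _ _).trans (hd i1 j1).2⟩
    · exact hd i j
  · refine ⟨?_, ?_, ?_, ?_⟩
    · intro i hi
      rw [Finset.mem_erase] at hi
      rw [hrow' i hi.1]
      exact hA1 i hi.2
    · intro j hj
      rw [Finset.mem_erase] at hj
      rw [hcol' j hj.1]
      exact hA2 j hj.2
    · intro i hi j hj
      rw [Finset.mem_erase] at hi hj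
      rw [hrow' i hi.1, hcol' j hj.1]
      exact hA3 i hi.2 j hj.2
    · intro p hp hWp hpd
      apply hA4 p hp hWp
      refine hpd.trans ?_
      have := msU_all d' i1 j1 P
      rw [hU] at this
      rw [this]
      exact Dvd.intro_left _ rfl
  · refine ⟨hPp, hXP, hXP', ?_, ?_, ?_⟩
    · intro hi
      have := (hA1 i1 hi).1
      rwa [hrow i1, if_pos rfl, mul_comm] at this
    · intro hj
      have := (hA2 j1 hj).1
      rwa [hcol j1, if_pos rfl, mul_comm] at this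
    · intro hi hj h
      apply hA3 i1 hi j1 hj
      rw [hrow i1, hcol j1, if_pos rfl, if_pos rfl, h]

theorem ms_cover {α β : Type*} (s : Finset α) (t : Finset β) (F : α → ℝ)
    (G : β → ℝ) (hG : ∀ b ∈ t, 0 ≤ G b) (g : β → α)
    (h : ∀ a ∈ s, ∃ b ∈ t, g b = a ∧ F a ≤ G b) : ∑ a ∈ s, F a ≤ ∑ b ∈ t, G b := by
  rcases s.eq_empty_or_nonempty with rfl | ⟨a0, ha0⟩
  · rw [Finset.sum_empty]
    exact Finset.sum_nonneg hG
  have : Nonempty β := by
    obtain ⟨b, -, -⟩ := h a0 ha0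
    exact ⟨b⟩
  choose! φ hφt hφg hφF using h
  have hinj : Set.InjOn φ (s : Set α) := by
    intro a ha b hb hab
    rw [← hφg a ha, ← hφg b hb, hab]
  calc ∑ a ∈ s, F a ≤ ∑ a ∈ s, G (φ a) := Finset.sum_le_sum hφF
    _ = ∑ b ∈ s.image φ, G b := (Finset.sum_image hinj).symm
    _ ≤ ∑ b ∈ t, G b := by
        apply Finset.sum_le_sum_of_subset_of_nonneg
        · intro b hb
          rw [Finset.mem_image] at hb
          obtain ⟨a, ha, rfl⟩ := hb
          exact hφt a ha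
        · intro b hb _
          exact hG b hb

theorem ms_mem_grid (T : ℕ) (d : ι → κ → ℕ) :
    d ∈ Fintype.piFinset (fun _ : ι => Fintype.piFinset (fun _ : κ => Icc 1 T)) ↔
      ∀ i j, 1 ≤ d i j ∧ d i j ≤ T := by
  simp only [Fintype.mem_piFinset, Finset.mem_Icc]

theorem ms_row_le (T : ℕ) (d : ι → κ → ℕ) (hd : ∀ i j, 1 ≤ d i j ∧ d i j ≤ T) (i : ι)
    (j0 : κ) : 1 ≤ ∏ j, d i j ∧ ∏ j, d i j ≤ T ^ (Fintype.card ι + Fintype.card κ) := by
  have hT : 1 ≤ T := (hd i j0).1.trans (hd i j0).2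
  refine ⟨Nat.succ_le_of_lt (Finset.prod_pos fun j _ => (hd i j).1), ?_⟩
  calc ∏ j, d i j ≤ ∏ _j : κ, T := Finset.prod_le_prod' fun j _ => (hd i j).2
    _ = T ^ Fintype.card κ := by rw [Finset.prod_const, Finset.card_univ]
    _ ≤ T ^ (Fintype.card ι + Fintype.card κ) := Nat.pow_le_pow_right hT (by omega)

theorem ms_col_le (T : ℕ) (d : ι → κ → ℕ) (hd : ∀ i j, 1 ≤ d i j ∧ d i j ≤ T) (j : κ)
    (i0 : ι) : 1 ≤ ∏ i, d i j ∧ ∏ i, d i j ≤ T ^ (Fintype.card ι + Fintype.card κ) := by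
  have hT : 1 ≤ T := (hd i0 j).1.trans (hd i0 j).2
  refine ⟨Nat.succ_le_of_lt (Finset.prod_pos fun i _ => (hd i j).1), ?_⟩
  calc ∏ i, d i j ≤ ∏ _i : ι, T := Finset.prod_le_prod' fun i _ => (hd i j).2
    _ = T ^ Fintype.card ι := by rw [Finset.prod_const, Finset.card_univ]
    _ ≤ T ^ (Fintype.card ι + Fintype.card κ) := Nat.pow_le_pow_right hT (by omega)

/-- weight factor of a live index -/
noncomputable def msC {α : Type} (A : Finset α) (X : α → ℝ) (i : α) : ℝ :=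
  if i ∈ A then (Real.log (X i))⁻¹ else 1

theorem msC_mul_erase {α : Type} [DecidableEq α] (A : Finset α) (X : α → ℝ) (i : α) :
    msC A X i * ∏ k ∈ A.erase i, (Real.log (X k))⁻¹ = ∏ k ∈ A, (Real.log (X k))⁻¹ := by
  by_cases h : i ∈ A
  · rw [msC, if_pos h]
    exact Finset.mul_prod_erase A (fun k => (Real.log (X k))⁻¹) h
  · rw [msC, if_neg h, Finset.erase_eq_of_notMem h, one_mul]

theorem ms_log_pos {W x : ℝ} (hW : 3 ≤ W) (h : W ≤ x) : 0 < Real.log x :=
  Real.log_pos (by linarith)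

theorem msC_nonneg {α : Type} (A : Finset α) (X : α → ℝ) {W : ℝ} (hW : 3 ≤ W)
    (hX : ∀ i ∈ A, W ≤ X i) (i : α) : 0 ≤ msC A X i := by
  rw [msC]
  split_ifs with h
  · exact inv_nonneg.mpr (ms_log_pos hW (hX i h)).le
  · norm_num

theorem ms_prod_nonneg {α : Type} (A : Finset α) (X : α → ℝ) {W : ℝ} (hW : 3 ≤ W)
    (hX : ∀ i ∈ A, W ≤ X i) : 0 ≤ ∏ k ∈ A, (Real.log (X k))⁻¹ :=
  Finset.prod_nonneg fun i hi => inv_nonneg.mpr (ms_log_pos hW (hX i hi)).le

theorem ms_inv_log_le {W x y : ℝ} (hW : 3 ≤ W) (h : W ≤ x) (hxy : x ≤ y) :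
    (Real.log y)⁻¹ ≤ (Real.log x)⁻¹ := by
  have := ms_log_pos hW h
  apply inv_anti₀ this
  exact Real.log_le_log (by linarith) hxy

/-- the sum over the removed prime -/
theorem ms_prime_sum (T : ℕ) (W S : ℝ) (hW : 3 ≤ W) (hS : 0 ≤ S)
    (hS1 : ∀ (a : ℕ) (x : ℝ), 1 ≤ a → a ≤ T ^ (Fintype.card ι + Fintype.card κ) → W ≤ x →
      ∑ P ∈ (Icc 1 T).filter (fun P : ℕ => x ≤ P ∧ P.Prime ∧ (a * P + 1).Prime), (1 : ℝ) / P ≤
        S / Real.log x)
    (hS2 : ∀ (a b : ℕ) (x : ℝ), 1 ≤ b → b < a →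
      a ≤ T ^ (Fintype.card ι + Fintype.card κ) → W ≤ x →
      ∑ P ∈ (Icc 1 T).filter (fun P : ℕ => x ≤ P ∧ P.Prime ∧ (a * P + 1).Prime ∧
        (b * P + 1).Prime), (1 : ℝ) / P ≤ S / (Real.log x) ^ 2)
    (X : ι → ℝ) (X' : κ → ℝ) (A : Finset ι) (B : Finset κ)
    (hX : ∀ i ∈ A, W ≤ X i) (hX' : ∀ j ∈ B, W ≤ X' j) (i1 : ι) (j1 : κ)
    (hij : i1 ∈ A ∨ j1 ∈ B) (d : ι → κ → ℕ) (hd : ∀ i j, 1 ≤ d i j ∧ d i j ≤ T) :
    ∑ P ∈ (Icc 1 T).filter (fun P : ℕ => msR A B X X' i1 j1 d P), (1 : ℝ) / P ≤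
      S * (msC A X i1 * msC B X' j1) := by
  obtain ⟨ha1, ha2⟩ := ms_row_le T d hd i1 j1
  obtain ⟨hb1, hb2⟩ := ms_col_le T d hd j1 i1
  set a := ∏ j, d i1 j with ha
  set b := ∏ i, d i j1 with hb
  by_cases hi : i1 ∈ A
  · by_cases hj : j1 ∈ B
    · rw [msC, msC, if_pos hi, if_pos hj]
      by_cases hab : a = b
      · rw [Finset.filter_eq_empty_iff.mpr, Finset.sum_empty]
        · have h1 := ms_log_pos hW (hX i1 hi)
          have h2 := ms_log_pos hW (hX' j1 hj)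
          positivity
        · intro P _ hR
          exact hR.2.2.2.2.2 hi hj hab
      · have hx : W ≤ max (X i1) (X' j1) := (hX i1 hi).trans (le_max_left _ _)
        have key : ∑ P ∈ (Icc 1 T).filter (fun P : ℕ => msR A B X X' i1 j1 d P), (1 : ℝ) / P ≤
            S / (Real.log (max (X i1) (X' j1))) ^ 2 := by
          rcases lt_or_gt_of_ne hab with h | h
          · refine le_trans ?_ (hS2 b a (max (X i1) (X' j1)) ha1 h hb2 hx)
            apply Finset.sum_le_sum_of_subset_of_nonneg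
            · intro P hP
              rw [Finset.mem_filter] at hP ⊢
              exact ⟨hP.1, max_le (hP.2.2.1 i1 hi) (hP.2.2.2.1 j1 hj), hP.2.1,
                hP.2.2.2.2.2.1 hj, hP.2.2.2.2.1 hi⟩
            · intro P _ _
              positivity
          · refine le_trans ?_ (hS2 a b (max (X i1) (X' j1)) hb1 h ha2 hx)
            apply Finset.sum_le_sum_of_subset_of_nonneg
            · intro P hP
              rw [Finset.mem_filter] at hP ⊢
              exact ⟨hP.1, max_le (hP.2.2.1 i1 hi) (hP.2.2.2.1 j1 hj), hP.2.1,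
                hP.2.2.2.2.1 hi, hP.2.2.2.2.2.1 hj⟩
            · intro P _ _
              positivity
        refine key.trans ?_
        rw [div_eq_mul_inv, pow_two, mul_inv]
        apply mul_le_mul_of_nonneg_left _ hS
        have h1 := ms_inv_log_le hW (hX i1 hi) (le_max_left (X i1) (X' j1))
        have h2 := ms_inv_log_le hW (hX' j1 hj) (le_max_right (X i1) (X' j1))
        have h3 := ms_log_pos hW hx
        have h4 := ms_log_pos hW (hX i1 hi)
        exact mul_le_mul h1 h2 (inv_nonneg.mpr h3.le) (inv_nonneg.mpr h4.le)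
    · rw [msC, msC, if_pos hi, if_neg hj, mul_one, ← div_eq_mul_inv]
      refine le_trans ?_ (hS1 a (X i1) ha1 ha2 (hX i1 hi))
      apply Finset.sum_le_sum_of_subset_of_nonneg
      · intro P hP
        rw [Finset.mem_filter] at hP ⊢
        exact ⟨hP.1, hP.2.2.1 i1 hi, hP.2.1, hP.2.2.2.2.1 hi⟩
      · intro P _ _
        positivity
  · have hj : j1 ∈ B := hij.resolve_left hi
    rw [msC, msC, if_neg hi, if_pos hj, one_mul, ← div_eq_mul_inv]
    refine le_trans ?_ (hS1 b (X' j1) hb1 hb2 (hX' j1 hj))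
    apply Finset.sum_le_sum_of_subset_of_nonneg
    · intro P hP
      rw [Finset.mem_filter] at hP ⊢
      exact ⟨hP.1, hP.2.2.2.1 j1 hj, hP.2.1, hP.2.2.2.2.2.1 hj⟩
    · intro P _ _
      positivity

/-- the number of removed primes -/
theorem ms_prime_count (T : ℕ) (W S : ℝ) (hW : 3 ≤ W) (hS : 0 ≤ S)
    (hC1 : ∀ (a : ℕ) (x z : ℝ), 1 ≤ a → a ≤ T ^ (Fintype.card ι + Fintype.card κ) → W ≤ x →
      0 < z → z ≤ T →
      (((Icc 1 T).filter (fun P : ℕ => x ≤ P ∧ (P : ℝ) ≤ z ∧ P.Prime ∧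
        (a * P + 1).Prime)).card : ℝ) ≤ S * z / (Real.log x) ^ 2)
    (hC2 : ∀ (a b : ℕ) (x z : ℝ), 1 ≤ b → b < a →
      a ≤ T ^ (Fintype.card ι + Fintype.card κ) → W ≤ x → 0 < z → z ≤ T →
      (((Icc 1 T).filter (fun P : ℕ => x ≤ P ∧ (P : ℝ) ≤ z ∧ P.Prime ∧
        (a * P + 1).Prime ∧ (b * P + 1).Prime)).card : ℝ) ≤ S * z / (Real.log x) ^ 3)
    (X : ι → ℝ) (X' : κ → ℝ) (A : Finset ι) (B : Finset κ)
    (hX : ∀ i ∈ A, W ≤ X i) (hX' : ∀ j ∈ B, W ≤ X' j) (i₀ : ι) (hi₀ : i₀ ∈ A) (i1 : ι) (j1 : κ)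
    (hij : i1 ∈ A ∨ j1 ∈ B) (d : ι → κ → ℕ) (hd : ∀ i j, 1 ≤ d i j ∧ d i j ≤ T) (z : ℝ)
    (hz0 : 0 < z) (hzT : z ≤ T) :
    (((Icc 1 T).filter (fun P : ℕ => msR A B X X' i1 j1 d P ∧ (P : ℝ) ≤ z)).card : ℝ) ≤
      S * z * (Real.log (X i₀))⁻¹ * (msC A X i1 * msC B X' j1) := by
  obtain ⟨ha1, ha2⟩ := ms_row_le T d hd i1 j1
  obtain ⟨hb1, hb2⟩ := ms_col_le T d hd j1 i1
  set a := ∏ j, d i1 j with ha
  set b := ∏ i, d i j1 with hb
  have hSz : 0 ≤ S * z := by positivity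
  have hL0 := ms_log_pos hW (hX i₀ hi₀)
  by_cases hi : i1 ∈ A
  · have hL1 := ms_log_pos hW (hX i1 hi)
    by_cases hj : j1 ∈ B
    · have hL2 := ms_log_pos hW (hX' j1 hj)
      rw [msC, msC, if_pos hi, if_pos hj]
      by_cases hab : a = b
      · rw [Finset.filter_eq_empty_iff.mpr, Finset.card_empty]
        · push_cast
          positivity
        · intro P _ hR
          exact hR.1.2.2.2.2.2 hi hj hab
      · set x := max (X i₀) (max (X i1) (X' j1)) with hxdef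
        have hx : W ≤ x := (hX i₀ hi₀).trans (le_max_left _ _)
        have hx1 : X i1 ≤ x := (le_max_left _ _).trans (le_max_right _ _)
        have hx2 : X' j1 ≤ x := (le_max_right _ _).trans (le_max_right _ _)
        have key : (((Icc 1 T).filter (fun P : ℕ => msR A B X X' i1 j1 d P ∧
            (P : ℝ) ≤ z)).card : ℝ) ≤ S * z / (Real.log x) ^ 3 := by
          rcases lt_or_gt_of_ne hab with h | h
          · refine le_trans ?_ (hC2 b a x z ha1 h hb2 hx hz0 hzT)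
            exact_mod_cast Finset.card_le_card (by
              intro P hP
              rw [Finset.mem_filter] at hP ⊢
              exact ⟨hP.1, max_le (hP.2.1.2.1 i₀ hi₀) (max_le (hP.2.1.2.1 i1 hi)
                (hP.2.1.2.2.1 j1 hj)), hP.2.2, hP.2.1.1, hP.2.1.2.2.2.2.1 hj,
                hP.2.1.2.2.2.1 hi⟩)
          · refine le_trans ?_ (hC2 a b x z hb1 h ha2 hx hz0 hzT)
            exact_mod_cast Finset.card_le_card (by
              intro P hP
              rw [Finset.mem_filter] at hP ⊢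
              exact ⟨hP.1, max_le (hP.2.1.2.1 i₀ hi₀) (max_le (hP.2.1.2.1 i1 hi)
                (hP.2.1.2.2.1 j1 hj)), hP.2.2, hP.2.1.1, hP.2.1.2.2.2.1 hi,
                hP.2.1.2.2.2.2.1 hj⟩)
        refine key.trans ?_
        have h0 := ms_inv_log_le hW (hX i₀ hi₀) (le_max_left (X i₀) (max (X i1) (X' j1)))
        have h1 := ms_inv_log_le hW (hX i1 hi) hx1
        have h2 := ms_inv_log_le hW (hX' j1 hj) hx2
        have h3 := ms_log_pos hW hx
        have e : S * z / (Real.log x) ^ 3 =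
            S * z * (Real.log x)⁻¹ * ((Real.log x)⁻¹ * (Real.log x)⁻¹) := by
          field_simp
        rw [e]
        rw [← hxdef] at h0
        gcongr
    · rw [msC, msC, if_pos hi, if_neg hj, mul_one]
      set x := max (X i₀) (X i1) with hxdef
      have hx : W ≤ x := (hX i₀ hi₀).trans (le_max_left _ _)
      have key : (((Icc 1 T).filter (fun P : ℕ => msR A B X X' i1 j1 d P ∧
          (P : ℝ) ≤ z)).card : ℝ) ≤ S * z / (Real.log x) ^ 2 := by
        refine le_trans ?_ (hC1 a x z ha1 ha2 hx hz0 hzT)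
        exact_mod_cast Finset.card_le_card (by
          intro P hP
          rw [Finset.mem_filter] at hP ⊢
          exact ⟨hP.1, max_le (hP.2.1.2.1 i₀ hi₀) (hP.2.1.2.1 i1 hi), hP.2.2, hP.2.1.1,
            hP.2.1.2.2.2.1 hi⟩)
      refine key.trans ?_
      have h0 := ms_inv_log_le hW (hX i₀ hi₀) (le_max_left (X i₀) (X i1))
      have h1 := ms_inv_log_le hW (hX i1 hi) (le_max_right (X i₀) (X i1))
      have h3 := ms_log_pos hW hx
      have e : S * z / (Real.log x) ^ 2 = S * z * (Real.log x)⁻¹ * (Real.log x)⁻¹ := by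
        field_simp
      rw [e]
      rw [← hxdef] at h0 h1
      gcongr
  · have hj : j1 ∈ B := hij.resolve_left hi
    have hL2 := ms_log_pos hW (hX' j1 hj)
    rw [msC, msC, if_neg hi, if_pos hj, one_mul]
    set x := max (X i₀) (X' j1) with hxdef
    have hx : W ≤ x := (hX i₀ hi₀).trans (le_max_left _ _)
    have key : (((Icc 1 T).filter (fun P : ℕ => msR A B X X' i1 j1 d P ∧
        (P : ℝ) ≤ z)).card : ℝ) ≤ S * z / (Real.log x) ^ 2 := by
      refine le_trans ?_ (hC1 b x z hb1 hb2 hx hz0 hzT)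
      exact_mod_cast Finset.card_le_card (by
        intro P hP
        rw [Finset.mem_filter] at hP ⊢
        exact ⟨hP.1, max_le (hP.2.1.2.1 i₀ hi₀) (hP.2.1.2.2.1 j1 hj), hP.2.2, hP.2.1.1,
          hP.2.1.2.2.2.2.1 hj⟩)
    refine key.trans ?_
    have h0 := ms_inv_log_le hW (hX i₀ hi₀) (le_max_left (X i₀) (X' j1))
    have h1 := ms_inv_log_le hW (hX' j1 hj) (le_max_right (X i₀) (X' j1))
    have h3 := ms_log_pos hW hx
    have e : S * z / (Real.log x) ^ 2 = S * z * (Real.log x)⁻¹ * (Real.log x)⁻¹ := by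
      field_simp
    rw [e]
    rw [← hxdef] at h0 h1
    gcongr

theorem ms_weight (f : ι → κ → ℕ → ℝ) (hf : ∀ i j n, 0 ≤ f i j n)
    (hfm : ∀ i j n P, 1 ≤ n → Nat.Prime P → f i j (P * n) ≤ f i j n / P)
    (d : ι → κ → ℕ) (hd : ∀ i j, 1 ≤ d i j) (i1 : ι) (j1 : κ) (P : ℕ) (hP : P.Prime) :
    ∏ i, ∏ j, f i j (msU d i1 j1 P i j) ≤ (∏ i, ∏ j, f i j (d i j)) * (1 / P) := by
  have h1 : ∀ i j, f i j (msU d i1 j1 P i j) ≤ f i j (d i j) / (msM i1 j1 P i j : ℝ) := by
    intro i j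
    simp only [msU, msM]
    split_ifs with h
    · exact hfm i j _ P (hd i j) hP
    · simp
  have h2 : ∏ i, ∏ j, f i j (msU d i1 j1 P i j) ≤
      ∏ i, ∏ j, (f i j (d i j) / (msM i1 j1 P i j : ℝ)) := by
    apply Finset.prod_le_prod
    · intro i _
      exact Finset.prod_nonneg fun j _ => hf _ _ _
    · intro i _
      apply Finset.prod_le_prod
      · intro j _
        exact hf _ _ _
      · intro j _
        exact h1 i j
  refine h2.trans (le_of_eq ?_)
  simp only [Finset.prod_div_distrib]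
  rw [div_eq_mul_one_div]
  congr 2
  have := msM_all i1 j1 P
  exact_mod_cast this

end

theorem mat_sieve_sum {ι κ : Type} [Fintype ι] [DecidableEq ι] [Fintype κ] [DecidableEq κ]
    (T : ℕ) (W S : ℝ) (hW : 3 ≤ W) (hS : 0 ≤ S)
    (hS1 : ∀ (a : ℕ) (x : ℝ), 1 ≤ a → a ≤ T ^ (Fintype.card ι + Fintype.card κ) → W ≤ x →
      ∑ P ∈ (Icc 1 T).filter (fun P : ℕ => x ≤ P ∧ P.Prime ∧ (a * P + 1).Prime), (1 : ℝ) / P ≤
        S / Real.log x)
    (hS2 : ∀ (a b : ℕ) (x : ℝ), 1 ≤ b → b < a →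
      a ≤ T ^ (Fintype.card ι + Fintype.card κ) → W ≤ x →
      ∑ P ∈ (Icc 1 T).filter (fun P : ℕ => x ≤ P ∧ P.Prime ∧ (a * P + 1).Prime ∧
        (b * P + 1).Prime), (1 : ℝ) / P ≤ S / (Real.log x) ^ 2)
    (f : ι → κ → ℕ → ℝ) (hf : ∀ i j n, 0 ≤ f i j n)
    (hfm : ∀ i j n P, 1 ≤ n → Nat.Prime P → f i j (P * n) ≤ f i j n / P)
    (X : ι → ℝ) (X' : κ → ℝ) (A : Finset ι) (B : Finset κ)
    (hX : ∀ i ∈ A, W ≤ X i) (hX' : ∀ j ∈ B, W ≤ X' j) :
    ∑ d ∈ (Fintype.piFinset (fun _ : ι => Fintype.piFinset (fun _ : κ => Icc 1 T))).filter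
        (fun d => Adm A B X X' W d), ∏ i, ∏ j, f i j (d i j) ≤
      (max 1 (S * (Fintype.card ι * Fintype.card κ))) ^ (A.card + B.card) *
        (∏ i ∈ A, (Real.log (X i))⁻¹) * (∏ j ∈ B, (Real.log (X' j))⁻¹) *
        ∑ d ∈ Fintype.piFinset (fun _ : ι => Fintype.piFinset (fun _ : κ => Icc 1 T)),
          ∏ i, ∏ j, f i j (d i j) := by
  set grid := Fintype.piFinset (fun _ : ι => Fintype.piFinset (fun _ : κ => Icc 1 T)) with hgrid
  set M : ℝ := max 1 (S * (Fintype.card ι * Fintype.card κ)) with hM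
  have hM1 : 1 ≤ M := le_max_left _ _
  have hM2 : S * (Fintype.card ι * Fintype.card κ) ≤ M := le_max_right _ _
  set Tot : ℝ := ∑ d ∈ grid, ∏ i, ∏ j, f i j (d i j) with hTot
  have hF0 : ∀ d : ι → κ → ℕ, 0 ≤ ∏ i, ∏ j, f i j (d i j) := fun d =>
    Finset.prod_nonneg fun i _ => Finset.prod_nonneg fun j _ => hf _ _ _
  have hTot0 : 0 ≤ Tot := Finset.sum_nonneg fun d _ => hF0 d
  induction hn : A.card + B.card using Nat.strong_induction_on generalizing A B with
  | _ n ih =>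
  by_cases hne : A.Nonempty ∨ B.Nonempty
  swap
  · rw [not_or, Finset.not_nonempty_iff_eq_empty, Finset.not_nonempty_iff_eq_empty] at hne
    obtain ⟨rfl, rfl⟩ := hne
    simp only [Finset.card_empty, add_zero] at hn
    subst hn
    simp only [pow_zero, Finset.prod_empty, one_mul]
    exact Finset.sum_le_sum_of_subset_of_nonneg (Finset.filter_subset _ _) fun d _ _ => hF0 d
  have hn1 : 1 ≤ n := by
    rcases hne with h | h
    · have := Finset.card_pos.mpr h; omega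
    · have := Finset.card_pos.mpr h; omega
  set cells : Finset (ι × κ) := Finset.univ.filter (fun c => c.1 ∈ A ∨ c.2 ∈ B) with hcells
  set PA : ℝ := ∏ i ∈ A, (Real.log (X i))⁻¹ with hPA
  set PB : ℝ := ∏ j ∈ B, (Real.log (X' j))⁻¹ with hPB
  have hPA0 : 0 ≤ PA := ms_prod_nonneg A X hW hX
  have hPB0 : 0 ≤ PB := ms_prod_nonneg B X' hW hX'
  -- the set of triples
  set tri : Finset ((ι × κ) × (ι → κ → ℕ) × ℕ) :=
    (cells ×ˢ (grid ×ˢ Icc 1 T)).filter (fun t =>
      Adm (A.erase t.1.1) (B.erase t.1.2) X X' W t.2.1 ∧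
        msR A B X X' t.1.1 t.1.2 t.2.1 t.2.2) with htri
  have hcover : ∑ d ∈ grid.filter (fun d => Adm A B X X' W d), ∏ i, ∏ j, f i j (d i j) ≤
      ∑ t ∈ tri, (∏ i, ∏ j, f i j (t.2.1 i j)) * (1 / (t.2.2 : ℝ)) := by
    apply ms_cover _ _ _ _ (fun t _ => mul_nonneg (hF0 _) (by positivity))
      (fun t => msU t.2.1 t.1.1 t.1.2 t.2.2)
    intro d hd
    rw [Finset.mem_filter, hgrid, ms_mem_grid] at hd
    obtain ⟨i1, j1, P, d', hij, hPT, hd', hAdm, hR, hU⟩ := ms_peel T X X' W A B hne d hd.1 hd.2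
    refine ⟨((i1, j1), d', P), ?_, hU, ?_⟩
    · rw [htri, Finset.mem_filter, Finset.mem_product, Finset.mem_product]
      refine ⟨⟨?_, ?_, ?_⟩, hAdm, hR⟩
      · rw [hcells, Finset.mem_filter]
        exact ⟨Finset.mem_univ _, hij⟩
      · rw [hgrid, ms_mem_grid]
        exact hd'
      · rw [Finset.mem_Icc]
        exact ⟨hR.1.pos, hPT⟩
    · rw [← hU]
      exact ms_weight f hf hfm d' (fun i j => (hd' i j).1) i1 j1 P hR.1
  refine hcover.trans ?_
  have hsplit : ∑ t ∈ tri, (∏ i, ∏ j, f i j (t.2.1 i j)) * (1 / (t.2.2 : ℝ)) =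
      ∑ c ∈ cells, ∑ d ∈ grid.filter (fun d => Adm (A.erase c.1) (B.erase c.2) X X' W d),
        (∏ i, ∏ j, f i j (d i j)) *
          ∑ P ∈ (Icc 1 T).filter (fun P : ℕ => msR A B X X' c.1 c.2 d P), (1 : ℝ) / P := by
    rw [htri, Finset.sum_filter, Finset.sum_product]
    refine Finset.sum_congr rfl fun c _ => ?_
    rw [Finset.sum_product, Finset.sum_filter]
    refine Finset.sum_congr rfl fun d _ => ?_
    by_cases h : Adm (A.erase c.1) (B.erase c.2) X X' W d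
    · rw [if_pos h, Finset.sum_filter, Finset.mul_sum]
      refine Finset.sum_congr rfl fun P _ => ?_
      by_cases hR : msR A B X X' c.1 c.2 d P
      · rw [if_pos hR, if_pos ⟨h, hR⟩]
      · rw [if_neg hR, if_neg (fun h' => hR h'.2), mul_zero]
    · rw [if_neg h]
      apply Finset.sum_eq_zero
      intro P _
      rw [if_neg (fun h' => h h'.1)]
  rw [hsplit]
  have hcell : ∀ c ∈ cells,
      ∑ d ∈ grid.filter (fun d => Adm (A.erase c.1) (B.erase c.2) X X' W d),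
        (∏ i, ∏ j, f i j (d i j)) *
          ∑ P ∈ (Icc 1 T).filter (fun P : ℕ => msR A B X X' c.1 c.2 d P), (1 : ℝ) / P ≤
      S * (M ^ (n - 1) * PA * PB * Tot) := by
    intro c hc
    rw [hcells, Finset.mem_filter] at hc
    have hXe : ∀ i ∈ A.erase c.1, W ≤ X i := fun i hi => hX i (Finset.mem_of_mem_erase hi)
    have hXe' : ∀ j ∈ B.erase c.2, W ≤ X' j := fun j hj => hX' j (Finset.mem_of_mem_erase hj)
    have hcard : (A.erase c.1).card + (B.erase c.2).card ≤ n - 1 := by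
      rcases hc.2 with h | h
      · have h1 := Finset.card_erase_of_mem h
        have h2 := Finset.card_erase_le (a := c.2) (s := B)
        have h3 := Finset.card_pos.mpr ⟨_, h⟩
        omega
      · have h1 := Finset.card_erase_of_mem h
        have h2 := Finset.card_erase_le (a := c.1) (s := A)
        have h3 := Finset.card_pos.mpr ⟨_, h⟩
        omega
    have hih := ih ((A.erase c.1).card + (B.erase c.2).card) (by omega) (A.erase c.1)
      (B.erase c.2) hXe hXe' rfl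
    have hc1 := msC_nonneg A X hW hX c.1
    have hc2 := msC_nonneg B X' hW hX' c.2
    have hpe := ms_prod_nonneg (A.erase c.1) X hW hXe
    have hpe' := ms_prod_nonneg (B.erase c.2) X' hW hXe'
    calc _ ≤ ∑ d ∈ grid.filter (fun d => Adm (A.erase c.1) (B.erase c.2) X X' W d),
          (∏ i, ∏ j, f i j (d i j)) * (S * (msC A X c.1 * msC B X' c.2)) := by
          apply Finset.sum_le_sum
          intro d hd
          rw [Finset.mem_filter, hgrid, ms_mem_grid] at hd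
          exact mul_le_mul_of_nonneg_left (ms_prime_sum T W S hW hS hS1 hS2 X X' A B hX hX'
            c.1 c.2 hc.2 d hd.1) (hF0 d)
      _ = (S * (msC A X c.1 * msC B X' c.2)) *
          ∑ d ∈ grid.filter (fun d => Adm (A.erase c.1) (B.erase c.2) X X' W d),
          (∏ i, ∏ j, f i j (d i j)) := by
          rw [← Finset.sum_mul]; ring
      _ ≤ (S * (msC A X c.1 * msC B X' c.2)) *
          (M ^ ((A.erase c.1).card + (B.erase c.2).card) *
          (∏ i ∈ A.erase c.1, (Real.log (X i))⁻¹) *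
          (∏ j ∈ B.erase c.2, (Real.log (X' j))⁻¹) * Tot) := by
          apply mul_le_mul_of_nonneg_left hih
          positivity
      _ = S * (M ^ ((A.erase c.1).card + (B.erase c.2).card) *
          (msC A X c.1 * ∏ i ∈ A.erase c.1, (Real.log (X i))⁻¹) *
          (msC B X' c.2 * ∏ j ∈ B.erase c.2, (Real.log (X' j))⁻¹) * Tot) := by ring
      _ = S * (M ^ ((A.erase c.1).card + (B.erase c.2).card) * PA * PB * Tot) := by
          rw [msC_mul_erase, msC_mul_erase]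
      _ ≤ S * (M ^ (n - 1) * PA * PB * Tot) := by
          have := pow_le_pow_right₀ hM1 hcard
          gcongr
  calc _ ≤ ∑ c ∈ cells, S * (M ^ (n - 1) * PA * PB * Tot) := Finset.sum_le_sum hcell
    _ = (cells.card : ℝ) * (S * (M ^ (n - 1) * PA * PB * Tot)) := by
        rw [Finset.sum_const, nsmul_eq_mul]
    _ ≤ ((Fintype.card ι : ℝ) * Fintype.card κ) * (S * (M ^ (n - 1) * PA * PB * Tot)) := by
        have hcc : (cells.card : ℝ) ≤ (Fintype.card ι : ℝ) * Fintype.card κ := by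
          have h1 : cells.card ≤ Fintype.card (ι × κ) := by
            rw [← Finset.card_univ]
            exact Finset.card_le_card (Finset.filter_subset _ _)
          rw [Fintype.card_prod] at h1
          exact_mod_cast h1
        apply mul_le_mul_of_nonneg_right hcc
        positivity
    _ = (S * (Fintype.card ι * Fintype.card κ)) * (M ^ (n - 1) * PA * PB * Tot) := by ring
    _ ≤ M * (M ^ (n - 1) * PA * PB * Tot) := by
        apply mul_le_mul_of_nonneg_right hM2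
        positivity
    _ = M ^ n * PA * PB * Tot := by
        have : M ^ n = M * M ^ (n - 1) := by
          rw [← pow_succ', Nat.sub_add_cancel hn1]
        rw [this]; ring

theorem mat_sieve_count {ι κ : Type} [Fintype ι] [DecidableEq ι] [Fintype κ] [DecidableEq κ]
    (T : ℕ) (W S : ℝ) (hW : 3 ≤ W) (hS : 0 ≤ S)
    (hS1 : ∀ (a : ℕ) (x : ℝ), 1 ≤ a → a ≤ T ^ (Fintype.card ι + Fintype.card κ) → W ≤ x →
      ∑ P ∈ (Icc 1 T).filter (fun P : ℕ => x ≤ P ∧ P.Prime ∧ (a * P + 1).Prime), (1 : ℝ) / P ≤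
        S / Real.log x)
    (hS2 : ∀ (a b : ℕ) (x : ℝ), 1 ≤ b → b < a →
      a ≤ T ^ (Fintype.card ι + Fintype.card κ) → W ≤ x →
      ∑ P ∈ (Icc 1 T).filter (fun P : ℕ => x ≤ P ∧ P.Prime ∧ (a * P + 1).Prime ∧
        (b * P + 1).Prime), (1 : ℝ) / P ≤ S / (Real.log x) ^ 2)
    (hC1 : ∀ (a : ℕ) (x z : ℝ), 1 ≤ a → a ≤ T ^ (Fintype.card ι + Fintype.card κ) → W ≤ x →
      0 < z → z ≤ T →
      (((Icc 1 T).filter (fun P : ℕ => x ≤ P ∧ (P : ℝ) ≤ z ∧ P.Prime ∧
        (a * P + 1).Prime)).card : ℝ) ≤ S * z / (Real.log x) ^ 2)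
    (hC2 : ∀ (a b : ℕ) (x z : ℝ), 1 ≤ b → b < a →
      a ≤ T ^ (Fintype.card ι + Fintype.card κ) → W ≤ x → 0 < z → z ≤ T →
      (((Icc 1 T).filter (fun P : ℕ => x ≤ P ∧ (P : ℝ) ≤ z ∧ P.Prime ∧
        (a * P + 1).Prime ∧ (b * P + 1).Prime)).card : ℝ) ≤ S * z / (Real.log x) ^ 3)
    (g : ι → κ → ℕ → ℝ) (hg : ∀ i j n, 0 ≤ g i j n)
    (hgm : ∀ i j n P, 1 ≤ n → Nat.Prime P → g i j (P * n) ≤ g i j n)
    (X : ι → ℝ) (X' : κ → ℝ) (A : Finset ι) (B : Finset κ)
    (hX : ∀ i ∈ A, W ≤ X i) (hX' : ∀ j ∈ B, W ≤ X' j) (i₀ : ι) (hi₀ : i₀ ∈ A) :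
    ∑ d ∈ (Fintype.piFinset (fun _ : ι => Fintype.piFinset (fun _ : κ => Icc 1 T))).filter
        (fun d => Adm A B X X' W d ∧ ∏ i, ∏ j, d i j ≤ T), ∏ i, ∏ j, g i j (d i j) ≤
      T * (max 1 (S * (Fintype.card ι * Fintype.card κ))) ^ (A.card + B.card) *
        (Real.log (X i₀))⁻¹ *
        (∏ i ∈ A, (Real.log (X i))⁻¹) * (∏ j ∈ B, (Real.log (X' j))⁻¹) *
        ∑ d ∈ Fintype.piFinset (fun _ : ι => Fintype.piFinset (fun _ : κ => Icc 1 T)),
          ∏ i, ∏ j, (g i j (d i j) / d i j) := by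
  set grid := Fintype.piFinset (fun _ : ι => Fintype.piFinset (fun _ : κ => Icc 1 T)) with hgrid
  set M : ℝ := max 1 (S * (Fintype.card ι * Fintype.card κ)) with hM
  have hM1 : 1 ≤ M := le_max_left _ _
  have hM2 : S * (Fintype.card ι * Fintype.card κ) ≤ M := le_max_right _ _
  set f : ι → κ → ℕ → ℝ := fun i j n => g i j n / n with hf
  have hf0 : ∀ i j n, 0 ≤ f i j n := fun i j n => div_nonneg (hg i j n) (Nat.cast_nonneg n)
  have hfm : ∀ i j n P, 1 ≤ n → Nat.Prime P → f i j (P * n) ≤ f i j n / P := by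
    intro i j n P hn hP
    simp only [hf]
    have hP0 : (0 : ℝ) < P := by exact_mod_cast hP.pos
    have hn0 : (0 : ℝ) < n := by exact_mod_cast hn
    push_cast
    rw [div_div, mul_comm (n : ℝ) P]
    apply div_le_div_of_nonneg_right (hgm i j n P hn hP)
    positivity
  set Tot : ℝ := ∑ d ∈ grid, ∏ i, ∏ j, (g i j (d i j) / d i j) with hTot
  have hF0 : ∀ d : ι → κ → ℕ, 0 ≤ ∏ i, ∏ j, f i j (d i j) := fun d =>
    Finset.prod_nonneg fun i _ => Finset.prod_nonneg fun j _ => hf0 _ _ _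
  have hG0 : ∀ d : ι → κ → ℕ, 0 ≤ ∏ i, ∏ j, g i j (d i j) := fun d =>
    Finset.prod_nonneg fun i _ => Finset.prod_nonneg fun j _ => hg _ _ _
  have hTot0 : 0 ≤ Tot := Finset.sum_nonneg fun d _ => hF0 d
  have hne : A.Nonempty ∨ B.Nonempty := Or.inl ⟨i₀, hi₀⟩
  have hn1 : 1 ≤ A.card + B.card := by
    have := Finset.card_pos.mpr ⟨i₀, hi₀⟩; omega
  set n := A.card + B.card with hn
  set cells : Finset (ι × κ) := Finset.univ.filter (fun c => c.1 ∈ A ∨ c.2 ∈ B) with hcells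
  set PA : ℝ := ∏ i ∈ A, (Real.log (X i))⁻¹ with hPA
  set PB : ℝ := ∏ j ∈ B, (Real.log (X' j))⁻¹ with hPB
  set L0 : ℝ := (Real.log (X i₀))⁻¹ with hL0
  have hL00 : 0 ≤ L0 := inv_nonneg.mpr (ms_log_pos hW (hX i₀ hi₀)).le
  have hPA0 : 0 ≤ PA := ms_prod_nonneg A X hW hX
  have hPB0 : 0 ≤ PB := ms_prod_nonneg B X' hW hX'
  set tri : Finset ((ι × κ) × (ι → κ → ℕ) × ℕ) :=
    (cells ×ˢ (grid ×ˢ Icc 1 T)).filter (fun t =>
      Adm (A.erase t.1.1) (B.erase t.1.2) X X' W t.2.1 ∧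
        (msR A B X X' t.1.1 t.1.2 t.2.1 t.2.2 ∧
          (t.2.2 : ℝ) ≤ T / ((∏ i, ∏ j, t.2.1 i j : ℕ) : ℝ))) with htri
  have hcover : ∑ d ∈ grid.filter (fun d => Adm A B X X' W d ∧ ∏ i, ∏ j, d i j ≤ T),
      ∏ i, ∏ j, g i j (d i j) ≤ ∑ t ∈ tri, (∏ i, ∏ j, g i j (t.2.1 i j)) * 1 := by
    apply ms_cover _ _ _ _ (fun t _ => mul_nonneg (hG0 _) (by positivity))
      (fun t => msU t.2.1 t.1.1 t.1.2 t.2.2)
    intro d hd
    rw [Finset.mem_filter, hgrid, ms_mem_grid] at hd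
    obtain ⟨i1, j1, P, d', hij, hPT, hd', hAdm, hR, hU⟩ :=
      ms_peel T X X' W A B hne d hd.1 hd.2.1
    have hpos : 0 < ∏ i, ∏ j, d' i j :=
      Finset.prod_pos fun i _ => Finset.prod_pos fun j _ => (hd' i j).1
    refine ⟨((i1, j1), d', P), ?_, hU, ?_⟩
    · rw [htri, Finset.mem_filter, Finset.mem_product, Finset.mem_product]
      refine ⟨⟨?_, ?_, ?_⟩, hAdm, hR, ?_⟩
      · rw [hcells, Finset.mem_filter]
        exact ⟨Finset.mem_univ _, hij⟩
      · rw [hgrid, ms_mem_grid]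
        exact hd'
      · rw [Finset.mem_Icc]
        exact ⟨hR.1.pos, hPT⟩
      · have h1 := hd.2.2
        rw [← hU, msU_all] at h1
        rw [le_div_iff₀ (by exact_mod_cast hpos)]
        exact_mod_cast h1
    · rw [← hU, mul_one]
      apply Finset.prod_le_prod
      · intro i _
        exact Finset.prod_nonneg fun j _ => hg _ _ _
      · intro i _
        apply Finset.prod_le_prod
        · intro j _
          exact hg _ _ _
        · intro j _
          simp only [msU, msM]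
          split_ifs with h
          · exact hgm i j _ P (hd' i j).1 hR.1
          · simp
  refine hcover.trans ?_
  have hsplit : ∑ t ∈ tri, (∏ i, ∏ j, g i j (t.2.1 i j)) * 1 =
      ∑ c ∈ cells, ∑ d ∈ grid.filter (fun d => Adm (A.erase c.1) (B.erase c.2) X X' W d),
        (∏ i, ∏ j, g i j (d i j)) *
          (((Icc 1 T).filter (fun P : ℕ => msR A B X X' c.1 c.2 d P ∧
            (P : ℝ) ≤ T / ((∏ i, ∏ j, d i j : ℕ) : ℝ))).card : ℝ) := by
    rw [htri, Finset.sum_filter, Finset.sum_product]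
    refine Finset.sum_congr rfl fun c _ => ?_
    rw [Finset.sum_product, Finset.sum_filter]
    refine Finset.sum_congr rfl fun d _ => ?_
    by_cases h : Adm (A.erase c.1) (B.erase c.2) X X' W d
    · rw [if_pos h, Finset.card_filter]
      push_cast
      rw [Finset.mul_sum]
      refine Finset.sum_congr rfl fun P _ => ?_
      by_cases hR : msR A B X X' c.1 c.2 d P ∧ (P : ℝ) ≤ T / (∏ i, ∏ j, (d i j : ℝ))
      · rw [if_pos hR, if_pos ⟨h, hR⟩]
      · rw [if_neg hR, if_neg (fun h' => hR h'.2), mul_zero]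
    · rw [if_neg h]
      apply Finset.sum_eq_zero
      intro P _
      rw [if_neg (fun h' => h h'.1)]
  rw [hsplit]
  have hcell : ∀ c ∈ cells,
      ∑ d ∈ grid.filter (fun d => Adm (A.erase c.1) (B.erase c.2) X X' W d),
        (∏ i, ∏ j, g i j (d i j)) *
          (((Icc 1 T).filter (fun P : ℕ => msR A B X X' c.1 c.2 d P ∧
            (P : ℝ) ≤ T / ((∏ i, ∏ j, d i j : ℕ) : ℝ))).card : ℝ) ≤
      S * (T * M ^ (n - 1) * L0 * PA * PB * Tot) := by
    intro c hc
    rw [hcells, Finset.mem_filter] at hc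
    have hXe : ∀ i ∈ A.erase c.1, W ≤ X i := fun i hi => hX i (Finset.mem_of_mem_erase hi)
    have hXe' : ∀ j ∈ B.erase c.2, W ≤ X' j := fun j hj => hX' j (Finset.mem_of_mem_erase hj)
    have hcard : (A.erase c.1).card + (B.erase c.2).card ≤ n - 1 := by
      rcases hc.2 with h | h
      · have h1 := Finset.card_erase_of_mem h
        have h2 := Finset.card_erase_le (a := c.2) (s := B)
        have h3 := Finset.card_pos.mpr ⟨_, h⟩
        omega
      · have h1 := Finset.card_erase_of_mem h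
        have h2 := Finset.card_erase_le (a := c.1) (s := A)
        have h3 := Finset.card_pos.mpr ⟨_, h⟩
        omega
    have hih := mat_sieve_sum T W S hW hS hS1 hS2 f hf0 hfm X X' (A.erase c.1)
      (B.erase c.2) hXe hXe'
    rw [← hgrid, ← hM] at hih
    have hc1 := msC_nonneg A X hW hX c.1
    have hc2 := msC_nonneg B X' hW hX' c.2
    have hpe := ms_prod_nonneg (A.erase c.1) X hW hXe
    have hpe' := ms_prod_nonneg (B.erase c.2) X' hW hXe'
    calc _ ≤ ∑ d ∈ grid.filter (fun d => Adm (A.erase c.1) (B.erase c.2) X X' W d),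
          (∏ i, ∏ j, f i j (d i j)) * (S * T * L0 * (msC A X c.1 * msC B X' c.2)) := by
          apply Finset.sum_le_sum
          intro d hd
          rw [Finset.mem_filter, hgrid, ms_mem_grid] at hd
          have hpos : 0 < ∏ i, ∏ j, d i j :=
            Finset.prod_pos fun i _ => Finset.prod_pos fun j _ => (hd.1 i j).1
          have hpos' : (0 : ℝ) < ((∏ i, ∏ j, d i j : ℕ) : ℝ) := by exact_mod_cast hpos
          have hpos1 : (1 : ℝ) ≤ ((∏ i, ∏ j, d i j : ℕ) : ℝ) := by exact_mod_cast hpos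
          have hT0 : (0 : ℝ) < T := by
            have h1 : 1 ≤ T := (hd.1 c.1 c.2).1.trans (hd.1 c.1 c.2).2
            exact_mod_cast h1
          have hcnt := ms_prime_count T W S hW hS hC1 hC2 X X' A B hX hX' i₀ hi₀ c.1 c.2 hc.2 d
            hd.1 (T / ((∏ i, ∏ j, d i j : ℕ) : ℝ)) (by positivity)
            (div_le_self hT0.le hpos1)
          have hfg : ∏ i, ∏ j, f i j (d i j) =
              (∏ i, ∏ j, g i j (d i j)) / ((∏ i, ∏ j, d i j : ℕ) : ℝ) := by
            simp only [hf, Finset.prod_div_distrib]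
            push_cast
            rfl
          calc _ ≤ (∏ i, ∏ j, g i j (d i j)) * (S * (T / ((∏ i, ∏ j, d i j : ℕ) : ℝ)) *
                (Real.log (X i₀))⁻¹ * (msC A X c.1 * msC B X' c.2)) :=
                mul_le_mul_of_nonneg_left hcnt (hG0 d)
            _ = _ := by
                rw [hfg, ← hL0]
                field_simp
      _ = (S * T * L0 * (msC A X c.1 * msC B X' c.2)) *
          ∑ d ∈ grid.filter (fun d => Adm (A.erase c.1) (B.erase c.2) X X' W d),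
          (∏ i, ∏ j, f i j (d i j)) := by
          rw [← Finset.sum_mul]; ring
      _ ≤ (S * T * L0 * (msC A X c.1 * msC B X' c.2)) *
          (M ^ ((A.erase c.1).card + (B.erase c.2).card) *
          (∏ i ∈ A.erase c.1, (Real.log (X i))⁻¹) *
          (∏ j ∈ B.erase c.2, (Real.log (X' j))⁻¹) * Tot) := by
          apply mul_le_mul_of_nonneg_left hih
          positivity
      _ = S * (T * M ^ ((A.erase c.1).card + (B.erase c.2).card) * L0 *
          (msC A X c.1 * ∏ i ∈ A.erase c.1, (Real.log (X i))⁻¹) *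
          (msC B X' c.2 * ∏ j ∈ B.erase c.2, (Real.log (X' j))⁻¹) * Tot) := by ring
      _ = S * (T * M ^ ((A.erase c.1).card + (B.erase c.2).card) * L0 * PA * PB * Tot) := by
          rw [msC_mul_erase, msC_mul_erase]
      _ ≤ S * (T * M ^ (n - 1) * L0 * PA * PB * Tot) := by
          have := pow_le_pow_right₀ hM1 hcard
          gcongr
  calc _ ≤ ∑ c ∈ cells, S * (T * M ^ (n - 1) * L0 * PA * PB * Tot) := Finset.sum_le_sum hcell
    _ = (cells.card : ℝ) * (S * (T * M ^ (n - 1) * L0 * PA * PB * Tot)) := by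
        rw [Finset.sum_const, nsmul_eq_mul]
    _ ≤ ((Fintype.card ι : ℝ) * Fintype.card κ) *
        (S * (T * M ^ (n - 1) * L0 * PA * PB * Tot)) := by
        have hcc : (cells.card : ℝ) ≤ (Fintype.card ι : ℝ) * Fintype.card κ := by
          have h1 : cells.card ≤ Fintype.card (ι × κ) := by
            rw [← Finset.card_univ]
            exact Finset.card_le_card (Finset.filter_subset _ _)
          rw [Fintype.card_prod] at h1
          exact_mod_cast h1
        apply mul_le_mul_of_nonneg_right hcc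
        positivity
    _ = (S * (Fintype.card ι * Fintype.card κ)) * (T * M ^ (n - 1) * L0 * PA * PB * Tot) := by
        ring
    _ ≤ M * (T * M ^ (n - 1) * L0 * PA * PB * Tot) := by
        apply mul_le_mul_of_nonneg_right hM2
        positivity
    _ = T * M ^ n * L0 * PA * PB * Tot := by
        have : M ^ n = M * M ^ (n - 1) := by
          rw [← pow_succ', Nat.sub_add_cancel hn1]
        rw [this]; ring

end P031
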