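import Vale.Agent.P031.SieveSum

/-! P031, [CPAT]: the four sieve hypotheses of the matrix sieve, instantiated. -/

namespace P031

open Finset
open scoped Classical

theorem loglog_bound (k m : ℕ) : ∃ N₀ : ℕ, ∀ N ≥ N₀, ∀ T a : ℕ, 1 ≤ T →
    (T : ℝ) ≤ Real.exp (Real.exp (3 * (N : ℝ) ^ 100)) → m ≤ m → a ≤ T ^ (N ^ 103) → 1 ≤ a →
    0 ≤ Real.log (Real.log (a * T + 16)) ∧
    Real.log (Real.log (a * T + 16)) ^ k ≤ ((N : ℝ) ^ 101) ^ k := by
  refine ⟨5, fun N hN T a hT hTle _ ha ha1 => ?_⟩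
  have hN5 : (5 : ℝ) ≤ N := by exact_mod_cast hN
  have hT1 : (1 : ℝ) ≤ T := by exact_mod_cast hT
  have ha1' : (1 : ℝ) ≤ a := by exact_mod_cast ha1
  have hN100 : (1 : ℝ) ≤ (N : ℝ) ^ 100 := one_le_pow₀ (by linarith)
  have h1 : (a : ℝ) * T + 16 ≤ 17 * (T : ℝ) ^ (N ^ 103 + 1) := by
    have h2 : (a : ℝ) ≤ (T : ℝ) ^ (N ^ 103) := by exact_mod_cast ha
    have h3 : (a : ℝ) * T ≤ (T : ℝ) ^ (N ^ 103 + 1) := by
      rw [pow_succ]
      exact mul_le_mul_of_nonneg_right h2 (by linarith)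
    have h4 : (1 : ℝ) ≤ (T : ℝ) ^ (N ^ 103 + 1) := one_le_pow₀ hT1
    linarith
  have hpos : (17 : ℝ) ≤ (a : ℝ) * T + 16 := by nlinarith
  have hlogT : Real.log T ≤ Real.exp (3 * (N : ℝ) ^ 100) := by
    rw [← Real.log_exp (Real.exp (3 * (N : ℝ) ^ 100))]
    exact Real.log_le_log (by linarith) hTle
  have h5 : Real.log (a * T + 16) ≤ 3 + ((N : ℝ) ^ 103 + 1) * Real.exp (3 * (N : ℝ) ^ 100) := by
    calc Real.log (a * T + 16) ≤ Real.log (17 * (T : ℝ) ^ (N ^ 103 + 1)) :=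
          Real.log_le_log (by linarith) h1
      _ = Real.log 17 + ((N ^ 103 + 1 : ℕ) : ℝ) * Real.log T := by
          rw [Real.log_mul (by norm_num) (by positivity), Real.log_pow]
      _ ≤ 3 + ((N ^ 103 + 1 : ℕ) : ℝ) * Real.exp (3 * (N : ℝ) ^ 100) := by
          apply add_le_add
          · have h17 : Real.log 17 ≤ Real.log (Real.exp 3) := by
              apply Real.log_le_log (by norm_num)
              have := Real.add_one_le_exp (3 / 2 : ℝ)
              have h2 : Real.exp 3 = Real.exp 1 ^ 3 := by rw [← Real.exp_nat_mul]; norm_num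
              rw [h2]
              have h3 := Real.exp_one_gt_d9
              have : (2.7 : ℝ) ^ 3 ≤ Real.exp 1 ^ 3 := by
                apply pow_le_pow_left₀ (by norm_num); linarith
              linarith
            rwa [Real.log_exp] at h17
          · exact mul_le_mul_of_nonneg_left hlogT (by positivity)
      _ = _ := by push_cast; ring
  have h6 : 3 + ((N : ℝ) ^ 103 + 1) * Real.exp (3 * (N : ℝ) ^ 100) ≤
      Real.exp (4 * (N : ℝ) ^ 100) := by
    have h7 : Real.exp (4 * (N : ℝ) ^ 100) =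
        Real.exp ((N : ℝ) ^ 100) * Real.exp (3 * (N : ℝ) ^ 100) := by
      rw [← Real.exp_add]; ring_nf
    have h8 : (1 : ℝ) ≤ Real.exp (3 * (N : ℝ) ^ 100) := Real.one_le_exp (by positivity)
    have h9 : (N : ℝ) ^ 103 + 4 ≤ Real.exp ((N : ℝ) ^ 100) := by
      have h10 : (N : ℝ) ^ 100 * (N : ℝ) ^ 100 / 2 ≤ Real.exp ((N : ℝ) ^ 100) := by
        have := Real.quadratic_le_exp_of_nonneg (show (0 : ℝ) ≤ (N : ℝ) ^ 100 by positivity)
        nlinarith
      have h11 : (N : ℝ) ^ 103 * 5 ≤ (N : ℝ) ^ 100 * (N : ℝ) ^ 100 := by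
        have : (N : ℝ) ^ 103 * 5 ≤ (N : ℝ) ^ 103 * N := by gcongr
        calc (N : ℝ) ^ 103 * 5 ≤ (N : ℝ) ^ 103 * N := this
          _ = (N : ℝ) ^ 104 := by ring
          _ ≤ (N : ℝ) ^ 200 := pow_le_pow_right₀ (by linarith) (by norm_num)
          _ = _ := by ring
      have h12 : (5 : ℝ) ^ 103 ≤ (N : ℝ) ^ 103 := pow_le_pow_left₀ (by norm_num) hN5 _
      have h13 : (8 : ℝ) ≤ (5 : ℝ) ^ 103 := by norm_num
      nlinarith
    rw [h7]
    nlinarith [Real.exp_pos (3 * (N : ℝ) ^ 100)]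
  have h14 : Real.log (Real.log (a * T + 16)) ≤ 4 * (N : ℝ) ^ 100 := by
    have h15 : (0 : ℝ) < Real.log (a * T + 16) := Real.log_pos (by linarith)
    calc Real.log (Real.log (a * T + 16)) ≤ Real.log (Real.exp (4 * (N : ℝ) ^ 100)) :=
          Real.log_le_log h15 (h5.trans h6)
      _ = _ := Real.log_exp _
  have h16 : 1 ≤ Real.log (a * T + 16) := by
    rw [Real.le_log_iff_exp_le (by linarith)]
    have := Real.exp_one_lt_d9
    linarith
  have h17 : 0 ≤ Real.log (Real.log (a * T + 16)) := Real.log_nonneg h16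
  refine ⟨h17, ?_⟩
  apply pow_le_pow_left₀ h17
  calc Real.log (Real.log (a * T + 16)) ≤ 4 * (N : ℝ) ^ 100 := h14
    _ ≤ N * (N : ℝ) ^ 100 := by gcongr; linarith
    _ = (N : ℝ) ^ 101 := by ring

/-- the sieve hypotheses of `mat_sieve_count`, with `S = N^K`. -/
theorem sieve_inst : ∃ K N₀ : ℕ, ∀ N ≥ N₀, ∀ (T m : ℕ), 1 ≤ T →
    (T : ℝ) ≤ Real.exp (Real.exp (3 * (N : ℝ) ^ 100)) → m ≤ N ^ 103 → ∀ W : ℝ, 3 ≤ W →
    (∀ (a : ℕ) (x : ℝ), 1 ≤ a → a ≤ T ^ m → W ≤ x →
      ∑ P ∈ (Icc 1 T).filter (fun P : ℕ => x ≤ P ∧ P.Prime ∧ (a * P + 1).Prime), (1 : ℝ) / P ≤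
        (N : ℝ) ^ K / Real.log x) ∧
    (∀ (a b : ℕ) (x : ℝ), 1 ≤ b → b < a → a ≤ T ^ m → W ≤ x →
      ∑ P ∈ (Icc 1 T).filter (fun P : ℕ => x ≤ P ∧ P.Prime ∧ (a * P + 1).Prime ∧
        (b * P + 1).Prime), (1 : ℝ) / P ≤ (N : ℝ) ^ K / (Real.log x) ^ 2) ∧
    (∀ (a : ℕ) (x z : ℝ), 1 ≤ a → a ≤ T ^ m → W ≤ x → 0 < z → z ≤ T →
      (((Icc 1 T).filter (fun P : ℕ => x ≤ P ∧ (P : ℝ) ≤ z ∧ P.Prime ∧
        (a * P + 1).Prime)).card : ℝ) ≤ (N : ℝ) ^ K * z / (Real.log x) ^ 2) ∧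
    (∀ (a b : ℕ) (x z : ℝ), 1 ≤ b → b < a → a ≤ T ^ m → W ≤ x → 0 < z → z ≤ T →
      (((Icc 1 T).filter (fun P : ℕ => x ≤ P ∧ (P : ℝ) ≤ z ∧ P.Prime ∧
        (a * P + 1).Prime ∧ (b * P + 1).Prime)).card : ℝ) ≤
        (N : ℝ) ^ K * z / (Real.log x) ^ 3) := by
  obtain ⟨C1, k1, hC1, h1⟩ := sieve2_sum
  obtain ⟨C2, k2, hC2, h2⟩ := sieve3_sum
  obtain ⟨C3, k3, hC3, h3⟩ := sieve2
  obtain ⟨C4, k4, hC4, h4⟩ := sieve3
  obtain ⟨M1, hM1⟩ := loglog_bound k1 1
  obtain ⟨M2, hM2⟩ := loglog_bound k2 1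
  obtain ⟨M3, hM3⟩ := loglog_bound k3 1
  obtain ⟨M4, hM4⟩ := loglog_bound k4 1
  obtain ⟨C, hC⟩ : ∃ C : ℕ, C1 ≤ C ∧ C2 ≤ C ∧ C3 ≤ C ∧ C4 ≤ C := by
    obtain ⟨C, hC⟩ := exists_nat_ge (max (max C1 C2) (max C3 C4))
    exact ⟨C, (le_max_left _ _).trans ((le_max_left _ _).trans hC),
      (le_max_right _ _).trans ((le_max_left _ _).trans hC),
      (le_max_left _ _).trans ((le_max_right _ _).trans hC),
      (le_max_right _ _).trans ((le_max_right _ _).trans hC)⟩
  refine ⟨101 * (k1 + k2 + k3 + k4) + 1, max (max (max M1 M2) (max M3 M4)) (max C 5),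
    fun N hN T m hT hTle hm W hW => ?_⟩
  have hN1 : M1 ≤ N := by omega
  have hN2 : M2 ≤ N := by omega
  have hN3 : M3 ≤ N := by omega
  have hN4 : M4 ≤ N := by omega
  have hN5 : C ≤ N := by omega
  have hN6 : 5 ≤ N := by omega
  have hNr : (5 : ℝ) ≤ N := by exact_mod_cast hN6
  have hCN : (C : ℝ) ≤ N := by exact_mod_cast hN5
  have hT1 : (1 : ℝ) ≤ T := by exact_mod_cast hT
  have hTm : T ^ m ≤ T ^ (N ^ 103) := Nat.pow_le_pow_right hT hm
  have key : ∀ (k : ℕ) (Ck L : ℝ), k ≤ k1 + k2 + k3 + k4 → Ck ≤ C → 0 ≤ L →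
      L ≤ ((N : ℝ) ^ 101) ^ k → Ck * L ≤ (N : ℝ) ^ (101 * (k1 + k2 + k3 + k4) + 1) := by
    intro k Ck L hk hCk hL hLk
    calc Ck * L ≤ N * ((N : ℝ) ^ 101) ^ k := by
          apply mul_le_mul (hCk.trans hCN) hLk hL (by linarith)
      _ = (N : ℝ) ^ (101 * k + 1) := by rw [← pow_mul, pow_succ]; ring
      _ ≤ _ := by
          apply pow_le_pow_right₀ (by linarith)
          omega
  refine ⟨?_, ?_, ?_, ?_⟩
  · intro a x ha ha' hx
    have hx3 : 3 ≤ x := hW.trans hx
    have hlx : 0 < Real.log x := Real.log_pos (by linarith)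
    by_cases hxT : x ≤ T
    · have hs := h1 a x T ha hx3 hxT
      rw [Nat.floor_natCast] at hs
      refine hs.trans ?_
      obtain ⟨h5, h6⟩ := hM1 N hN1 T a hT hTle le_rfl (ha'.trans hTm) ha
      gcongr
      exact key k1 C1 _ (by omega) hC.1 (pow_nonneg h5 _) h6
    · rw [Finset.filter_false_of_mem, Finset.sum_empty]
      · positivity
      · intro P hP hc
        rw [Finset.mem_Icc] at hP
        have : (P : ℝ) ≤ T := by exact_mod_cast hP.2
        linarith [hc.1]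
  · intro a b x hb hba ha' hx
    have hx3 : 3 ≤ x := hW.trans hx
    have hlx : 0 < Real.log x := Real.log_pos (by linarith)
    by_cases hxT : x ≤ T
    · have hs := h2 a b x T hb hba hx3 hxT
      rw [Nat.floor_natCast] at hs
      refine hs.trans ?_
      obtain ⟨h5, h6⟩ := hM2 N hN2 T a hT hTle le_rfl (ha'.trans hTm) (by omega)
      gcongr
      exact key k2 C2 _ (by omega) hC.2.1 (pow_nonneg h5 _) h6
    · rw [Finset.filter_false_of_mem, Finset.sum_empty]
      · positivity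
      · intro P hP hc
        rw [Finset.mem_Icc] at hP
        have : (P : ℝ) ≤ T := by exact_mod_cast hP.2
        linarith [hc.1]
  · intro a x z ha ha' hx hz hzT
    have hx3 : 3 ≤ x := hW.trans hx
    have hlx : 0 < Real.log x := Real.log_pos (by linarith)
    by_cases hxz : x ≤ z
    · have hs := h3 a z ha (hx3.trans hxz)
      have hlz : Real.log x ≤ Real.log z := Real.log_le_log (by linarith) hxz
      obtain ⟨h5, h6⟩ := hM3 N hN3 T a hT hTle le_rfl (ha'.trans hTm) ha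
      have ha1 : (1 : ℝ) ≤ a := by exact_mod_cast ha
      have hll : Real.log (Real.log (a * z + 16)) ≤ Real.log (Real.log (a * T + 16)) := by
        have h7 : 0 < (a : ℝ) * z := by positivity
        apply Real.log_le_log (Real.log_pos (by linarith))
        apply Real.log_le_log (by linarith)
        gcongr
      have hll0 : 0 ≤ Real.log (Real.log (a * z + 16)) := by
        have h7 : 0 < (a : ℝ) * z := by positivity
        apply Real.log_nonneg
        rw [Real.le_log_iff_exp_le (by linarith)]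
        have := Real.exp_one_lt_d9
        linarith
      have hcard : (((Icc 1 T).filter (fun P : ℕ => x ≤ P ∧ (P : ℝ) ≤ z ∧ P.Prime ∧
          (a * P + 1).Prime)).card : ℝ) ≤
          (((Icc 1 ⌊z⌋₊).filter (fun P => P.Prime ∧ (a * P + 1).Prime)).card : ℝ) := by
        norm_cast
        apply Finset.card_le_card
        intro P hP
        simp only [mem_filter, mem_Icc] at hP ⊢
        exact ⟨⟨hP.1.1, Nat.le_floor hP.2.2.1⟩, hP.2.2.2⟩
      refine hcard.trans (hs.trans ?_)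
      have h8 : C3 * z * Real.log (Real.log (a * z + 16)) ^ k3 ≤
          (N : ℝ) ^ (101 * (k1 + k2 + k3 + k4) + 1) * z := by
        have h9 := key k3 C3 (Real.log (Real.log (a * z + 16)) ^ k3) (by omega) hC.2.2.1
          (pow_nonneg hll0 _) ((pow_le_pow_left₀ hll0 hll _).trans h6)
        nlinarith
      have h10 : (0 : ℝ) ≤ (N : ℝ) ^ (101 * (k1 + k2 + k3 + k4) + 1) * z := by positivity
      gcongr
    · rw [Finset.filter_false_of_mem, Finset.card_empty]
      · push_cast; positivity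
      · intro P hP hc
        linarith [hc.1, hc.2.1]
  · intro a b x z hb hba ha' hx hz hzT
    have hx3 : 3 ≤ x := hW.trans hx
    have hlx : 0 < Real.log x := Real.log_pos (by linarith)
    by_cases hxz : x ≤ z
    · have hs := h4 a b z hb hba (hx3.trans hxz)
      have hlz : Real.log x ≤ Real.log z := Real.log_le_log (by linarith) hxz
      obtain ⟨h5, h6⟩ := hM4 N hN4 T a hT hTle le_rfl (ha'.trans hTm) (by omega)
      have ha1 : (1 : ℝ) ≤ a := by
        have : 1 ≤ a := by omega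
        exact_mod_cast this
      have hll : Real.log (Real.log (a * z + 16)) ≤ Real.log (Real.log (a * T + 16)) := by
        have h7 : 0 < (a : ℝ) * z := by positivity
        apply Real.log_le_log (Real.log_pos (by linarith))
        apply Real.log_le_log (by linarith)
        gcongr
      have hll0 : 0 ≤ Real.log (Real.log (a * z + 16)) := by
        have h7 : 0 < (a : ℝ) * z := by positivity
        apply Real.log_nonneg
        rw [Real.le_log_iff_exp_le (by linarith)]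
        have := Real.exp_one_lt_d9
        linarith
      have hcard : (((Icc 1 T).filter (fun P : ℕ => x ≤ P ∧ (P : ℝ) ≤ z ∧ P.Prime ∧
          (a * P + 1).Prime ∧ (b * P + 1).Prime)).card : ℝ) ≤
          (((Icc 1 ⌊z⌋₊).filter (fun P => P.Prime ∧ (a * P + 1).Prime ∧
            (b * P + 1).Prime)).card : ℝ) := by
        norm_cast
        apply Finset.card_le_card
        intro P hP
        simp only [mem_filter, mem_Icc] at hP ⊢
        exact ⟨⟨hP.1.1, Nat.le_floor hP.2.2.1⟩, hP.2.2.2⟩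
      refine hcard.trans (hs.trans ?_)
      have h8 : C4 * z * Real.log (Real.log (a * z + 16)) ^ k4 ≤
          (N : ℝ) ^ (101 * (k1 + k2 + k3 + k4) + 1) * z := by
        have h9 := key k4 C4 (Real.log (Real.log (a * z + 16)) ^ k4) (by omega) hC.2.2.2
          (pow_nonneg hll0 _) ((pow_le_pow_left₀ hll0 hll _).trans h6)
        nlinarith
      have h10 : (0 : ℝ) ≤ (N : ℝ) ^ (101 * (k1 + k2 + k3 + k4) + 1) * z := by positivity
      gcongr
    · rw [Finset.filter_false_of_mem, Finset.card_empty]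
      · push_cast; positivity
      · intro P hP hc
        linarith [hc.1, hc.2.1]

end P031
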