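import Vale.Agent.P031.CPatBg
import Vale.Agent.P031.SieveInst
import Vale.Agent.P031.MatSieve

/-! P031, [CPAT]: the bound for one collision pattern. -/

namespace P031

open Finset
open scoped Classical

/-- exponent of `1 / Zcap`. -/
theorem zcap_inv (N r s : ℕ) (cr : Fin (r + 1) → ℕ) (cc : Fin s → ℕ) :
    (Zcap N r s cr cc)⁻¹ =
      Real.exp (∑ b ∈ range (3 * N ^ 50 + 1), (capb N r cr b : ℝ) * (-Real.log (zb N s cc b))) := by
  rw [Real.exp_sum, Zcap, ← Finset.prod_inv_distrib]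
  apply Finset.prod_congr rfl
  intro b _
  have h := zb_pos N s cc b
  rw [mul_neg, Real.exp_neg, ← Real.log_pow, Real.exp_log (pow_pos h _)]

theorem split_range (N : ℕ) (hN : 1 ≤ N) (f : ℕ → ℝ) :
    ∑ b ∈ range (3 * N ^ 50 + 1), f b = ∑ b ∈ range (N ^ 30), f b +
      ∑ b ∈ Icc (N ^ 30) (3 * N ^ 50), f b := by
  have h : N ^ 30 ≤ 3 * N ^ 50 + 1 := by
    have : N ^ 30 ≤ N ^ 50 := Nat.pow_le_pow_right hN (by norm_num)
    omega
  rw [← Finset.sum_range_add_sum_Ico f h, Finset.Ico_add_one_right_eq_Icc]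

theorem rho_le (N n : ℕ) (c : Fin n → ℕ) (b : ℕ) : rho N c b ≤ n := by
  unfold rho
  exact (Finset.card_le_univ _).trans (by simp)

theorem pow_le87 {N : ℕ} (hN : 1 ≤ N) {k : ℕ} (hk : k ≤ 87) : (N : ℝ) ^ k ≤ (N : ℝ) ^ 87 :=
  pow_le_pow_right₀ (by exact_mod_cast hN) hk

theorem lz_sum (N r s : ℕ) (hN : 110 ≤ N) (hr : r ≤ N) (hs : s ≤ N ^ 102)
    (cr : Fin (r + 1) → ℕ) (cc : Fin s → ℕ) :
    ∑ b ∈ range (3 * N ^ 50 + 1), (capb N r cr b : ℝ) * (-Real.log (zb N s cc b)) ≤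
      ∑ b ∈ Icc (N ^ 30) (3 * N ^ 50),
        (N : ℝ) ^ 50 * (rho N cr b * Real.log (max 1 (rho N cc b : ℝ))) + 12 * (N : ℝ) ^ 87 := by
  have hN1 : 1 ≤ N := by omega
  have hNr : (110 : ℝ) ≤ N := by exact_mod_cast hN
  have hlogN : Real.log N ≤ N := (Real.log_le_sub_one_of_pos (by linarith)).trans (by linarith)
  have hlogN0 : 0 ≤ Real.log N := Real.log_nonneg (by linarith)
  have hsr : (s : ℝ) ≤ (N : ℝ) ^ 102 := by exact_mod_cast hs
  have hrr : (r : ℝ) ≤ N := by exact_mod_cast hr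
  have hE : (N : ℝ) ^ 34 ≤ (N : ℝ) ^ 50 := pow_le_pow_right₀ (by linarith) (by norm_num)
  -- log (s+1) ≤ N^2
  have hN102 : (1 : ℝ) ≤ (N : ℝ) ^ 102 := one_le_pow₀ (by linarith)
  have hls : Real.log ((s : ℝ) + 1) ≤ (N : ℝ) ^ 2 := by
    have h1 : (s : ℝ) + 1 ≤ (N : ℝ) ^ 103 := by
      have : (N : ℝ) ^ 103 = N * (N : ℝ) ^ 102 := by ring
      rw [this]
      nlinarith
    calc Real.log ((s : ℝ) + 1) ≤ Real.log ((N : ℝ) ^ 103) :=
          Real.log_le_log (by positivity) h1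
      _ = 103 * Real.log N := by rw [Real.log_pow]; norm_num
      _ ≤ 103 * N := by gcongr
      _ ≤ (N : ℝ) ^ 2 := by nlinarith
  have hlm : ∀ b, Real.log (max 1 (rho N cc b : ℝ)) ≤ (N : ℝ) ^ 2 := by
    intro b
    refine le_trans (Real.log_le_log (lt_of_lt_of_le one_pos (le_max_left _ _)) ?_) hls
    apply max_le
    · have : (0 : ℝ) ≤ s := Nat.cast_nonneg s
      linarith
    · have : (rho N cc b : ℝ) ≤ s := by exact_mod_cast rho_le N s cc b
      linarith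
  have hlm0 : ∀ b, 0 ≤ Real.log (max 1 (rho N cc b : ℝ)) := fun b =>
    Real.log_nonneg (le_max_left _ _)
  rw [split_range N hN1]
  have hlow : ∑ b ∈ range (N ^ 30), (capb N r cr b : ℝ) * (-Real.log (zb N s cc b)) ≤
      4 * (N : ℝ) ^ 87 := by
    have h1 : ∀ b ∈ range (N ^ 30), (capb N r cr b : ℝ) * (-Real.log (zb N s cc b)) ≤
        4 * (N : ℝ) ^ 53 := by
      intro b hb
      rw [mem_range] at hb
      have hc : (capb N r cr b : ℝ) ≤ 4 * (N : ℝ) ^ 51 := by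
        unfold capb
        rw [if_pos hb]
        push_cast
        have h50 : (0 : ℝ) < (N : ℝ) ^ 50 := by positivity
        have : (N : ℝ) ^ 51 = N * (N : ℝ) ^ 50 := by ring
        rw [this]
        nlinarith
      have hl : -Real.log (zb N s cc b) ≤ (N : ℝ) ^ 2 := by
        unfold zb
        split_ifs
        · rw [Real.log_one, neg_zero]; positivity
        · rw [one_div, Real.log_inv, neg_neg]; exact hls
      have hl0 : 0 ≤ -Real.log (zb N s cc b) := by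
        have := Real.log_nonpos (zb_pos N s cc b).le (zb_le_one N s cc b)
        linarith
      calc (capb N r cr b : ℝ) * (-Real.log (zb N s cc b)) ≤ (4 * (N : ℝ) ^ 51) * (N : ℝ) ^ 2 :=
            mul_le_mul hc hl hl0 (by positivity)
        _ = 4 * (N : ℝ) ^ 53 := by ring
    have h2 := Finset.sum_le_sum h1
    rw [Finset.sum_const, card_range, nsmul_eq_mul] at h2
    refine h2.trans ?_
    push_cast
    calc (N : ℝ) ^ 30 * (4 * (N : ℝ) ^ 53) = 4 * (N : ℝ) ^ 83 := by ring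
      _ ≤ 4 * (N : ℝ) ^ 87 := by
        have := pow_le87 hN1 (show 83 ≤ 87 by norm_num)
        linarith
  have hhigh : ∑ b ∈ Icc (N ^ 30) (3 * N ^ 50), (capb N r cr b : ℝ) *
      (-Real.log (zb N s cc b)) ≤ ∑ b ∈ Icc (N ^ 30) (3 * N ^ 50),
        (N : ℝ) ^ 50 * (rho N cr b * Real.log (max 1 (rho N cc b : ℝ))) + 8 * (N : ℝ) ^ 87 := by
    have h1 : ∀ b ∈ Icc (N ^ 30) (3 * N ^ 50), (capb N r cr b : ℝ) *
        (-Real.log (zb N s cc b)) ≤
        (N : ℝ) ^ 50 * (rho N cr b * Real.log (max 1 (rho N cc b : ℝ))) + 2 * (N : ℝ) ^ 37 := by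
      intro b hb
      rw [mem_Icc] at hb
      have hN30 : 1 ≤ N ^ 30 := Nat.one_le_pow _ _ (by omega)
      have hl : -Real.log (zb N s cc b) = Real.log (max 1 (rho N cc b : ℝ)) := by
        unfold zb
        rw [if_neg (by omega), if_neg (by omega), one_div, Real.log_inv, neg_neg]
      have hc : (capb N r cr b : ℝ) = (rho N cr b : ℝ) * ((N : ℝ) ^ 50 + (N : ℝ) ^ 34) := by
        unfold capb
        rw [if_neg (by omega)]
        push_cast
        ring
      rw [hl, hc]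
      have h3 : (rho N cr b : ℝ) ≤ 2 * N := by
        have : (rho N cr b : ℝ) ≤ r + 1 := by exact_mod_cast rho_le N (r + 1) cr b
        linarith
      have h4 : (rho N cr b : ℝ) * Real.log (max 1 (rho N cc b : ℝ)) ≤ 2 * N * (N : ℝ) ^ 2 :=
        mul_le_mul h3 (hlm b) (hlm0 b) (by positivity)
      have h5 : (0 : ℝ) ≤ (N : ℝ) ^ 34 := by positivity
      have h6 : (N : ℝ) ^ 34 * ((rho N cr b : ℝ) * Real.log (max 1 (rho N cc b : ℝ))) ≤
          (N : ℝ) ^ 34 * (2 * N * (N : ℝ) ^ 2) := mul_le_mul_of_nonneg_left h4 h5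
      calc (rho N cr b : ℝ) * ((N : ℝ) ^ 50 + (N : ℝ) ^ 34) * Real.log (max 1 (rho N cc b : ℝ))
          = (N : ℝ) ^ 50 * (rho N cr b * Real.log (max 1 (rho N cc b : ℝ))) +
            (N : ℝ) ^ 34 * ((rho N cr b : ℝ) * Real.log (max 1 (rho N cc b : ℝ))) := by ring
        _ ≤ (N : ℝ) ^ 50 * (rho N cr b * Real.log (max 1 (rho N cc b : ℝ))) +
            (N : ℝ) ^ 34 * (2 * N * (N : ℝ) ^ 2) := by linarith
        _ = _ := by ring
    have h2 := Finset.sum_le_sum h1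
    rw [Finset.sum_add_distrib, Finset.sum_const, nsmul_eq_mul] at h2
    refine h2.trans ?_
    have h3 : (((Icc (N ^ 30) (3 * N ^ 50)).card : ℕ) : ℝ) ≤ 4 * (N : ℝ) ^ 50 := by
      rw [Nat.card_Icc]
      have : 3 * N ^ 50 + 1 - N ^ 30 ≤ 4 * N ^ 50 := by
        have : 1 ≤ N ^ 50 := Nat.one_le_pow _ _ (by omega)
        omega
      exact_mod_cast this
    have h4 : (((Icc (N ^ 30) (3 * N ^ 50)).card : ℕ) : ℝ) * (2 * (N : ℝ) ^ 37) ≤
        4 * (N : ℝ) ^ 50 * (2 * (N : ℝ) ^ 37) := mul_le_mul_of_nonneg_right h3 (by positivity)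
    have h5 : 4 * (N : ℝ) ^ 50 * (2 * (N : ℝ) ^ 37) = 8 * (N : ℝ) ^ 87 := by ring
    linarith
  linarith

theorem gb_sum (N r s : ℕ) (hN : 110 ≤ N) (hr : r ≤ N) {C₀ : ℝ} (hC0 : 0 ≤ C₀) (hCN : C₀ ≤ N)
    (cr : Fin (r + 1) → ℕ) (cc : Fin s → ℕ) :
    ∑ b ∈ range (3 * N ^ 50 + 1), gb N r s cr cc b * ((N : ℝ) ^ 50 + C₀) ≤
      ∑ b ∈ Icc (N ^ 30) (3 * N ^ 50),
        (N : ℝ) ^ 50 * (if 1 ≤ rho N cc b then (rho N cr b : ℝ) else 0) +
      12 * (N : ℝ) ^ 87 + 4 * (N : ℝ) ^ 51 * (s + 1) := by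
  have hN1 : 1 ≤ N := by omega
  have hNr : (110 : ℝ) ≤ N := by exact_mod_cast hN
  have hrr : (r : ℝ) ≤ N := by exact_mod_cast hr
  have h50 : (N : ℝ) ≤ (N : ℝ) ^ 50 := le_self_pow₀ (by linarith) (by norm_num)
  have hpos50 : (0 : ℝ) < (N : ℝ) ^ 50 := by positivity
  have hCC : (N : ℝ) ^ 50 + C₀ ≤ 2 * (N : ℝ) ^ 50 := by linarith
  rw [split_range N hN1]
  have hN30 : 1 ≤ N ^ 30 := Nat.one_le_pow _ _ (by omega)
  have hlow : ∑ b ∈ range (N ^ 30), gb N r s cr cc b * ((N : ℝ) ^ 50 + C₀) ≤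
      4 * (N : ℝ) ^ 87 + 4 * (N : ℝ) ^ 51 * (s + 1) := by
    obtain ⟨m, hm⟩ : ∃ m, N ^ 30 = m + 1 := ⟨N ^ 30 - 1, by omega⟩
    rw [hm, Finset.sum_range_succ']
    have h0 : gb N r s cr cc 0 * ((N : ℝ) ^ 50 + C₀) ≤ 4 * (N : ℝ) ^ 51 * (s + 1) := by
      unfold gb
      rw [if_pos rfl]
      have h1 : ((r : ℝ) + 2) * (s + 1) ≤ 2 * N * (s + 1) := by
        gcongr
        linarith
      calc ((r : ℝ) + 2) * (s + 1) * ((N : ℝ) ^ 50 + C₀) ≤
          2 * N * (s + 1) * (2 * (N : ℝ) ^ 50) := by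
            apply mul_le_mul h1 hCC (by positivity) (by positivity)
        _ = 4 * (N : ℝ) ^ 51 * (s + 1) := by ring
    have h1 : ∀ b ∈ range m, gb N r s cr cc (b + 1) * ((N : ℝ) ^ 50 + C₀) ≤
        4 * (N : ℝ) ^ 51 := by
      intro b hb
      rw [mem_range] at hb
      unfold gb
      rw [if_neg (by omega), if_pos (by omega)]
      calc ((r : ℝ) + 2) * ((N : ℝ) ^ 50 + C₀) ≤ 2 * N * (2 * (N : ℝ) ^ 50) := by
            apply mul_le_mul (by linarith) hCC (by positivity) (by positivity)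
        _ = 4 * (N : ℝ) ^ 51 := by ring
    have h2 := Finset.sum_le_sum h1
    rw [Finset.sum_const, card_range, nsmul_eq_mul] at h2
    have h3 : (m : ℝ) ≤ (N : ℝ) ^ 30 := by
      have : m ≤ N ^ 30 := by omega
      exact_mod_cast this
    have h4 : (m : ℝ) * (4 * (N : ℝ) ^ 51) ≤ (N : ℝ) ^ 30 * (4 * (N : ℝ) ^ 51) := by gcongr
    have h5 : (N : ℝ) ^ 30 * (4 * (N : ℝ) ^ 51) = 4 * (N : ℝ) ^ 81 := by ring
    have h6 := pow_le87 hN1 (show 81 ≤ 87 by norm_num)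
    linarith
  have hhigh : ∑ b ∈ Icc (N ^ 30) (3 * N ^ 50), gb N r s cr cc b * ((N : ℝ) ^ 50 + C₀) ≤
      ∑ b ∈ Icc (N ^ 30) (3 * N ^ 50),
        (N : ℝ) ^ 50 * (if 1 ≤ rho N cc b then (rho N cr b : ℝ) else 0) + 8 * (N : ℝ) ^ 87 := by
    have h1 : ∀ b ∈ Icc (N ^ 30) (3 * N ^ 50), gb N r s cr cc b * ((N : ℝ) ^ 50 + C₀) ≤
        (N : ℝ) ^ 50 * (if 1 ≤ rho N cc b then (rho N cr b : ℝ) else 0) + 2 * (N : ℝ) ^ 2 := by
      intro b hb
      rw [mem_Icc] at hb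
      unfold gb
      rw [if_neg (by omega), if_neg (by omega)]
      have h3 : (if 1 ≤ rho N cc b then (rho N cr b : ℝ) else 0) ≤ 2 * N := by
        split_ifs
        · have : (rho N cr b : ℝ) ≤ r + 1 := by exact_mod_cast rho_le N (r + 1) cr b
          linarith
        · positivity
      have h4 : 0 ≤ (if 1 ≤ rho N cc b then (rho N cr b : ℝ) else 0) := by
        split_ifs <;> positivity
      have h5 : (if 1 ≤ rho N cc b then (rho N cr b : ℝ) else 0) * C₀ ≤ 2 * N * N :=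
        mul_le_mul h3 hCN hC0 (by positivity)
      calc (if 1 ≤ rho N cc b then (rho N cr b : ℝ) else 0) * ((N : ℝ) ^ 50 + C₀) =
          (N : ℝ) ^ 50 * (if 1 ≤ rho N cc b then (rho N cr b : ℝ) else 0) +
          (if 1 ≤ rho N cc b then (rho N cr b : ℝ) else 0) * C₀ := by ring
        _ ≤ _ := by linarith [show (2 : ℝ) * N * N = 2 * (N : ℝ) ^ 2 by ring]
    have h2 := Finset.sum_le_sum h1
    rw [Finset.sum_add_distrib, Finset.sum_const, nsmul_eq_mul] at h2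
    refine h2.trans ?_
    have h3 : (((Icc (N ^ 30) (3 * N ^ 50)).card : ℕ) : ℝ) ≤ 4 * (N : ℝ) ^ 50 := by
      rw [Nat.card_Icc]
      have : 3 * N ^ 50 + 1 - N ^ 30 ≤ 4 * N ^ 50 := by
        have : 1 ≤ N ^ 50 := Nat.one_le_pow _ _ (by omega)
        omega
      exact_mod_cast this
    have h4 : (((Icc (N ^ 30) (3 * N ^ 50)).card : ℕ) : ℝ) * (2 * (N : ℝ) ^ 2) ≤
        4 * (N : ℝ) ^ 50 * (2 * (N : ℝ) ^ 2) := mul_le_mul_of_nonneg_right h3 (by positivity)
    have h5 : 4 * (N : ℝ) ^ 50 * (2 * (N : ℝ) ^ 2) = 8 * (N : ℝ) ^ 52 := by ring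
    have h6 := pow_le87 hN1 (show 52 ≤ 87 by norm_num)
    linarith
  linarith

/-- `(log w_y)⁻¹ ≤ exp (N^2 - y)`. -/
theorem log_wP_inv (N y : ℕ) (hN : 110 ≤ N) :
    (Real.log (wP N y))⁻¹ ≤ Real.exp ((N : ℝ) ^ 2 - y) := by
  have hNr : (110 : ℝ) ≤ N := by exact_mod_cast hN
  unfold wP
  rw [Real.log_exp, inv_div, Real.exp_sub]
  apply div_le_div_of_nonneg_right _ (Real.exp_pos _).le
  have hlogN : Real.log N ≤ N := (Real.log_le_sub_one_of_pos (by linarith)).trans (by linarith)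
  calc (N : ℝ) ^ 110 = Real.exp (110 * Real.log N) := by
        rw [← Real.rpow_natCast, Real.rpow_def_of_pos (by linarith)]
        push_cast
        ring_nf
    _ ≤ Real.exp ((N : ℝ) ^ 2) := by
        apply Real.exp_le_exp.2
        nlinarith

theorem log_wP_pos (N y : ℕ) (hN : 1 ≤ N) : 0 < Real.log (wP N y) := by
  unfold wP
  rw [Real.log_exp]
  have : (0 : ℝ) < N := by exact_mod_cast hN
  positivity

/-- the threshold `W = exp exp (N^50)` is below all `w_y`, `y ≥ N^80`. -/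
theorem W_le_wP (N y : ℕ) (hN : 110 ≤ N) (hy : N ^ 80 ≤ y) :
    Real.exp (Real.exp ((N : ℝ) ^ 50)) ≤ wP N y := by
  have hNr : (110 : ℝ) ≤ N := by exact_mod_cast hN
  have hyr : (N : ℝ) ^ 80 ≤ y := by exact_mod_cast hy
  unfold wP
  apply Real.exp_le_exp.2
  rw [le_div_iff₀ (by positivity)]
  have hlogN : Real.log N ≤ N := (Real.log_le_sub_one_of_pos (by linarith)).trans (by linarith)
  have h1 : (N : ℝ) ^ 110 ≤ Real.exp ((N : ℝ) ^ 2) := by
    calc (N : ℝ) ^ 110 = Real.exp (110 * Real.log N) := by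
          rw [← Real.rpow_natCast, Real.rpow_def_of_pos (by linarith)]
          push_cast
          ring_nf
      _ ≤ Real.exp ((N : ℝ) ^ 2) := by
          apply Real.exp_le_exp.2
          nlinarith
  calc Real.exp ((N : ℝ) ^ 50) * (N : ℝ) ^ 110 ≤
      Real.exp ((N : ℝ) ^ 50) * Real.exp ((N : ℝ) ^ 2) := by gcongr
    _ = Real.exp ((N : ℝ) ^ 50 + (N : ℝ) ^ 2) := by rw [Real.exp_add]
    _ ≤ Real.exp y := by
        apply Real.exp_le_exp.2
        have h2 : (N : ℝ) ^ 2 ≤ (N : ℝ) ^ 50 := pow_le_pow_right₀ (by linarith) (by norm_num)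
        have h3 : (N : ℝ) * (N : ℝ) ^ 50 ≤ (N : ℝ) ^ 80 := by
          calc (N : ℝ) * (N : ℝ) ^ 50 = (N : ℝ) ^ 51 := by ring
            _ ≤ _ := pow_le_pow_right₀ (by linarith) (by norm_num)
        have h4 : (0 : ℝ) < (N : ℝ) ^ 50 := by positivity
        nlinarith

/-- counting through the injection into matrices. -/
theorem count_le_matrix (N r s : ℕ) (hN : 2 ≤ N) (cr : Fin (r + 1) → ℕ) (cc : Fin s → ℕ) (T : ℕ)
    (hT : (T : ℝ) ≤ Real.exp (Real.exp (3 * (N : ℝ) ^ 100))) :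
    (((Nat.primesLE (T + 1) ×ˢ Icc 1 T).filter
      (fun p => RPat N r s cr cc p.1 p.2)).card : ℝ) * Zcap N r s cr cc ≤
    ∑ d ∈ (Fintype.piFinset (fun _ : Option (Fin (r + 1)) =>
        Fintype.piFinset (fun _ : Option (Fin s) => Icc 1 T))).filter
        (fun d => Adm (univ.map Function.Embedding.some) (univ.map Function.Embedding.some)
          (fun i => wP N (lvO N cr i)) (fun j => wP N (lvO N cc j))
          (Real.exp (Real.exp ((N : ℝ) ^ 50))) d ∧ ∏ i, ∏ j, d i j ≤ T),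
      ∏ i, ∏ j, cm (zij N r s cr cc i j) (d i j) := by
  set F := (Nat.primesLE (T + 1) ×ˢ Icc 1 T).filter (fun p => RPat N r s cr cc p.1 p.2) with hF
  have hex : ∀ p : ℕ × ℕ, ∃ d : Option (Fin (r + 1)) → Option (Fin s) → ℕ, p ∈ F →
      (d ∈ Fintype.piFinset (fun _ : Option (Fin (r + 1)) =>
        Fintype.piFinset (fun _ : Option (Fin s) => Icc 1 T)) ∧
      Adm (univ.map Function.Embedding.some) (univ.map Function.Embedding.some)
        (fun i => wP N (lvO N cr i)) (fun j => wP N (lvO N cc j))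
        (Real.exp (Real.exp ((N : ℝ) ^ 50))) d ∧
      ∏ i, ∏ j, d i j = p.2 ∧ ∏ j, d (some 0) j = p.1 - 1 ∧ 2 ≤ p.1 ∧
      Zcap N r s cr cc ≤ ∏ i, ∏ j, cm (zij N r s cr cc i j) (d i j)) := by
    intro p
    by_cases hp : p ∈ F
    · have hp' := hp
      rw [hF, mem_filter, mem_product, mem_Icc] at hp'
      obtain ⟨d, hd⟩ := rpat_matrix N r s hN cr cc T p.1 p.2 hp'.1.2.1 hp'.1.2.2 hT hp'.2
      exact ⟨d, fun _ => hd⟩
    · exact ⟨fun _ _ => 0, fun h => absurd h hp⟩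
  choose d hd using hex
  have hinj : Set.InjOn d (F : Set (ℕ × ℕ)) := by
    intro p hp q hq hpq
    obtain ⟨-, -, h1, h2, h3, -⟩ := hd p hp
    obtain ⟨-, -, h4, h5, h6, -⟩ := hd q hq
    rw [hpq] at h1 h2
    ext
    · omega
    · omega
  calc (F.card : ℝ) * Zcap N r s cr cc = ∑ _p ∈ F, Zcap N r s cr cc := by
        rw [Finset.sum_const, nsmul_eq_mul]
    _ ≤ ∑ p ∈ F, ∏ i, ∏ j, cm (zij N r s cr cc i j) (d p i j) :=
        Finset.sum_le_sum fun p hp => (hd p hp).2.2.2.2.2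
    _ = ∑ e ∈ F.image d, ∏ i, ∏ j, cm (zij N r s cr cc i j) (e i j) := by
        rw [Finset.sum_image hinj]
    _ ≤ _ := by
        apply Finset.sum_le_sum_of_subset_of_nonneg
        · intro e he
          rw [mem_image] at he
          obtain ⟨p, hp, rfl⟩ := he
          obtain ⟨h1, h2, h3, -⟩ := hd p hp
          rw [mem_filter]
          refine ⟨h1, h2, ?_⟩
          rw [h3]
          rw [hF, mem_filter, mem_product, mem_Icc] at hp
          exact hp.1.2.2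
        · intro e _ _
          apply Finset.prod_nonneg
          intro i _
          apply Finset.prod_nonneg
          intro j _
          exact cm_nonneg _ (fun p => zij_nonneg _ _ _ _ _ _ _ p) _

theorem exp_combine (t a b c d e : ℝ) :
    t * Real.exp a * Real.exp b * Real.exp c * Real.exp d * Real.exp e =
      t * Real.exp (a + b + c + d + e) := by
  rw [Real.exp_add, Real.exp_add, Real.exp_add, Real.exp_add]
  ring

/-- the final numerical inequality. -/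
theorem final_num (x r s c0 A LZ GB Sr Sc L1 L2 : ℝ) (hx : 110 ≤ x) (hrx : r ≤ x)
    (hs0 : 0 ≤ s) (hlz : LZ ≤ L1 + 12 * x ^ 87)
    (hgb : GB ≤ L2 + 12 * x ^ 87 + 4 * x ^ 51 * (s + 1))
    (hkey : L1 + L2 - Sr - Sc ≤ A - c0 + x ^ 80 + (r + 1) * x ^ 50 - s * (x ^ 80 - x ^ 50)) :
    x ^ 2 * (r + 1 + s) + (x ^ 2 - c0) + ((r + 1) * x ^ 2 - Sr) + (s * x ^ 2 - Sc) +
      ((r + 2) * (s + 1) + GB) + LZ ≤ -2 * c0 + A + x ^ 88 - s * x ^ 79 := by
  have hp : ∀ k : ℕ, k ≤ 87 → x ^ k ≤ x ^ 87 := fun k hk => pow_le_pow_right₀ (by linarith) hk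
  have hpos87 : (0 : ℝ) < x ^ 87 := by positivity
  have hsc : s * (2 * x ^ 2 + (x + 2) + 4 * x ^ 51 + x ^ 50 + x ^ 79) ≤ s * x ^ 80 := by
    apply mul_le_mul_of_nonneg_left _ hs0
    have e1 : x ^ 2 ≤ x ^ 79 := pow_le_pow_right₀ (by linarith) (by norm_num)
    have e2 : x ^ 51 ≤ x ^ 79 := pow_le_pow_right₀ (by linarith) (by norm_num)
    have e3 : x ^ 50 ≤ x ^ 79 := pow_le_pow_right₀ (by linarith) (by norm_num)
    have e4 : x ≤ x ^ 79 := le_self_pow₀ (by linarith) (by norm_num)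
    have e5 : x ^ 80 = x * x ^ 79 := by ring
    have e7 : (110 : ℝ) * x ^ 79 ≤ x * x ^ 79 := by gcongr
    rw [e5]
    linarith
  have hrs : r * s ≤ x * s := mul_le_mul_of_nonneg_right hrx hs0
  have hr2 : r * x ^ 2 ≤ x ^ 3 := by
    calc r * x ^ 2 ≤ x * x ^ 2 := by gcongr
      _ = _ := by ring
  have hr3 : r * x ^ 50 ≤ x ^ 51 := by
    calc r * x ^ 50 ≤ x * x ^ 50 := by gcongr
      _ = _ := by ring
  have h88 : x ^ 88 = x * x ^ 87 := by ring
  have h87 : (110 : ℝ) * x ^ 87 ≤ x * x ^ 87 := by gcongr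
  have q1 := hp 1 (by norm_num)
  have q2 := hp 2 (by norm_num)
  have q3 := hp 3 (by norm_num)
  have q50 := hp 50 (by norm_num)
  have q51 := hp 51 (by norm_num)
  have q80 := hp 80 (by norm_num)
  rw [pow_one] at q1
  have hone : (1 : ℝ) ≤ x ^ 87 := one_le_pow₀ (by linarith)
  -- collect
  have expand : x ^ 2 * (r + 1 + s) + (x ^ 2 - c0) + ((r + 1) * x ^ 2 - Sr) + (s * x ^ 2 - Sc) +
      ((r + 2) * (s + 1) + GB) + LZ ≤
      2 * (r * x ^ 2) + 3 * x ^ 2 + 2 * (s * x ^ 2) + r * s + r + 2 * s + 2 +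
      24 * x ^ 87 + 4 * (s * x ^ 51) + 4 * x ^ 51 - c0 + (A - c0 + x ^ 80 +
      (r * x ^ 50 + x ^ 50) - s * x ^ 80 + s * x ^ 50) := by
    nlinarith
  refine expand.trans ?_
  have hsc' : 2 * (s * x ^ 2) + (x * s + 2 * s) + 4 * (s * x ^ 51) + s * x ^ 50 + s * x ^ 79 ≤
      s * x ^ 80 := by linarith
  linarith

theorem rpat_count : ∃ N₀ : ℕ, ∀ N ≥ N₀, ∀ (r s : ℕ) (cr : Fin (r + 1) → ℕ) (cc : Fin s → ℕ),
    r ≤ N → s ≤ N ^ 102 → Antitone cr → (∀ i, N ^ 80 ≤ cr i ∧ cr i ≤ 2 * N ^ 100) →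
    (∀ j, N ^ 80 ≤ cc j ∧ cc j ≤ 3 * N ^ 100) →
    ∀ t : ℝ, 1 ≤ t → t ≤ Real.exp (Real.exp (3 * (N : ℝ) ^ 100)) →
    (((Nat.primesLE (⌊t⌋₊ + 1) ×ˢ Icc 1 ⌊t⌋₊).filter
      (fun p => RPat N r s cr cc p.1 p.2)).card : ℝ) ≤
      t * Real.exp (-2 * (cr 0 : ℝ) + al 1 (List.ofFn (fun i : Fin r => cr i.succ)) +
        (N : ℝ) ^ 88 - s * (N : ℝ) ^ 79) := by
  obtain ⟨K, M₀, hK⟩ := sieve_inst
  obtain ⟨C₀, hC₀, hC⟩ := level_mass
  obtain ⟨C, hCC⟩ := exists_nat_ge C₀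
  refine ⟨max (max M₀ C) (max 110 (K + 106)), fun N hN r s cr cc hr hs hcr h1 h2 t ht htle => ?_⟩
  have hNM : M₀ ≤ N := by omega
  have hNC : C ≤ N := by omega
  have hN110 : 110 ≤ N := by omega
  have hNK : K + 106 ≤ N := by omega
  have hN1 : 1 ≤ N := by omega
  have hNr : (110 : ℝ) ≤ N := by exact_mod_cast hN110
  have hCN : C₀ ≤ N := hCC.trans (by exact_mod_cast hNC)
  have hrr : (r : ℝ) ≤ N := by exact_mod_cast hr
  have hsr : (s : ℝ) ≤ (N : ℝ) ^ 102 := by exact_mod_cast hs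
  set T : ℕ := ⌊t⌋₊ with hTdef
  have hT1 : 1 ≤ T := by rw [hTdef]; exact Nat.le_floor (by exact_mod_cast ht)
  have hTt : (T : ℝ) ≤ t := Nat.floor_le (by linarith)
  have hTle : (T : ℝ) ≤ Real.exp (Real.exp (3 * (N : ℝ) ^ 100)) := hTt.trans htle
  set W : ℝ := Real.exp (Real.exp ((N : ℝ) ^ 50)) with hW
  have hW3 : 3 ≤ W := by
    rw [hW]
    have h3 : (2 : ℝ) ≤ Real.exp ((N : ℝ) ^ 50) := by
      have := Real.add_one_le_exp ((N : ℝ) ^ 50)
      have h4 : (1 : ℝ) ≤ (N : ℝ) ^ 50 := one_le_pow₀ (by linarith)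
      linarith
    have := Real.add_one_le_exp (Real.exp ((N : ℝ) ^ 50))
    linarith
  -- number of index cells
  have hm : Fintype.card (Option (Fin (r + 1))) + Fintype.card (Option (Fin s)) ≤ N ^ 103 := by
    simp only [Fintype.card_option, Fintype.card_fin]
    have h3 : N ^ 103 = N * N ^ 102 := by ring
    have h4 : N ≤ N ^ 102 := Nat.le_self_pow (by norm_num) N
    have h5 : 4 * N ^ 102 ≤ N * N ^ 102 := Nat.mul_le_mul_right _ (by omega)
    omega
  obtain ⟨hS1, hS2, hC1, hC2⟩ := hK N hNM T _ hT1 hTle hm W hW3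
  have hms := mat_sieve_count (ι := Option (Fin (r + 1))) (κ := Option (Fin s)) T W ((N : ℝ) ^ K)
    hW3 (by positivity) hS1 hS2 hC1 hC2
    (fun i j n => cm (zij N r s cr cc i j) n)
    (fun i j n => cm_nonneg _ (fun p => zij_nonneg _ _ _ _ _ _ _ p) _)
    (by
      intro i j n P hn hP
      rw [cm_mul _ _ _ hP.pos hn, cm_prime _ hP]
      have h3 := zij_le_one N r s cr cc i j P
      have h4 := cm_nonneg _ (fun p => zij_nonneg N r s cr cc i j p) n
      nlinarith)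
    (fun i => wP N (lvO N cr i)) (fun j => wP N (lvO N cc j))
    (univ.map Function.Embedding.some) (univ.map Function.Embedding.some)
    (by
      intro i hi
      rw [mem_map] at hi
      obtain ⟨i, -, rfl⟩ := hi
      have h3 := W_le_wP N (cr i) hN110 (h1 i).1
      exact h3)
    (by
      intro j hj
      rw [mem_map] at hj
      obtain ⟨j, -, rfl⟩ := hj
      have h3 := W_le_wP N (cc j) hN110 (h2 j).1
      exact h3)
    (some 0) (by rw [mem_map]; exact ⟨0, mem_univ _, rfl⟩)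
  have hcount := count_le_matrix N r s (by omega) cr cc T hTle
  have hbg := bg_total hC N r s T hN1 cr cc hTle
  have hZ := Zcap_pos N r s cr cc
  -- combine
  have hcard1 : (univ.map Function.Embedding.some : Finset (Option (Fin (r + 1)))).card = r + 1 := by
    rw [Finset.card_map, Finset.card_univ, Fintype.card_fin]
  have hcard2 : (univ.map Function.Embedding.some : Finset (Option (Fin s))).card = s := by
    rw [Finset.card_map, Finset.card_univ, Fintype.card_fin]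
  rw [hcard1, hcard2, Finset.prod_map, Finset.prod_map] at hms
  -- bound of the factors
  have hF1 : (max 1 ((N : ℝ) ^ K * ((Fintype.card (Option (Fin (r + 1))) : ℝ) *
      (Fintype.card (Option (Fin s)) : ℝ)))) ^ (r + 1 + s) ≤
      Real.exp ((N : ℝ) ^ 2 * ((r : ℝ) + 1 + s)) := by
    have h3 : max 1 ((N : ℝ) ^ K * ((Fintype.card (Option (Fin (r + 1))) : ℝ) *
      (Fintype.card (Option (Fin s)) : ℝ))) ≤ (N : ℝ) ^ (K + 105) := by
      apply max_le
      · exact one_le_pow₀ (by linarith)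
      · simp only [Fintype.card_option, Fintype.card_fin]
        push_cast
        have hNN : (110 : ℝ) * N ≤ N * N := mul_le_mul_of_nonneg_right hNr (by linarith)
        have h4 : (r : ℝ) + 1 + 1 ≤ (N : ℝ) ^ 2 := by
          rw [pow_two]
          linarith
        have h5 : (s : ℝ) + 1 ≤ (N : ℝ) ^ 103 := by
          have h6 : (N : ℝ) ^ 103 = N * (N : ℝ) ^ 102 := by ring
          have h7 : (1 : ℝ) ≤ (N : ℝ) ^ 102 := one_le_pow₀ (by linarith)
          have h8 : (110 : ℝ) * (N : ℝ) ^ 102 ≤ N * (N : ℝ) ^ 102 :=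
            mul_le_mul_of_nonneg_right hNr (by linarith)
          rw [h6]; linarith
        calc (N : ℝ) ^ K * (((r : ℝ) + 1 + 1) * ((s : ℝ) + 1)) ≤
            (N : ℝ) ^ K * ((N : ℝ) ^ 2 * (N : ℝ) ^ 103) := by gcongr
          _ = (N : ℝ) ^ (K + 105) := by ring
    have h4 : (N : ℝ) ^ (K + 105) ≤ Real.exp ((N : ℝ) ^ 2) := by
      have hlogN : Real.log N ≤ N :=
        (Real.log_le_sub_one_of_pos (by linarith)).trans (by linarith)
      have hlogN0 : 0 ≤ Real.log N := Real.log_nonneg (by linarith)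
      calc (N : ℝ) ^ (K + 105) = Real.exp (((K + 105 : ℕ) : ℝ) * Real.log N) := by
            rw [← Real.rpow_natCast, Real.rpow_def_of_pos (by linarith)]
            ring_nf
        _ ≤ Real.exp ((N : ℝ) ^ 2) := by
            apply Real.exp_le_exp.2
            have h5 : ((K + 105 : ℕ) : ℝ) ≤ N := by
              have : K + 105 ≤ N := by omega
              exact_mod_cast this
            nlinarith
    calc _ ≤ (Real.exp ((N : ℝ) ^ 2)) ^ (r + 1 + s) :=
          pow_le_pow_left₀ (le_trans zero_le_one (le_max_left _ _)) (h3.trans h4) _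
      _ = Real.exp ((N : ℝ) ^ 2 * ((r : ℝ) + 1 + s)) := by
          rw [← Real.exp_nat_mul]
          push_cast
          ring_nf
  have hF2 : (Real.log (wP N (lvO N cr (some 0))))⁻¹ ≤ Real.exp ((N : ℝ) ^ 2 - cr 0) :=
    log_wP_inv N (cr 0) hN110
  have hF3 : ∏ i : Fin (r + 1), (Real.log (wP N (lvO N cr (Function.Embedding.some i))))⁻¹ ≤
      Real.exp (((r : ℝ) + 1) * (N : ℝ) ^ 2 - ∑ i, (cr i : ℝ)) := by
    calc _ ≤ ∏ i : Fin (r + 1), Real.exp ((N : ℝ) ^ 2 - cr i) := by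
          apply Finset.prod_le_prod
          · intro i _
            exact inv_nonneg.2 (log_wP_pos _ _ hN1).le
          · intro i _
            exact log_wP_inv N (cr i) hN110
      _ = _ := by
          rw [← Real.exp_sum, Finset.sum_sub_distrib, Finset.sum_const, Finset.card_univ,
            Fintype.card_fin, nsmul_eq_mul]
          push_cast
          ring_nf
  have hF4 : ∏ j : Fin s, (Real.log (wP N (lvO N cc (Function.Embedding.some j))))⁻¹ ≤
      Real.exp ((s : ℝ) * (N : ℝ) ^ 2 - ∑ j, (cc j : ℝ)) := by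
    calc _ ≤ ∏ j : Fin s, Real.exp ((N : ℝ) ^ 2 - cc j) := by
          apply Finset.prod_le_prod
          · intro j _
            exact inv_nonneg.2 (log_wP_pos _ _ hN1).le
          · intro j _
            exact log_wP_inv N (cc j) hN110
      _ = _ := by
          rw [← Real.exp_sum, Finset.sum_sub_distrib, Finset.sum_const, Finset.card_univ,
            Fintype.card_fin, nsmul_eq_mul]
  have hF30 : 0 ≤ ∏ i : Fin (r + 1), (Real.log (wP N (lvO N cr (Function.Embedding.some i))))⁻¹ :=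
    Finset.prod_nonneg fun i _ => inv_nonneg.2 (log_wP_pos _ _ hN1).le
  have hF40 : 0 ≤ ∏ j : Fin s, (Real.log (wP N (lvO N cc (Function.Embedding.some j))))⁻¹ :=
    Finset.prod_nonneg fun j _ => inv_nonneg.2 (log_wP_pos _ _ hN1).le
  have hF20 : 0 ≤ (Real.log (wP N (lvO N cr (some 0))))⁻¹ :=
    inv_nonneg.2 (log_wP_pos _ _ hN1).le
  have hBG0 : 0 ≤ ∑ d ∈ Fintype.piFinset (fun _ : Option (Fin (r + 1)) =>
        Fintype.piFinset (fun _ : Option (Fin s) => Icc 1 T)),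
      ∏ i, ∏ j, (cm (zij N r s cr cc i j) (d i j) / d i j) := by
    apply Finset.sum_nonneg
    intro d _
    apply Finset.prod_nonneg
    intro i _
    apply Finset.prod_nonneg
    intro j _
    exact div_nonneg (cm_nonneg _ (fun p => zij_nonneg _ _ _ _ _ _ _ p) _) (Nat.cast_nonneg _)
  -- final chain
  have hchain : (((Nat.primesLE (T + 1) ×ˢ Icc 1 T).filter
      (fun p => RPat N r s cr cc p.1 p.2)).card : ℝ) * Zcap N r s cr cc ≤
      t * Real.exp ((N : ℝ) ^ 2 * ((r : ℝ) + 1 + s)) * Real.exp ((N : ℝ) ^ 2 - cr 0) *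
      Real.exp (((r : ℝ) + 1) * (N : ℝ) ^ 2 - ∑ i, (cr i : ℝ)) *
      Real.exp ((s : ℝ) * (N : ℝ) ^ 2 - ∑ j, (cc j : ℝ)) *
      Real.exp (((r : ℝ) + 2) * (s + 1) +
        ∑ b ∈ range (3 * N ^ 50 + 1), gb N r s cr cc b * ((N : ℝ) ^ 50 + C₀)) := by
    refine (hcount.trans hms).trans ?_
    have ht0 : (0 : ℝ) ≤ t := by linarith
    have hT0 : (0 : ℝ) ≤ T := Nat.cast_nonneg T
    have hm0 : (0 : ℝ) ≤ (max 1 ((N : ℝ) ^ K * ((Fintype.card (Option (Fin (r + 1))) : ℝ) *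
      (Fintype.card (Option (Fin s)) : ℝ)))) ^ (r + 1 + s) :=
      pow_nonneg (le_trans zero_le_one (le_max_left _ _)) _
    apply mul_le_mul _ hbg hBG0 (by positivity)
    apply mul_le_mul _ hF4 hF40 (by positivity)
    apply mul_le_mul _ hF3 hF30 (by positivity)
    apply mul_le_mul _ hF2 hF20 (by positivity)
    exact mul_le_mul hTt hF1 hm0 ht0
  have hfin : (((Nat.primesLE (T + 1) ×ˢ Icc 1 T).filter
      (fun p => RPat N r s cr cc p.1 p.2)).card : ℝ) ≤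
      t * Real.exp ((N : ℝ) ^ 2 * ((r : ℝ) + 1 + s) + ((N : ℝ) ^ 2 - cr 0) +
      (((r : ℝ) + 1) * (N : ℝ) ^ 2 - ∑ i, (cr i : ℝ)) +
      ((s : ℝ) * (N : ℝ) ^ 2 - ∑ j, (cc j : ℝ)) +
      (((r : ℝ) + 2) * (s + 1) +
        ∑ b ∈ range (3 * N ^ 50 + 1), gb N r s cr cc b * ((N : ℝ) ^ 50 + C₀)) +
      ∑ b ∈ range (3 * N ^ 50 + 1), (capb N r cr b : ℝ) * (-Real.log (zb N s cc b))) := by
    rw [Real.exp_add _ (∑ b ∈ range (3 * N ^ 50 + 1), (capb N r cr b : ℝ) *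
      (-Real.log (zb N s cc b))), ← zcap_inv, ← mul_assoc, ← div_eq_mul_inv, le_div_iff₀ hZ]
    refine hchain.trans (le_of_eq ?_)
    exact exp_combine _ _ _ _ _ _
  refine hfin.trans ?_
  apply mul_le_mul_of_nonneg_left _ (by linarith)
  apply Real.exp_le_exp.2
  have hlz := lz_sum N r s hN110 hr hs cr cc
  have hgb := gb_sum N r s hN110 hr hC₀.le hCN cr cc
  have hkey := key_sum N r s cr cc hN1 hcr h1 h2
  rw [Finset.sum_add_distrib] at hkey
  exact final_num N r s (cr 0) _ _ _ _ _ _ _ hNr hrr (Nat.cast_nonneg s)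
    hlz hgb hkey

end P031
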