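import Vale.Agent.P031.CPatMat

/-! P031, [CPAT]: the background sum over matrices. -/

namespace P031

open Finset
open scoped Classical

/-- bound for the number of cells times the weight in block `b`. -/
noncomputable def gb (N r s : ℕ) (cr : Fin (r + 1) → ℕ) (cc : Fin s → ℕ) (b : ℕ) : ℝ :=
  if b = 0 then ((r : ℝ) + 2) * (s + 1) else if b < N ^ 30 then (r : ℝ) + 2
    else if 1 ≤ rho N cc b then (rho N cr b : ℝ) else 0

theorem gb_nonneg (N r s : ℕ) (cr : Fin (r + 1) → ℕ) (cc : Fin s → ℕ) (b : ℕ) :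
    0 ≤ gb N r s cr cc b := by
  unfold gb
  split_ifs <;> positivity

theorem cells_le (N r s : ℕ) (hN : 1 ≤ N) (cr : Fin (r + 1) → ℕ) (cc : Fin s → ℕ) (l : ℕ) :
    zb N s cc (l / N ^ 50) * ((univ.filter (fun i => l ≤ lvO N cr i)).card *
      (univ.filter (fun j => l ≤ lvO N cc j)).card : ℝ) ≤ gb N r s cr cc (l / N ^ 50) := by
  have hD : 0 < N ^ 50 := by positivity
  have hr : ((univ.filter (fun i => l ≤ lvO N cr i)).card : ℝ) ≤ r + 2 := by
    have : (univ.filter (fun i => l ≤ lvO N cr i)).card ≤ r + 2 :=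
      (Finset.card_le_univ _).trans (by simp)
    exact_mod_cast this
  have hs : ((univ.filter (fun j => l ≤ lvO N cc j)).card : ℝ) ≤ s + 1 := by
    have : (univ.filter (fun j => l ≤ lvO N cc j)).card ≤ s + 1 :=
      (Finset.card_le_univ _).trans (by simp)
    exact_mod_cast this
  have hr0 : (0 : ℝ) ≤ ((univ.filter (fun i => l ≤ lvO N cr i)).card : ℝ) := Nat.cast_nonneg _
  have hs0 : (0 : ℝ) ≤ ((univ.filter (fun j => l ≤ lvO N cc j)).card : ℝ) := Nat.cast_nonneg _
  unfold zb gb
  split_ifs with h1 h2 h3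
  · rw [one_mul]
    exact mul_le_mul hr hs hs0 (by positivity)
  · rw [one_div, inv_mul_le_iff₀ (by positivity), mul_comm]
    exact mul_le_mul hs hr hr0 (by positivity)
  · -- high block with columns
    have hl : N ^ 80 ≤ l := by
      have h4 : N ^ 30 ≤ l / N ^ 50 := by omega
      rw [Nat.le_div_iff_mul_le hD] at h4
      calc N ^ 80 = N ^ 30 * N ^ 50 := by ring
        _ ≤ l := h4
    have hN80 : 1 ≤ N ^ 80 := Nat.one_le_pow _ _ (by omega)
    have key : ∀ (n : ℕ) (c : Fin n → ℕ), (univ.filter (fun i => l ≤ lvO N c i)).card ≤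
        rho N c (l / N ^ 50) := by
      intro n c
      unfold rho
      have : univ.filter (fun i => l ≤ lvO N c i) ⊆
          (univ.filter (fun i => l / N ^ 50 * N ^ 50 ≤ c i)).map Function.Embedding.some := by
        intro o ho
        simp only [mem_filter, mem_univ, true_and] at ho
        rcases o with _ | o
        · change l ≤ N ^ 80 - 1 at ho
          omega
        · change l ≤ c o at ho
          rw [mem_map]
          refine ⟨o, ?_, rfl⟩
          simp only [mem_filter, mem_univ, true_and]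
          exact (Nat.div_mul_le_self _ _).trans ho
      exact (Finset.card_le_card this).trans (by rw [Finset.card_map])
    have k1 := key (r + 1) cr
    have k2 := key s cc
    have k1' : ((univ.filter (fun i => l ≤ lvO N cr i)).card : ℝ) ≤
        (rho N cr (l / N ^ 50) : ℝ) := by exact_mod_cast k1
    have k2' : ((univ.filter (fun j => l ≤ lvO N cc j)).card : ℝ) ≤
        (rho N cc (l / N ^ 50) : ℝ) := by exact_mod_cast k2
    have hmax : max 1 (rho N cc (l / N ^ 50) : ℝ) = rho N cc (l / N ^ 50) :=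
      max_eq_right (by exact_mod_cast h3)
    have hpos : (0 : ℝ) < rho N cc (l / N ^ 50) := by
      have : 0 < rho N cc (l / N ^ 50) := h3
      exact_mod_cast this
    rw [hmax, one_div, inv_mul_le_iff₀ hpos, mul_comm]
    exact mul_le_mul k2' k1' hr0 (by positivity)
  · -- high block, no columns
    have hl : N ^ 80 ≤ l := by
      have h4 : N ^ 30 ≤ l / N ^ 50 := by omega
      rw [Nat.le_div_iff_mul_le hD] at h4
      calc N ^ 80 = N ^ 30 * N ^ 50 := by ring
        _ ≤ l := h4
    have hN80 : 1 ≤ N ^ 80 := Nat.one_le_pow _ _ (by omega)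
    have : (univ.filter (fun j => l ≤ lvO N cc j)).card = 0 := by
      rw [Finset.card_eq_zero, Finset.filter_eq_empty_iff]
      intro o _ ho
      rcases o with _ | o
      · change l ≤ N ^ 80 - 1 at ho
        omega
      · change l ≤ cc o at ho
        apply h3
        unfold rho
        apply Finset.card_pos.2
        refine ⟨o, ?_⟩
        simp only [mem_filter, mem_univ, true_and]
        exact (Nat.div_mul_le_self _ _).trans ho
    rw [this]
    simp

theorem sum_blocks {C₀ : ℝ} (hC : ∀ a b : ℕ, a ≤ b →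
    |∑ p ∈ PL a b, (1 : ℝ) / p - ((b : ℝ) - a)| ≤ C₀) (N T : ℕ) (hN : 1 ≤ N)
    (hT : (T : ℝ) ≤ Real.exp (Real.exp (3 * (N : ℝ) ^ 100))) (g : ℕ → ℝ) (hg : ∀ b, 0 ≤ g b) :
    ∑ p ∈ Nat.primesLE T, g (lv p / N ^ 50) / p ≤
      ∑ b ∈ range (3 * N ^ 50 + 1), g b * ((N : ℝ) ^ 50 + C₀) := by
  have hD : 0 < N ^ 50 := by positivity
  have hmaps : ∀ p ∈ Nat.primesLE T, lv p / N ^ 50 ∈ range (3 * N ^ 50 + 1) := by
    intro p hp
    rw [Nat.mem_primesLE] at hp
    have h3 : lv p ≤ 3 * N ^ 100 := by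
      apply lv_le_of_real hp.2.two_le
      push_cast
      have : (p : ℝ) ≤ T := by exact_mod_cast hp.1
      exact this.trans hT
    rw [mem_range]
    have h4 : lv p / N ^ 50 ≤ 3 * N ^ 50 := by
      calc lv p / N ^ 50 ≤ 3 * N ^ 100 / N ^ 50 := Nat.div_le_div_right h3
        _ = 3 * N ^ 50 * N ^ 50 / N ^ 50 := by ring_nf
        _ = 3 * N ^ 50 := Nat.mul_div_cancel _ hD
    omega
  rw [← Finset.sum_fiberwise_of_maps_to hmaps]
  apply Finset.sum_le_sum
  intro b _
  have h1 : ∑ p ∈ (Nat.primesLE T).filter (fun p => lv p / N ^ 50 = b), g (lv p / N ^ 50) / p =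
      g b * ∑ p ∈ (Nat.primesLE T).filter (fun p => lv p / N ^ 50 = b), (1 : ℝ) / p := by
    rw [Finset.mul_sum]
    apply Finset.sum_congr rfl
    intro p hp
    rw [mem_filter] at hp
    rw [hp.2]
    ring
  rw [h1]
  apply mul_le_mul_of_nonneg_left _ (hg b)
  have hsub : (Nat.primesLE T).filter (fun p => lv p / N ^ 50 = b) ⊆
      PL (b * N ^ 50) ((b + 1) * N ^ 50) := by
    intro p hp
    rw [mem_filter, Nat.mem_primesLE, Nat.div_eq_iff hD] at hp
    rw [MertAux.mem_PL]
    refine ⟨hp.1.2, hp.2.1, ?_⟩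
    have : (b + 1) * N ^ 50 = b * N ^ 50 + N ^ 50 := by ring
    omega
  have h2 := hC (b * N ^ 50) ((b + 1) * N ^ 50) (Nat.mul_le_mul_right _ (by omega))
  have h3 := (abs_le.1 h2).2
  push_cast at h3
  calc ∑ p ∈ (Nat.primesLE T).filter (fun p => lv p / N ^ 50 = b), (1 : ℝ) / p
      ≤ ∑ p ∈ PL (b * N ^ 50) ((b + 1) * N ^ 50), (1 : ℝ) / p :=
        Finset.sum_le_sum_of_subset_of_nonneg hsub (fun _ _ _ => by positivity)
    _ ≤ (N : ℝ) ^ 50 + C₀ := by nlinarith

theorem bg_total {C₀ : ℝ} (hC : ∀ a b : ℕ, a ≤ b →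
    |∑ p ∈ PL a b, (1 : ℝ) / p - ((b : ℝ) - a)| ≤ C₀) (N r s T : ℕ) (hN : 1 ≤ N)
    (cr : Fin (r + 1) → ℕ) (cc : Fin s → ℕ)
    (hT : (T : ℝ) ≤ Real.exp (Real.exp (3 * (N : ℝ) ^ 100))) :
    ∑ d ∈ Fintype.piFinset (fun _ : Option (Fin (r + 1)) =>
        Fintype.piFinset (fun _ : Option (Fin s) => Icc 1 T)),
      ∏ i, ∏ j, (cm (zij N r s cr cc i j) (d i j) / d i j) ≤
      Real.exp (((r : ℝ) + 2) * (s + 1) +
        ∑ b ∈ range (3 * N ^ 50 + 1), gb N r s cr cc b * ((N : ℝ) ^ 50 + C₀)) := by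
  have h1 : ∑ d ∈ Fintype.piFinset (fun _ : Option (Fin (r + 1)) =>
        Fintype.piFinset (fun _ : Option (Fin s) => Icc 1 T)),
      ∏ i, ∏ j, (cm (zij N r s cr cc i j) (d i j) / d i j) =
      ∏ i, ∏ j, ∑ n ∈ Icc 1 T, (cm (zij N r s cr cc i j) n / n) := by
    have h2 : ∀ i : Option (Fin (r + 1)), ∏ j, ∑ n ∈ Icc 1 T, (cm (zij N r s cr cc i j) n / n) =
        ∑ e ∈ Fintype.piFinset (fun _ : Option (Fin s) => Icc 1 T),
          ∏ j, (cm (zij N r s cr cc i j) (e j) / e j) := by
      intro i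
      rw [Finset.prod_univ_sum]
    simp_rw [h2]
    rw [Finset.prod_univ_sum]
  rw [h1]
  have h3 : ∏ i, ∏ j, ∑ n ∈ Icc 1 T, (cm (zij N r s cr cc i j) n / n) ≤
      ∏ i : Option (Fin (r + 1)), ∏ j : Option (Fin s),
        Real.exp (∑ p ∈ Nat.primesLE T, zij N r s cr cc i j p / p + 1) := by
    apply Finset.prod_le_prod
    · intro i _
      apply Finset.prod_nonneg
      intro j _
      apply Finset.sum_nonneg
      intro n _
      exact div_nonneg (cm_nonneg _ (fun p => zij_nonneg _ _ _ _ _ _ _ p) _) (Nat.cast_nonneg _)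
    · intro i _
      apply Finset.prod_le_prod
      · intro j _
        apply Finset.sum_nonneg
        intro n _
        exact div_nonneg (cm_nonneg _ (fun p => zij_nonneg _ _ _ _ _ _ _ p) _) (Nat.cast_nonneg _)
      · intro j _
        exact cm_sum _ (fun p => ⟨zij_nonneg _ _ _ _ _ _ _ p, zij_le_one _ _ _ _ _ _ _ p⟩) T
  refine h3.trans ?_
  simp_rw [← Real.exp_sum]
  apply Real.exp_le_exp.2
  have h4 : ∑ i : Option (Fin (r + 1)), ∑ j : Option (Fin s),
      (∑ p ∈ Nat.primesLE T, zij N r s cr cc i j p / p + 1) =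
      ((r : ℝ) + 2) * (s + 1) + ∑ p ∈ Nat.primesLE T, (zb N s cc (lv p / N ^ 50) *
        ((univ.filter (fun i => lv p ≤ lvO N cr i)).card *
          (univ.filter (fun j => lv p ≤ lvO N cc j)).card : ℝ)) / p := by
    simp_rw [Finset.sum_add_distrib]
    have h5 : ∑ i : Option (Fin (r + 1)), ∑ j : Option (Fin s), (1 : ℝ) =
        ((r : ℝ) + 2) * (s + 1) := by
      simp only [Finset.sum_const, Finset.card_univ, Fintype.card_option, Fintype.card_fin,
        nsmul_eq_mul]
      push_cast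
      ring
    rw [h5, add_comm]
    congr 1
    have h6 : ∀ i : Option (Fin (r + 1)),
        ∑ j : Option (Fin s), ∑ p ∈ Nat.primesLE T, zij N r s cr cc i j p / p =
        ∑ p ∈ Nat.primesLE T, ∑ j : Option (Fin s), zij N r s cr cc i j p / p :=
      fun i => Finset.sum_comm
    simp_rw [h6]
    rw [Finset.sum_comm]
    apply Finset.sum_congr rfl
    intro p _
    simp_rw [← Finset.sum_div]
    congr 1
    have h7 : ∀ i : Option (Fin (r + 1)), ∑ j : Option (Fin s), zij N r s cr cc i j p =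
        if lv p ≤ lvO N cr i then zb N s cc (lv p / N ^ 50) *
          ((univ.filter (fun j => lv p ≤ lvO N cc j)).card : ℝ) else 0 := by
      intro i
      unfold zij zz
      by_cases hi : lv p ≤ lvO N cr i
      · simp only [hi, true_and, if_true]
        rw [← Finset.sum_filter, Finset.sum_const, nsmul_eq_mul, mul_comm]
      · simp only [hi, false_and, if_false, Finset.sum_const_zero]
    simp_rw [h7]
    rw [← Finset.sum_filter, Finset.sum_const, nsmul_eq_mul]
    ring
  rw [h4]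
  refine add_le_add le_rfl ?_
  have h8 : ∑ p ∈ Nat.primesLE T, (zb N s cc (lv p / N ^ 50) *
        ((univ.filter (fun i => lv p ≤ lvO N cr i)).card *
          (univ.filter (fun j => lv p ≤ lvO N cc j)).card : ℝ)) / p ≤
      ∑ p ∈ Nat.primesLE T, gb N r s cr cc (lv p / N ^ 50) / p := by
    apply Finset.sum_le_sum
    intro p _
    gcongr
    exact cells_le N r s hN cr cc (lv p)
  refine h8.trans ?_
  exact sum_blocks hC N T hN hT (gb N r s cr cc) (gb_nonneg N r s cr cc)

end P031
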