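import Vale.Agent.P031.DefsB

/-! P031 [MAT]: common refinement of two factorizations. -/

namespace P031

open Finset

theorem mat_split {κ : Type} [DecidableEq κ] (t : Finset κ) (b : κ → ℕ) (n : ℕ)
    (h : n ∣ ∏ j ∈ t, b j) :
    ∃ e : κ → ℕ, (∀ j ∈ t, e j ∣ b j) ∧ (∀ j, j ∉ t → e j = 1) ∧ ∏ j ∈ t, e j = n := by
  induction t using Finset.induction_on generalizing n with
  | empty =>
    refine ⟨fun _ => 1, by simp, by simp, ?_⟩
    rw [Finset.prod_empty] at h ⊢
    exact (Nat.dvd_one.mp h).symm
  | insert j t hj ih =>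
    rw [Finset.prod_insert hj] at h
    obtain ⟨e1, e2, h1, h2, h3⟩ := exists_dvd_and_dvd_of_dvd_mul h
    obtain ⟨e, he1, he2, he3⟩ := ih e2 h2
    refine ⟨Function.update e j e1, ?_, ?_, ?_⟩
    · intro k hk
      by_cases hkj : k = j
      · subst hkj
        rw [Function.update_self]; exact h1
      · rw [Function.update_of_ne hkj]
        rcases Finset.mem_insert.mp hk with h | h
        · exact absurd h hkj
        · exact he1 k h
    · intro k hk
      rw [Finset.mem_insert, not_or] at hk
      rw [Function.update_of_ne hk.1]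
      exact he2 k hk.2
    · rw [Finset.prod_insert hj, Function.update_self, h3, ← he3]
      congr 1
      refine Finset.prod_congr rfl fun k hk => ?_
      rw [Function.update_of_ne]
      rintro rfl
      exact hj hk

theorem mat_aux {ι κ : Type} [DecidableEq ι] [Fintype κ] [DecidableEq κ] (s : Finset ι)
    (a : ι → ℕ) (ha : ∀ i, 0 < a i) : ∀ (b : κ → ℕ), (∀ j, 0 < b j) →
    ∏ i ∈ s, a i = ∏ j, b j →
    ∃ d : ι → κ → ℕ, (∀ i ∈ s, ∏ j, d i j = a i) ∧ (∀ j, ∏ i ∈ s, d i j = b j) := by
  induction s using Finset.induction_on with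
  | empty =>
    intro b hb h
    refine ⟨fun _ _ => 1, by simp, ?_⟩
    intro j
    rw [Finset.prod_empty] at h ⊢
    have h1 : b j ∣ 1 := by
      rw [h]
      exact Finset.dvd_prod_of_mem b (Finset.mem_univ j)
    exact (Nat.dvd_one.mp h1).symm
  | insert i s hi ih =>
    intro b hb h
    rw [Finset.prod_insert hi] at h
    obtain ⟨e, he1, -, he3⟩ := mat_split Finset.univ b (a i) (Dvd.intro _ h)
    have hepos : ∀ j, 0 < e j := fun j => Nat.pos_of_dvd_of_pos (he1 j (Finset.mem_univ j)) (hb j)
    have hb' : ∀ j, e j * (b j / e j) = b j := fun j =>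
      Nat.mul_div_cancel' (he1 j (Finset.mem_univ j))
    obtain ⟨d, hd1, hd2⟩ := ih (fun j => b j / e j) (fun j => Nat.div_pos
      (Nat.le_of_dvd (hb j) (he1 j (Finset.mem_univ j))) (hepos j)) (by
        apply Nat.eq_of_mul_eq_mul_left (ha i)
        rw [h]
        conv_rhs => rw [← he3]
        rw [← Finset.prod_mul_distrib]
        exact (Finset.prod_congr rfl fun j _ => hb' j).symm)
    refine ⟨Function.update d i e, ?_, ?_⟩
    · intro k hk
      by_cases hki : k = i
      · subst hki
        rw [Function.update_self]; exact he3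
      · rw [Function.update_of_ne hki]
        rcases Finset.mem_insert.mp hk with h | h
        · exact absurd h hki
        · exact hd1 k h
    · intro j
      rw [Finset.prod_insert hi, Function.update_self]
      have : ∏ k ∈ s, Function.update d i e k j = ∏ k ∈ s, d k j := by
        refine Finset.prod_congr rfl fun k hk => ?_
        rw [Function.update_of_ne]
        rintro rfl
        exact hi hk
      rw [this, hd2, hb']

theorem exists_matrix {ι κ : Type} [Fintype ι] [Fintype κ] (a : ι → ℕ) (b : κ → ℕ)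
    (ha : ∀ i, 0 < a i) (hb : ∀ j, 0 < b j) (h : ∏ i, a i = ∏ j, b j) :
    ∃ d : ι → κ → ℕ, (∀ i, ∏ j, d i j = a i) ∧ (∀ j, ∏ i, d i j = b j) := by
  classical
  obtain ⟨d, h1, h2⟩ := mat_aux Finset.univ a ha b hb h
  exact ⟨d, fun i => h1 i (Finset.mem_univ i), h2⟩

end P031
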