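import Vale.Agent.P031.CPatNum
import Vale.Agent.P031.Mat
import Vale.Agent.P031.Bg
import Vale.Agent.P031.Mert

/-! P031, [CPAT]: weights, the matrix attached to a reduced collision, background sum. -/

namespace P031

open Finset
open scoped Classical

/-- level caps of rows/columns, `none` is the lumped one. -/
def lvO (N : ℕ) {n : ℕ} (c : Fin n → ℕ) (o : Option (Fin n)) : ℕ := o.elim (N ^ 80 - 1) c

/-- weight of block `b`. -/
noncomputable def zb (N s : ℕ) (cc : Fin s → ℕ) (b : ℕ) : ℝ :=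
  if b = 0 then 1 else if b < N ^ 30 then 1 / ((s : ℝ) + 1) else 1 / max 1 (rho N cc b : ℝ)

noncomputable def zz (N s : ℕ) (cc : Fin s → ℕ) (p : ℕ) : ℝ := zb N s cc (lv p / N ^ 50)

noncomputable def zij (N r s : ℕ) (cr : Fin (r + 1) → ℕ) (cc : Fin s → ℕ)
    (i : Option (Fin (r + 1))) (j : Option (Fin s)) (p : ℕ) : ℝ :=
  if lv p ≤ lvO N cr i ∧ lv p ≤ lvO N cc j then zz N s cc p else 0

def capb (N r : ℕ) (cr : Fin (r + 1) → ℕ) (b : ℕ) : ℕ :=
  if b < N ^ 30 then (N + 1) * (N ^ 50 + N ^ 34) else rho N cr b * (N ^ 50 + N ^ 34)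

noncomputable def Zcap (N r s : ℕ) (cr : Fin (r + 1) → ℕ) (cc : Fin s → ℕ) : ℝ :=
  ∏ b ∈ range (3 * N ^ 50 + 1), zb N s cc b ^ capb N r cr b

theorem zb_pos (N s : ℕ) (cc : Fin s → ℕ) (b : ℕ) : 0 < zb N s cc b := by
  unfold zb
  split_ifs
  · norm_num
  · positivity
  · have : (0 : ℝ) < max 1 (rho N cc b : ℝ) := lt_of_lt_of_le one_pos (le_max_left _ _)
    positivity

theorem zb_le_one (N s : ℕ) (cc : Fin s → ℕ) (b : ℕ) : zb N s cc b ≤ 1 := by
  unfold zb
  split_ifs
  · norm_num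
  · rw [div_le_one (by positivity)]
    have : (0 : ℝ) ≤ s := Nat.cast_nonneg s
    linarith
  · rw [div_le_one (lt_of_lt_of_le one_pos (le_max_left _ _))]
    exact le_max_left _ _

theorem zij_nonneg (N r s : ℕ) (cr : Fin (r + 1) → ℕ) (cc : Fin s → ℕ)
    (i : Option (Fin (r + 1))) (j : Option (Fin s)) (p : ℕ) : 0 ≤ zij N r s cr cc i j p := by
  unfold zij
  split_ifs
  · exact (zb_pos _ _ _ _).le
  · exact le_rfl

theorem zij_le_one (N r s : ℕ) (cr : Fin (r + 1) → ℕ) (cc : Fin s → ℕ)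
    (i : Option (Fin (r + 1))) (j : Option (Fin s)) (p : ℕ) : zij N r s cr cc i j p ≤ 1 := by
  unfold zij
  split_ifs
  · exact zb_le_one _ _ _ _
  · norm_num

theorem Zcap_pos (N r s : ℕ) (cr : Fin (r + 1) → ℕ) (cc : Fin s → ℕ) : 0 < Zcap N r s cr cc :=
  Finset.prod_pos fun b _ => pow_pos (zb_pos _ _ _ _) _

theorem cm_prod {ι : Type*} (z : ℕ → ℝ) (s : Finset ι) (f : ι → ℕ) (hf : ∀ i ∈ s, 0 < f i) :
    cm z (∏ i ∈ s, f i) = ∏ i ∈ s, cm z (f i) := by
  induction s using Finset.induction_on with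
  | empty => simp [cm_one]
  | insert a s ha ih =>
    rw [Finset.prod_insert ha, Finset.prod_insert ha, cm_mul z _ _ (hf a (by simp))
      (Finset.prod_pos fun i hi => hf i (by simp [hi])), ih fun i hi => hf i (by simp [hi])]

theorem lv_le_of_le {m n : ℕ} (hm : 2 ≤ m) (h : m ≤ n) : lv m ≤ lv n := by
  unfold lv
  apply Nat.floor_mono
  have hm' : (2 : ℝ) ≤ m := by exact_mod_cast hm
  have h' : (m : ℝ) ≤ n := by exact_mod_cast h
  apply Real.log_le_log (Real.log_pos (by linarith))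
  exact Real.log_le_log (by linarith) h'

theorem lv_le_of_real {m : ℕ} (hm : 2 ≤ m) {c : ℕ} (h : (m : ℝ) ≤ Real.exp (Real.exp c)) :
    lv m ≤ c := by
  unfold lv
  have hm' : (2 : ℝ) ≤ m := by exact_mod_cast hm
  have h1 : Real.log m ≤ Real.exp c := by
    rw [← Real.log_exp (Real.exp c)]
    exact Real.log_le_log (by linarith) h
  have h2 : Real.log (Real.log m) ≤ c := by
    rw [← Real.log_exp (c : ℝ)]
    exact Real.log_le_log (Real.log_pos (by linarith)) h1
  calc ⌊Real.log (Real.log m)⌋₊ ≤ ⌊(c : ℝ)⌋₊ := Nat.floor_mono h2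
    _ = c := Nat.floor_natCast c

theorem le_lv_of_real {m : ℕ} {c : ℕ} (h : Real.exp (Real.exp c) ≤ (m : ℝ)) : c ≤ lv m := by
  unfold lv
  apply Nat.le_floor
  have h1 : Real.exp c ≤ Real.log m := by
    rw [← Real.log_exp (Real.exp c)]
    exact Real.log_le_log (Real.exp_pos _) h
  rw [← Real.log_exp (c : ℝ)]
  exact Real.log_le_log (Real.exp_pos _) h1

/-- lower bound of the weight of `v`. -/
theorem Zcap_le_cm (N r s : ℕ) (hN : 1 ≤ N) (cr : Fin (r + 1) → ℕ) (cc : Fin s → ℕ) (v : ℕ)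
    (hv : 0 < v) (hvle : (v : ℝ) ≤ Real.exp (Real.exp (3 * (N : ℝ) ^ 100)))
    (h1 : ∀ b, N ^ 30 ≤ b → Om (b * N ^ 50) ((b + 1) * N ^ 50) v ≤
      (univ.filter (fun i => b * N ^ 50 ≤ cr i)).card * (N ^ 50 + N ^ 34))
    (h2 : ∀ b, 1 ≤ b → b < N ^ 30 → Om (b * N ^ 50) ((b + 1) * N ^ 50) v ≤
      (N + 1) * (N ^ 50 + N ^ 34)) :
    Zcap N r s cr cc ≤ cm (zz N s cc) v := by
  have hD : 0 < N ^ 50 := by positivity
  have hmaps : ∀ p ∈ v.primeFactors, lv p / N ^ 50 ∈ range (3 * N ^ 50 + 1) := by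
    intro p hp
    have hpp := Nat.prime_of_mem_primeFactors hp
    have hpv : p ≤ v := Nat.le_of_dvd hv (Nat.dvd_of_mem_primeFactors hp)
    have h3 : lv p ≤ 3 * N ^ 100 := by
      apply lv_le_of_real hpp.two_le
      push_cast
      have : (p : ℝ) ≤ v := by exact_mod_cast hpv
      exact this.trans hvle
    rw [mem_range]
    have h4 : lv p / N ^ 50 ≤ 3 * N ^ 50 := by
      calc lv p / N ^ 50 ≤ 3 * N ^ 100 / N ^ 50 := Nat.div_le_div_right h3
        _ = 3 * N ^ 50 * N ^ 50 / N ^ 50 := by ring_nf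
        _ = 3 * N ^ 50 := Nat.mul_div_cancel _ hD
    omega
  unfold cm
  rw [← Finset.prod_fiberwise_of_maps_to hmaps]
  unfold Zcap
  apply Finset.prod_le_prod
  · intro b _
    exact pow_nonneg (zb_pos _ _ _ _).le _
  · intro b _
    have h5 : ∏ p ∈ v.primeFactors.filter (fun p => lv p / N ^ 50 = b),
        zz N s cc p ^ v.factorization p = zb N s cc b ^ Om (b * N ^ 50) ((b + 1) * N ^ 50) v := by
      have h6 : v.primeFactors.filter (fun p => lv p / N ^ 50 = b) =
          v.primeFactors.filter (fun p => b * N ^ 50 ≤ lv p ∧ lv p < (b + 1) * N ^ 50) := by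
        apply Finset.filter_congr
        intro p _
        rw [Nat.div_eq_iff hD]
        constructor
        · rintro ⟨h7, h8⟩
          refine ⟨h7, ?_⟩
          have : (b + 1) * N ^ 50 = b * N ^ 50 + N ^ 50 := by ring
          omega
        · rintro ⟨h7, h8⟩
          refine ⟨h7, ?_⟩
          have : (b + 1) * N ^ 50 = b * N ^ 50 + N ^ 50 := by ring
          omega
      rw [h6]
      unfold Om
      rw [← Finset.prod_pow_eq_pow_sum]
      apply Finset.prod_congr rfl
      intro p hp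
      rw [← h6, mem_filter] at hp
      unfold zz
      rw [hp.2]
    rw [h5]
    rcases Nat.eq_zero_or_pos b with hb | hb
    · subst hb
      have : zb N s cc 0 = 1 := by simp [zb]
      rw [this, one_pow, one_pow]
    · apply pow_le_pow_of_le_one (zb_pos _ _ _ _).le (zb_le_one _ _ _ _)
      unfold capb
      split_ifs with h9
      · exact h2 b hb h9
      · exact h1 b (by omega)

theorem cm_congr (z z' : ℕ → ℝ) (n : ℕ) (h : ∀ p ∈ n.primeFactors, z p = z' p) :
    cm z n = cm z' n := by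
  unfold cm
  apply Finset.prod_congr rfl
  intro p hp
  rw [h p hp]

/-- the matrix of a reduced collision. -/
theorem rpat_matrix (N r s : ℕ) (hN : 2 ≤ N) (cr : Fin (r + 1) → ℕ) (cc : Fin s → ℕ)
    (T q₀ v : ℕ) (hv : 1 ≤ v) (hvT : v ≤ T)
    (hT : (T : ℝ) ≤ Real.exp (Real.exp (3 * (N : ℝ) ^ 100)))
    (h : RPat N r s cr cc q₀ v) :
    ∃ d : Option (Fin (r + 1)) → Option (Fin s) → ℕ,
      d ∈ Fintype.piFinset (fun _ : Option (Fin (r + 1)) =>
        Fintype.piFinset (fun _ : Option (Fin s) => Icc 1 T)) ∧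
      Adm (univ.map Function.Embedding.some) (univ.map Function.Embedding.some)
        (fun i => wP N (lvO N cr i)) (fun j => wP N (lvO N cc j))
        (Real.exp (Real.exp ((N : ℝ) ^ 50))) d ∧
      ∏ i, ∏ j, d i j = v ∧ ∏ j, d (some 0) j = q₀ - 1 ∧ 2 ≤ q₀ ∧
      Zcap N r s cr cc ≤ ∏ i, ∏ j, cm (zij N r s cr cc i j) (d i j) := by
  obtain ⟨q, q', U, U', hq0, hU, hU', hv1, hv2, hrow, hcol, hne, hUp, hUp', hOm1, hOm2, hsq⟩ := h
  -- the two families
  let a : Option (Fin (r + 1)) → ℕ := fun o => o.elim U (fun i => q i - 1)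
  let b : Option (Fin s) → ℕ := fun o => o.elim U' (fun j => q' j - 1)
  have ha : ∏ i, a i = v := by
    rw [Fintype.prod_option, hv1, mul_comm]
    rfl
  have hb : ∏ j, b j = v := by
    rw [Fintype.prod_option, hv2, mul_comm]
    rfl
  have hapos : ∀ i, 0 < a i := by
    intro i
    rcases i with _ | i
    · exact hU
    · have := (hrow i).1.two_le
      change 0 < q i - 1
      omega
  have hbpos : ∀ j, 0 < b j := by
    intro j
    rcases j with _ | j
    · exact hU'
    · have := (hcol j).1.two_le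
      change 0 < q' j - 1
      omega
  obtain ⟨d, hd1, hd2⟩ := exists_matrix a b hapos hbpos (ha.trans hb.symm)
  have hprod : ∏ i, ∏ j, d i j = v := by
    rw [← ha]
    exact Finset.prod_congr rfl fun i _ => hd1 i
  have hdpos : ∀ i j, 0 < d i j := by
    intro i j
    apply Nat.pos_of_ne_zero
    intro h0
    have := hapos i
    rw [← hd1 i, Finset.prod_eq_zero (mem_univ j) h0] at this
    omega
  have hddvd : ∀ i j, d i j ∣ v := by
    intro i j
    rw [← hprod]
    exact (Finset.dvd_prod_of_mem (fun j => d i j) (mem_univ j)).trans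
      (Finset.dvd_prod_of_mem (fun i => ∏ j, d i j) (mem_univ i))
  -- levels
  have hN80 : 1 ≤ N ^ 80 := Nat.one_le_pow _ _ (by omega)
  have hlevr : ∀ i, ∀ p, p.Prime → p ∣ a i → lv p ≤ lvO N cr i := by
    intro i p hp hpa
    rcases i with _ | i
    · have := hUp p hp hpa
      change lv p ≤ N ^ 80 - 1
      omega
    · change lv p ≤ cr i
      rw [← (hrow i).2.1]
      have h2 := (hrow i).1.two_le
      have : p ≤ q i - 1 := Nat.le_of_dvd (by omega) hpa
      exact lv_le_of_le hp.two_le (by omega)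
  have hlevc : ∀ j, ∀ p, p.Prime → p ∣ b j → lv p ≤ lvO N cc j := by
    intro j p hp hpb
    rcases j with _ | j
    · have := hUp' p hp hpb
      change lv p ≤ N ^ 80 - 1
      omega
    · change lv p ≤ cc j
      rw [← (hcol j).2.1]
      have h2 := (hcol j).1.two_le
      have : p ≤ q' j - 1 := Nat.le_of_dvd (by omega) hpb
      exact lv_le_of_le hp.two_le (by omega)
  refine ⟨d, ?_, ?_, hprod, ?_, ?_, ?_⟩
  · rw [Fintype.mem_piFinset]
    intro i
    rw [Fintype.mem_piFinset]
    intro j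
    rw [mem_Icc]
    exact ⟨hdpos i j, (Nat.le_of_dvd hv (hddvd i j)).trans hvT⟩
  · refine ⟨?_, ?_, ?_, ?_⟩
    · intro i hi
      rw [mem_map] at hi
      obtain ⟨i, -, rfl⟩ := hi
      change ((∏ j, d (some i) j) + 1).Prime ∧ ∃ P : ℕ, P.Prime ∧ wP N (cr i) ≤ P ∧
        P ∣ ∏ j, d (some i) j
      rw [hd1 (some i)]
      obtain ⟨hp, _, P, hP, hPd, hwP⟩ := hrow i
      have h2 := hp.two_le
      refine ⟨?_, P, hP, hwP, hPd⟩
      have : a (some i) + 1 = q i := by change q i - 1 + 1 = q i; omega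
      rw [this]; exact hp
    · intro j hj
      rw [mem_map] at hj
      obtain ⟨j, -, rfl⟩ := hj
      change ((∏ i, d i (some j)) + 1).Prime ∧ ∃ P : ℕ, P.Prime ∧ wP N (cc j) ≤ P ∧
        P ∣ ∏ i, d i (some j)
      rw [hd2 (some j)]
      obtain ⟨hp, _, P, hP, hPd, hwP⟩ := hcol j
      have h2 := hp.two_le
      refine ⟨?_, P, hP, hwP, hPd⟩
      have : b (some j) + 1 = q' j := by change q' j - 1 + 1 = q' j; omega
      rw [this]; exact hp
    · intro i hi j hj
      rw [mem_map] at hi hj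
      obtain ⟨i, -, rfl⟩ := hi
      obtain ⟨j, -, rfl⟩ := hj
      change ∏ j', d (some i) j' ≠ ∏ i', d i' (some j)
      rw [hd1 (some i), hd2 (some j)]
      change q i - 1 ≠ q' j - 1
      have h2 := (hrow i).1.two_le
      have h3 := (hcol j).1.two_le
      have h4 := hne i j
      omega
    · intro P hP hWP
      rw [hprod]
      apply hsq P hP
      apply le_lv_of_real
      push_cast
      exact hWP
  · rw [hd1 (some 0), ← hq0]
    rfl
  · rw [← hq0]; exact (hrow 0).1.two_le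
  · have h1 : ∏ i, ∏ j, cm (zij N r s cr cc i j) (d i j) =
        ∏ i, ∏ j, cm (zz N s cc) (d i j) := by
      apply Finset.prod_congr rfl
      intro i _
      apply Finset.prod_congr rfl
      intro j _
      apply cm_congr
      intro p hp
      have hpp := Nat.prime_of_mem_primeFactors hp
      have hpd := Nat.dvd_of_mem_primeFactors hp
      unfold zij
      rw [if_pos]
      constructor
      · apply hlevr i p hpp
        rw [← hd1 i]
        exact hpd.trans (Finset.dvd_prod_of_mem (fun j => d i j) (mem_univ j))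
      · apply hlevc j p hpp
        rw [← hd2 j]
        exact hpd.trans (Finset.dvd_prod_of_mem (fun i => d i j) (mem_univ i))
    rw [h1]
    have h2 : ∏ i, ∏ j, cm (zz N s cc) (d i j) = cm (zz N s cc) v := by
      rw [← hprod, cm_prod _ _ _ fun i _ => Finset.prod_pos fun j _ => hdpos i j]
      apply Finset.prod_congr rfl
      intro i _
      rw [cm_prod _ _ _ fun j _ => hdpos i j]
    rw [h2]
    apply Zcap_le_cm N r s (by omega) cr cc v hv _ hOm1 hOm2
    have : (v : ℝ) ≤ T := by exact_mod_cast hvT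
    exact this.trans hT

end P031
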