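import Vale.Agent.P031.DefsB

/-! P031, [CPAT], numeric part: the exponent computation for one pattern. -/

namespace P031

open Finset

theorem al_ofFn (k r : ℕ) (f : Fin r → ℕ) :
    al k (List.ofFn f) = ∑ i : Fin r, aa (k + i) * f i := by
  induction r generalizing k with
  | zero => simp [al]
  | succ r ih =>
    rw [List.ofFn_succ, al, ih, Fin.sum_univ_succ]
    simp only [Fin.val_zero, Nat.add_zero, Fin.val_succ]
    congr 1
    apply Finset.sum_congr rfl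
    intro i _
    congr 2
    omega

theorem aa_nonneg (n : ℕ) (hn : 1 ≤ n) : 0 ≤ aa n := by
  unfold aa
  have hn' : (1 : ℝ) ≤ n := by exact_mod_cast hn
  have h1 : Real.log n ≤ Real.log ((n : ℝ) + 1) := Real.log_le_log (by linarith) (by linarith)
  have h2 : Real.log (n / ((n : ℝ) + 1)) ≤ n / ((n : ℝ) + 1) - 1 :=
    Real.log_le_sub_one_of_pos (by positivity)
  rw [Real.log_div (by positivity) (by positivity)] at h2
  have h3 : (n : ℝ) / (n + 1) - 1 = - (1 / (n + 1)) := by field_simp; ring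
  rw [h3] at h2
  have h4 : 1 / ((n : ℝ) + 1) ≤ Real.log ((n : ℝ) + 1) - Real.log n := by linarith
  have h5 : ((n : ℝ) + 1) * (1 / (n + 1)) = 1 := by field_simp
  have h6 : 1 ≤ ((n : ℝ) + 1) * (Real.log ((n : ℝ) + 1) - Real.log n) := by
    have := mul_le_mul_of_nonneg_left h4 (show (0 : ℝ) ≤ n + 1 by linarith)
    linarith
  have h7 : 0 ≤ Real.log n := Real.log_nonneg hn'
  nlinarith

theorem sum_aa (m : ℕ) :
    ∑ i ∈ range m, aa (i + 1) = ((m : ℝ) + 1) * Real.log ((m : ℝ) + 1) - m := by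
  induction m with
  | zero => simp
  | succ m ih =>
    rw [Finset.sum_range_succ, ih, aa]
    push_cast
    ring

/-- the basic inequality for one block. -/
theorem block_ineq (a b : ℕ) :
    (a : ℝ) * Real.log (max 1 (b : ℝ)) + (if 1 ≤ b then (a : ℝ) else 0) - a - b ≤
      if a = 0 then 0 else (a : ℝ) * Real.log a - a := by
  rcases Nat.eq_zero_or_pos a with ha | ha
  · subst ha
    simp
  · have hR : (if a = 0 then (0 : ℝ) else (a : ℝ) * Real.log a - a) = a * Real.log a - a :=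
      if_neg (by omega)
    rw [hR]
    have ha' : (1 : ℝ) ≤ a := by exact_mod_cast ha
    have hla : 0 ≤ Real.log a := Real.log_nonneg ha'
    rcases Nat.eq_zero_or_pos b with hb | hb
    · subst hb
      simp
      positivity
    · rw [if_pos (by omega)]
      have hb' : (1 : ℝ) ≤ b := by exact_mod_cast hb
      rw [max_eq_right hb']
      have h := Real.log_le_sub_one_of_pos (show (0 : ℝ) < b / a by positivity)
      rw [Real.log_div (by positivity) (by positivity)] at h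
      have h2 := mul_le_mul_of_nonneg_left h (show (0 : ℝ) ≤ a by linarith)
      have h3 : (a : ℝ) * (b / a - 1) = b - a := by field_simp
      rw [h3] at h2
      linarith

/-- number of rows (columns) reaching block `b`. -/
def rho (N : ℕ) {n : ℕ} (c : Fin n → ℕ) (b : ℕ) : ℕ :=
  (univ.filter (fun i => b * N ^ 50 ≤ c i)).card

/-- number of blocks `b ∈ [N^30, 3 N^50]` with `b N^50 ≤ c`. -/
def cnt (N c : ℕ) : ℕ :=
  ((Icc (N ^ 30) (3 * N ^ 50)).filter (fun b => b * N ^ 50 ≤ c)).card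

theorem antitone_lt_card {n : ℕ} (c : Fin n → ℕ) (hc : Antitone c) (x : ℕ) (i : Fin n) :
    x ≤ c i ↔ (i : ℕ) < (univ.filter (fun i => x ≤ c i)).card := by
  constructor
  · intro h
    have hsub : Finset.Iic i ⊆ univ.filter (fun i => x ≤ c i) := by
      intro j hj
      rw [Finset.mem_Iic] at hj
      simp only [mem_filter, mem_univ, true_and]
      exact h.trans (hc hj)
    have := Finset.card_le_card hsub
    rw [Fin.card_Iic] at this
    omega
  · intro h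
    by_contra hx
    have hsub : univ.filter (fun i => x ≤ c i) ⊆ Finset.Iio i := by
      intro j hj
      simp only [mem_filter, mem_univ, true_and] at hj
      rw [Finset.mem_Iio]
      by_contra hji
      have := hc (not_lt.1 hji)
      omega
    have := Finset.card_le_card hsub
    rw [Fin.card_Iio] at this
    omega

theorem cnt_eq (N c : ℕ) (hN : 1 ≤ N) (h2 : c ≤ 3 * N ^ 100) :
    cnt N c = c / N ^ 50 + 1 - N ^ 30 := by
  unfold cnt
  have hD : 0 < N ^ 50 := by positivity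
  have : (Icc (N ^ 30) (3 * N ^ 50)).filter (fun b => b * N ^ 50 ≤ c) =
      Icc (N ^ 30) (c / N ^ 50) := by
    ext b
    simp only [mem_filter, mem_Icc]
    rw [Nat.le_div_iff_mul_le hD]
    constructor
    · rintro ⟨⟨h3, h4⟩, h5⟩
      exact ⟨h3, h5⟩
    · rintro ⟨h3, h5⟩
      refine ⟨⟨h3, ?_⟩, h5⟩
      have : b * N ^ 50 ≤ 3 * N ^ 50 * N ^ 50 := by
        calc b * N ^ 50 ≤ c := h5
          _ ≤ 3 * N ^ 100 := h2
          _ = 3 * N ^ 50 * N ^ 50 := by ring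
      exact Nat.le_of_mul_le_mul_right this hD
  rw [this, Nat.card_Icc]

theorem cnt_upper (N c : ℕ) (hN : 1 ≤ N) (h1 : N ^ 80 ≤ c) (h2 : c ≤ 3 * N ^ 100) :
    (N : ℝ) ^ 50 * cnt N c ≤ (c : ℝ) - (N : ℝ) ^ 80 + (N : ℝ) ^ 50 := by
  have hD : 0 < N ^ 50 := by positivity
  have h3 : N ^ 30 ≤ c / N ^ 50 := by
    rw [Nat.le_div_iff_mul_le hD]
    calc N ^ 30 * N ^ 50 = N ^ 80 := by ring
      _ ≤ c := h1
  have h4 : cnt N c + N ^ 30 = c / N ^ 50 + 1 := by
    rw [cnt_eq N c hN h2]; omega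
  have h5 : N ^ 50 * (c / N ^ 50) ≤ c := Nat.mul_div_le c _
  have h6 : N ^ 50 * cnt N c + N ^ 80 ≤ c + N ^ 50 := by
    have : N ^ 50 * (cnt N c + N ^ 30) = N ^ 50 * cnt N c + N ^ 80 := by ring
    rw [← this, h4]
    calc N ^ 50 * (c / N ^ 50 + 1) = N ^ 50 * (c / N ^ 50) + N ^ 50 := by ring
      _ ≤ c + N ^ 50 := by omega
  have h7 : ((N ^ 50 * cnt N c + N ^ 80 : ℕ) : ℝ) ≤ ((c + N ^ 50 : ℕ) : ℝ) := by
    exact_mod_cast h6
  push_cast at h7
  linarith

theorem cnt_lower (N c : ℕ) (hN : 1 ≤ N) (h1 : N ^ 80 ≤ c) (h2 : c ≤ 3 * N ^ 100) :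
    (c : ℝ) - (N : ℝ) ^ 80 ≤ (N : ℝ) ^ 50 * cnt N c := by
  have hD : 0 < N ^ 50 := by positivity
  have h3 : N ^ 30 ≤ c / N ^ 50 := by
    rw [Nat.le_div_iff_mul_le hD]
    calc N ^ 30 * N ^ 50 = N ^ 80 := by ring
      _ ≤ c := h1
  have h4 : cnt N c + N ^ 30 = c / N ^ 50 + 1 := by
    rw [cnt_eq N c hN h2]; omega
  have h5 : c < N ^ 50 * (c / N ^ 50 + 1) := Nat.lt_mul_div_succ c hD
  have h6 : c ≤ N ^ 50 * cnt N c + N ^ 80 := by
    have : N ^ 50 * (cnt N c + N ^ 30) = N ^ 50 * cnt N c + N ^ 80 := by ring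
    rw [← this, h4]
    exact h5.le
  have h7 : (c : ℝ) ≤ ((N ^ 50 * cnt N c + N ^ 80 : ℕ) : ℝ) := by exact_mod_cast h6
  push_cast at h7
  linarith

theorem sum_rho (N n : ℕ) (c : Fin n → ℕ) :
    ∑ b ∈ Icc (N ^ 30) (3 * N ^ 50), (rho N c b : ℝ) = ∑ i, (cnt N (c i) : ℝ) := by
  have h : ∀ b, (rho N c b : ℝ) = ∑ i, if b * N ^ 50 ≤ c i then (1 : ℝ) else 0 := by
    intro b
    unfold rho
    rw [Finset.card_filter]
    push_cast
    rfl
  have h' : ∀ i, (cnt N (c i) : ℝ) =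
      ∑ b ∈ Icc (N ^ 30) (3 * N ^ 50), if b * N ^ 50 ≤ c i then (1 : ℝ) else 0 := by
    intro i
    unfold cnt
    rw [Finset.card_filter]
    push_cast
    rfl
  simp_rw [h, h']
  rw [Finset.sum_comm]

/-- `F(ρ_b)` written through the indicators. -/
theorem F_eq (N r : ℕ) (cr : Fin (r + 1) → ℕ) (hcr : Antitone cr) (b : ℕ) :
    (if rho N cr b = 0 then 0 else (rho N cr b : ℝ) * Real.log (rho N cr b) - rho N cr b) =
      ∑ i : Fin r, (if b * N ^ 50 ≤ cr i.succ then aa (1 + i) else 0) -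
        (if b * N ^ 50 ≤ cr 0 then 1 else 0) := by
  have hmem : ∀ i : Fin (r + 1), b * N ^ 50 ≤ cr i ↔ (i : ℕ) < rho N cr b :=
    fun i => antitone_lt_card cr hcr (b * N ^ 50) i
  have hle : rho N cr b ≤ r + 1 := by
    unfold rho
    exact (Finset.card_le_univ _).trans (by simp)
  rcases Nat.eq_zero_or_pos (rho N cr b) with h0 | h0
  · rw [if_pos h0]
    have h1 : ∀ i, ¬ (b * N ^ 50 ≤ cr i) := by
      intro i
      rw [hmem i, h0]
      omega
    simp [h1]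
  · rw [if_neg (by omega)]
    obtain ⟨m, hm⟩ : ∃ m, rho N cr b = m + 1 := ⟨rho N cr b - 1, by omega⟩
    have h1 : b * N ^ 50 ≤ cr 0 := by rw [hmem 0]; simpa using h0
    rw [if_pos h1]
    have h2 : ∀ i : Fin r, (b * N ^ 50 ≤ cr i.succ) ↔ (i : ℕ) < m := by
      intro i
      rw [hmem i.succ, hm, Fin.val_succ]
      omega
    simp_rw [h2]
    rw [Fin.sum_univ_eq_sum_range (fun i => if i < m then aa (1 + i) else 0) r,
      ← Finset.sum_filter]
    have h3 : (range r).filter (fun i => i < m) = range m := by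
      ext i
      simp only [mem_filter, mem_range]
      omega
    rw [h3]
    have h4 := sum_aa m
    have h5 : ∑ i ∈ range m, aa (1 + i) = ∑ i ∈ range m, aa (i + 1) := by
      apply Finset.sum_congr rfl
      intro i _
      rw [add_comm]
    rw [h5, h4, hm]
    push_cast
    ring

/-- the key inequality. -/
theorem key_sum (N r s : ℕ) (cr : Fin (r + 1) → ℕ) (cc : Fin s → ℕ) (hN : 1 ≤ N)
    (hcr : Antitone cr) (h1 : ∀ i, N ^ 80 ≤ cr i ∧ cr i ≤ 2 * N ^ 100)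
    (h2 : ∀ j, N ^ 80 ≤ cc j ∧ cc j ≤ 3 * N ^ 100) :
    ∑ b ∈ Icc (N ^ 30) (3 * N ^ 50), ((N : ℝ) ^ 50 * (rho N cr b * Real.log (max 1 (rho N cc b : ℝ)))
        + (N : ℝ) ^ 50 * (if 1 ≤ rho N cc b then (rho N cr b : ℝ) else 0)) -
      ∑ i, (cr i : ℝ) - ∑ j, (cc j : ℝ) ≤
      al 1 (List.ofFn (fun i : Fin r => cr i.succ)) - cr 0 + (N : ℝ) ^ 80 +
        (r + 1) * (N : ℝ) ^ 50 - s * ((N : ℝ) ^ 80 - (N : ℝ) ^ 50) := by
  have hD : (0 : ℝ) ≤ (N : ℝ) ^ 50 := by positivity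
  have h80 : (N : ℝ) ^ 50 ≤ (N : ℝ) ^ 80 := by
    apply pow_le_pow_right₀ (by exact_mod_cast hN) (by norm_num)
  -- step 1: blockwise
  have hb : ∀ b ∈ Icc (N ^ 30) (3 * N ^ 50),
      (N : ℝ) ^ 50 * (rho N cr b * Real.log (max 1 (rho N cc b : ℝ)))
        + (N : ℝ) ^ 50 * (if 1 ≤ rho N cc b then (rho N cr b : ℝ) else 0) ≤
      (N : ℝ) ^ 50 * (rho N cr b) + (N : ℝ) ^ 50 * (rho N cc b) +
      (N : ℝ) ^ 50 * (∑ i : Fin r, (if b * N ^ 50 ≤ cr i.succ then aa (1 + i) else 0) -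
        (if b * N ^ 50 ≤ cr 0 then 1 else 0)) := by
    intro b _
    have h := block_ineq (rho N cr b) (rho N cc b)
    rw [F_eq N r cr hcr b] at h
    have h' := mul_le_mul_of_nonneg_left h hD
    nlinarith
  have hs := Finset.sum_le_sum hb
  have hRR : ∑ b ∈ Icc (N ^ 30) (3 * N ^ 50), ((N : ℝ) ^ 50 * (rho N cr b : ℝ) +
      (N : ℝ) ^ 50 * (rho N cc b : ℝ) +
      (N : ℝ) ^ 50 * (∑ i : Fin r, (if b * N ^ 50 ≤ cr i.succ then aa (1 + i) else 0) -
        (if b * N ^ 50 ≤ cr 0 then 1 else 0))) =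
      (N : ℝ) ^ 50 * ∑ i, (cnt N (cr i) : ℝ) + (N : ℝ) ^ 50 * ∑ j, (cnt N (cc j) : ℝ) +
      (N : ℝ) ^ 50 * ∑ b ∈ Icc (N ^ 30) (3 * N ^ 50),
      (∑ i : Fin r, (if b * N ^ 50 ≤ cr i.succ then aa (1 + i) else 0) -
        (if b * N ^ 50 ≤ cr 0 then (1 : ℝ) else 0)) := by
    rw [Finset.sum_add_distrib, Finset.sum_add_distrib, ← sum_rho, ← sum_rho, Finset.mul_sum,
      Finset.mul_sum, Finset.mul_sum]
  rw [hRR] at hs
  -- the F part
  have hF : ∑ b ∈ Icc (N ^ 30) (3 * N ^ 50),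
      (∑ i : Fin r, (if b * N ^ 50 ≤ cr i.succ then aa (1 + i) else 0) -
        (if b * N ^ 50 ≤ cr 0 then (1 : ℝ) else 0)) =
      ∑ i : Fin r, aa (1 + i) * cnt N (cr i.succ) - cnt N (cr 0) := by
    rw [Finset.sum_sub_distrib, Finset.sum_comm]
    congr 1
    · apply Finset.sum_congr rfl
      intro i _
      unfold cnt
      rw [← Finset.sum_filter, Finset.sum_const, nsmul_eq_mul, mul_comm]
    · unfold cnt
      rw [Finset.card_filter]
      push_cast
      rfl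
  rw [hF] at hs
  have hr : (N : ℝ) ^ 50 * ∑ i, (cnt N (cr i) : ℝ) ≤
      ∑ i, (cr i : ℝ) - (r + 1) * ((N : ℝ) ^ 80 - (N : ℝ) ^ 50) := by
    rw [Finset.mul_sum]
    have : ∑ i : Fin (r + 1), ((cr i : ℝ) - ((N : ℝ) ^ 80 - (N : ℝ) ^ 50)) =
        ∑ i, (cr i : ℝ) - (r + 1) * ((N : ℝ) ^ 80 - (N : ℝ) ^ 50) := by
      rw [Finset.sum_sub_distrib, Finset.sum_const, Finset.card_univ, Fintype.card_fin,
        nsmul_eq_mul]
      push_cast
      ring
    rw [← this]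
    apply Finset.sum_le_sum
    intro i _
    have := cnt_upper N (cr i) hN (h1 i).1 ((h1 i).2.trans (by omega))
    linarith
  have hc : (N : ℝ) ^ 50 * ∑ j, (cnt N (cc j) : ℝ) ≤
      ∑ j, (cc j : ℝ) - s * ((N : ℝ) ^ 80 - (N : ℝ) ^ 50) := by
    rw [Finset.mul_sum]
    have : ∑ j : Fin s, ((cc j : ℝ) - ((N : ℝ) ^ 80 - (N : ℝ) ^ 50)) =
        ∑ j, (cc j : ℝ) - s * ((N : ℝ) ^ 80 - (N : ℝ) ^ 50) := by
      rw [Finset.sum_sub_distrib, Finset.sum_const, Finset.card_univ, Fintype.card_fin,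
        nsmul_eq_mul]
    rw [← this]
    apply Finset.sum_le_sum
    intro j _
    have := cnt_upper N (cc j) hN (h2 j).1 (h2 j).2
    linarith
  have ha : (N : ℝ) ^ 50 * (∑ i : Fin r, aa (1 + i) * cnt N (cr i.succ) - cnt N (cr 0)) ≤
      al 1 (List.ofFn (fun i : Fin r => cr i.succ)) - ((cr 0 : ℝ) - (N : ℝ) ^ 80) := by
    rw [al_ofFn, mul_sub, Finset.mul_sum]
    have h0 := cnt_lower N (cr 0) hN (h1 0).1 ((h1 0).2.trans (by omega))
    have : ∑ i : Fin r, (N : ℝ) ^ 50 * (aa (1 + i) * cnt N (cr i.succ)) ≤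
        ∑ i : Fin r, aa (1 + i) * (cr i.succ : ℝ) := by
      apply Finset.sum_le_sum
      intro i _
      have h3 := cnt_upper N (cr i.succ) hN (h1 i.succ).1 ((h1 i.succ).2.trans (by omega))
      have h4 := aa_nonneg (1 + i) (by omega)
      nlinarith
    linarith
  have hr1 : (0 : ℝ) ≤ (r + 1) * ((N : ℝ) ^ 80) := by positivity
  nlinarith

end P031
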