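import Vale.Agent.P031.OmTools

/-! P031, [CRED]: reduction of collisions to patterns. -/

namespace P031

open Finset Filter Topology
open scoped Classical

namespace CRedAux

open OmT

/-- `X ≥ 2`-type inequality used twice. -/
theorem exp_gap {a b : ℝ} (hab : a ≤ 3 * b / 4) (hb4 : 8 ≤ b) :
    Real.exp a + 1 < Real.exp b := by
  have h1 : Real.exp a ≤ Real.exp (3 * b / 4) := Real.exp_le_exp.2 hab
  have h2 : Real.exp b = Real.exp (3 * b / 4) * Real.exp (b / 4) := by
    rw [← Real.exp_add]; congr 1; ring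
  have h3 : (3 : ℝ) ≤ Real.exp (b / 4) := by
    have := Real.add_one_le_exp (b / 4)
    linarith
  have h4 : (1 : ℝ) < Real.exp (3 * b / 4) := Real.one_lt_exp_iff.2 (by linarith)
  nlinarith

theorem exp_ge_eight {y : ℕ} (hy : 7 ≤ y) : (8 : ℝ) ≤ Real.exp y := by
  have h1 := Real.add_one_le_exp (y : ℝ)
  have h2 : (7 : ℝ) ≤ y := by exact_mod_cast hy
  linarith

/-- a normal prime of high level has a large prime factor in `q - 1` -/
theorem row_prime {N q : ℕ} (hN : 8 ≤ N) (hq : Normal N q) (h1 : N ^ 80 ≤ lv q)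
    (h2 : lv q ≤ 3 * N ^ 100) : ∃ P : ℕ, P.Prime ∧ P ∣ q - 1 ∧ wP N (lv q) ≤ P := by
  by_contra hc
  push Not at hc
  have hq2 := hq.prime.two_le
  have h3 : smp (wP N (lv q)) (q - 1) = q - 1 :=
    smp_eq_self (by omega) (fun p hp hd => (hc p hp hd).le)
  have h4 := hq.n4 (lv q) h1 h2
  unfold wP at h3
  rw [h3] at h4
  have hy : 7 ≤ lv q := by
    have : N ≤ N ^ 80 := Nat.le_self_pow (by norm_num) N
    omega
  have h5 := le_of_le_lv (y := lv q) (by omega) le_rfl
  have h6 := exp_ge_eight hy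
  have hN' : (8 : ℝ) ≤ N := by exact_mod_cast hN
  have h7 := exp_gap (a := Real.exp (lv q) / (4 * N)) (b := Real.exp (lv q)) (by
    rw [div_le_iff₀ (by positivity)]
    nlinarith) h6
  have h8 : (q : ℝ) = ((q - 1 : ℕ) : ℝ) + 1 := by
    rw [Nat.cast_sub (by omega)]; simp
  linarith

theorem qm_le {l : List ℕ} {c : ℕ} (h : ∀ q ∈ l, Nat.Prime q ∧ lv q ≤ c) :
    (qm l : ℝ) ≤ Real.exp (l.length * Real.exp (c + 1)) := by
  induction l with
  | nil => simp [qm]
  | cons a l ih =>
    rw [qm_cons]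
    have h1 := h a (by simp)
    have h2 := ih (fun q hq => h q (by simp [hq]))
    have h3 : ((a - 1 : ℕ) : ℝ) ≤ Real.exp (Real.exp (c + 1)) := by
      have h4 := lt_exp_lv a
      have h5 : ((a - 1 : ℕ) : ℝ) ≤ a := by exact_mod_cast Nat.sub_le a 1
      have h6 : Real.exp (Real.exp ((lv a : ℝ) + 1)) ≤ Real.exp (Real.exp (c + 1)) := by
        apply Real.exp_le_exp.2
        apply Real.exp_le_exp.2
        have : (lv a : ℝ) ≤ c := by exact_mod_cast h1.2
        linarith
      linarith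
    have h7 : Real.exp (((a :: l).length : ℕ) * Real.exp ((c : ℝ) + 1)) =
        Real.exp (Real.exp (c + 1)) * Real.exp (l.length * Real.exp (c + 1)) := by
      rw [← Real.exp_add]
      congr 1
      push_cast [List.length_cons]
      ring
    rw [h7]
    push_cast
    exact mul_le_mul h3 h2 (by positivity) (by positivity)

theorem Om_block {N q b : ℕ} (hq : Normal N q) (hb : 1 ≤ b) :
    Om (b * N ^ 50) ((b + 1) * N ^ 50) (q - 1) ≤
      if b * N ^ 50 ≤ lv q then N ^ 50 + N ^ 34 else 0 := by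
  split_ifs with h
  · exact hq.n1 b hb h
  · rw [Om_eq_zero]
    intro p hp hd h1
    have := lv_le_of_dvd hq.prime hd
    omega

theorem Om_block' {N q b : ℕ} (hq : Normal N q) (hb : 1 ≤ b) :
    Om (b * N ^ 50) ((b + 1) * N ^ 50) (q - 1) ≤ N ^ 50 + N ^ 34 := by
  refine (Om_block hq hb).trans ?_
  split_ifs <;> omega

theorem Om_qm_le {N b : ℕ} (hb : 1 ≤ b) {l : List ℕ} (h : ∀ q ∈ l, Normal N q) :
    Om (b * N ^ 50) ((b + 1) * N ^ 50) (qm l) ≤ l.length * (N ^ 50 + N ^ 34) := by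
  induction l with
  | nil => simp [qm, Om]
  | cons a l ih =>
    have h1 := h a (by simp)
    have h2 : ∀ q ∈ l, Normal N q := fun q hq => h q (by simp [hq])
    rw [qm_cons, Om_mul (by have := h1.prime.two_le; omega) (qm_pos fun q hq => (h2 q hq).prime),
      List.length_cons]
    have h3 := Om_block' h1 hb
    have h4 := ih h2
    linarith

theorem Om_prod {ι : Type*} (s : Finset ι) (f : ι → ℕ) (hf : ∀ i ∈ s, 0 < f i) (a b : ℕ) :
    Om a b (∏ i ∈ s, f i) = ∑ i ∈ s, Om a b (f i) := by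
  induction s using Finset.induction_on with
  | empty => simp [Om]
  | insert i s hi ih =>
    rw [Finset.prod_insert hi, Finset.sum_insert hi, Om_mul (hf i (by simp))
      (Finset.prod_pos fun j hj => hf j (by simp [hj])), ih (fun j hj => hf j (by simp [hj]))]

theorem lv_small {N p : ℕ} (hp : (p : ℝ) ≤ Real.exp (Real.exp (2 * (N : ℝ) ^ 10))) :
    lv p ≤ 2 * N ^ 10 := by
  apply lv_le_of_lt
  refine hp.trans_lt ?_
  apply Real.exp_lt_exp.2
  apply Real.exp_lt_exp.2
  push_cast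
  linarith

theorem sq_dvd_prod {s : ℕ} (f : Fin s → ℕ) {i j : Fin s} (hij : i ≠ j) {P : ℕ}
    (hi : P ∣ f i) (hj : P ∣ f j) : P ^ 2 ∣ ∏ k, f k := by
  rw [← Finset.mul_prod_erase univ f (mem_univ i), pow_two]
  refine Nat.mul_dvd_mul hi ?_
  exact hj.trans (Finset.dvd_prod_of_mem f (mem_erase.2 ⟨hij.symm, mem_univ j⟩))

/-- number of large prime factors -/
theorem card_large {N v : ℕ} (hN : 8 ≤ N) (h1 : ∀ b, 1 ≤ b →
      Om (b * N ^ 50) ((b + 1) * N ^ 50) v ≤ (N + 1) * (N ^ 50 + N ^ 34))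
    (h2 : ∀ p, p.Prime → p ∣ v → lv p ≤ 2 * N ^ 100) :
    (v.primeFactors.filter (fun p => N ^ 50 ≤ lv p)).card ≤ N ^ 102 := by
  have hNp : 0 < N ^ 50 := Nat.pow_pos (by omega)
  have e1 : (v.primeFactors.filter (fun p => N ^ 50 ≤ lv p)).card ≤
      ∑ p ∈ v.primeFactors.filter (fun p => N ^ 50 ≤ lv p), v.factorization p := by
    rw [Finset.card_eq_sum_ones]
    refine Finset.sum_le_sum fun p hp => ?_
    rw [mem_filter, ← Nat.support_factorization, Finsupp.mem_support_iff] at hp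
    omega
  refine e1.trans ?_
  rw [← Finset.sum_fiberwise_of_maps_to (t := Icc 1 (2 * N ^ 50)) (g := fun p => lv p / N ^ 50)]
  · have e2 : ∀ b ∈ Icc 1 (2 * N ^ 50),
        ∑ p ∈ (v.primeFactors.filter (fun p => N ^ 50 ≤ lv p)).filter
          (fun p => lv p / N ^ 50 = b), v.factorization p ≤ (N + 1) * (N ^ 50 + N ^ 34) := by
      intro b hb
      rw [mem_Icc] at hb
      refine le_trans ?_ (h1 b hb.1)
      unfold Om
      refine Finset.sum_le_sum_of_subset ?_
      intro p hp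
      rw [mem_filter, mem_filter] at hp
      rw [mem_filter]
      refine ⟨hp.1.1, ?_, ?_⟩
      · rw [← hp.2]; exact Nat.div_mul_le_self _ _
      · rw [← hp.2]
        have := Nat.lt_div_mul_add hNp (a := lv p)
        rw [add_mul, one_mul]
        exact this
    refine (Finset.sum_le_card_nsmul _ _ _ e2).trans ?_
    rw [Nat.card_Icc, smul_eq_mul, Nat.add_sub_cancel]
    have e3 : N ^ 34 ≤ N ^ 50 := Nat.pow_le_pow_right (by omega) (by norm_num)
    calc 2 * N ^ 50 * ((N + 1) * (N ^ 50 + N ^ 34))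
        ≤ 2 * N ^ 50 * ((2 * N) * (N ^ 50 + N ^ 50)) := by
          gcongr
          omega
      _ = 8 * N ^ 101 := by ring
      _ ≤ N * N ^ 101 := Nat.mul_le_mul_right _ hN
      _ = N ^ 102 := by ring
  · intro p hp
    rw [mem_filter, Nat.mem_primeFactors] at hp
    rw [mem_Icc]
    refine ⟨(Nat.one_le_div_iff hNp).2 hp.2, ?_⟩
    have h3 := h2 p hp.1.1 hp.1.2.1
    have h4 : 2 * N ^ 100 = (2 * N ^ 50) * N ^ 50 := by ring
    rw [h4] at h3
    exact Nat.div_le_of_le_mul (by rw [mul_comm]; exact h3)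

theorem qm_coe (l : List ℕ) : qm l = ((l : Multiset ℕ).map (fun q => q - 1)).prod := by
  rw [Multiset.map_coe, Multiset.prod_coe]; rfl

theorem qm_split (l l' : List ℕ) :
    qm l = qm (l.diff l') * qm ((l : Multiset ℕ) ∩ (l' : Multiset ℕ)).toList := by
  rw [qm_coe, qm_coe, qm_coe, Multiset.coe_toList, ← Multiset.prod_add, ← Multiset.map_add,
    ← Multiset.coe_sub, Multiset.sub_add_inter]

theorem diff_disjoint {l l' : List ℕ} {q : ℕ} (h : q ∈ l.diff l') (h' : q ∈ l'.diff l) :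
    False := by
  rw [← Multiset.mem_coe, ← Multiset.coe_sub, ← Multiset.count_pos, Multiset.count_sub] at h h'
  omega

theorem qm_filter (l : List ℕ) (p : ℕ → Prop) [DecidablePred p] :
    qm l = qm (l.filter (fun x => p x)) * qm (l.filter (fun x => ¬ p x)) := by
  induction l with
  | nil => simp [qm]
  | cons a l ih =>
    by_cases h : p a
    · rw [List.filter_cons_of_pos (by simpa using h), List.filter_cons_of_neg (by simpa using h),
        qm_cons, qm_cons, ih, mul_assoc]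
    · rw [List.filter_cons_of_neg (by simpa using h), List.filter_cons_of_pos (by simpa using h),
        qm_cons, qm_cons, ih]
      ring

theorem qm_get (l : List ℕ) : ∏ i : Fin l.length, (l.get i - 1) = qm l := by
  unfold qm
  rw [← Fin.prod_univ_fun_getElem]
  rfl

theorem ofFn_lv (l : List ℕ) : List.ofFn (fun i : Fin l.length => lv (l.get i)) = l.map lv := by
  have h := List.map_ofFn (f := l.get) (g := lv)
  rw [List.ofFn_get] at h
  rw [h]
  rfl

/-- large prime factor for the columns -/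
theorem col_prime {N q₀ u v q : ℕ} {l : List ℕ} (hN : 8 ≤ N) (h0 : Normal N q₀)
    (hl : ∀ q ∈ l, Normal N q) (hlen : l.length ≤ N) (hu : 0 < u)
    (hu' : (u : ℝ) ≤ Real.exp (Real.exp (2 * (N : ℝ) ^ 10)))
    (hv : v = (q₀ - 1) * qm l * u) (hq : q.Prime) (hd : q - 1 ∣ v)
    (h1 : N ^ 80 ≤ lv q) (h2 : lv q ≤ 3 * N ^ 100) :
    ∃ P : ℕ, P.Prime ∧ P ∣ q - 1 ∧ wP N (lv q) ≤ P := by
  by_contra hc
  push Not at hc
  have hq2 := hq.two_le
  have h02 := h0.prime.two_le
  have hlp : ∀ q ∈ l, Nat.Prime q := fun q hq => (hl q hq).prime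
  have hqm := qm_pos hlp
  have hvp : 0 < v := by
    rw [hv]; exact Nat.mul_pos (Nat.mul_pos (by omega) hqm) hu
  have h3 : smp (wP N (lv q)) (q - 1) = q - 1 :=
    smp_eq_self (by omega) (fun p hp hd => (hc p hp hd).le)
  have h4 := smp_le_of_dvd (w := wP N (lv q)) hd hvp
  rw [h3, hv, smp_mul (Nat.mul_pos (by omega) hqm) hu, smp_mul (by omega) hqm] at h4
  obtain ⟨B, hB⟩ : ∃ B, B = Real.exp (Real.exp (lv q) / (4 * N)) := ⟨_, rfl⟩
  have hB0 : 0 ≤ B := hB ▸ (Real.exp_pos _).le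
  have h5 : (smp (wP N (lv q)) (q₀ - 1) : ℝ) ≤ B := by
    rw [hB]; exact h0.n4 (lv q) h1 h2
  have h6 : (smp (wP N (lv q)) (qm l) : ℝ) ≤ B ^ l.length :=
    smp_qm_le _ B hB0 hlp (fun r hr => by rw [hB]; exact (hl r hr).n4 (lv q) h1 h2)
  have h7 : (smp (wP N (lv q)) u : ℝ) ≤ Real.exp (Real.exp (2 * (N : ℝ) ^ 10)) := by
    refine le_trans ?_ hu'
    exact_mod_cast smp_le hu
  have hB1 : 1 ≤ B := by
    rw [hB]; exact Real.one_le_exp (by positivity)
  have h8 : ((q - 1 : ℕ) : ℝ) ≤ B ^ (N + 1) * Real.exp (Real.exp (2 * (N : ℝ) ^ 10)) := by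
    calc ((q - 1 : ℕ) : ℝ) ≤ (smp (wP N (lv q)) (q₀ - 1) : ℝ) *
          (smp (wP N (lv q)) (qm l) : ℝ) * (smp (wP N (lv q)) u : ℝ) := by exact_mod_cast h4
      _ ≤ B * B ^ l.length * Real.exp (Real.exp (2 * (N : ℝ) ^ 10)) :=
          mul_le_mul (mul_le_mul h5 h6 (by positivity) hB0) h7 (by positivity) (by positivity)
      _ ≤ B * B ^ N * Real.exp (Real.exp (2 * (N : ℝ) ^ 10)) := by
          gcongr
      _ = B ^ (N + 1) * Real.exp (Real.exp (2 * (N : ℝ) ^ 10)) := by ring
  have hy : 7 ≤ lv q := by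
    have : N ≤ N ^ 80 := Nat.le_self_pow (by norm_num) N
    omega
  have hE := exp_ge_eight hy
  have hN' : (8 : ℝ) ≤ N := by exact_mod_cast hN
  have h9 : B ^ (N + 1) * Real.exp (Real.exp (2 * (N : ℝ) ^ 10)) =
      Real.exp (((N : ℝ) + 1) * (Real.exp (lv q) / (4 * N)) + Real.exp (2 * (N : ℝ) ^ 10)) := by
    rw [hB, ← Real.exp_nat_mul, ← Real.exp_add]
    push_cast
    rfl
  have h10 : Real.exp (2 * (N : ℝ) ^ 10) ≤ Real.exp (lv q) / 4 := by
    have e1 : (2 : ℝ) * (N : ℝ) ^ 10 + 2 ≤ lv q := by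
      have e2 : 2 * N ^ 10 + 2 ≤ lv q := by
        refine le_trans ?_ h1
        calc 2 * N ^ 10 + 2 ≤ 2 * N ^ 10 + 2 * N ^ 10 := by
              have := Nat.one_le_pow 10 N (by omega)
              omega
          _ = 4 * N ^ 10 := by ring
          _ ≤ N * N ^ 10 := Nat.mul_le_mul_right _ (by omega)
          _ = N ^ 11 := by ring
          _ ≤ N ^ 80 := Nat.pow_le_pow_right (by omega) (by norm_num)
      exact_mod_cast e2
    have e3 : (4 : ℝ) ≤ Real.exp 2 := by
      have := Real.add_one_le_exp (1 : ℝ)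
      have e4 : Real.exp 2 = Real.exp 1 * Real.exp 1 := by rw [← Real.exp_add]; norm_num
      nlinarith
    rw [le_div_iff₀ (by norm_num)]
    calc Real.exp (2 * (N : ℝ) ^ 10) * 4 ≤ Real.exp (2 * (N : ℝ) ^ 10) * Real.exp 2 := by
          gcongr
      _ = Real.exp (2 * (N : ℝ) ^ 10 + 2) := by rw [← Real.exp_add]
      _ ≤ Real.exp (lv q) := Real.exp_le_exp.2 e1
  have h11 : ((N : ℝ) + 1) * (Real.exp (lv q) / (4 * N)) ≤ Real.exp (lv q) / 2 := by
    rw [mul_div_assoc', div_le_div_iff₀ (by positivity) (by norm_num)]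
    nlinarith
  have h12 := exp_gap (a := ((N : ℝ) + 1) * (Real.exp (lv q) / (4 * N)) +
    Real.exp (2 * (N : ℝ) ^ 10)) (b := Real.exp (lv q)) (by linarith) hE
  rw [h9] at h8
  have h13 := le_of_le_lv (y := lv q) (by omega) le_rfl
  have h14 : (q : ℝ) = ((q - 1 : ℕ) : ℝ) + 1 := by
    rw [Nat.cast_sub (by omega)]; simp
  linarith

theorem col_level {N c q₀ u v q : ℕ} {l : List ℕ} (hN : 8 ≤ N) (h0 : q₀.Prime) (h0c : lv q₀ = c)
    (hl : ∀ q ∈ l, q.Prime ∧ lv q ≤ c) (hlen : l.length ≤ N) (hu : 0 < u)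
    (hu' : (u : ℝ) ≤ Real.exp (Real.exp (2 * (N : ℝ) ^ 10)))
    (hc1 : N ^ 100 ≤ c) (hc2 : c ≤ 2 * N ^ 100)
    (hv : v = (q₀ - 1) * qm l * u) (hq : q.Prime) (hd : q - 1 ∣ v) : lv q ≤ 3 * N ^ 100 := by
  have hq2 := hq.two_le
  have h02 := h0.two_le
  have hN' : (8 : ℝ) ≤ N := by exact_mod_cast hN
  have hqm := qm_pos (fun q hq => (hl q hq).1)
  have hvp : 0 < v := by
    rw [hv]; exact Nat.mul_pos (Nat.mul_pos (by omega) hqm) hu
  obtain ⟨E, hE⟩ : ∃ E, E = Real.exp ((c : ℝ) + 1) := ⟨_, rfl⟩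
  have hE1 : 1 ≤ E := by rw [hE]; exact Real.one_le_exp (by positivity)
  have h1 : (qm (q₀ :: l) : ℝ) ≤ Real.exp ((l.length + 1) * E) := by
    have := qm_le (l := q₀ :: l) (c := c) (by
      intro q hq
      rw [List.mem_cons] at hq
      rcases hq with rfl | hq
      · exact ⟨h0, h0c.le⟩
      · exact hl q hq)
    rw [hE]
    simpa using this
  have h2 : Real.exp (2 * (N : ℝ) ^ 10) ≤ E := by
    rw [hE]
    apply Real.exp_le_exp.2
    have : 2 * N ^ 10 ≤ c := by
      refine le_trans ?_ hc1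
      calc 2 * N ^ 10 ≤ N * N ^ 10 := Nat.mul_le_mul_right _ (by omega)
        _ = N ^ 11 := by ring
        _ ≤ N ^ 100 := Nat.pow_le_pow_right (by omega) (by norm_num)
    have : (2 : ℝ) * (N : ℝ) ^ 10 ≤ c := by exact_mod_cast this
    linarith
  have h3 : (v : ℝ) ≤ Real.exp ((N + 2) * E) := by
    have e1 : v = qm (q₀ :: l) * u := by rw [hv, qm_cons]
    rw [e1]
    push_cast
    calc (qm (q₀ :: l) : ℝ) * u ≤ Real.exp ((l.length + 1) * E) * Real.exp E := by
          refine mul_le_mul h1 (hu'.trans ?_) (by positivity) (by positivity)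
          exact Real.exp_le_exp.2 h2
      _ = Real.exp ((l.length + 2) * E) := by rw [← Real.exp_add]; congr 1; ring
      _ ≤ Real.exp ((N + 2) * E) := by
          apply Real.exp_le_exp.2
          have : (l.length : ℝ) ≤ N := by exact_mod_cast hlen
          nlinarith
  have h4 : (q : ℝ) ≤ v + 1 := by
    have := Nat.le_of_dvd hvp hd
    have : q ≤ v + 1 := by omega
    exact_mod_cast this
  have h5 : (q : ℝ) ≤ Real.exp ((N + 3) * E) := by
    have e1 : Real.exp ((N + 3) * E) = Real.exp ((N + 2) * E) * Real.exp E := by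
      rw [← Real.exp_add]; congr 1; ring
    have e2 : (2 : ℝ) ≤ Real.exp E := by
      have := Real.add_one_le_exp E
      linarith
    have e3 : (1 : ℝ) ≤ Real.exp ((N + 2) * E) := Real.one_le_exp (by positivity)
    rw [e1]
    nlinarith
  apply lv_le_of_lt
  refine h5.trans_lt ?_
  apply Real.exp_lt_exp.2
  have h6 : ((N : ℝ) + 3) ≤ Real.exp ((N : ℝ) + 2) := by
    have := Real.add_one_le_exp ((N : ℝ) + 2)
    linarith
  calc ((N : ℝ) + 3) * E ≤ Real.exp ((N : ℝ) + 2) * E := by gcongr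
    _ = Real.exp ((N : ℝ) + 2 + (c + 1)) := by rw [hE, ← Real.exp_add]
    _ < Real.exp (((3 * N ^ 100 : ℕ) : ℝ) + 1) := by
        apply Real.exp_lt_exp.2
        have e1 : N + 2 + c < 3 * N ^ 100 := by
          have e2 : N + 2 < N ^ 100 := by
            calc N + 2 < N * N := by nlinarith
              _ = N ^ 2 := by ring
              _ ≤ N ^ 100 := Nat.pow_le_pow_right (by omega) (by norm_num)
          omega
        have e3 : ((N : ℝ) + 2 + c) < ((3 * N ^ 100 : ℕ) : ℝ) := by exact_mod_cast e1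
        linarith

end CRedAux

open CRedAux OmT in
theorem coll_reduce : ∃ N₀ : ℕ, ∀ N ≥ N₀, ∀ c : ℕ, N ^ 100 ≤ c → c ≤ 2 * N ^ 100 →
    ∀ q₀ v, Coll N c q₀ v → (∃ P : ℕ, P.Prime ∧ N ^ 50 ≤ lv P ∧ P ^ 2 ∣ v) ∨
      ∃ (D : List ℕ) (r s : ℕ) (cr : Fin (r + 1) → ℕ) (cc : Fin s → ℕ) (v' : ℕ),
        D.length ≤ N ∧ (∀ q ∈ D, q.Prime ∧ N ^ 10 ≤ lv q ∧ lv q ≤ c) ∧
        r ≤ N ∧ s ≤ N ^ 102 ∧ Antitone cr ∧ cr 0 = c ∧ (∀ i, N ^ 80 ≤ cr i) ∧
        (∀ j, N ^ 80 ≤ cc j ∧ cc j ≤ 3 * N ^ 100) ∧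
        al 1 (List.ofFn (fun i : Fin r => cr i.succ)) + (N : ℝ) ^ 90 ≤ c ∧
        RPat N r s cr cc q₀ v' ∧ v = (D.map (fun q => q - 1)).prod * v' := by
  refine ⟨8, fun N hN c hc1 hc2 q₀ v hcoll => ?_⟩
  obtain ⟨l, u, l', u', h0, h0c, hl, hlen, hsort, hal, hu, hu', hl', hq0l', hup', hu's, hv, hv'⟩ :=
    hcoll
  by_cases hsq : ∃ P : ℕ, P.Prime ∧ N ^ 50 ≤ lv P ∧ P ^ 2 ∣ v
  · exact Or.inl hsq
  right
  have hsq' : ∀ P : ℕ, P.Prime → N ^ 50 ≤ lv P → ¬ P ^ 2 ∣ v := fun P h1 h2 h3 =>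
    hsq ⟨P, h1, h2, h3⟩
  have hN80 : N ^ 80 ≤ N ^ 100 := Nat.pow_le_pow_right (by omega) (by norm_num)
  have hlp : ∀ q ∈ l, Nat.Prime q := fun q hq => (hl q hq).1.prime
  have hl'p : ∀ q ∈ l', Nat.Prime q := fun q hq => (hl' q hq).1
  have h02 := h0.prime.two_le
  change v = (q₀ - 1) * qm l * u at hv
  change v = qm l' * u' at hv'
  have hvp : 0 < v := by
    rw [hv]; exact Nat.mul_pos (Nat.mul_pos (by omega) (qm_pos hlp)) hu
  -- the common part
  obtain ⟨D, hD⟩ : ∃ D, D = ((l : Multiset ℕ) ∩ (l' : Multiset ℕ)).toList := ⟨_, rfl⟩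
  have hDl : ∀ q ∈ D, q ∈ l := by
    intro q hq
    rw [hD, Multiset.mem_toList, Multiset.mem_inter] at hq
    simpa using hq.1
  have hDlen : D.length ≤ N := by
    refine le_trans ?_ hlen
    rw [hD, Multiset.length_toList, ← Multiset.coe_card l]
    exact Multiset.card_le_card (Multiset.inter_le_left)
  have hqD := qm_pos (l := D) (fun q hq => hlp q (hDl q hq))
  obtain ⟨R, hR⟩ : ∃ R, R = (l.diff l').filter (fun x => N ^ 80 ≤ lv x) := ⟨_, rfl⟩
  obtain ⟨R', hR'⟩ : ∃ R', R' = (l.diff l').filter (fun x => ¬ N ^ 80 ≤ lv x) := ⟨_, rfl⟩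
  obtain ⟨K, hK⟩ : ∃ K, K = (l'.diff l).filter (fun x => N ^ 80 ≤ lv x) := ⟨_, rfl⟩
  obtain ⟨K', hK'⟩ : ∃ K', K' = (l'.diff l).filter (fun x => ¬ N ^ 80 ≤ lv x) := ⟨_, rfl⟩
  have hdiff : qm (l.diff l') = qm R * qm R' := by
    rw [hR, hR']; exact qm_filter _ _
  have hdiff' : qm (l'.diff l) = qm K * qm K' := by
    rw [hK, hK']; exact qm_filter _ _
  have hRsub : R.Sublist l := by
    rw [hR]; exact List.filter_sublist.trans (List.diff_sublist _ _)
  have hR'sub : R'.Sublist l := by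
    rw [hR']; exact List.filter_sublist.trans (List.diff_sublist _ _)
  have hKsub : K.Sublist l' := by
    rw [hK]; exact List.filter_sublist.trans (List.diff_sublist _ _)
  have hK'sub : K'.Sublist l' := by
    rw [hK']; exact List.filter_sublist.trans (List.diff_sublist _ _)
  have hRp : ∀ q ∈ R, Nat.Prime q := fun q hq => hlp q (hRsub.subset hq)
  have hR'p : ∀ q ∈ R', Nat.Prime q := fun q hq => hlp q (hR'sub.subset hq)
  have hKp : ∀ q ∈ K, Nat.Prime q := fun q hq => hl'p q (hKsub.subset hq)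
  have hK'p : ∀ q ∈ K', Nat.Prime q := fun q hq => hl'p q (hK'sub.subset hq)
  have hR'low : ∀ q ∈ R', lv q < N ^ 80 := by
    intro q hq
    rw [hR', List.mem_filter] at hq
    simpa using hq.2
  have hK'low : ∀ q ∈ K', lv q < N ^ 80 := by
    intro q hq
    rw [hK', List.mem_filter] at hq
    simpa using hq.2
  have hRhigh : ∀ q ∈ R, N ^ 80 ≤ lv q := by
    intro q hq
    rw [hR, List.mem_filter] at hq
    simpa using hq.2
  have hKhigh : ∀ q ∈ K, N ^ 80 ≤ lv q := by
    intro q hq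
    rw [hK, List.mem_filter] at hq
    simpa using hq.2
  have hRm : ∀ q ∈ R, q ∈ l.diff l' := by
    intro q hq
    rw [hR, List.mem_filter] at hq
    exact hq.1
  have hKm' : ∀ q ∈ K, q ∈ l'.diff l := by
    intro q hq
    rw [hK, List.mem_filter] at hq
    exact hq.1
  -- the reduced value
  obtain ⟨v', hv'd⟩ : ∃ v', v' = qm (q₀ :: R) * (qm R' * u) := ⟨_, rfl⟩
  have e1 : v = qm D * v' := by
    rw [hv, qm_split l l', hdiff, hv'd, qm_cons, ← hD]
    ring
  have e2 : v' = qm K * (qm K' * u') := by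
    have e3 : qm D * v' = qm D * (qm K * (qm K' * u')) := by
      rw [← e1, hv', qm_split l' l, hdiff', Multiset.inter_comm, ← hD]
      ring
    exact Nat.eq_of_mul_eq_mul_left hqD e3
  have hv'dvd : v' ∣ v := ⟨qm D, by rw [e1, mul_comm]⟩
  have hKdvd : ∀ q ∈ K, q - 1 ∣ v := by
    intro q hq
    refine Dvd.dvd.trans ?_ hv'dvd
    rw [e2]
    refine Dvd.dvd.mul_right ?_ _
    exact List.dvd_prod (List.mem_map.2 ⟨q, hq, rfl⟩)
  have hKlv : ∀ q ∈ K, lv q ≤ 3 * N ^ 100 := fun q hq =>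
    col_level hN h0.prime h0c (fun q hq => ⟨hlp q hq, by have := (hl q hq).2; omega⟩) hlen hu hu'
      hc1 hc2 hv (hKp q hq) (hKdvd q hq)
  have hcolP : ∀ q ∈ K, ∃ P : ℕ, P.Prime ∧ P ∣ q - 1 ∧ wP N (lv q) ≤ P := fun q hq =>
    col_prime hN h0 (fun q hq => (hl q hq).1) hlen hu hu' hv (hKp q hq) (hKdvd q hq)
      (hKhigh q hq) (hKlv q hq)
  have hN10 : 2 * N ^ 10 < N ^ 50 := by
    calc 2 * N ^ 10 < N * N ^ 10 := Nat.mul_lt_mul_of_pos_right (by omega) (Nat.pow_pos (by omega))
      _ = N ^ 11 := by ring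
      _ ≤ N ^ 50 := Nat.pow_le_pow_right (by omega) (by norm_num)
  have hN50 : N ^ 50 ≤ N ^ 80 := Nat.pow_le_pow_right (by omega) (by norm_num)
  have hulv : ∀ p, p.Prime → p ∣ u → lv p ≤ 2 * N ^ 10 := by
    intro p _ hd
    apply lv_small
    refine le_trans ?_ hu'
    exact_mod_cast Nat.le_of_dvd hu hd
  have hOmu : ∀ b, 1 ≤ b → Om (b * N ^ 50) ((b + 1) * N ^ 50) u = 0 := by
    intro b hb
    apply Om_eq_zero
    intro p hp hd h1
    have h2 := hulv p hp hd
    have h3 : N ^ 50 ≤ b * N ^ 50 := Nat.le_mul_of_pos_left _ (by omega)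
    omega
  have hOmv : ∀ b, 1 ≤ b → Om (b * N ^ 50) ((b + 1) * N ^ 50) v ≤
      (N + 1) * (N ^ 50 + N ^ 34) := by
    intro b hb
    rw [hv, Om_mul (Nat.mul_pos (by omega) (qm_pos hlp)) hu, Om_mul (by omega) (qm_pos hlp),
      hOmu b hb]
    have h1 := Om_block' h0 hb
    have h2 := Om_qm_le hb (fun q hq => (hl q hq).1)
    have h3 : l.length * (N ^ 50 + N ^ 34) ≤ N * (N ^ 50 + N ^ 34) :=
      Nat.mul_le_mul_right _ hlen
    have h4 : (N + 1) * (N ^ 50 + N ^ 34) = N * (N ^ 50 + N ^ 34) + (N ^ 50 + N ^ 34) := by ring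
    rw [h4]
    linarith
  have hvlv : ∀ p, p.Prime → p ∣ v → lv p ≤ 2 * N ^ 100 := by
    intro p hp hd
    rw [hv] at hd
    rcases (hp.dvd_mul).1 hd with hd | hd
    · rcases (hp.dvd_mul).1 hd with hd | hd
      · have := lv_le_of_dvd h0.prime hd
        omega
      · obtain ⟨q, hq, hd⟩ := prime_dvd_qm hp hd
        have h1 := lv_le_of_dvd (hlp q hq) hd
        have h2 := (hl q hq).2
        omega
    · have := hulv p hp hd
      omega
  have hcard := card_large hN hOmv hvlv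
  -- bound for the number of columns
  have hs : K.length ≤ N ^ 102 := by
    have hch : ∀ j : Fin K.length, ∃ P : ℕ, P.Prime ∧ P ∣ K.get j - 1 ∧ N ^ 50 ≤ lv P := by
      intro j
      obtain ⟨P, hP, hd, hw⟩ := hcolP (K.get j) (List.get_mem _ _)
      refine ⟨P, hP, hd, le_lv_of_le ?_⟩
      refine le_trans ?_ hw
      unfold wP
      apply Real.exp_le_exp.2
      have hy := hKhigh (K.get j) (List.get_mem _ _)
      have hN' : (8 : ℝ) ≤ N := by exact_mod_cast hN
      rw [le_div_iff₀ (by positivity)]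
      have h1 : (N : ℝ) ^ 110 ≤ Real.exp (110 * N) := by
        have h2 : (N : ℝ) ≤ Real.exp N := by
          have := Real.add_one_le_exp (N : ℝ)
          linarith
        calc (N : ℝ) ^ 110 ≤ (Real.exp N) ^ 110 := by gcongr
          _ = Real.exp (110 * N) := by rw [← Real.exp_nat_mul]; norm_num
      calc Real.exp ((N ^ 50 : ℕ) : ℝ) * (N : ℝ) ^ 110
          ≤ Real.exp ((N ^ 50 : ℕ) : ℝ) * Real.exp (110 * N) := by gcongr
        _ = Real.exp (((N ^ 50 : ℕ) : ℝ) + 110 * N) := by rw [← Real.exp_add]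
        _ ≤ Real.exp (lv (K.get j)) := by
            apply Real.exp_le_exp.2
            have h3 : N ^ 50 + 110 * N ≤ lv (K.get j) := by
              refine le_trans ?_ hy
              have h4 : 110 * N ≤ N ^ 50 := by
                calc 110 * N ≤ (N * N * N) * N := by
                      have : 110 ≤ N * N * N := by nlinarith
                      exact Nat.mul_le_mul_right _ this
                  _ = N ^ 4 := by ring
                  _ ≤ N ^ 50 := Nat.pow_le_pow_right (by omega) (by norm_num)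
              calc N ^ 50 + 110 * N ≤ 2 * N ^ 50 := by omega
                _ ≤ N * N ^ 50 := Nat.mul_le_mul_right _ (by omega)
                _ = N ^ 51 := by ring
                _ ≤ N ^ 80 := Nat.pow_le_pow_right (by omega) (by norm_num)
            exact_mod_cast h3
    choose P hP hPd hPl using hch
    have hinj : Function.Injective P := by
      intro i j hij
      by_contra hne
      apply hsq' (P i) (hP i) (hPl i)
      have h1 := sq_dvd_prod (fun k : Fin K.length => K.get k - 1) hne (hPd i)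
        (by rw [hij]; exact hPd j)
      rw [qm_get] at h1
      refine (h1.trans ?_).trans hv'dvd
      rw [e2]
      exact Dvd.intro _ rfl
    refine le_trans ?_ hcard
    rw [← Fintype.card_fin K.length, ← Finset.card_univ]
    refine Finset.card_le_card_of_injOn P (fun j _ => ?_) hinj.injOn
    rw [mem_coe, mem_filter, Nat.mem_primeFactors]
    refine ⟨⟨hP j, (hPd j).trans (hKdvd _ (List.get_mem _ _)), hvp.ne'⟩, hPl j⟩
  -- sortedness of the rows
  have hpw : (q₀ :: R).Pairwise (fun a b => lv b ≤ lv a) := by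
    rw [List.pairwise_cons]
    refine ⟨fun q hq => ?_, ?_⟩
    · have := (hl q (hRsub.subset hq)).2
      omega
    · exact (hsort.sublist hRsub).imp (fun h => lv_mono h)
  refine ⟨D, R.length, K.length, fun i => lv ((q₀ :: R).get i), fun j => lv (K.get j), v', hDlen,
    fun q hq => ⟨hlp q (hDl q hq), (hl q (hDl q hq)).1.low, by
      have := (hl q (hDl q hq)).2; omega⟩, hRsub.length_le.trans hlen, hs, ?_, h0c, ?_, ?_, ?_,
    ?_, e1⟩
  · intro i j hij
    rcases hij.lt_or_eq with h | h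
    · exact List.pairwise_iff_get.1 hpw i j h
    · rw [h]
  · intro i
    have := List.get_mem (q₀ :: R) i
    rw [List.mem_cons] at this
    rcases this with h | h
    · simp only [h, h0c]; omega
    · exact hRhigh _ h
  · intro j
    exact ⟨hKhigh _ (List.get_mem _ _), hKlv _ (List.get_mem _ _)⟩
  · have h1 : (List.ofFn (fun i : Fin R.length => lv ((q₀ :: R).get i.succ))) = R.map lv :=
      ofFn_lv R
    rw [h1]
    have h2 := al_sublist (hRsub.map lv) 1 le_rfl
    linarith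
  · refine ⟨fun i => (q₀ :: R).get i, fun j => K.get j, qm R' * u, qm K' * u', rfl,
      Nat.mul_pos (qm_pos hR'p) hu, Nat.mul_pos (qm_pos hK'p) hup', ?_, ?_, ?_, ?_, ?_, ?_, ?_,
      ?_, ?_, ?_⟩
    · rw [hv'd]
      congr 1
      exact (qm_get (q₀ :: R)).symm
    · rw [e2]
      congr 1
      exact (qm_get K).symm
    · intro i
      beta_reduce
      have hmem := List.get_mem (q₀ :: R) i
      rw [List.mem_cons] at hmem
      rcases hmem with h | h
      · refine ⟨by rw [h]; exact h0.prime, rfl, ?_⟩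
        simp only [h]
        exact row_prime hN h0 (by omega) (by omega)
      · have hn := (hl _ (hRsub.subset h)).1
        refine ⟨hn.prime, rfl, ?_⟩
        exact row_prime hN hn (hRhigh _ h) (by have := (hl _ (hRsub.subset h)).2; omega)
    · intro j
      exact ⟨hKp _ (List.get_mem _ _), rfl, hcolP _ (List.get_mem _ _)⟩
    · intro i j h
      beta_reduce at h
      have hmem := List.get_mem (q₀ :: R) i
      have hKm := List.get_mem K j
      rw [← h] at hKm
      rw [List.mem_cons] at hmem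
      rcases hmem with h1 | h1
      · rw [h1] at hKm
        exact hq0l' (hKsub.subset hKm)
      · exact diff_disjoint (hRm _ h1) (hKm' _ hKm)
    · intro p hp hd
      rcases (hp.dvd_mul).1 hd with hd | hd
      · obtain ⟨q, hq, hd⟩ := prime_dvd_qm hp hd
        exact (lv_le_of_dvd (hR'p q hq) hd).trans_lt (hR'low q hq)
      · have := hulv p hp hd
        omega
    · intro p hp hd
      rcases (hp.dvd_mul).1 hd with hd | hd
      · obtain ⟨q, hq, hd⟩ := prime_dvd_qm hp hd
        exact (lv_le_of_dvd (hK'p q hq) hd).trans_lt (hK'low q hq)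
      · have h1 := hu's p hp hd
        have h2 : N ^ 10 ≤ N ^ 80 := Nat.pow_le_pow_right (by omega) (by norm_num)
        omega
    · intro b hb
      have hb1 : 1 ≤ b := le_trans (Nat.one_le_pow _ _ (by omega)) hb
      have hbN : N ^ 80 ≤ b * N ^ 50 := by
        calc N ^ 80 = N ^ 30 * N ^ 50 := by ring
          _ ≤ b * N ^ 50 := Nat.mul_le_mul_right _ hb
      have hpos : ∀ i ∈ (univ : Finset (Fin (R.length + 1))), 0 < (q₀ :: R).get i - 1 := by
        intro i _
        have hmem := List.get_mem (q₀ :: R) i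
        rw [List.mem_cons] at hmem
        rcases hmem with h | h
        · rw [h]; omega
        · have := (hRp _ h).two_le
          omega
      rw [hv'd, ← qm_get (q₀ :: R)]
      change Om (b * N ^ 50) ((b + 1) * N ^ 50)
        ((∏ i : Fin (R.length + 1), ((q₀ :: R).get i - 1)) * (qm R' * u)) ≤ _
      rw [Om_mul (Finset.prod_pos hpos) (Nat.mul_pos (qm_pos hR'p) hu), Om_prod _ _ hpos]
      have h1 : Om (b * N ^ 50) ((b + 1) * N ^ 50) (qm R' * u) = 0 := by
        apply Om_eq_zero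
        intro p hp hd h2
        rcases (hp.dvd_mul).1 hd with hd | hd
        · obtain ⟨q, hq, hd⟩ := prime_dvd_qm hp hd
          have h3 := lv_le_of_dvd (hR'p q hq) hd
          have h4 := hR'low q hq
          omega
        · have := hulv p hp hd
          omega
      rw [h1, add_zero, Finset.card_filter, Finset.sum_mul]
      refine Finset.sum_le_sum fun i _ => ?_
      have hn : Normal N ((q₀ :: R).get i) := by
        have hmem := List.get_mem (q₀ :: R) i
        rw [List.mem_cons] at hmem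
        rcases hmem with h | h
        · rw [h]; exact h0
        · exact (hl _ (hRsub.subset h)).1
      refine (Om_block hn hb1).trans (le_of_eq ?_)
      split_ifs <;> simp
    · intro b hb _
      exact (Om_le_of_dvd hv'dvd hvp).trans (hOmv b hb)
    · intro P hP hlP hd
      exact hsq' P hP hlP (hd.trans hv'dvd)

end P031
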