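import Vale.Agent.P031.Defs

/-! P031, [CHEB]: Chebyshev bounds for the prime counting function. -/

namespace P031

open Finset Filter Topology

theorem pi_upper : ∃ C : ℝ, 0 < C ∧ ∀ x : ℝ, 2 ≤ x →
    (Nat.primeCounting ⌊x⌋₊ : ℝ) ≤ C * x / Real.log x := by
  have h4 : 0 < Real.log 4 := Real.log_pos (by norm_num)
  refine ⟨2 * Real.log 4 + 2, by positivity, fun x hx => ?_⟩
  have hx0 : 0 < x := by linarith
  have hlog : 0 < Real.log x := Real.log_pos (by linarith)
  have h1 := Chebyshev.pi_le_log4_mul_div (x := x) (by linarith)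
  have h2 : Real.log √x = Real.log x / 2 := Real.log_sqrt hx0.le
  have hs : 0 < √x := Real.sqrt_pos.2 hx0
  have h3 : Real.log √x ≤ √x := by
    have := Real.log_le_sub_one_of_pos hs
    linarith
  have h5 : √x ≤ 2 * x / Real.log x := by
    rw [le_div_iff₀ hlog]
    have h6 : √x * √x = x := Real.mul_self_sqrt hx0.le
    have h7 : Real.log x ≤ 2 * √x := by linarith
    nlinarith
  refine h1.trans ?_
  rw [h2]
  have h8 : Real.log 4 * x / (Real.log x / 2) = 2 * Real.log 4 * x / Real.log x := by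
    field_simp
  rw [h8]
  have h9 : (2 * Real.log 4 + 2) * x / Real.log x =
      2 * Real.log 4 * x / Real.log x + 2 * x / Real.log x := by ring
  rw [h9]
  linarith

theorem pi_lower : ∃ c : ℝ, 0 < c ∧ ∀ x : ℝ, 2 ≤ x →
    c * x / Real.log x ≤ (Nat.primeCounting ⌊x⌋₊ : ℝ) := by
  have hl2 : 0.6931471803 < Real.log 2 := Real.log_two_gt_d9
  have hl2' : Real.log 2 < 0.6931471808 := Real.log_two_lt_d9
  refine ⟨Real.log 2 / 8, by linarith, fun x hx => ?_⟩
  have hx0 : 0 < x := by linarith
  have hlog : 0 < Real.log x := Real.log_pos (by linarith)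
  rcases lt_or_ge x 8 with h8 | h8
  · have hp : 1 ≤ Nat.primeCounting ⌊x⌋₊ := by
      have h2 : 2 ≤ ⌊x⌋₊ := Nat.le_floor (by exact_mod_cast hx)
      have h3 : Nat.primeCounting 2 ≤ Nat.primeCounting ⌊x⌋₊ := Nat.monotone_primeCounting h2
      have h4 : Nat.primeCounting 2 = 1 := by decide
      omega
    have hp' : (1 : ℝ) ≤ (Nat.primeCounting ⌊x⌋₊ : ℝ) := by exact_mod_cast hp
    refine le_trans ?_ hp'
    rw [div_le_one hlog]
    have h3 : Real.log 2 ≤ Real.log x := Real.log_le_log (by norm_num) hx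
    have h4 : Real.log 2 / 8 * x ≤ Real.log 2 / 8 * 8 :=
      mul_le_mul_of_nonneg_left h8.le (by linarith)
    linarith
  · refine le_trans ?_ (Chebyshev.pi_ge' (x := x) (by linarith))
    apply div_le_div_of_nonneg_right _ hlog.le
    have h1 : Real.log (x + 2) ≤ (x + 2) / 16 - 1 + 4 * Real.log 2 := by
      have h2 := Real.log_le_sub_one_of_pos (show 0 < (x + 2) / 16 by positivity)
      rw [Real.log_div (by positivity) (by norm_num)] at h2
      have h3 : Real.log 16 = 4 * Real.log 2 := by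
        rw [show (16 : ℝ) = 2 ^ 4 by norm_num, Real.log_pow]
        norm_num
      linarith
    nlinarith
end P031
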