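import Vale.Agent.P031.OmTools

/-! P031, [CNT]: number of entries from the dyadic bounds. -/

namespace P031

open Finset Filter Topology
open scoped Classical

namespace CntAux

theorem filter_length_le {ι : Type*} (s : Finset ι) (P : ℕ → Prop) [DecidablePred P]
    (Q : ι → ℕ → Prop)
    (L : List ℕ) (h : ∀ q ∈ L, P q → ∃ i ∈ s, Q i q) :
    (L.filter (fun q => decide (P q))).length ≤
      ∑ i ∈ s, (L.filter (fun q => decide (Q i q))).length := by
  induction L with
  | nil => simp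
  | cons a L ih =>
    have ih' := ih (fun q hq => h q (by simp [hq]))
    have h1 : ∀ i ∈ s, ((a :: L).filter (fun q => decide (Q i q))).length =
        (if Q i a then 1 else 0) + (L.filter (fun q => decide (Q i q))).length := by
      intro i _
      by_cases hi : Q i a
      · rw [List.filter_cons_of_pos (by simpa using hi), List.length_cons, if_pos hi, add_comm]
      · rw [List.filter_cons_of_neg (by simpa using hi), if_neg hi, zero_add]
    rw [Finset.sum_congr rfl h1, Finset.sum_add_distrib]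
    by_cases ha : P a
    · rw [List.filter_cons_of_pos (by simpa using ha), List.length_cons]
      obtain ⟨i, hi, hQ⟩ := h a (by simp) ha
      have h2 : 1 ≤ ∑ i ∈ s, (if Q i a then 1 else 0) := by
        refine le_trans ?_ (Finset.single_le_sum (fun _ _ => Nat.zero_le _) hi)
        rw [if_pos hQ]
      omega
    · rw [List.filter_cons_of_neg (by simpa using ha)]
      omega

theorem pow_lin (k : ℕ) (hk : 20 ≤ k) : 16 * (23 * (100 * (k + 1) + 5)) ≤ 2 ^ k := by
  induction k, hk using Nat.le_induction with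
  | base => norm_num
  | succ k hk ih =>
    have e : 16 * (23 * (100 * (k + 1 + 1) + 5)) =
        16 * (23 * (100 * (k + 1) + 5)) + 36800 := by ring
    rw [e, pow_succ]
    have h1 : 36800 ≤ 2 ^ k := by
      refine le_trans ?_ ih
      calc 36800 ≤ 16 * (23 * (100 * (20 + 1) + 5)) := by norm_num
        _ ≤ 16 * (23 * (100 * (k + 1) + 5)) := by gcongr
    linarith

theorem log_lin : ∃ m₀ : ℕ, 1 ≤ m₀ ∧ ∀ N ≥ m₀,
    16 * (23 * (Nat.log 2 (3 * N ^ 100) + 3)) ≤ N := by
  refine ⟨1048576, by norm_num, fun N hN => ?_⟩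
  obtain ⟨k, hk⟩ : ∃ k, k = Nat.log 2 N := ⟨_, rfl⟩
  have hN0 : N ≠ 0 := by omega
  have h1 : 2 ^ k ≤ N := by rw [hk]; exact Nat.pow_log_le_self 2 hN0
  have h2 : N < 2 ^ (k + 1) := by rw [hk]; exact Nat.lt_pow_succ_log_self (by norm_num) N
  have hk20 : 20 ≤ k := by
    rw [hk]
    exact Nat.le_log_of_pow_le (by norm_num) (le_trans (by norm_num) hN)
  have h3 : Nat.log 2 (3 * N ^ 100) < 100 * (k + 1) + 2 := by
    apply Nat.log_lt_of_lt_pow (by positivity)
    calc 3 * N ^ 100 < 2 ^ 2 * (2 ^ (k + 1)) ^ 100 := by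
          have h6 : N ^ 100 ≤ (2 ^ (k + 1)) ^ 100 := Nat.pow_le_pow_left h2.le 100
          have h4 : 0 < (2 ^ (k + 1)) ^ 100 := by positivity
          generalize N ^ 100 = a at *
          generalize (2 ^ (k + 1)) ^ 100 = b at *
          omega
      _ = 2 ^ (100 * (k + 1) + 2) := by rw [← pow_mul, ← pow_add]; congr 1; ring
  have h5 := pow_lin k hk20
  have h6 : Nat.log 2 (3 * N ^ 100) + 3 ≤ 100 * (k + 1) + 5 := by linarith
  calc 16 * (23 * (Nat.log 2 (3 * N ^ 100) + 3)) ≤ 16 * (23 * (100 * (k + 1) + 5)) := by gcongr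
    _ ≤ 2 ^ k := h5
    _ ≤ N := h1

/-- the covering predicates -/
def QI (Y : ℝ) (Z m i q : ℕ) : Prop :=
  if i = 0 then 45 / 100 * (Y + 1) ≤ (lv q : ℝ) + 1 else
    if i = 1 then Z ≤ 2 * lv q ∧ lv q < Z else
      ((2 * (2 ^ (i - 2) * m ^ 10) : ℕ) : ℝ) ≤ Y / 2 ∧
        (2 * (2 ^ (i - 2) * m ^ 10) ≤ 2 * lv q ∧ lv q < 2 * (2 ^ (i - 2) * m ^ 10))

end CntAux

open CntAux in
theorem cnt_entries : ∃ m₀ : ℕ, ∀ m ≥ m₀, ∀ (Y : ℝ) (L : List ℕ), (2 : ℝ) * m ^ 10 ≤ Y →
    (∀ y : ℕ, m ^ 10 ≤ y → (y : ℝ) ≤ Y / 2 →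
      (L.filter (fun q => decide (y ≤ 2 * lv q ∧ lv q < y))).length ≤ 23) →
    (L.filter (fun q => decide (45 / 100 * (Y + 1) ≤ (lv q : ℝ) + 1))).length ≤ 23 →
    ∀ N ≥ m, 16 * (L.filter (fun q => decide (m ^ 10 ≤ lv q ∧ lv q ≤ 3 * N ^ 100))).length ≤ N := by
  obtain ⟨m₀, hm1, hm₀⟩ := log_lin
  refine ⟨max m₀ 10, fun m hm Y L hY h1 h2 N hN => ?_⟩
  have hm10 : 10 ≤ m := (le_max_right _ _).trans hm
  have hmm : m₀ ≤ m := (le_max_left _ _).trans hm
  have hmp : 0 < m ^ 10 := Nat.pow_pos (by omega)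
  obtain ⟨I, hI⟩ : ∃ I, I = Nat.log 2 (3 * N ^ 100) := ⟨_, rfl⟩
  have hY9 : (20 : ℝ) ≤ Y := by
    have h3 : m ≤ m ^ 10 := Nat.le_self_pow (by norm_num) m
    have h4 : (10 : ℝ) ≤ (m : ℝ) ^ 10 := by exact_mod_cast hm10.trans h3
    linarith
  -- the intervals
  obtain ⟨Z, hZ⟩ : ∃ Z : ℕ, Z = ⌊Y / 2⌋₊ := ⟨_, rfl⟩
  have hZY : (Z : ℝ) ≤ Y / 2 := by rw [hZ]; exact Nat.floor_le (by linarith)
  have hZY' : Y / 2 < Z + 1 := by rw [hZ]; exact Nat.lt_floor_add_one _
  have hmZ : m ^ 10 ≤ Z := by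
    rw [hZ]
    apply Nat.le_floor
    push_cast
    linarith
  have hcov := filter_length_le (range (I + 3))
    (fun q => m ^ 10 ≤ lv q ∧ lv q ≤ 3 * N ^ 100) (QI Y Z m)
    L (fun q _ hq => by
      by_cases ha : Z ≤ lv q
      · refine ⟨0, by simp, ?_⟩
        rw [QI, if_pos rfl]
        have : (Z : ℝ) ≤ lv q := by exact_mod_cast ha
        linarith
      · push Not at ha
        obtain ⟨i, hi⟩ : ∃ i, i = Nat.log 2 (lv q / m ^ 10) := ⟨_, rfl⟩
        have hd : lv q / m ^ 10 ≠ 0 := by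
          have := (Nat.one_le_div_iff hmp).2 hq.1
          omega
        have h3 : 2 ^ i * m ^ 10 ≤ lv q := by
          have h4 : 2 ^ i ≤ lv q / m ^ 10 := by rw [hi]; exact Nat.pow_log_le_self 2 hd
          exact (Nat.mul_le_mul_right _ h4).trans (Nat.div_mul_le_self _ _)
        have h5 : lv q < 2 * (2 ^ i * m ^ 10) := by
          have h6 : lv q / m ^ 10 < 2 ^ (i + 1) := by
            rw [hi]; exact Nat.lt_pow_succ_log_self (by norm_num) _
          have h7 := (Nat.div_lt_iff_lt_mul hmp).1 h6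
          calc lv q < 2 ^ (i + 1) * m ^ 10 := h7
            _ = 2 * (2 ^ i * m ^ 10) := by rw [pow_succ]; ring
        have hiI : i ≤ I := by
          rw [hi, hI]
          exact Nat.log_mono_right ((Nat.div_le_self _ _).trans hq.2)
        by_cases hb : ((2 * (2 ^ i * m ^ 10) : ℕ) : ℝ) ≤ Y / 2
        · refine ⟨i + 2, by rw [mem_range]; omega, ?_⟩
          rw [QI, if_neg (by omega), if_neg (by omega), Nat.add_sub_cancel]
          exact ⟨hb, by omega, h5⟩
        · refine ⟨1, by rw [mem_range]; omega, ?_⟩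
          rw [QI, if_neg (by omega), if_pos rfl]
          refine ⟨?_, ha⟩
          push Not at hb
          have h8 : (Z : ℝ) < ((2 * (2 ^ i * m ^ 10) : ℕ) : ℝ) := by linarith
          have h9 : Z < 2 * (2 ^ i * m ^ 10) := by exact_mod_cast h8
          omega)
  have hbound : ∀ i ∈ range (I + 3), (L.filter (fun q => decide (QI Y Z m i q))).length
        ≤ 23 := by
    intro i _
    have hmono : ∀ (P : ℕ → Prop) [DecidablePred P], (∀ q, QI Y Z m i q → P q) →
        (L.filter (fun q => decide (P q))).length ≤ 23 →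
        (L.filter (fun q => decide (QI Y Z m i q))).length ≤ 23 := by
      intro P _ hP hl
      refine le_trans ?_ hl
      rw [← List.countP_eq_length_filter, ← List.countP_eq_length_filter]
      exact List.countP_mono_left (fun q _ hq => by simpa using hP q (by simpa using hq))
    by_cases h0 : i = 0
    · refine hmono _ (fun q hq => ?_) h2
      rw [QI, if_pos h0] at hq
      exact hq
    · by_cases h1' : i = 1
      · refine hmono _ (fun q hq => ?_) (h1 Z hmZ hZY)
        rw [QI, if_neg h0, if_pos h1'] at hq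
        exact hq
      · by_cases hb : ((2 * (2 ^ (i - 2) * m ^ 10) : ℕ) : ℝ) ≤ Y / 2
        · refine hmono _ (fun q hq => ?_) (h1 (2 * (2 ^ (i - 2) * m ^ 10)) ?_ hb)
          · rw [QI, if_neg h0, if_neg h1'] at hq
            exact hq.2
          · have : 1 ≤ 2 ^ (i - 2) := Nat.one_le_two_pow
            nlinarith
        · rw [List.length_eq_zero_iff.2]
          · norm_num
          · rw [List.filter_eq_nil_iff]
            intro q _ hq
            have hq' : QI Y Z m i q := by simpa using hq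
            rw [QI, if_neg h0, if_neg h1'] at hq'
            exact hb hq'.1
  have hfin := hcov.trans (Finset.sum_le_card_nsmul _ _ _ hbound)
  rw [card_range, smul_eq_mul] at hfin
  have h10 := hm₀ N (hmm.trans hN)
  rw [← hI] at h10
  have h11 : 16 * ((I + 3) * 23) ≤ N := by
    have e : 16 * ((I + 3) * 23) = 16 * (23 * (I + 3)) := by ring
    rw [e]; exact h10
  exact (Nat.mul_le_mul_left 16 hfin).trans h11

end P031
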