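import Vale.Agent.P031.GeomSeq

/-! P031 [GEOM]: the minimal solution, relaxation, counting through boxes. -/

namespace P031.Gm

open Finset

/-- minimal solution over the tail `t` -/
noncomputable def mm (t : List ℕ) : ℕ → ℝ
  | 0 => max (al 1 t) (t.headI : ℝ)
  | n + 1 => ∑ i : Fin (n + 1), aa (n + 1 - i.1) * mm t i.1 + al (n + 2) t
termination_by n => n
decreasing_by exact i.2

theorem mm_zero (t : List ℕ) : mm t 0 = max (al 1 t) (t.headI : ℝ) := by rw [mm]

theorem mm_succ (t : List ℕ) (n : ℕ) : mm t (n + 1) = cv t (mm t) (n + 1) := by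
  rw [mm, cv, Finset.sum_range]

theorem cv_le_mm (t : List ℕ) (n : ℕ) : cv t (mm t) n ≤ mm t n := by
  rcases n with _ | n
  · rw [mm_zero]
    simp [cv]
  · rw [mm_succ]

theorem mm_nonneg (t : List ℕ) (n : ℕ) : 0 ≤ mm t n := by
  induction n using Nat.strong_induction_on with
  | _ n ih =>
    rcases n with _ | n
    · rw [mm_zero]
      exact le_max_of_le_right (Nat.cast_nonneg _)
    · rw [mm_succ, cv]
      apply add_nonneg
      · apply Finset.sum_nonneg
        intro i hi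
        rw [Finset.mem_range] at hi
        exact mul_nonneg (aa_nonneg (by omega)) (ih i hi)
      · exact al_nonneg _ _ (by omega)

theorem cv_mono (t : List ℕ) {z w : ℕ → ℝ} {n : ℕ} (h : ∀ i, i < n → z i ≤ w i) :
    cv t z n ≤ cv t w n := by
  unfold cv
  have : ∑ i ∈ range n, aa (n - i) * z i ≤ ∑ i ∈ range n, aa (n - i) * w i := by
    apply Finset.sum_le_sum
    intro i hi
    rw [Finset.mem_range] at hi
    exact mul_le_mul_of_nonneg_left (h i hi) (aa_nonneg (by omega))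
  linarith

/-- `cv` grows: `cv (n+1) ≥ a_1 z_n + cv n`. -/
theorem cv_succ_ge (t : List ℕ) (z : ℕ → ℝ) (n : ℕ) (hz : ∀ i, i < n → 0 ≤ z i) :
    aa 1 * z n + cv t z n ≤ cv t z (n + 1) := by
  unfold cv
  rw [Finset.sum_range_succ]
  have h1 : n + 1 - n = 1 := by omega
  rw [h1]
  have h2 : ∑ i ∈ range n, aa (n - i) * z i ≤ ∑ i ∈ range n, aa (n + 1 - i) * z i := by
    apply Finset.sum_le_sum
    intro i hi
    rw [Finset.mem_range] at hi
    exact mul_le_mul_of_nonneg_right (aa_mono (by omega)) (hz i hi)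
  have h3 : al (n + 1) t ≤ al (n + 1 + 1) t := al_mono_succ t (n + 1)
  linarith

theorem mm_growth (t : List ℕ) (n : ℕ) : 1.28 * mm t n ≤ mm t (n + 1) := by
  have h0 := mm_nonneg t n
  have ha := aa_one_ge
  rcases n with _ | n
  · rw [mm_succ]
    have h1 : cv t (mm t) (0 + 1) = aa 1 * mm t 0 + al 2 t := by
      unfold cv
      simp
    rw [h1]
    have h2 : al 1 t ≤ al 2 t := al_mono_succ t 1
    have h3 := al_head t (k := 2) (by norm_num)
    have h4 := aa_two_ge
    have h5 : (0 : ℝ) ≤ (t.headI : ℝ) := Nat.cast_nonneg _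
    have h6 : mm t 0 = al 1 t ∨ mm t 0 = (t.headI : ℝ) := by
      rw [mm_zero]
      exact max_choice _ _
    rcases h6 with h | h
    · nlinarith
    · nlinarith
  · have h1 := cv_succ_ge t (mm t) (n + 1) (fun i _ => mm_nonneg t i)
    rw [← mm_succ, ← mm_succ] at h1
    nlinarith

theorem mm_ge (t : List ℕ) (n : ℕ) : gg n * (t.headI : ℝ) ≤ mm t n := by
  have h := super_le (mm t) 0 n (fun i _ => mm_nonneg t i) (by
    intro k hk _
    refine le_trans ?_ (cv_le_mm t k)
    unfold cv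
    have := al_nonneg t (k + 1) (by omega)
    linarith) n (by omega)
  rw [Nat.zero_add] at h
  refine le_trans ?_ h
  apply mul_le_mul_of_nonneg_left _ (gg_pos n).le
  rw [mm_zero]
  exact le_max_right _ _

/-- Relaxation: a `(1+β)`-solution is turned into an exact one. -/
theorem relax (t : List ℕ) (z : ℕ → ℝ) (J : ℕ) (β : ℝ) (hβ : 0 ≤ β)
    (hz : ∀ i, i ≤ J → 0 ≤ z i)
    (h : ∀ n, n ≤ J → cv t z n ≤ (1 + β) * z n) :
    ∀ n, n ≤ J → cv t (fun i => (1 + β) ^ (i + 1) * z i) n ≤ (1 + β) ^ (n + 1) * z n := by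
  intro n hn
  have h1 := h n hn
  have h2 : cv t (fun i => (1 + β) ^ (i + 1) * z i) n ≤ (1 + β) ^ n * cv t z n := by
    unfold cv
    rw [mul_add, Finset.mul_sum]
    apply add_le_add
    · apply Finset.sum_le_sum
      intro i hi
      rw [Finset.mem_range] at hi
      have h3 : (1 + β) ^ (i + 1) ≤ (1 + β) ^ n := pow_le_pow_right₀ (by linarith) (by omega)
      have h4 := aa_nonneg (n := n - i) (by omega)
      have h5 := hz i (by omega)
      have h6 : (1 + β) ^ (i + 1) * (aa (n - i) * z i) ≤ (1 + β) ^ n * (aa (n - i) * z i) :=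
        mul_le_mul_of_nonneg_right h3 (mul_nonneg h4 h5)
      linarith
    · have h3 : (1 : ℝ) ≤ (1 + β) ^ n := one_le_pow₀ (by linarith)
      have h4 := al_nonneg t (n + 1) (by omega)
      nlinarith
  have h3 : (0 : ℝ) ≤ (1 + β) ^ n := by positivity
  calc _ ≤ (1 + β) ^ n * cv t z n := h2
    _ ≤ (1 + β) ^ n * ((1 + β) * z n) := mul_le_mul_of_nonneg_left h1 h3
    _ = _ := by ring

/-- (G): upper bounds for the coordinates of relaxed solutions. -/
theorem coord_le (t : List ℕ) (z : ℕ → ℝ) (J : ℕ) (β : ℝ) (hβ : 0 ≤ β)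
    (hz : ∀ i, i ≤ J → 0 ≤ z i)
    (h : ∀ n, n ≤ J → cv t z n ≤ (1 + β) * z n) :
    ∀ n, n ≤ J → gg (J - n) * z n ≤ (1 + β) ^ (J + 1) * z J := by
  intro n hn
  have h1 := relax t z J β hβ hz h
  have h2 := super_le (fun i => (1 + β) ^ (i + 1) * z i) n J
    (fun i hi => mul_nonneg (by positivity) (hz i hi)) (by
      intro k hk hkJ
      refine le_trans ?_ (h1 k hkJ)
      unfold cv
      have := al_nonneg t (k + 1) (by omega)
      linarith) (J - n) (by omega)
  have e : n + (J - n) = J := by omega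
  rw [e] at h2
  refine le_trans ?_ h2
  apply mul_le_mul_of_nonneg_left _ (gg_pos _).le
  have h3 : (1 : ℝ) ≤ (1 + β) ^ (n + 1) := one_le_pow₀ (by linarith)
  have h4 := hz n hn
  nlinarith

/-- The distance from the minimal solution. -/
theorem dist_le (t : List ℕ) (z : ℕ → ℝ) (J : ℕ) (β : ℝ) (hβ : 0 ≤ β)
    (hz : ∀ i, i ≤ J → 0 ≤ z i) (h0 : (t.headI : ℝ) ≤ z 0)
    (h : ∀ n, n ≤ J → cv t z n ≤ (1 + β) * z n) :
    ∀ n, n ≤ J → mm t n ≤ (1 + β) ^ (n + 1) * z n ∧
      gg (J - n) * ((1 + β) ^ (n + 1) * z n - mm t n) ≤ (1 + β) ^ (J + 1) * z J - mm t J := by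
  have h1 := relax t z J β hβ hz h
  have h2 : ∀ n, n ≤ J → mm t n ≤ (1 + β) ^ (n + 1) * z n := by
    intro n
    induction n using Nat.strong_induction_on with
    | _ n ih =>
      intro hn
      rcases n with _ | n
      · rw [mm_zero]
        apply max_le
        · have := h1 0 (by omega)
          refine le_trans ?_ this
          simp [cv]
        · have h3 := hz 0 (by omega)
          have h4 : z 0 ≤ (1 + β) ^ (0 + 1) * z 0 := by
            rw [Nat.zero_add, pow_one]
            nlinarith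
          linarith
      · rw [mm_succ]
        refine le_trans ?_ (h1 (n + 1) hn)
        apply cv_mono
        intro i hi
        exact ih i hi (by omega)
  intro n hn
  refine ⟨h2 n hn, ?_⟩
  have h3 := super_le (fun i => (1 + β) ^ (i + 1) * z i - mm t i) n J
    (fun i hi => by have := h2 i hi; linarith) (by
      intro k hk hkJ
      have h4 := h1 k hkJ
      obtain ⟨m, rfl⟩ : ∃ m, k = m + 1 := ⟨k - 1, by omega⟩
      have h5 := mm_succ t m
      rw [h5]
      unfold cv at h4 ⊢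
      have h6 : ∑ i ∈ range (m + 1), aa (m + 1 - i) * ((1 + β) ^ (i + 1) * z i - mm t i) =
          ∑ i ∈ range (m + 1), aa (m + 1 - i) * ((1 + β) ^ (i + 1) * z i) -
          ∑ i ∈ range (m + 1), aa (m + 1 - i) * mm t i := by
        rw [← Finset.sum_sub_distrib]
        apply Finset.sum_congr rfl
        intro i _
        ring
      rw [h6]
      linarith) (J - n) (by omega)
  have e : n + (J - n) = J := by omega
  rw [e] at h3
  exact h3

/-- lists of fixed length are determined by their coordinates -/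
theorem co_inj {J : ℕ} {h h' : List ℕ} (h1 : h.length = J) (h2 : h'.length = J)
    (he : ∀ i, i < J → co h i = co h' i) : h = h' := by
  have : h.reverse = h'.reverse := by
    apply List.ext_getElem
    · simp [h1, h2]
    · intro i hi hi'
      have hi2 : i < J := by simpa [h1] using hi
      have := he i hi2
      unfold co at this
      simp only [List.getD_eq_getElem?_getD] at this
      rw [List.getElem?_eq_getElem hi, List.getElem?_eq_getElem hi'] at this
      simpa using this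
  exact List.reverse_injective this

/-- counting lists through boxes -/
theorem ncard_le_box (S : Set (List ℕ)) (J : ℕ) (F : Fin J → Finset ℕ)
    (h1 : ∀ h ∈ S, h.length = J) (h2 : ∀ h ∈ S, ∀ i : Fin J, co h i ∈ F i) :
    S.Finite ∧ S.ncard ≤ ∏ i, (F i).card := by
  classical
  have hinj : Set.InjOn (fun h : List ℕ => fun i : Fin J => co h i) S := by
    intro a ha b hb hab
    apply co_inj (h1 a ha) (h1 b hb)
    intro i hi
    exact congrFun hab ⟨i, hi⟩
  have hmaps : Set.MapsTo (fun h : List ℕ => fun i : Fin J => co h i) S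
      (Fintype.piFinset F : Set (Fin J → ℕ)) := by
    intro a ha
    rw [Finset.mem_coe, Fintype.mem_piFinset]
    exact h2 a ha
  have hfin : (↑(Fintype.piFinset F) : Set (Fin J → ℕ)).Finite := Finset.finite_toSet _
  refine ⟨Set.Finite.of_injOn hmaps hinj hfin, ?_⟩
  have := Set.ncard_le_ncard_of_injOn _ hmaps hinj hfin
  rw [Set.ncard_coe_finset, Fintype.card_piFinset] at this
  exact this

/-- membership in `R+` through coordinates -/
theorem mem_RP_iff (θ Y : ℝ) (J : ℕ) (t h : List ℕ) : h ∈ RP θ Y J t ↔ h.length = J ∧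
    (∀ n, n < J → cv t (fun i => (co h i : ℝ)) n ≤ (1 + θ) * (co h n : ℝ) ∧
      pv t (fun i => (co h i : ℝ)) n ≤ (co h n : ℝ)) ∧
    pv t (fun i => (co h i : ℝ)) J ≤ Y + 1 ∧
    cv t (fun i => (co h i : ℝ)) J ≤ (1 + θ) * Y := by
  constructor
  · rintro ⟨h1, h2, h3, h4⟩
    rw [okP_iff, h1] at h2
    rw [headI_append, h1] at h3
    rw [al_one_append, h1] at h4
    exact ⟨h1, h2, h3, h4⟩
  · rintro ⟨h1, h2, h3, h4⟩
    refine ⟨h1, ?_, ?_, ?_⟩
    · rw [okP_iff, h1]; exact h2
    · rw [headI_append, h1]; exact h3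
    · rw [al_one_append, h1]; exact h4

theorem mem_RM_iff (θ Y : ℝ) (J : ℕ) (t h : List ℕ) : h ∈ RM θ Y J t ↔ h.length = J ∧
    (∀ n, n < J → cv t (fun i => (co h i : ℝ)) n ≤ (1 - θ) * (co h n : ℝ) ∧
      pv t (fun i => (co h i : ℝ)) n + 2 ≤ (co h n : ℝ)) ∧
    pv t (fun i => (co h i : ℝ)) J ≤ (1 - θ) * Y ∧
    cv t (fun i => (co h i : ℝ)) J ≤ (1 - θ) * Y := by
  constructor
  · rintro ⟨h1, h2, h3, h4⟩
    rw [okM_iff, h1] at h2
    rw [headI_append, h1] at h3
    rw [al_one_append, h1] at h4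
    exact ⟨h1, h2, h3, h4⟩
  · rintro ⟨h1, h2, h3, h4⟩
    refine ⟨h1, ?_, ?_, ?_⟩
    · rw [okM_iff, h1]; exact h2
    · rw [headI_append, h1]; exact h3
    · rw [al_one_append, h1]; exact h4

/-- chain monotonicity -/
theorem pv_chain (t : List ℕ) (z : ℕ → ℝ) (J : ℕ) (h : ∀ n, n < J → pv t z n ≤ z n) :
    ∀ n, n ≤ J → (t.headI : ℝ) ≤ pv t z n ∧ pv t z n ≤ pv t z J := by
  have h1 : ∀ n, n ≤ J → (t.headI : ℝ) ≤ pv t z n := by
    intro n
    induction n with
    | zero => intro _; exact le_rfl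
    | succ n ih =>
      intro hn
      have := ih (by omega)
      have := h n (by omega)
      simp only [pv]
      linarith
  have h2 : ∀ m, ∀ n, n + m = J → pv t z n ≤ pv t z J := by
    intro m
    induction m with
    | zero => intro n hn; rw [show n = J by omega]
    | succ m ih =>
      intro n hn
      have h3 := ih (n + 1) (by omega)
      have h4 := h n (by omega)
      have e : pv t z (n + 1) = z n := rfl
      rw [e] at h3
      linarith
  intro n hn
  exact ⟨h1 n hn, h2 (J - n) n (by omega)⟩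

theorem RP_finite (θ Y : ℝ) (J : ℕ) (t : List ℕ) : (RP θ Y J t).Finite := by
  refine (ncard_le_box (RP θ Y J t) J (fun _ => Finset.range (⌊Y + 1⌋₊ + 1)) ?_ ?_).1
  · intro h hh
    exact hh.1
  · intro h hh i
    rw [mem_RP_iff] at hh
    obtain ⟨h1, h2, h3, -⟩ := hh
    have hc := pv_chain t (fun i => (co h i : ℝ)) J (fun n hn => (h2 n hn).2) (i.1 + 1) i.2
    have h4 : ((co h i.1 : ℕ) : ℝ) ≤ Y + 1 := by
      have h5 := hc.2
      have e : pv t (fun i => (co h i : ℝ)) (i.1 + 1) = ((co h i.1 : ℕ) : ℝ) := rfl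
      rw [e] at h5
      linarith
    rw [Finset.mem_range]
    have := Nat.le_floor h4
    omega

theorem RM_sub_RP (θ Y : ℝ) (hθ : 0 ≤ θ) (hY : 0 ≤ Y) (J : ℕ) (t : List ℕ) :
    RM θ Y J t ⊆ RP θ Y J t := by
  intro h hh
  rw [mem_RM_iff] at hh
  rw [mem_RP_iff]
  obtain ⟨h1, h2, h3, h4⟩ := hh
  refine ⟨h1, ?_, ?_, ?_⟩
  · intro n hn
    obtain ⟨h5, h6⟩ := h2 n hn
    refine ⟨?_, by linarith⟩
    have : (0 : ℝ) ≤ (co h n : ℝ) := Nat.cast_nonneg _
    nlinarith
  · nlinarith
  · nlinarith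

/-- monotonicity in `θ` -/
theorem RP_mono {θ θ' Y : ℝ} (h : θ ≤ θ') (hY : 0 ≤ Y) (J : ℕ) (t : List ℕ) :
    RP θ Y J t ⊆ RP θ' Y J t := by
  intro l hl
  rw [mem_RP_iff] at hl ⊢
  obtain ⟨h1, h2, h3, h4⟩ := hl
  refine ⟨h1, ?_, h3, ?_⟩
  · intro n hn
    obtain ⟨h5, h6⟩ := h2 n hn
    refine ⟨?_, h6⟩
    have : (0 : ℝ) ≤ (co l n : ℝ) := Nat.cast_nonneg _
    nlinarith
  · nlinarith

theorem RM_anti {θ θ' Y : ℝ} (h : θ ≤ θ') (hY : 0 ≤ Y) (J : ℕ) (t : List ℕ) :
    RM θ' Y J t ⊆ RM θ Y J t := by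
  intro l hl
  rw [mem_RM_iff] at hl ⊢
  obtain ⟨h1, h2, h3, h4⟩ := hl
  refine ⟨h1, ?_, ?_, ?_⟩
  · intro n hn
    obtain ⟨h5, h6⟩ := h2 n hn
    refine ⟨?_, h6⟩
    have : (0 : ℝ) ≤ (co l n : ℝ) := Nat.cast_nonneg _
    nlinarith
  · nlinarith
  · nlinarith

/-- the sequence of a member of `R+`, extended by `Y` -/
theorem RP_ext {θ Y : ℝ} {J : ℕ} {t h : List ℕ} (hh : h ∈ RP θ Y J t) :
    ∀ n, n ≤ J → cv t (fun i => if i < J then (co h i : ℝ) else Y) n ≤
      (1 + θ) * (if n < J then (co h n : ℝ) else Y) := by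
  rw [mem_RP_iff] at hh
  obtain ⟨h1, h2, h3, h4⟩ := hh
  intro n hn
  have e : cv t (fun i => if i < J then (co h i : ℝ) else Y) n =
      cv t (fun i => (co h i : ℝ)) n := by
    apply cv_congr
    intro i hi
    rw [if_pos (by omega)]
  rw [e]
  split_ifs with hnJ
  · exact (h2 n hnJ).1
  · rw [show n = J by omega]
    exact h4

/-- nonempty fibres have `g_J t_1 ≤ (1+θ)^{J+1} Y`. -/
theorem gg_le_of_nonempty {θ Y : ℝ} (hθ : 0 ≤ θ) (hY : 0 ≤ Y) {J : ℕ} {t : List ℕ}
    (hJ : 1 ≤ J) (hne : (RP θ Y J t).Nonempty) :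
    gg J * (t.headI : ℝ) ≤ (1 + θ) ^ (J + 1) * Y := by
  obtain ⟨h, hh⟩ := hne
  have h1 := RP_ext hh
  have h2 := coord_le t (fun i => if i < J then (co h i : ℝ) else Y) J θ hθ (by
    intro i _
    split_ifs
    · exact Nat.cast_nonneg _
    · exact hY) h1 0 (by omega)
  rw [if_pos (by omega), if_neg (lt_irrefl J), Nat.sub_zero] at h2
  refine le_trans ?_ h2
  apply mul_le_mul_of_nonneg_left _ (gg_pos J).le
  rw [mem_RP_iff] at hh
  exact (hh.2.1 0 (by omega)).2

end P031.Gm
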