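import Vale.Agent.P031.RgmDefs
import Vale.Agent.P031.Cnt
import Vale.Agent.P031.CRed
import Vale.Agent.P031.GeomMin

/-! P031, [CLASS]: a regular value is `(q₀-1) val T` with an `R+` tuple `T`. -/

namespace P031

open Finset Filter Topology
open scoped Classical

namespace ClassAux

open OmT

theorem al_append (k : ℕ) (x y : List ℕ) : al k (x ++ y) = al k x + al (k + x.length) y := by
  induction x generalizing k with
  | nil => simp [al]
  | cons a x ih =>
    rw [List.cons_append, al, al, ih, List.length_cons]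
    have e : k + 1 + x.length = k + (x.length + 1) := by ring
    rw [e, add_assoc]

theorem al_le_len {B : ℕ} (C : List ℕ) (h : ∀ c ∈ C, c ≤ B) (k : ℕ) :
    al k C ≤ (C.length : ℝ) * ((k : ℝ) + C.length) * B := by
  induction C generalizing k with
  | nil => simp [al]
  | cons a C ih =>
    have h1 := ih (fun c hc => h c (by simp [hc])) (k + 1)
    have h2 : (a : ℝ) ≤ B := by exact_mod_cast h a (by simp)
    have h3 : aa k * (a : ℝ) ≤ k * B := by
      rcases Nat.eq_zero_or_pos k with rfl | hk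
      · have : aa 0 = -1 := by simp [aa]
        rw [this]
        have : (0 : ℝ) ≤ a := Nat.cast_nonneg a
        simp
      · have h4 : aa k ≤ k := by
          unfold aa
          have hn' : (0 : ℝ) < k := by exact_mod_cast hk
          have h1 : Real.log ((k : ℝ) + 1) - Real.log k ≤ 1 / k := by
            rw [← Real.log_div (by positivity) (by positivity)]
            have := Real.log_le_sub_one_of_pos (show 0 < ((k : ℝ) + 1) / k by positivity)
            have e : ((k : ℝ) + 1) / k - 1 = 1 / k := by field_simp; ring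
            linarith
          have h2 : Real.log ((k : ℝ) + 1) ≤ k := by
            have := Real.log_le_sub_one_of_pos (show 0 < (k : ℝ) + 1 by positivity)
            linarith
          have h3 : (k : ℝ) * (Real.log ((k : ℝ) + 1) - Real.log k) ≤ 1 := by
            calc (k : ℝ) * (Real.log ((k : ℝ) + 1) - Real.log k) ≤ k * (1 / k) := by gcongr
              _ = 1 := by field_simp
          nlinarith
        have h5 := aa_nonneg hk
        calc aa k * (a : ℝ) ≤ k * a := by gcongr
          _ ≤ k * B := by gcongr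
    rw [al, List.length_cons]
    push_cast at h1 ⊢
    have hB : (0 : ℝ) ≤ B := Nat.cast_nonneg B
    have hC : (0 : ℝ) ≤ C.length := Nat.cast_nonneg _
    nlinarith [mul_nonneg hC hB, mul_nonneg (mul_nonneg hC hC) hB]

/-- a sorted list splits according to the level -/
theorem filter_split {l : List ℕ} (h : l.Pairwise (· ≥ ·)) {a b : ℕ} (hab : a ≤ b) :
    l.filter (fun q => decide (a ≤ lv q)) = l.filter (fun q => decide (b ≤ lv q)) ++
      l.filter (fun q => decide (a ≤ lv q ∧ lv q < b)) := by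
  induction l with
  | nil => simp
  | cons x l ih =>
    rw [List.pairwise_cons] at h
    by_cases hx : b ≤ lv x
    · rw [List.filter_cons_of_pos (by simpa using hab.trans hx),
        List.filter_cons_of_pos (by simpa using hx), List.filter_cons_of_neg (by simp; omega),
        ih h.2]
      rfl
    · have h0 : (x :: l).filter (fun q => decide (b ≤ lv q)) = [] := by
        rw [List.filter_eq_nil_iff]
        intro y hy
        rw [List.mem_cons] at hy
        rcases hy with rfl | hy
        · simpa using hx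
        · have := lv_mono (h.1 y hy)
          simp
          omega
      rw [h0, List.nil_append]
      apply List.filter_congr
      intro y hy
      have hy' : lv y < b := by
        rw [List.mem_cons] at hy
        rcases hy with rfl | hy
        · omega
        · have := lv_mono (h.1 y hy)
          omega
      simp [hy']

theorem two_pow_bound {N : ℕ} (hN : 200 ≤ N) : (N + 1) ^ 100 ≤ 2 * N ^ 100 := by
  have hN' : (200 : ℝ) ≤ N := by exact_mod_cast hN
  have h1 : ((1 : ℝ) + 1 / N) ^ 100 ≤ 2 := by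
    have h2 : (1 : ℝ) + 1 / N ≤ Real.exp (1 / N) := by
      have := Real.add_one_le_exp ((1 : ℝ) / N)
      linarith
    calc ((1 : ℝ) + 1 / N) ^ 100 ≤ (Real.exp (1 / N)) ^ 100 := by gcongr
      _ = Real.exp (100 * (1 / N)) := by rw [← Real.exp_nat_mul]; norm_num
      _ ≤ Real.exp (1 / 2) := by
          apply Real.exp_le_exp.2
          rw [mul_one_div, div_le_div_iff₀ (by positivity) (by norm_num)]
          linarith
      _ ≤ 2 := by
          have h3 : Real.exp (1 / 2) * Real.exp (1 / 2) ≤ 4 := by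
            rw [← Real.exp_add]
            have := Real.exp_one_lt_d9
            norm_num
            linarith
          have h4 : 0 < Real.exp (1 / 2) := Real.exp_pos _
          nlinarith
  have h5 : ((N : ℝ) + 1) ^ 100 ≤ 2 * (N : ℝ) ^ 100 := by
    have e : ((N : ℝ) + 1) = N * (1 + 1 / N) := by field_simp
    rw [e, mul_pow]
    have : (0 : ℝ) ≤ (N : ℝ) ^ 100 := by positivity
    nlinarith
  exact_mod_cast h5

theorem lt_two_Nf {c : ℕ} (h : 200 ≤ Nf c) : c < 2 * Nf c ^ 100 :=
  (lt_Nf_succ c).trans_le (two_pow_bound h)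

theorem headI_le {l : List ℕ} {B : ℕ} (h : ∀ c ∈ l, c ≤ B) : l.headI ≤ B := by
  cases l with
  | nil => simp
  | cons a l => exact h a (by simp)

theorem okP_map {θ : ℝ} {t : List ℕ} (l : List ℕ)
    (h : ∀ (l₁ : List ℕ) (q : ℕ) (l₂ : List ℕ), l = l₁ ++ q :: l₂ →
      al 1 (l₂.map lv ++ t) ≤ (1 + θ) * lv q ∧ (l₂.map lv ++ t).headI ≤ lv q) :
    okP θ t (l.map lv) := by
  induction l with
  | nil => trivial
  | cons a l ih =>
    rw [List.map_cons, okP]
    have h1 := h [] a l rfl
    exact ⟨h1.1, h1.2, ih (fun l₁ q l₂ e => h (a :: l₁) q l₂ (by rw [e]; rfl))⟩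

theorem pm_eq_qm (l : List ℕ) : pm l = qm l := rfl

theorem qm_split_low {a b : ℕ} (hab : a ≤ b) (F : List ℕ) :
    qm (F.filter (fun q => decide (lv q < b))) =
      qm (F.filter (fun q => decide (a ≤ lv q ∧ lv q < b))) *
        qm (F.filter (fun q => decide (lv q < a))) := by
  induction F with
  | nil => simp [qm]
  | cons x F ih =>
    by_cases h1 : lv x < a
    · rw [List.filter_cons_of_pos (by simp; omega), List.filter_cons_of_neg (by simp; omega),
        List.filter_cons_of_pos (by simpa using h1), qm_cons, qm_cons, ih]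
      ring
    · by_cases h2 : lv x < b
      · rw [List.filter_cons_of_pos (by simpa using h2), List.filter_cons_of_pos (by simp; omega),
          List.filter_cons_of_neg (by simpa using h1), qm_cons, qm_cons, ih]
        ring
      · rw [List.filter_cons_of_neg (by simpa using h2), List.filter_cons_of_neg (by simp; omega),
          List.filter_cons_of_neg (by simpa using h1), ih]

theorem qm_split_at (b : ℕ) (F : List ℕ) :
    qm F = qm (F.filter (fun q => decide (b ≤ lv q))) *
      qm (F.filter (fun q => decide (lv q < b))) := by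
  induction F with
  | nil => simp [qm]
  | cons x F ih =>
    by_cases h2 : lv x < b
    · rw [List.filter_cons_of_neg (by simp; omega), List.filter_cons_of_pos (by simpa using h2),
        qm_cons, qm_cons, ih]
      ring
    · rw [List.filter_cons_of_pos (by simp; omega), List.filter_cons_of_neg (by simpa using h2),
        qm_cons, qm_cons, ih]
      ring

/-- adding the entries of level in `[m^10, N^10)` costs little -/
theorem al_low {m N : ℕ} (hm : 2 ≤ m) (hN : m ≤ N) {F : List ℕ} (hF : F.Pairwise (· ≥ ·))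
    (hc : 16 * (F.filter (fun q => decide (m ^ 10 ≤ lv q))).length ≤ N) :
    al 1 ((F.filter (fun q => decide (m ^ 10 ≤ lv q))).map lv) ≤
      al 1 ((F.filter (fun q => decide (N ^ 10 ≤ lv q))).map lv) + (N : ℝ) ^ 12 := by
  have hmN : m ^ 10 ≤ N ^ 10 := Nat.pow_le_pow_left hN 10
  have h1 := filter_split hF hmN
  rw [h1] at hc ⊢
  rw [List.map_append, al_append]
  rw [List.length_append] at hc
  obtain ⟨A, hA⟩ : ∃ A, A = F.filter (fun q => decide (N ^ 10 ≤ lv q)) := ⟨_, rfl⟩
  obtain ⟨C, hC⟩ : ∃ C, C = F.filter (fun q => decide (m ^ 10 ≤ lv q ∧ lv q < N ^ 10)) :=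
    ⟨_, rfl⟩
  rw [← hA, ← hC] at hc ⊢
  have h2 := al_le_len (B := N ^ 10) (C.map lv) (by
    intro c hc'
    rw [List.mem_map] at hc'
    obtain ⟨q, hq, rfl⟩ := hc'
    rw [hC, List.mem_filter] at hq
    have := of_decide_eq_true hq.2
    omega) (1 + (A.map lv).length)
  rw [List.length_map, List.length_map] at h2
  rw [List.length_map]
  have h3 : C.length * (1 + A.length + C.length) * N ^ 10 ≤ N ^ 12 := by
    have e1 : C.length ≤ N := by omega
    have e2 : 1 + A.length + C.length ≤ N := by omega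
    calc C.length * (1 + A.length + C.length) * N ^ 10 ≤ N * N * N ^ 10 := by gcongr
      _ = N ^ 12 := by ring
  have h4 : (C.length : ℝ) * (((1 + A.length : ℕ) : ℝ) + C.length) * ((N ^ 10 : ℕ) : ℝ) ≤
      (N : ℝ) ^ 12 := by
    exact_mod_cast h3
  linarith

theorem low_bound {m N : ℕ} (hm : 2 ≤ m) (hN : m ≤ N) {F : List ℕ} {R : ℕ}
    (hFp : ∀ q ∈ F, Nat.Prime q)
    (hc : 16 * (F.filter (fun q => decide (m ^ 10 ≤ lv q))).length ≤ N)
    (hR : ((qm (F.filter (fun q => decide (lv q < m ^ 10))) * R : ℕ) : ℝ) ≤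
      Real.exp (Real.exp (2 * (m : ℝ) ^ 10))) :
    ((qm (F.filter (fun q => decide (lv q < N ^ 10))) * R : ℕ) : ℝ) ≤
      Real.exp (Real.exp (2 * (N : ℝ) ^ 10)) := by
  rcases hN.eq_or_lt with rfl | hlt
  · exact hR
  have hmN : m ^ 10 ≤ N ^ 10 := Nat.pow_le_pow_left hN 10
  have hmN' : m ^ 10 + 1 ≤ N ^ 10 := Nat.pow_lt_pow_left hlt (by norm_num)
  rw [qm_split_low hmN, mul_assoc, Nat.cast_mul]
  obtain ⟨C, hC⟩ : ∃ C, C = F.filter (fun q => decide (m ^ 10 ≤ lv q ∧ lv q < N ^ 10)) :=
    ⟨_, rfl⟩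
  rw [← hC]
  have hNp : 1 ≤ N ^ 10 := Nat.one_le_pow _ _ (by omega)
  have h1 := CRedAux.qm_le (l := C) (c := N ^ 10 - 1) (by
    intro q hq
    rw [hC, List.mem_filter] at hq
    have := of_decide_eq_true hq.2
    exact ⟨hFp q hq.1, by omega⟩)
  have e1 : (((N ^ 10 - 1 : ℕ) : ℝ) + 1) = (N : ℝ) ^ 10 := by
    rw [Nat.cast_sub hNp]; push_cast; ring
  rw [e1] at h1
  have hCl : C.length ≤ N := by
    have h2 : C.length ≤ (F.filter (fun q => decide (m ^ 10 ≤ lv q))).length := by
      rw [hC, ← List.countP_eq_length_filter, ← List.countP_eq_length_filter]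
      exact List.countP_mono_left (fun q _ hq => by
        have := of_decide_eq_true hq
        simpa using this.1)
    omega
  have hN2 : (3 : ℝ) ≤ N := by exact_mod_cast (by omega : 3 ≤ N)
  have hN10 : (N : ℝ) + 1 ≤ (N : ℝ) ^ 10 := by
    have h3 : (N : ℝ) ^ 2 ≤ (N : ℝ) ^ 10 := pow_le_pow_right₀ (by linarith) (by norm_num)
    nlinarith
  calc (qm C : ℝ) * ((qm (F.filter (fun q => decide (lv q < m ^ 10))) * R : ℕ) : ℝ)
      ≤ Real.exp (C.length * Real.exp ((N : ℝ) ^ 10)) * Real.exp (Real.exp (2 * (m : ℝ) ^ 10)) :=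
        mul_le_mul h1 hR (by positivity) (by positivity)
    _ = Real.exp (C.length * Real.exp ((N : ℝ) ^ 10) + Real.exp (2 * (m : ℝ) ^ 10)) := by
        rw [← Real.exp_add]
    _ ≤ Real.exp (Real.exp (2 * (N : ℝ) ^ 10)) := by
        apply Real.exp_le_exp.2
        have h4 : (C.length : ℝ) ≤ N := by exact_mod_cast hCl
        have h5 : (N : ℝ) ≤ Real.exp ((N : ℝ) - 1) := by
          have := Real.add_one_le_exp ((N : ℝ) - 1)
          linarith
        have h6 : (C.length : ℝ) * Real.exp ((N : ℝ) ^ 10) ≤ Real.exp (2 * (N : ℝ) ^ 10 - 2) := by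
          calc (C.length : ℝ) * Real.exp ((N : ℝ) ^ 10)
              ≤ Real.exp ((N : ℝ) - 1) * Real.exp ((N : ℝ) ^ 10) := by
                gcongr
                exact h4.trans h5
            _ = Real.exp ((N : ℝ) - 1 + (N : ℝ) ^ 10) := by rw [← Real.exp_add]
            _ ≤ Real.exp (2 * (N : ℝ) ^ 10 - 2) := by
                apply Real.exp_le_exp.2
                linarith
        have h7 : Real.exp (2 * (m : ℝ) ^ 10) ≤ Real.exp (2 * (N : ℝ) ^ 10 - 2) := by
          apply Real.exp_le_exp.2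
          have : (m : ℝ) ^ 10 + 1 ≤ (N : ℝ) ^ 10 := by exact_mod_cast hmN'
          linarith
        have h8 : Real.exp (2 * (N : ℝ) ^ 10) = Real.exp (2 * (N : ℝ) ^ 10 - 2) * Real.exp 2 := by
          rw [← Real.exp_add]; congr 1; ring
        have h9 : (2 : ℝ) ≤ Real.exp 2 := by
          have := Real.add_one_le_exp (2 : ℝ)
          linarith
        rw [h8]
        have h10 : 0 < Real.exp (2 * (N : ℝ) ^ 10 - 2) := Real.exp_pos _
        nlinarith

end ClassAux


open ClassAux OmT in
/-- [CLASS] file Class.lean: a regular value is `(q₀-1) val T` with an `R+` tuple `T`. -/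
theorem reg_tuple (K : ℕ) (hK : 1 ≤ K) : ∃ M₀ : ℕ, ∀ M ≥ M₀, ∀ Y : ℝ, Rgm K M Y →
    ∀ (X : ℕ) (t : ℝ), Real.exp (Real.exp Y) ≤ t → Real.log (Real.log (t + 1)) ≤ Y + 1 → t ≤ X →
    ∀ v : ℕ, (v : ℝ) ≤ t → RegV M (kk M) Y t v →
    ∃ (q₀ : ℕ) (T : List ℕ × ℕ), q₀.Prime ∧ t < (q₀ : ℝ) ^ 100 ∧ v = (q₀ - 1) * val T ∧
      T ∈ TP M (kk M) X (th M) Y := by
  obtain ⟨m₀, hcnt⟩ := cnt_entries
  refine ⟨(max m₀ 200) ^ 100, fun M hM Y hY X t ht htY htX v hvt hreg => ?_⟩
  obtain ⟨m, hm⟩ : ∃ m, m = Nf M := ⟨_, rfl⟩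
  obtain ⟨k, hk⟩ : ∃ k, k = kk M := ⟨_, rfl⟩
  obtain ⟨θ, hθ⟩ : ∃ θ, θ = th M := ⟨_, rfl⟩
  have hmm : max m₀ 200 ≤ m := by rw [hm]; exact le_Nf hM
  have hm0 : m₀ ≤ m := (le_max_left _ _).trans hmm
  have hm200 : 200 ≤ m := (le_max_right _ _).trans hmm
  have hmM : m ^ 100 ≤ M := by rw [hm]; exact Nf_pow_le M
  have hM2m : M < 2 * m ^ 100 := by rw [hm]; exact lt_two_Nf (by rw [← hm]; exact hm200)
  have hm10 : m ^ 10 ≤ m ^ 100 := Nat.pow_le_pow_right (by omega) (by norm_num)
  have hm10M : m ^ 10 ≤ M := hm10.trans hmM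
  have hm1 : 200 ≤ m ^ 10 := hm200.trans (Nat.le_self_pow (by norm_num) m)
  have hMr : (M : ℝ) ≤ Y := by
    refine le_trans ?_ hY.1
    have h1 : M ≤ M ^ K := Nat.le_self_pow (by omega) M
    exact_mod_cast h1
  have hY0 : 0 ≤ Y := le_trans (Nat.cast_nonneg M) hMr
  have hMY : M ≤ ⌊Y⌋₊ := Nat.le_floor hMr
  obtain ⟨n, hn⟩ : ∃ n, n = Nf ⌊Y⌋₊ := ⟨_, rfl⟩
  have hmn : m ≤ n := by rw [hm, hn]; exact Nf_mono hMY
  have hnY : n ^ 100 ≤ ⌊Y⌋₊ := by rw [hn]; exact Nf_pow_le _
  have hY2n : ⌊Y⌋₊ < 2 * n ^ 100 := by rw [hn]; exact lt_two_Nf (by rw [← hn]; omega)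
  have hk1 : 1 ≤ k := by
    rw [hk, kk]
    exact Nat.le_log_of_pow_le (by norm_num) (by omega)
  rw [← hk] at hreg ⊢
  rw [← hθ]
  rw [RegV, ← hm, ← hn] at hreg
  obtain ⟨hvS, q₀, L, hcan, hq₀, hgood, hd1, hd2, hlow, hover, hal, hex⟩ := hreg
  have hv0 : 0 < v := SS_pos hvS
  have hsort := can_sorted hk1 hvS
  have hmem : ∀ q ∈ can k v, q.Prime ∧ k ≤ lv q := fun q hq => mem_can hk1 hvS hq
  have hdvd : ∀ q ∈ can k v, q - 1 ∣ v := fun q hq => (isTop_of_mem_can hk1 hvS hq).2.2.1
  -- the counting statement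
  have hcount := hcnt m hm0 Y (can k v) (by
    have h1 : 2 * m ^ 10 ≤ ⌊Y⌋₊ := by
      calc 2 * m ^ 10 ≤ m * m ^ 10 := Nat.mul_le_mul_right _ (by omega)
        _ = m ^ 11 := by ring
        _ ≤ m ^ 100 := Nat.pow_le_pow_right (by omega) (by norm_num)
        _ ≤ ⌊Y⌋₊ := hmM.trans hMY
    have h2 : ((2 * m ^ 10 : ℕ) : ℝ) ≤ Y := (Nat.cast_le.2 h1).trans (Nat.floor_le hY0)
    exact_mod_cast h2) hd1 hd2
  -- levels are at most `Y + 1`
  have hlvY : ∀ q ∈ can k v, (lv q : ℝ) ≤ Y + 1 := by
    intro q hq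
    rcases Nat.eq_zero_or_pos (lv q) with h0 | h0
    · rw [h0]; push_cast; linarith
    have h3 := three_le_of_lv h0
    have h3' : (3 : ℝ) ≤ q := by exact_mod_cast h3
    have h4 : (q : ℝ) ≤ t + 1 := by
      have h5 := Nat.le_of_dvd hv0 (hdvd q hq)
      have h6 : q ≤ v + 1 := by omega
      have h7 : (q : ℝ) ≤ v + 1 := by exact_mod_cast h6
      linarith
    have hlq : 1 < Real.log q := by
      rw [Real.lt_log_iff_exp_lt (by linarith)]
      have := Real.exp_one_lt_d9
      linarith
    have h8 : (lv q : ℝ) ≤ Real.log (Real.log q) := by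
      unfold lv
      exact Nat.floor_le (Real.log_nonneg hlq.le)
    refine h8.trans (le_trans ?_ htY)
    apply Real.log_le_log (by linarith)
    exact Real.log_le_log (by linarith) h4
  have hlvn : ∀ q ∈ can k v, lv q ≤ 3 * n ^ 100 := by
    intro q hq
    have h1 : lv q ≤ ⌊Y⌋₊ + 1 := by
      have h2 := Nat.le_floor (hlvY q hq)
      rwa [Nat.floor_add_one hY0] at h2
    have h3 : 1 ≤ n ^ 100 := Nat.one_le_pow _ _ (by omega)
    omega
  rw [hcan] at hsort hmem hdvd hlvY hlvn
  have hLsub : ∀ q ∈ L, q ∈ q₀ :: L := fun q hq => List.mem_cons_of_mem _ hq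
  have hLs := (List.pairwise_cons.1 hsort).2
  have hLp : ∀ q ∈ L, Nat.Prime q := fun q hq => (hmem q (hLsub q hq)).1
  -- split of `L` at level `M`
  obtain ⟨a, ha⟩ : ∃ a, a = L.filter (fun q => decide (M ≤ lv q)) := ⟨_, rfl⟩
  obtain ⟨b, hb⟩ : ∃ b, b = L.filter (fun q => decide (0 ≤ lv q ∧ lv q < M)) := ⟨_, rfl⟩
  have hLab : L = a ++ b := by
    have h1 := filter_split hLs (Nat.zero_le M)
    rw [← ha, ← hb] at h1
    rw [← h1]
    symm
    rw [List.filter_eq_self]
    intro q _
    simp
  have ha0 : a ≠ [] := by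
    obtain ⟨q, hq, hMq⟩ := hex
    have : q ∈ a := by
      rw [ha, List.mem_filter]
      exact ⟨hq, by simpa using hMq⟩
    exact List.ne_nil_of_mem this
  obtain ⟨l, z, hlz⟩ : ∃ l z, a = l ++ [z] :=
    ⟨a.dropLast, a.getLast ha0, (List.dropLast_append_getLast ha0).symm⟩
  have hLl : L = l ++ z :: b := by rw [hLab, hlz]; simp
  have hla : ∀ q ∈ l, M ≤ lv q := by
    intro q hq
    have : q ∈ a := by rw [hlz]; simp [hq]
    rw [ha, List.mem_filter] at this
    simpa using this.2
  have hzM : M ≤ lv z := by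
    have : z ∈ a := by rw [hlz]; simp
    rw [ha, List.mem_filter] at this
    simpa using this.2
  have hbM : ∀ q ∈ b, lv q < M := by
    intro q hq
    rw [hb, List.mem_filter] at hq
    exact (of_decide_eq_true hq.2).2
  obtain ⟨ω, hω⟩ : ∃ ω, ω = pm (z :: b) * rest k v := ⟨_, rfl⟩
  have hcan' : can k v = (q₀ :: l) ++ (z :: b) := by rw [hcan, hLl]; simp
  obtain ⟨hvω, hωS, hcanω, hrestω⟩ := can_split hk1 (q₀ :: l) hvS hcan'
  rw [← hω] at hvω hωS hcanω hrestω
  have hω0 : 0 < ω := SS_pos hωS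
  have hzb : ∀ q ∈ z :: b, q ∈ L := by
    intro q hq; rw [hLl]; simp only [List.mem_append]; exact Or.inr hq
  -- low parts
  have hlowF : ∀ (l₁ F : List ℕ), can k v = l₁ ++ F → (∀ q ∈ l₁, m ^ 10 ≤ lv q) →
      ((qm (F.filter (fun q => decide (lv q < m ^ 10))) * rest k v : ℕ) : ℝ) ≤
        Real.exp (Real.exp (2 * (m : ℝ) ^ 10)) := by
    intro l₁ F hF hl₁
    refine le_trans (le_of_eq ?_) hlow
    unfold lowp
    have e : l₁.filter (fun q => decide (lv q < m ^ 10)) = [] := by
      rw [List.filter_eq_nil_iff]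
      intro q hq
      have := hl₁ q hq
      simp
      omega
    rw [hF, List.filter_append, e, List.nil_append]
    rfl
  have hq₀lv : M ≤ lv q₀ := hzM.trans (lv_mono ((List.pairwise_cons.1 hsort).1 z (hzb z (by simp))))
  -- counts for suffixes
  have hcF : ∀ (l₁ F : List ℕ) (N : ℕ), can k v = l₁ ++ F → m ≤ N →
      (∀ q ∈ F, lv q ≤ 3 * N ^ 100) →
      16 * (F.filter (fun q => decide (m ^ 10 ≤ lv q))).length ≤ N := by
    intro l₁ F N hF hmN hlv
    refine le_trans (Nat.mul_le_mul_left 16 ?_) (hcount N hmN)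
    rw [hF, List.filter_append, List.length_append]
    refine le_trans ?_ (Nat.le_add_left _ _)
    rw [← List.countP_eq_length_filter, ← List.countP_eq_length_filter]
    refine List.countP_mono_left (fun q hq hq' => ?_)
    have h1 := of_decide_eq_true hq'
    simpa using ⟨h1, hlv q hq⟩
  -- the tail
  have hup : up k (m ^ 10) ω = (z :: b).filter (fun q => decide (m ^ 10 ≤ lv q)) := by
    unfold up; rw [hcanω]
  have htail : Tail M k ω := by
    refine ⟨hωS, ?_, ?_, ?_, ?_⟩
    · unfold up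
      have e : b.filter (fun q => decide (M ≤ lv q)) = [] := by
        rw [List.filter_eq_nil_iff]
        intro q hq
        have := hbM q hq
        simp
        omega
      rw [hcanω, List.filter_cons_of_pos (by simpa using hzM), e]
      rfl
    · rw [← hm, hup]
      intro q hq
      rw [List.mem_filter] at hq
      exact hgood q (hzb q hq.1) (by simpa using hq.2)
    · rw [← hm, hup, List.filter_cons_of_pos (by simpa using hm10M.trans hzM), List.length_cons]
      have h1 := hcF (q₀ :: l ++ [z]) b m (by rw [hcan']; simp) le_rfl (fun q hq => by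
        have := hbM q hq
        omega)
      omega
    · rw [← hm]
      unfold lowp
      rw [hcanω, hrestω]
      refine hlowF (q₀ :: l) (z :: b) hcan' (fun q hq => ?_)
      rw [List.mem_cons] at hq
      rcases hq with rfl | hq
      · exact hm10M.trans hq₀lv
      · exact hm10M.trans (hla q hq)
  have hhl : hl M k ω = ((z :: b).filter (fun q => decide (m ^ 10 ≤ lv q))).map lv := by
    unfold hl; rw [← hm, hup]
  -- `θ`
  have hθv : θ = 4 / (m : ℝ) ^ 10 := by rw [hθ, th, ← hm]
  have hmr : (200 : ℝ) ≤ m := by exact_mod_cast hm200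
  have hθN : ∀ N : ℕ, m ≤ N → ∀ c : ℝ, (N : ℝ) ^ 100 ≤ c → 4 * (N : ℝ) ^ 90 ≤ θ * c := by
    intro N hN c hc
    have hNm : (m : ℝ) ≤ N := by exact_mod_cast hN
    have h1 : (m : ℝ) ^ 10 ≤ (N : ℝ) ^ 10 := by gcongr
    rw [hθv, div_mul_eq_mul_div, le_div_iff₀ (by positivity)]
    have h2 : 4 * (N : ℝ) ^ 90 * (m : ℝ) ^ 10 ≤ 4 * (N : ℝ) ^ 90 * (N : ℝ) ^ 10 :=
      mul_le_mul_of_nonneg_left h1 (mul_nonneg (by norm_num) (pow_nonneg (by linarith) 90))
    have h3 : 4 * (N : ℝ) ^ 90 * (N : ℝ) ^ 10 = 4 * (N : ℝ) ^ 100 := by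
      rw [mul_assoc, ← pow_add]
    linarith
  have hN12 : ∀ N : ℕ, m ≤ N → 4 * (N : ℝ) ^ 12 ≤ (N : ℝ) ^ 90 := by
    intro N hN
    have hNm : (200 : ℝ) ≤ N := by
      have : (m : ℝ) ≤ N := by exact_mod_cast hN
      linarith
    calc 4 * (N : ℝ) ^ 12 ≤ N * (N : ℝ) ^ 12 := by gcongr; linarith
      _ = (N : ℝ) ^ 13 := by ring
      _ ≤ (N : ℝ) ^ 90 := pow_le_pow_right₀ (by linarith) (by norm_num)
  -- levels of `l₂ ++ tail`
  have hmapF : ∀ l₂ : List ℕ, (∀ q ∈ l₂, M ≤ lv q) → l₂.map lv ++ hl M k ω =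
      ((l₂ ++ z :: b).filter (fun q => decide (m ^ 10 ≤ lv q))).map lv := by
    intro l₂ hl₂
    have e : l₂.filter (fun q => decide (m ^ 10 ≤ lv q)) = l₂ := by
      rw [List.filter_eq_self]
      intro q hq
      simpa using hm10M.trans (hl₂ q hq)
    rw [hhl, List.filter_append, List.map_append, e]
  -- the head conditions
  have hok : okP θ (hl M k ω) (l.map lv) := by
    refine okP_map l (fun l₁ q l₂ hl12 => ?_)
    have hl₂ : ∀ r ∈ l₂, M ≤ lv r := fun r hr => hla r (by rw [hl12]; simp [hr])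
    have hql : M ≤ lv q := hla q (by rw [hl12]; simp)
    obtain ⟨F, hF⟩ : ∃ F, F = l₂ ++ z :: b := ⟨_, rfl⟩
    have hLF : L = l₁ ++ q :: F := by rw [hLl, hl12, hF]; simp
    have hcanF : can k v = (q₀ :: l₁ ++ [q]) ++ F := by rw [hcan, hLF]; simp
    obtain ⟨N, hN⟩ : ∃ N, N = Nf (lv q) := ⟨_, rfl⟩
    have hmN : m ≤ N := by rw [hm, hN]; exact Nf_mono hql
    have hNc : N ^ 100 ≤ lv q := by rw [hN]; exact Nf_pow_le _
    have hc2N : lv q < 2 * N ^ 100 := by rw [hN]; exact lt_two_Nf (by rw [← hN]; omega)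
    have hqF : ∀ r ∈ F, r ≤ q := by
      have h1 := hLs
      rw [hLF, List.pairwise_append] at h1
      exact (List.pairwise_cons.1 h1.2.1).1
    have hFs : F.Pairwise (· ≥ ·) := by
      have h1 := hLs
      rw [hLF, List.pairwise_append] at h1
      exact (List.pairwise_cons.1 h1.2.1).2
    have hFlv : ∀ r ∈ F, lv r ≤ lv q := fun r hr => lv_mono (hqF r hr)
    have hFL : ∀ r ∈ F, r ∈ L := fun r hr => by rw [hLF]; simp [hr]
    have hqL : q ∈ L := by rw [hLF]; simp
    have hcount' := hcF _ F N hcanF hmN (fun r hr => by have := hFlv r hr; omega)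
    have hN1 : 1 ≤ N ^ 100 := Nat.one_le_pow _ _ (by omega)
    have hmN10 : m ^ 10 ≤ N ^ 10 := Nat.pow_le_pow_left hmN 10
    have hN10 : N ^ 10 ≤ N ^ 100 := Nat.pow_le_pow_right (by omega) (by norm_num)
    have hnormal : ∀ r ∈ L, N ^ 10 ≤ lv r → lv r ≤ lv q → Normal N r := by
      intro r hr h1 h2
      refine (hgood r hr (hmN10.trans h1)).2 N hmN h1 ?_
      omega
    have halF : al 1 ((F.filter (fun q => decide (N ^ 10 ≤ lv q))).map lv) <
        (lv q : ℝ) + (N : ℝ) ^ 90 := by
      by_contra hc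
      push Not at hc
      refine hover l₁ F q hLF hql ?_
      rw [← hN]
      refine ⟨q, F.filter (fun q => decide (N ^ 10 ≤ lv q)),
        qm (F.filter (fun q => decide (lv q < N ^ 10))) * rest k v,
        hnormal q hqL (hN10.trans hNc) le_rfl, rfl, ?_, ?_, ?_, ?_, ?_, ?_, ?_⟩
      · intro r hr
        rw [List.mem_filter] at hr
        exact ⟨hnormal r (hFL r hr.1) (by simpa using hr.2) (hFlv r hr.1), hqF r hr.1⟩
      · have h1 : (F.filter (fun q => decide (N ^ 10 ≤ lv q))).length ≤
            (F.filter (fun q => decide (m ^ 10 ≤ lv q))).length := by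
          rw [← List.countP_eq_length_filter, ← List.countP_eq_length_filter]
          refine List.countP_mono_left (fun q _ hq' => ?_)
          have h1 := of_decide_eq_true hq'
          simpa using hmN10.trans h1
        omega
      · exact hFs.sublist List.filter_sublist
      · exact hc
      · refine Nat.mul_pos (qm_pos (fun r hr => ?_)) (rest_pos hk1 hvS)
        rw [List.mem_filter] at hr
        exact hLp r (hFL r hr.1)
      · refine low_bound (by omega) hmN (fun r hr => hLp r (hFL r hr)) hcount' ?_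
        refine hlowF _ F hcanF (fun r hr => ?_)
        simp only [List.cons_append, List.mem_cons, List.mem_append, List.not_mem_nil,
          or_false] at hr
        rcases hr with rfl | hr | rfl
        · exact hm10M.trans hq₀lv
        · exact hm10M.trans (hla r (by rw [hl12]; simp [hr]))
        · exact hm10M.trans hql
      · rw [pm_cons, pm_eq_qm, qm_split_at (N ^ 10) F]
        change _ = (q - 1) * qm (F.filter (fun q => decide (N ^ 10 ≤ lv q))) * _
        ring
    rw [hmapF l₂ hl₂, ← hF]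
    constructor
    · have h1 := al_low (by omega) hmN hFs hcount'
      have h2 := hθN N hmN (lv q) (by exact_mod_cast hNc)
      have h3 := hN12 N hmN
      have h4 : (0 : ℝ) ≤ (N : ℝ) ^ 12 := by positivity
      have h5 : (1 + θ) * (lv q : ℝ) = lv q + θ * lv q := by ring
      rw [h5]
      linarith
    · apply headI_le
      intro c hc
      rw [List.mem_map] at hc
      obtain ⟨r, hr, rfl⟩ := hc
      rw [List.mem_filter] at hr
      exact hFlv r hr.1
  -- conclusion
  have hcL := hcF [q₀] L n (by rw [hcan]; rfl) hmn (fun q hq => hlvn q (hLsub q hq))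
  refine ⟨q₀, (l, ω), (hmem q₀ (by simp)).1, hq₀, ?_, ?_⟩
  · rw [val, hvω, pm_cons]
    ring
  · unfold TP
    rw [mem_TT_iff (fun J t => Gm.RP_finite θ Y J t) (fun J t h hh => hh.1)]
    refine ⟨⟨hω0, ?_, htail⟩, ?_, ?_, rfl.trans (List.length_map ..), hok, ?_, ?_⟩
    · have h1 : ω ≤ v := by
        rw [hvω]
        exact Nat.le_mul_of_pos_left _ (pm_pos (fun q hq => by
          rw [List.mem_cons] at hq
          rcases hq with rfl | hq
          · exact (hmem q (by simp)).1
          · exact hLp q (by rw [hLl]; simp [hq])))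
      have h2 : (ω : ℝ) ≤ X := by
        have : (ω : ℝ) ≤ v := by exact_mod_cast h1
        linarith
      exact_mod_cast h2
    · have h1 : l.length ≤ (L.filter (fun q => decide (m ^ 10 ≤ lv q))).length := by
        have e : l.filter (fun q => decide (m ^ 10 ≤ lv q)) = l := by
          rw [List.filter_eq_self]
          intro q hq
          simpa using hm10M.trans (hla q hq)
        rw [hLl, List.filter_append, List.length_append, e]
        exact Nat.le_add_right _ _
      have h2 : n ≤ n ^ 100 := Nat.le_self_pow (by norm_num) n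
      omega
    · intro q hq
      rw [← hm]
      exact hgood q (by rw [hLl]; simp [hq]) (hm10M.trans (hla q hq))
    · rw [hmapF l hla, ← hLl]
      have h1 : ((L.filter (fun q => decide (m ^ 10 ≤ lv q))).map lv).headI ≤ ⌊Y + 1⌋₊ := by
        apply headI_le
        intro c hc
        rw [List.mem_map] at hc
        obtain ⟨r, hr, rfl⟩ := hc
        rw [List.mem_filter] at hr
        exact Nat.le_floor (hlvY r (hLsub r hr.1))
      exact (Nat.cast_le.2 h1).trans (Nat.floor_le (by linarith))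
    · rw [hmapF l hla, ← hLl]
      have h1 := al_low (by omega) hmn hLs hcL
      have h2 := hθN n hmn Y ((by exact_mod_cast hnY : (n : ℝ) ^ 100 ≤ (⌊Y⌋₊ : ℝ)).trans
        (Nat.floor_le hY0))
      have h3 := hN12 n hmn
      have h4 : (1 : ℝ) ≤ (n : ℝ) ^ 12 := one_le_pow₀ (by
        have : (m : ℝ) ≤ n := by exact_mod_cast hmn
        linarith)
      have h5 : (1 + θ) * Y = Y + θ * Y := by ring
      rw [h5]
      linarith

end P031
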