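import Vale.Agent.P031.SvSigma

/-! The sieve upper bound for simultaneous primes `P`, `A P + 1` (`A ∈ S`). -/

namespace Vale.Agent.P031.Sv

open Finset Filter

noncomputable section

theorem sum_gS_ge (S : Finset ℕ) (hS : ∀ A ∈ S, 1 ≤ A) (z : ℕ) :
    ((S.card : ℝ) + 1) * MertensAux.S0 z -
      (S.card : ℝ) * ∑ p ∈ (disc S).primeFactors, 1 / (p : ℝ) ≤
      ∑ p ∈ Nat.primesLE z, gS S p := by
  have hd := disc_ne_zero S hS
  have h1 : ∀ p ∈ Nat.primesLE z, ((S.card : ℝ) + 1) * (1 / (p : ℝ)) -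
      (S.card : ℝ) * (if p ∈ (disc S).primeFactors then 1 / (p : ℝ) else 0) ≤ gS S p := by
    intro p hp
    have hpp := (Nat.mem_primesLE.1 hp).2
    split_ifs with h
    · have := gS_ge_one S p hpp
      have e : ((S.card : ℝ) + 1) * (1 / (p : ℝ)) - (S.card : ℝ) * (1 / (p : ℝ)) = 1 / p := by
        ring
      rw [e]; exact this
    · have h2 : ¬ p ∣ disc S := fun hdvd => h (Nat.mem_primeFactors.2 ⟨hpp, hdvd, hd⟩)
      have := gS_ge S p hpp h2
      rw [mul_zero, sub_zero, mul_one_div]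
      exact this
  have h2 := Finset.sum_le_sum h1
  rw [Finset.sum_sub_distrib, ← Finset.mul_sum, ← Finset.mul_sum] at h2
  have h3 : ∑ p ∈ Nat.primesLE z, (if p ∈ (disc S).primeFactors then 1 / (p : ℝ) else 0) ≤
      ∑ p ∈ (disc S).primeFactors, 1 / (p : ℝ) := by
    rw [← Finset.sum_filter]
    apply Finset.sum_le_sum_of_subset_of_nonneg
    · intro p hp
      exact (mem_filter.1 hp).2
    · intro p _ _
      positivity
  have h4 := mul_le_mul_of_nonneg_left h3 (Nat.cast_nonneg (α := ℝ) S.card)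
  unfold MertensAux.S0
  linarith

theorem sum_gS_le (S : Finset ℕ) (z : ℕ) :
    ∑ p ∈ Nat.primesLE z, gS S p ≤ ((S.card : ℝ) + 1) * MertensAux.S0 z := by
  unfold MertensAux.S0
  rw [Finset.mul_sum]
  apply Finset.sum_le_sum
  intro p hp
  rw [mul_one_div]
  exact gS_le S p (Nat.mem_primesLE.1 hp).2

theorem pow_div_factorial_le (G : ℝ) (n : ℕ) (hG : 0 ≤ G) (h : Real.exp 2 * G ≤ n) :
    G ^ n / (n.factorial : ℝ) ≤ Real.exp (-(n : ℝ)) := by
  have h1 : (n : ℝ) ^ n / (n.factorial : ℝ) ≤ Real.exp n :=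
    Real.pow_div_factorial_le_exp (n : ℝ) (Nat.cast_nonneg n) n
  have hf : (0 : ℝ) < n.factorial := by exact_mod_cast n.factorial_pos
  have h2 : (Real.exp 2 * G) ^ n ≤ (n : ℝ) ^ n :=
    pow_le_pow_left₀ (by positivity) h n
  have h3 : (Real.exp 2 * G) ^ n / (n.factorial : ℝ) ≤ Real.exp n :=
    (div_le_div_of_nonneg_right h2 hf.le).trans h1
  have h4 : G ^ n / (n.factorial : ℝ) = Real.exp (-(2 * n)) *
      ((Real.exp 2 * G) ^ n / (n.factorial : ℝ)) := by
    rw [mul_pow, ← Real.exp_nat_mul]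
    have : Real.exp (-(2 * (n : ℝ))) * Real.exp ((n : ℝ) * 2) = 1 := by
      rw [← Real.exp_add]
      norm_num [mul_comm]
    calc G ^ n / (n.factorial : ℝ) = 1 * (G ^ n / (n.factorial : ℝ)) := by ring
      _ = (Real.exp (-(2 * (n : ℝ))) * Real.exp ((n : ℝ) * 2)) *
          (G ^ n / (n.factorial : ℝ)) := by rw [this]
      _ = _ := by ring
  rw [h4]
  calc Real.exp (-(2 * n)) * ((Real.exp 2 * G) ^ n / (n.factorial : ℝ))
      ≤ Real.exp (-(2 * n)) * Real.exp n :=
        mul_le_mul_of_nonneg_left h3 (Real.exp_pos _).le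
    _ = Real.exp (-(n : ℝ)) := by rw [← Real.exp_add]; ring_nf

theorem assemble_aux (c X XL T1 T2 E1 ek Q Z : ℝ) (hmain : c ≤ XL * 3 + 2 * X * (T1 + T2))
    (h1 : 2 * X * T1 ≤ XL * (2 * E1 * ek * Q)) (h2 : 2 * X * T2 ≤ XL * 2) (hek : 1 ≤ ek)
    (hQ : 1 ≤ Q) (hXL : 0 ≤ XL) (hZ : 0 ≤ Z) :
    c ≤ XL * (((5 + 2 * E1) * ek + Z) * Q) := by
  have h3 : 1 ≤ ek * Q := one_le_mul_of_one_le_of_one_le hek hQ
  have h4 : XL * 5 ≤ XL * (5 * (ek * Q)) := mul_le_mul_of_nonneg_left (by linarith) hXL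
  have h5 : 0 ≤ XL * (Z * Q) := mul_nonneg hXL (mul_nonneg hZ (by linarith))
  have e : XL * (((5 + 2 * E1) * ek + Z) * Q) =
      XL * (5 * (ek * Q)) + XL * (2 * E1 * ek * Q) + XL * (Z * Q) := by ring
  rw [e]
  linarith

/-- primes `P ≤ X` with `A P + 1` prime for all `A ∈ S`. -/
def simPrimes (S : Finset ℕ) (X : ℝ) : Finset ℕ :=
  (range (⌊X⌋₊ + 1)).filter (fun P => P.Prime ∧ ∀ A ∈ S, (A * P + 1).Prime)

theorem simPrimes_card_le (S : Finset ℕ) (hS : ∀ A ∈ S, 1 ≤ A) (X : ℝ) (z : ℕ) :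
    ((simPrimes S X).card : ℝ) ≤ (z + 1 : ℝ) + (((range (⌊X⌋₊ + 1)).filter
      (fun n => ∀ p ∈ Nat.primesLE z, ¬ p ∣ n * ∏ A ∈ S, (A * n + 1))).card : ℝ) := by
  have hsub : simPrimes S X ⊆ range (z + 1) ∪ (range (⌊X⌋₊ + 1)).filter
      (fun n => ∀ p ∈ Nat.primesLE z, ¬ p ∣ n * ∏ A ∈ S, (A * n + 1)) := by
    intro P hP
    unfold simPrimes at hP
    rw [mem_filter] at hP
    obtain ⟨h1, h2, h3⟩ := hP
    rw [mem_union]
    by_cases hz : P ≤ z
    · left; rw [mem_range]; omega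
    · right
      rw [mem_filter]
      refine ⟨h1, ?_⟩
      intro p hp hd
      rw [Nat.mem_primesLE] at hp
      rcases (hp.2.dvd_mul).1 hd with h | h
      · have := (Nat.prime_dvd_prime_iff_eq hp.2 h2).1 h
        omega
      · obtain ⟨A, hA, hAd⟩ := (Prime.dvd_finsetProd_iff hp.2.prime _).1 h
        have h4 := (Nat.prime_dvd_prime_iff_eq hp.2 (h3 A hA)).1 hAd
        have h5 := hS A hA
        have h6 : P ≤ A * P := Nat.le_mul_of_pos_left P h5
        omega
  have h1 := (card_le_card hsub).trans (card_union_le _ _)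
  rw [card_range] at h1
  exact_mod_cast h1

/-- the analytic bounds on the three terms. -/
theorem core_bounds (k : ℕ) (C0 : ℝ)
    (hC0 : ∀ n : ℕ, 2 ≤ n → MertensAux.S0 n ≤ Real.log (Real.log n) + C0)
    (S : Finset ℕ) (hSk : S.card = k) (hS : ∀ A ∈ S, 1 ≤ A) (L LL u K : ℝ) (z m : ℕ)
    (hK : K = 64 * ((k : ℝ) + 1)) (hLpos : 0 < L) (hLL : LL = Real.log L) (hLL1 : 1 ≤ LL)
    (hu : u = L / (K * LL)) (hu2 : 2 ≤ u) (huL : u ≤ L / 2)
    (hz1 : (z : ℝ) ≤ Real.exp u) (hexp_half : Real.exp (u / 2) ≤ z) (hzN : 2 ≤ z)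
    (hm1 : 4 * ((k : ℝ) + 1) * (LL + |C0|) ≤ m) (hm2 : (m : ℝ) ≤ 8 * ((k : ℝ) + 1) * LL)
    (σ : ℝ) (hσ : σ = ∑ p ∈ (disc S).primeFactors, 1 / (p : ℝ)) :
    Real.exp (-(∑ p ∈ Nat.primesLE z, gS S p)) ≤
        (2 * K * Real.exp 1) ^ (k + 1) * LL ^ (k + 1) / L ^ (k + 1) * Real.exp (k * σ) ∧
    (∑ p ∈ Nat.primesLE z, gS S p) ^ (2 * m + 1) / ((2 * m + 1).factorial : ℝ) ≤
        1 / L ^ (k + 1) ∧
    ((z : ℝ) ^ (2 * m)) ^ 2 ≤ Real.exp (L / 2) := by
  have hk0 : (0 : ℝ) ≤ k := Nat.cast_nonneg k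
  have hC0a : C0 ≤ |C0| := le_abs_self C0
  have hK0 : 0 < K := by rw [hK]; positivity
  have hKLL : 0 < K * LL := by positivity
  have hzR : (2 : ℝ) ≤ z := by exact_mod_cast hzN
  have hlogz : u / 2 ≤ Real.log z := by
    rw [Real.le_log_iff_exp_le (by linarith)]
    exact hexp_half
  have hlogz' : Real.log z ≤ u := by
    rw [Real.log_le_iff_le_exp (by linarith)]
    exact hz1
  have hlogzpos : 0 < Real.log z := by linarith
  set G := ∑ p ∈ Nat.primesLE z, gS S p with hG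
  have hG0 : 0 ≤ G := Finset.sum_nonneg (fun p _ => gS_nonneg S p)
  have hGle : G ≤ ((k : ℝ) + 1) * (LL + |C0|) := by
    have h1 := sum_gS_le S z
    rw [hSk] at h1
    have h2 := hC0 z hzN
    have h3 : Real.log (Real.log z) ≤ LL := by
      rw [hLL]
      apply Real.log_le_log hlogzpos
      linarith
    have h4 : MertensAux.S0 z ≤ LL + |C0| := by linarith
    exact h1.trans (mul_le_mul_of_nonneg_left h4 (by linarith))
  have hGge : ((k : ℝ) + 1) * (Real.log (Real.log z) - 1) - k * σ ≤ G := by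
    have h1 := sum_gS_ge S hS z
    rw [hSk, ← hσ] at h1
    have h2 := S0_lower z hzN
    have h3 := mul_le_mul_of_nonneg_left h2 (show (0 : ℝ) ≤ (k : ℝ) + 1 by linarith)
    linarith
  refine ⟨?_, ?_, ?_⟩
  · have h1 : Real.exp (-G) ≤ Real.exp (((k : ℝ) + 1) - ((k : ℝ) + 1) *
        Real.log (Real.log z) + k * σ) := Real.exp_le_exp.2 (by linarith)
    have h2 : Real.exp (((k : ℝ) + 1) - ((k : ℝ) + 1) * Real.log (Real.log z) + k * σ) =
        (Real.exp 1 / Real.log z) ^ (k + 1) * Real.exp (k * σ) := by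
      rw [Real.exp_add]
      congr 1
      have : ((k : ℝ) + 1) - ((k : ℝ) + 1) * Real.log (Real.log z) =
          ((k + 1 : ℕ) : ℝ) * (1 - Real.log (Real.log z)) := by push_cast; ring
      rw [this, Real.exp_nat_mul, Real.exp_sub, Real.exp_log hlogzpos]
    rw [h2] at h1
    refine h1.trans ?_
    apply mul_le_mul_of_nonneg_right _ (Real.exp_pos _).le
    rw [← mul_pow, ← div_pow]
    apply pow_le_pow_left₀ (by positivity)
    rw [div_le_div_iff₀ hlogzpos hLpos]
    rw [hu] at hlogz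
    have h3 : L / (K * LL) / 2 ≤ Real.log z := hlogz
    rw [div_div, div_le_iff₀ (by positivity)] at h3
    have h4 := mul_le_mul_of_nonneg_left h3 (Real.exp_pos 1).le
    linarith
  · have he2 : Real.exp 2 ≤ 8 := by
      have h := Real.exp_one_lt_d9
      have h' : Real.exp 2 = Real.exp 1 * Real.exp 1 := by rw [← Real.exp_add]; norm_num
      rw [h']
      nlinarith [Real.exp_pos 1]
    have h1 : Real.exp 2 * G ≤ ((2 * m + 1 : ℕ) : ℝ) := by
      push_cast
      have h2 : Real.exp 2 * G ≤ 8 * (((k : ℝ) + 1) * (LL + |C0|)) :=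
        mul_le_mul he2 hGle hG0 (by norm_num)
      linarith
    refine (pow_div_factorial_le G (2 * m + 1) hG0 h1).trans ?_
    have h2 : ((k : ℝ) + 1) * LL ≤ ((2 * m + 1 : ℕ) : ℝ) := by
      push_cast
      have h5 : 0 ≤ ((k : ℝ) + 1) * |C0| := by positivity
      have h6 : 0 ≤ ((k : ℝ) + 1) * LL := by positivity
      linarith
    have h3 : Real.exp (-((2 * m + 1 : ℕ) : ℝ)) ≤ Real.exp (-(((k : ℝ) + 1) * LL)) :=
      Real.exp_le_exp.2 (by linarith)
    refine h3.trans (le_of_eq ?_)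
    rw [Real.exp_neg]
    have : ((k : ℝ) + 1) * LL = ((k + 1 : ℕ) : ℝ) * LL := by push_cast; ring
    rw [this, Real.exp_nat_mul, hLL, Real.exp_log hLpos, one_div]
  · rw [← pow_mul]
    calc (z : ℝ) ^ (2 * m * 2) ≤ (Real.exp u) ^ (2 * m * 2) :=
          pow_le_pow_left₀ (by linarith) hz1 _
      _ = Real.exp (((2 * m * 2 : ℕ) : ℝ) * u) := by rw [Real.exp_nat_mul]
      _ ≤ Real.exp (L / 2) := by
          apply Real.exp_le_exp.2
          push_cast
          have h1 : (2 * (m : ℝ) * 2) * u = 4 * m * L / (K * LL) := by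
            rw [hu]; ring
          rw [h1, div_le_div_iff₀ hKLL (by norm_num), hK]
          have h5 : (m : ℝ) * L ≤ 8 * ((k : ℝ) + 1) * LL * L :=
            mul_le_mul_of_nonneg_right hm2 hLpos.le
          linarith

theorem sieveS (k : ℕ) : ∃ C : ℝ, 0 < C ∧ ∀ S : Finset ℕ, S.card = k → (∀ A ∈ S, 1 ≤ A) →
    ∀ X : ℝ, 2 ≤ X → ((simPrimes S X).card : ℝ) ≤
      C * X * (Real.log (Real.log X + 3)) ^ (k + 1) *
        (Real.log (Real.log (disc S) + 3)) ^ k / (Real.log X) ^ (k + 1) := by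
  obtain ⟨C0, hC0⟩ := MertensAux.exists_S0_bound
  obtain ⟨C1, hC1pos, hC1⟩ := exists_sigma_bound
  set K : ℝ := 64 * ((k : ℝ) + 1) with hK
  have hK0 : 64 ≤ K := by
    rw [hK]; have : (0 : ℝ) ≤ k := Nat.cast_nonneg k
    linarith
  -- large X conditions
  have ev1 : ∀ᶠ L : ℝ in atTop, |C0| + 1 ≤ Real.log L :=
    Real.tendsto_log_atTop.eventually_ge_atTop _
  have ev2 : ∀ᶠ L : ℝ in atTop, 2 * K * Real.log L ≤ L := by
    have h := Real.isLittleO_log_id_atTop.bound (show (0 : ℝ) < 1 / (2 * K) by positivity)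
    filter_upwards [h, eventually_ge_atTop (1 : ℝ)] with L hL hL1
    simp only [id, Real.norm_eq_abs] at hL
    rw [abs_of_nonneg (Real.log_nonneg hL1), abs_of_nonneg (by linarith)] at hL
    have h2K : (0 : ℝ) < 2 * K := by linarith
    calc 2 * K * Real.log L ≤ 2 * K * (1 / (2 * K) * L) :=
          mul_le_mul_of_nonneg_left hL h2K.le
      _ = L := by field_simp
  have ev3 : ∀ᶠ L : ℝ in atTop, L ^ (k + 1) ≤ Real.exp (L / 2) := by
    have h := (isLittleO_pow_exp_pos_mul_atTop (k + 1) (show (0 : ℝ) < 1 / 2 by norm_num)).bound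
      (show (0 : ℝ) < 1 by norm_num)
    filter_upwards [h, eventually_ge_atTop (1 : ℝ)] with L hL hL1
    rw [Real.norm_of_nonneg (by positivity), Real.norm_of_nonneg (Real.exp_pos _).le] at hL
    rw [one_mul] at hL
    have : 1 / 2 * L = L / 2 := by ring
    rwa [this] at hL
  obtain ⟨L1, hL1⟩ := Filter.eventually_atTop.1 ((ev1.and (ev2.and ev3)).and
    (eventually_ge_atTop (3 : ℝ)))
  set L2 : ℝ := max L1 1 with hL2
  have hL2pos : 1 ≤ L2 := le_max_right _ _
  set Cbig : ℝ := (5 + 2 * (2 * K * Real.exp 1) ^ (k + 1)) * Real.exp (k * C1) with hCbig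
  have hCbig0 : 0 < Cbig := by positivity
  refine ⟨Cbig + 2 * L2 ^ (k + 1), by positivity, ?_⟩
  intro S hSk hS X hX
  have hX0 : (0 : ℝ) < X := by linarith
  have hLpos : 0 < Real.log X := Real.log_pos (by linarith)
  have hd := disc_ne_zero S hS
  have hd1 : (1 : ℝ) ≤ disc S := by exact_mod_cast Nat.one_le_iff_ne_zero.2 hd
  have hld : 0 ≤ Real.log (disc S) := Real.log_nonneg hd1
  have hlog3 : (1 : ℝ) < Real.log 3 := by
    have := Real.exp_one_lt_d9
    rw [Real.lt_log_iff_exp_lt (by norm_num)]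
    linarith
  have hU : 1 ≤ Real.log (Real.log X + 3) := by
    have := Real.log_le_log (by norm_num : (0 : ℝ) < 3) (by linarith : (3 : ℝ) ≤ Real.log X + 3)
    linarith
  have hW : 1 ≤ Real.log (Real.log (disc S) + 3) := by
    have := Real.log_le_log (by norm_num : (0 : ℝ) < 3)
      (by linarith : (3 : ℝ) ≤ Real.log (disc S) + 3)
    linarith
  set U := Real.log (Real.log X + 3) with hUdef
  set W := Real.log (Real.log (disc S) + 3) with hWdef
  have hUk : 1 ≤ U ^ (k + 1) := one_le_pow₀ hU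
  have hWk : 1 ≤ W ^ k := one_le_pow₀ hW
  have hUW : 1 ≤ U ^ (k + 1) * W ^ k := by nlinarith
  set L := Real.log X with hLdef
  have hLk : 0 < L ^ (k + 1) := by positivity
  by_cases hbig : L1 ≤ L
  · -- main case
    obtain ⟨⟨c1, c2, c3⟩, c4⟩ := hL1 L hbig
    set LL := Real.log L with hLL
    have hC0a : C0 ≤ |C0| := le_abs_self C0
    have hLL1 : 1 ≤ LL := by linarith [abs_nonneg C0]
    set u : ℝ := L / (K * LL) with hu
    have hKLL : 0 < K * LL := by positivity
    have hu2 : 2 ≤ u := by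
      rw [hu, le_div_iff₀ hKLL]; linarith
    have huL : u ≤ L / 2 := by
      rw [hu, div_le_div_iff₀ hKLL (by norm_num)]
      apply mul_le_mul_of_nonneg_left _ hLpos.le
      nlinarith
    set z : ℕ := ⌊Real.exp u⌋₊ with hz
    have hz1 : (z : ℝ) ≤ Real.exp u := Nat.floor_le (Real.exp_pos _).le
    have hz2 : Real.exp u - 1 < z := by
      have := Nat.lt_floor_add_one (Real.exp u)
      rw [← hz] at this
      linarith
    have hexp_half : Real.exp (u / 2) ≤ z := by
      have h1 : Real.exp u = Real.exp (u / 2) * Real.exp (u / 2) := by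
        rw [← Real.exp_add]; ring_nf
      have h2 : 2 ≤ Real.exp (u / 2) := by
        have := Real.add_one_le_exp (u / 2)
        linarith
      nlinarith
    have hzR : (2 : ℝ) ≤ z := by
      have := Real.add_one_le_exp (u / 2)
      linarith
    have hzN : 2 ≤ z := by exact_mod_cast hzR
    -- m
    set m : ℕ := ⌈4 * ((k : ℝ) + 1) * (LL + |C0|)⌉₊ with hm
    have hm1 : 4 * ((k : ℝ) + 1) * (LL + |C0|) ≤ m := Nat.le_ceil _
    have hk0 : (0 : ℝ) ≤ k := Nat.cast_nonneg k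
    have hm2 : (m : ℝ) ≤ 8 * ((k : ℝ) + 1) * LL := by
      have h1 := Nat.ceil_lt_add_one (show 0 ≤ 4 * ((k : ℝ) + 1) * (LL + |C0|) by positivity)
      rw [← hm] at h1
      nlinarith [abs_nonneg C0]
    set σ := ∑ p ∈ (disc S).primeFactors, 1 / (p : ℝ) with hσ
    have hσ1 := hC1 (disc S) hd
    obtain ⟨ht1, ht2, ht3⟩ := core_bounds k C0 hC0 S hSk hS L LL u K z m hK hLpos hLL hLL1
      hu hu2 huL hz1 hexp_half hzN hm1 hm2 σ hσ
    set G := ∑ p ∈ Nat.primesLE z, gS S p with hG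
    have hG0 : 0 ≤ G := Finset.sum_nonneg (fun p _ => gS_nonneg S p)
    have hzX : (z : ℝ) ≤ Real.exp (L / 2) :=
      hz1.trans (Real.exp_le_exp.2 huL)
    have hXexp : X = Real.exp (L / 2) * Real.exp (L / 2) := by
      rw [← Real.exp_add, add_halves, hLdef, Real.exp_log hX0]
    have hhalf : Real.exp (L / 2) ≤ X / L ^ (k + 1) := by
      rw [le_div_iff₀ hLk, hXexp]
      exact mul_le_mul_of_nonneg_left c3 (Real.exp_pos _).le
    have hone : (1 : ℝ) ≤ Real.exp (L / 2) := Real.one_le_exp (by linarith)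
    have hN : ((⌊X⌋₊ + 1 : ℕ) : ℝ) ≤ 2 * X := by
      push_cast
      have := Nat.floor_le hX0.le
      linarith
    have hb := brun S z m (⌊X⌋₊ + 1) (by omega)
    have hcount := simPrimes_card_le S hS X z
    set T1 := Real.exp (-G)
    set T2 := G ^ (2 * m + 1) / ((2 * m + 1).factorial : ℝ)
    have hT1 : 0 ≤ T1 := (Real.exp_pos _).le
    have hT2 : 0 ≤ T2 := by positivity
    have hmain : ((simPrimes S X).card : ℝ) ≤ X / L ^ (k + 1) * 3 + 2 * X * (T1 + T2) := by
      clear ht1 ht2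
      have h1 : ((⌊X⌋₊ + 1 : ℕ) : ℝ) * (T1 + T2) ≤ 2 * X * (T1 + T2) :=
        mul_le_mul_of_nonneg_right hN (by linarith)
      linarith
    -- assemble
    have hσexp : Real.exp (k * σ) ≤ Real.exp (k * C1) * W ^ k := by
      have hWpos : 0 < W := by linarith
      have h1 : (k : ℝ) * σ ≤ k * C1 + k * Real.log W := by
        have := mul_le_mul_of_nonneg_left hσ1 hk0
        linarith
      calc Real.exp (k * σ) ≤ Real.exp (k * C1 + k * Real.log W) := Real.exp_le_exp.2 h1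
        _ = Real.exp (k * C1) * W ^ k := by
            rw [Real.exp_add, Real.exp_nat_mul _ k, Real.exp_nat_mul (Real.log W) k,
              Real.exp_log hWpos]
    have hLLU : LL ≤ U := by
      rw [hLL, hUdef]
      apply Real.log_le_log hLpos
      linarith
    have hLLUk : LL ^ (k + 1) ≤ U ^ (k + 1) := pow_le_pow_left₀ (by linarith) hLLU _
    set E1 := (2 * K * Real.exp 1) ^ (k + 1) with hE1
    have hE10 : 0 < E1 := by positivity
    set XL := X / L ^ (k + 1) with hXL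
    have hXL0 : 0 < XL := by positivity
    have h1 : 2 * X * T1 ≤ XL * (2 * E1 * Real.exp (k * C1) * (U ^ (k + 1) * W ^ k)) := by
      have h2 : T1 ≤ E1 * U ^ (k + 1) / L ^ (k + 1) * (Real.exp (k * C1) * W ^ k) := by
        refine ht1.trans ?_
        apply mul_le_mul _ hσexp (Real.exp_pos _).le (by positivity)
        apply div_le_div_of_nonneg_right _ hLk.le
        exact mul_le_mul_of_nonneg_left hLLUk hE10.le
      have h3 := mul_le_mul_of_nonneg_left h2 (show 0 ≤ 2 * X by linarith)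
      refine h3.trans (le_of_eq ?_)
      rw [hXL]; ring
    have h2 : 2 * X * T2 ≤ XL * 2 := by
      have h3 := mul_le_mul_of_nonneg_left ht2 (show 0 ≤ 2 * X by linarith)
      refine h3.trans (le_of_eq ?_)
      rw [hXL]; ring
    have hek : 1 ≤ Real.exp (k * C1) := Real.one_le_exp (by positivity)
    have h4 : 0 ≤ 2 * L2 ^ (k + 1) := by positivity
    have h5 := assemble_aux _ X XL T1 T2 E1 (Real.exp (k * C1)) (U ^ (k + 1) * W ^ k)
      (2 * L2 ^ (k + 1)) hmain h1 h2 hek hUW hXL0.le h4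
    refine h5.trans (le_of_eq ?_)
    rw [hCbig, hXL, hE1]; ring
  · -- trivial case
    push Not at hbig
    have hLL2 : L ≤ L2 := hbig.le.trans (le_max_left _ _)
    have hcount : ((simPrimes S X).card : ℝ) ≤ 2 * X := by
      have h1 : (simPrimes S X).card ≤ ⌊X⌋₊ + 1 := by
        unfold simPrimes
        refine (Finset.card_filter_le _ _).trans ?_
        rw [card_range]
      have h2 : ((simPrimes S X).card : ℝ) ≤ (⌊X⌋₊ : ℝ) + 1 := by exact_mod_cast h1
      have := Nat.floor_le hX0.le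
      linarith
    have hLk2 : L ^ (k + 1) ≤ L2 ^ (k + 1) := pow_le_pow_left₀ hLpos.le hLL2 _
    rw [le_div_iff₀ hLk]
    calc ((simPrimes S X).card : ℝ) * L ^ (k + 1) ≤ 2 * X * L2 ^ (k + 1) :=
          mul_le_mul hcount hLk2 hLk.le (by linarith)
      _ = (2 * L2 ^ (k + 1)) * X * 1 := by ring
      _ ≤ (Cbig + 2 * L2 ^ (k + 1)) * X * (U ^ (k + 1) * W ^ k) := by
          apply mul_le_mul _ hUW (by norm_num) (by positivity)
          apply mul_le_mul_of_nonneg_right _ hX0.le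
          linarith
      _ = _ := by ring

end

end Vale.Agent.P031.Sv
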