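import Vale.Agent.P031.Defs
import Vale.Agent.P031.SvMain

/-! P031, [SIEVE-S]: the sieve bounds for two and three linear forms and their partial sums. -/

namespace P031

open Finset Filter Topology
open scoped Classical

namespace SieveAux

open Vale.Agent.P031.Sv

lemma log16' : (2.77 : ℝ) < Real.log 16 := by
  have h : Real.log 16 = 4 * Real.log 2 := by
    rw [show (16 : ℝ) = 2 ^ 4 by norm_num, Real.log_pow]
    norm_num
  have := Real.log_two_gt_d9
  linarith

/-- `L = log (A X + 16)` -/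
lemma L_ge {A : ℕ} {X : ℝ} (hX : 0 ≤ X) : (2.77 : ℝ) < Real.log (A * X + 16) := by
  refine log16'.trans_le (Real.log_le_log (by norm_num) ?_)
  have : 0 ≤ (A : ℝ) * X := by positivity
  linarith

lemma loglog_bound {L y : ℝ} (hL : 2.77 < L) (h0 : 0 ≤ y) (h : y ≤ L) :
    0 ≤ Real.log (y + 3) ∧ Real.log (y + 3) ≤ 2 * Real.log L := by
  refine ⟨Real.log_nonneg (by linarith), ?_⟩
  have h1 : 2 * Real.log L = Real.log (L ^ 2) := by rw [Real.log_pow]; norm_num
  rw [h1]
  apply Real.log_le_log (by linarith)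
  nlinarith

lemma loglog_bound3 {L y : ℝ} (hL : 2.77 < L) (h0 : 0 ≤ y) (h : y ≤ 3 * L) :
    0 ≤ Real.log (y + 3) ∧ Real.log (y + 3) ≤ 3 * Real.log L := by
  refine ⟨Real.log_nonneg (by linarith), ?_⟩
  have h1 : 3 * Real.log L = Real.log (L ^ 3) := by rw [Real.log_pow]; norm_num
  rw [h1]
  apply Real.log_le_log (by linarith)
  have h2 : (2.77 : ℝ) ^ 2 ≤ L ^ 2 := pow_le_pow_left₀ (by norm_num) hL.le 2
  have h3 : L ^ 3 = L ^ 2 * L := by ring
  rw [h3]
  nlinarith

lemma disc_one (A : ℕ) : disc {A} = A := by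
  unfold disc
  have h1 : ({A} : Finset ℕ).filter (fun x => x < A) = ∅ := by
    ext x
    simp only [mem_filter, mem_singleton, Finset.notMem_empty, iff_false]
    rintro ⟨h, h2⟩
    omega
  rw [Finset.prod_singleton, Finset.prod_singleton, h1, Finset.prod_empty, mul_one]

lemma disc_two {A B : ℕ} (hB : B < A) : disc {A, B} = A * B * (A - B) := by
  unfold disc
  have hne : A ≠ B := by omega
  rw [Finset.prod_pair hne, Finset.prod_pair hne]
  have h1 : ({A, B} : Finset ℕ).filter (fun x => x < A) = {B} := by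
    ext x
    simp only [mem_filter, mem_insert, mem_singleton]
    constructor
    · rintro ⟨h | h, h2⟩ <;> omega
    · intro h
      exact ⟨Or.inr h, by omega⟩
  have h2 : ({A, B} : Finset ℕ).filter (fun x => x < B) = ∅ := by
    ext x
    simp only [mem_filter, mem_insert, mem_singleton, Finset.notMem_empty, iff_false]
    rintro ⟨h | h, h2⟩ <;> omega
  rw [h1, h2, Finset.prod_singleton, Finset.prod_empty, mul_one]

end SieveAux

open SieveAux Vale.Agent.P031.Sv

theorem sieve2 : ∃ (C : ℝ) (k : ℕ), 0 < C ∧ ∀ (A : ℕ) (X : ℝ), 1 ≤ A → 3 ≤ X →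
    (((Icc 1 ⌊X⌋₊).filter (fun P => P.Prime ∧ (A * P + 1).Prime)).card : ℝ) ≤
      C * X * (Real.log (Real.log (A * X + 16))) ^ k / (Real.log X) ^ 2 := by
  obtain ⟨C, hC, h⟩ := sieveS 1
  refine ⟨8 * C, 3, by positivity, fun A X hA hX => ?_⟩
  have h1 := h {A} (Finset.card_singleton A) (by simpa using hA) X (by linarith)
  rw [disc_one] at h1
  have hA' : (1 : ℝ) ≤ A := by exact_mod_cast hA
  have hL := L_ge (A := A) (X := X) (by linarith)
  set L := Real.log (A * X + 16) with hLdef
  have hlX0 : 0 < Real.log X := Real.log_pos (by linarith)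
  have hlX : Real.log X ≤ L := Real.log_le_log (by linarith) (by nlinarith)
  have hlA0 : 0 ≤ Real.log A := Real.log_nonneg hA'
  have hlA : Real.log A ≤ L := Real.log_le_log (by linarith) (by nlinarith)
  obtain ⟨a0, a1⟩ := loglog_bound hL hlX0.le hlX
  obtain ⟨b0, b1⟩ := loglog_bound hL hlA0 hlA
  have hlogL : 0 < Real.log L := Real.log_pos (by linarith)
  have hsub : ((Icc 1 ⌊X⌋₊).filter (fun P => P.Prime ∧ (A * P + 1).Prime)).card ≤
      (simPrimes {A} X).card := by
    apply Finset.card_le_card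
    intro P hP
    rw [mem_filter, mem_Icc] at hP
    unfold simPrimes
    rw [mem_filter, mem_range]
    refine ⟨by omega, hP.2.1, ?_⟩
    intro B hB
    rw [mem_singleton] at hB
    rw [hB]
    exact hP.2.2
  have hsub' : (((Icc 1 ⌊X⌋₊).filter (fun P => P.Prime ∧ (A * P + 1).Prime)).card : ℝ) ≤
      ((simPrimes {A} X).card : ℝ) := by exact_mod_cast hsub
  refine hsub'.trans (h1.trans ?_)
  apply div_le_div_of_nonneg_right _ (by positivity)
  have e1 : (Real.log (Real.log X + 3)) ^ (1 + 1) ≤ (2 * Real.log L) ^ 2 :=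
    pow_le_pow_left₀ a0 a1 2
  calc C * X * (Real.log (Real.log X + 3)) ^ (1 + 1) * (Real.log (Real.log A + 3)) ^ 1
      ≤ C * X * (2 * Real.log L) ^ 2 * (2 * Real.log L) := by
        rw [pow_one]
        have hCX : 0 ≤ C * X := by positivity
        apply mul_le_mul (mul_le_mul_of_nonneg_left e1 hCX) b1 b0 (by positivity)
    _ = 8 * C * X * Real.log L ^ 3 := by ring

theorem sieve3 : ∃ (C : ℝ) (k : ℕ), 0 < C ∧ ∀ (A B : ℕ) (X : ℝ), 1 ≤ B → B < A → 3 ≤ X →
    (((Icc 1 ⌊X⌋₊).filter
      (fun P => P.Prime ∧ (A * P + 1).Prime ∧ (B * P + 1).Prime)).card : ℝ) ≤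
      C * X * (Real.log (Real.log (A * X + 16))) ^ k / (Real.log X) ^ 3 := by
  obtain ⟨C, hC, h⟩ := sieveS 2
  refine ⟨72 * C, 5, by positivity, fun A B X hB hBA hX => ?_⟩
  have hne : A ≠ B := by omega
  have h1 := h {A, B} (Finset.card_pair hne) (by
    intro D hD
    rw [mem_insert, mem_singleton] at hD
    rcases hD with rfl | rfl <;> omega) X (by linarith)
  rw [disc_two hBA] at h1
  have hA' : (1 : ℝ) ≤ A := by exact_mod_cast (by omega : 1 ≤ A)
  have hL := L_ge (A := A) (X := X) (by linarith)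
  set L := Real.log (A * X + 16) with hLdef
  have hlX0 : 0 < Real.log X := Real.log_pos (by linarith)
  have hlX : Real.log X ≤ L := Real.log_le_log (by linarith) (by nlinarith)
  have hlA : Real.log A ≤ L := Real.log_le_log (by linarith) (by nlinarith)
  have hd1 : 1 ≤ A * B * (A - B) := by
    have : 0 < A * B * (A - B) := by
      have h2 : 0 < A - B := by omega
      have h3 : 0 < A := by omega
      positivity
    omega
  have hd2 : A * B * (A - B) ≤ A * A * A :=
    Nat.mul_le_mul (Nat.mul_le_mul le_rfl hBA.le) (Nat.sub_le _ _)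
  have hd1' : (1 : ℝ) ≤ ((A * B * (A - B) : ℕ) : ℝ) := by exact_mod_cast hd1
  have hd2' : ((A * B * (A - B) : ℕ) : ℝ) ≤ (A : ℝ) ^ 3 := by
    have : ((A * B * (A - B) : ℕ) : ℝ) ≤ ((A * A * A : ℕ) : ℝ) := by exact_mod_cast hd2
    refine this.trans (le_of_eq ?_)
    push_cast
    ring
  have hld0 : 0 ≤ Real.log ((A * B * (A - B) : ℕ) : ℝ) := Real.log_nonneg hd1'
  have hld : Real.log ((A * B * (A - B) : ℕ) : ℝ) ≤ 3 * L := by
    have h2 := Real.log_le_log (by linarith) hd2'
    rw [Real.log_pow] at h2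
    push_cast at h2 ⊢
    linarith
  obtain ⟨a0, a1⟩ := loglog_bound hL hlX0.le hlX
  obtain ⟨b0, b1⟩ := loglog_bound3 hL hld0 hld
  have hlogL : 0 < Real.log L := Real.log_pos (by linarith)
  have hsub : ((Icc 1 ⌊X⌋₊).filter
      (fun P => P.Prime ∧ (A * P + 1).Prime ∧ (B * P + 1).Prime)).card ≤
      (simPrimes {A, B} X).card := by
    apply Finset.card_le_card
    intro P hP
    rw [mem_filter, mem_Icc] at hP
    unfold simPrimes
    rw [mem_filter, mem_range]
    refine ⟨by omega, hP.2.1, ?_⟩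
    intro D hD
    rw [mem_insert, mem_singleton] at hD
    rcases hD with rfl | rfl
    · exact hP.2.2.1
    · exact hP.2.2.2
  have hsub' : (((Icc 1 ⌊X⌋₊).filter
      (fun P => P.Prime ∧ (A * P + 1).Prime ∧ (B * P + 1).Prime)).card : ℝ) ≤
      ((simPrimes {A, B} X).card : ℝ) := by exact_mod_cast hsub
  refine hsub'.trans (h1.trans ?_)
  apply div_le_div_of_nonneg_right _ (by positivity)
  have e1 : (Real.log (Real.log X + 3)) ^ (2 + 1) ≤ (2 * Real.log L) ^ 3 :=
    pow_le_pow_left₀ a0 a1 3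
  have e2 : (Real.log (Real.log ((A * B * (A - B) : ℕ) : ℝ) + 3)) ^ 2 ≤ (3 * Real.log L) ^ 2 :=
    pow_le_pow_left₀ b0 b1 2
  calc C * X * (Real.log (Real.log X + 3)) ^ (2 + 1) *
        (Real.log (Real.log ((A * B * (A - B) : ℕ) : ℝ) + 3)) ^ 2
      ≤ C * X * (2 * Real.log L) ^ 3 * (3 * Real.log L) ^ 2 := by
        have hCX : 0 ≤ C * X := by positivity
        apply mul_le_mul (mul_le_mul_of_nonneg_left e1 hCX) e2 (by positivity) (by positivity)
    _ = 72 * C * X * Real.log L ^ 5 := by ring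

namespace SieveAux

lemma dyadic (S : ℕ → Prop) [DecidablePred S] (X Z M : ℝ) (hX : 3 ≤ X) (hM : 0 ≤ M)
    (h : ∀ Y, X ≤ Y → Y ≤ 2 * Z →
      (((Icc 1 ⌊Y⌋₊).filter S).card : ℝ) ≤ M * Y / (Real.log Y) ^ 2) :
    ∑ P ∈ (Icc 1 ⌊Z⌋₊).filter (fun P : ℕ => X ≤ P ∧ S P), (1 : ℝ) / P ≤
      3 * M / Real.log X := by
  have hX0 : 0 < X := by linarith
  have ha : 0 < Real.log X := Real.log_pos (by linarith)
  have hl2 : 0.6931471803 < Real.log 2 := Real.log_two_gt_d9
  have hl20 : 0 < Real.log 2 := by linarith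
  have key : ∀ n : ℕ, ∑ P ∈ (Icc 1 ⌊Z⌋₊).filter
      (fun P : ℕ => (X ≤ P ∧ S P) ∧ (P : ℝ) < 2 ^ n * X), (1 : ℝ) / P ≤
      2 * M / Real.log 2 * (1 / Real.log X - 1 / (Real.log X + n * Real.log 2)) := by
    intro n
    induction n with
    | zero =>
      have he : (Icc 1 ⌊Z⌋₊).filter
          (fun P : ℕ => (X ≤ P ∧ S P) ∧ (P : ℝ) < 2 ^ 0 * X) = ∅ := by
        apply Finset.filter_eq_empty_iff.2
        rintro P _ ⟨⟨h1, _⟩, h2⟩
        simp only [pow_zero, one_mul] at h2
        linarith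
      rw [he]
      simp
    | succ n ih =>
      set Y := (2 : ℝ) ^ (n + 1) * X with hY
      set T := (Icc 1 ⌊Z⌋₊).filter
        (fun P : ℕ => (X ≤ P ∧ S P) ∧ (P : ℝ) < 2 ^ n * X) with hT
      set R := (Icc 1 ⌊Z⌋₊).filter
        (fun P : ℕ => ((X ≤ P ∧ S P) ∧ (P : ℝ) < Y) ∧ (2 : ℝ) ^ n * X ≤ P) with hR
      have h2n : (1 : ℝ) ≤ 2 ^ n := one_le_pow₀ (by norm_num)
      have h2nX : 0 < (2 : ℝ) ^ n * X := by positivity
      have hsub : (Icc 1 ⌊Z⌋₊).filter
          (fun P : ℕ => (X ≤ P ∧ S P) ∧ (P : ℝ) < Y) ⊆ T ∪ R := by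
        intro P hP
        rw [mem_filter] at hP
        rw [mem_union, hT, hR, mem_filter, mem_filter]
        rcases lt_or_ge (P : ℝ) (2 ^ n * X) with h1 | h1
        · exact Or.inl ⟨hP.1, hP.2.1, h1⟩
        · exact Or.inr ⟨hP.1, hP.2, h1⟩
      have hnn : ∀ P ∈ T ∪ R, (0 : ℝ) ≤ 1 / (P : ℝ) := fun P _ => by positivity
      have h1 : ∑ P ∈ (Icc 1 ⌊Z⌋₊).filter
          (fun P : ℕ => (X ≤ P ∧ S P) ∧ (P : ℝ) < Y), (1 : ℝ) / P ≤
          ∑ P ∈ T, (1 : ℝ) / P + ∑ P ∈ R, (1 : ℝ) / P := by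
        refine (Finset.sum_le_sum_of_subset_of_nonneg hsub fun P hP _ => hnn P hP).trans ?_
        have := Finset.sum_union_inter (s₁ := T) (s₂ := R) (f := fun P : ℕ => (1 : ℝ) / P)
        have h3 : 0 ≤ ∑ P ∈ T ∩ R, (1 : ℝ) / (P : ℝ) :=
          Finset.sum_nonneg fun P _ => by positivity
        linarith
      have hlY : Real.log Y = Real.log X + (n + 1) * Real.log 2 := by
        rw [hY, Real.log_mul (by positivity) hX0.ne', Real.log_pow]
        push_cast
        ring
      have hn0 : (0 : ℝ) ≤ n := Nat.cast_nonneg n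
      have hden1 : 0 < Real.log X + n * Real.log 2 := by positivity
      have hden2 : 0 < Real.log X + (n + 1) * Real.log 2 := by positivity
      have hRle : ∑ P ∈ R, (1 : ℝ) / P ≤ 2 * M / (Real.log X + (n + 1) * Real.log 2) ^ 2 := by
        rcases lt_or_ge Z ((2 : ℝ) ^ n * X) with hZ | hZ
        · have : R = ∅ := by
            apply Finset.filter_eq_empty_iff.2
            rintro P hP ⟨_, h4⟩
            rw [mem_Icc] at hP
            have hZ0 : 0 ≤ Z := by
              by_contra hneg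
              push Not at hneg
              rw [Nat.floor_of_nonpos hneg.le] at hP
              omega
            have h5 : (P : ℝ) ≤ Z := (Nat.cast_le.2 hP.2).trans (Nat.floor_le hZ0)
            linarith
          rw [this, Finset.sum_empty]
          positivity
        · have hYX : X ≤ Y := by
            rw [hY, pow_succ]
            nlinarith
          have hY0 : 0 < Y := by linarith
          have hY2Z : Y ≤ 2 * Z := by
            rw [hY, pow_succ]
            linarith
          have h4 := h Y hYX hY2Z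
          have hRc : R ⊆ (Icc 1 ⌊Y⌋₊).filter S := by
            intro P hP
            rw [hR, mem_filter, mem_Icc] at hP
            rw [mem_filter, mem_Icc]
            exact ⟨⟨hP.1.1, Nat.le_floor hP.2.1.2.le⟩, hP.2.1.1.2⟩
          have h5 : (R.card : ℝ) ≤ M * Y / (Real.log Y) ^ 2 := by
            refine le_trans ?_ h4
            exact_mod_cast Finset.card_le_card hRc
          calc ∑ P ∈ R, (1 : ℝ) / P ≤ ∑ _P ∈ R, 1 / ((2 : ℝ) ^ n * X) := by
                refine Finset.sum_le_sum fun P hP => ?_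
                rw [hR, mem_filter] at hP
                exact one_div_le_one_div_of_le h2nX hP.2.2
            _ = R.card * (1 / ((2 : ℝ) ^ n * X)) := by
                rw [Finset.sum_const, nsmul_eq_mul]
            _ ≤ M * Y / (Real.log Y) ^ 2 * (1 / ((2 : ℝ) ^ n * X)) :=
                mul_le_mul_of_nonneg_right h5 (by positivity)
            _ = 2 * M / (Real.log X + (n + 1) * Real.log 2) ^ 2 := by
                rw [hlY, hY, pow_succ]
                field_simp
      refine h1.trans ((add_le_add ih hRle).trans ?_)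
      have h6 : 2 * M / (Real.log X + (n + 1) * Real.log 2) ^ 2 ≤
          2 * M / Real.log 2 * (1 / (Real.log X + n * Real.log 2) -
            1 / (Real.log X + (n + 1) * Real.log 2)) := by
        have e : 2 * M / Real.log 2 * (1 / (Real.log X + n * Real.log 2) -
            1 / (Real.log X + (n + 1) * Real.log 2)) =
            2 * M / ((Real.log X + n * Real.log 2) * (Real.log X + (n + 1) * Real.log 2)) := by
          field_simp
          ring
        rw [e]
        apply div_le_div_of_nonneg_left (by positivity) (by positivity)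
        nlinarith
      push_cast
      linarith
  obtain ⟨n, hn⟩ := pow_unbounded_of_one_lt (Z / X) (show (1 : ℝ) < 2 by norm_num)
  have hall : (Icc 1 ⌊Z⌋₊).filter (fun P : ℕ => X ≤ P ∧ S P) =
      (Icc 1 ⌊Z⌋₊).filter (fun P : ℕ => (X ≤ P ∧ S P) ∧ (P : ℝ) < 2 ^ n * X) := by
    apply Finset.filter_congr
    intro P hP
    rw [mem_Icc] at hP
    constructor
    · intro h1
      refine ⟨h1, ?_⟩
      have hZ0 : 0 ≤ Z := by
        by_contra hneg
        push Not at hneg
        rw [Nat.floor_of_nonpos hneg.le] at hP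
        omega
      have h5 : (P : ℝ) ≤ Z := (Nat.cast_le.2 hP.2).trans (Nat.floor_le hZ0)
      rw [div_lt_iff₀ hX0] at hn
      linarith
    · intro h1
      exact h1.1
  rw [hall]
  refine (key n).trans ?_
  have hn0 : (0 : ℝ) ≤ n := Nat.cast_nonneg n
  have h7 : 0 ≤ 1 / (Real.log X + n * Real.log 2) := by positivity
  have h8 : 2 * M / Real.log 2 ≤ 3 * M := by
    rw [div_le_iff₀ hl20]
    nlinarith
  calc 2 * M / Real.log 2 * (1 / Real.log X - 1 / (Real.log X + n * Real.log 2))
      ≤ 2 * M / Real.log 2 * (1 / Real.log X) := by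
        apply mul_le_mul_of_nonneg_left _ (by positivity)
        linarith
    _ ≤ 3 * M * (1 / Real.log X) := mul_le_mul_of_nonneg_right h8 (by positivity)
    _ = 3 * M / Real.log X := by ring

/-- `log log` at `2 Z` -/
lemma loglog_double {A : ℕ} {Y Z : ℝ} (hY : 0 ≤ Y) (hYZ : Y ≤ 2 * Z) (hZ : 0 ≤ Z) :
    0 ≤ Real.log (Real.log (A * Y + 16)) ∧
      Real.log (Real.log (A * Y + 16)) ≤ 2 * Real.log (Real.log (A * Z + 16)) := by
  have h1 := L_ge (A := A) hY
  have h2 := L_ge (A := A) hZ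
  refine ⟨Real.log_nonneg (by linarith), ?_⟩
  set L := Real.log (A * Z + 16) with hL
  have h3 : 2 * Real.log L = Real.log (L ^ 2) := by rw [Real.log_pow]; norm_num
  rw [h3]
  apply Real.log_le_log (by linarith)
  have hA0 : (0 : ℝ) ≤ A := Nat.cast_nonneg A
  have hAY : 0 ≤ (A : ℝ) * Y := by positivity
  have hAZ : 0 ≤ (A : ℝ) * Z := by positivity
  have h4 : Real.log (A * Y + 16) ≤ Real.log (2 * (A * Z + 16)) := by
    apply Real.log_le_log (by linarith)
    nlinarith
  rw [Real.log_mul (by norm_num) (by linarith)] at h4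
  have h5 := Real.log_two_lt_d9
  nlinarith

end SieveAux

theorem sieve2_sum : ∃ (C : ℝ) (k : ℕ), 0 < C ∧ ∀ (A : ℕ) (X Z : ℝ), 1 ≤ A → 3 ≤ X → X ≤ Z →
    ∑ P ∈ (Icc 1 ⌊Z⌋₊).filter (fun P : ℕ => X ≤ P ∧ P.Prime ∧ (A * P + 1).Prime), (1 : ℝ) / P ≤
      C * (Real.log (Real.log (A * Z + 16))) ^ k / Real.log X := by
  obtain ⟨C, k, hC, h⟩ := sieve2
  refine ⟨3 * (C * 2 ^ k), k, by positivity, fun A X Z hA hX hXZ => ?_⟩
  have hZ0 : 0 ≤ Z := by linarith
  have hL := L_ge (A := A) hZ0
  have hlL : 0 ≤ Real.log (Real.log (A * Z + 16)) := Real.log_nonneg (by linarith)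
  have h1 := dyadic (fun P => P.Prime ∧ (A * P + 1).Prime) X Z
    (C * 2 ^ k * (Real.log (Real.log (A * Z + 16))) ^ k) hX (by positivity) (by
      intro Y hXY hYZ
      have h2 := h A Y hA (by linarith)
      refine h2.trans ?_
      have hlY : 0 < Real.log Y := Real.log_pos (by linarith)
      apply div_le_div_of_nonneg_right _ (by positivity)
      obtain ⟨a0, a1⟩ := loglog_double (A := A) (by linarith) hYZ hZ0
      have h3 := pow_le_pow_left₀ a0 a1 k
      have hCY : 0 ≤ C * Y := by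
        have : 0 < Y := by linarith
        positivity
      calc C * Y * Real.log (Real.log (A * Y + 16)) ^ k
          ≤ C * Y * (2 * Real.log (Real.log (A * Z + 16))) ^ k :=
            mul_le_mul_of_nonneg_left h3 hCY
        _ = C * 2 ^ k * Real.log (Real.log (A * Z + 16)) ^ k * Y := by rw [mul_pow]; ring)
  refine h1.trans (le_of_eq ?_)
  ring

theorem sieve3_sum : ∃ (C : ℝ) (k : ℕ), 0 < C ∧ ∀ (A B : ℕ) (X Z : ℝ), 1 ≤ B → B < A →
    3 ≤ X → X ≤ Z →
    ∑ P ∈ (Icc 1 ⌊Z⌋₊).filter
      (fun P : ℕ => X ≤ P ∧ P.Prime ∧ (A * P + 1).Prime ∧ (B * P + 1).Prime), (1 : ℝ) / P ≤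
      C * (Real.log (Real.log (A * Z + 16))) ^ k / (Real.log X) ^ 2 := by
  obtain ⟨C, k, hC, h⟩ := sieve3
  refine ⟨3 * (C * 2 ^ k), k, by positivity, fun A B X Z hB hBA hX hXZ => ?_⟩
  have hZ0 : 0 ≤ Z := by linarith
  have hL := L_ge (A := A) hZ0
  have hlL : 0 ≤ Real.log (Real.log (A * Z + 16)) := Real.log_nonneg (by linarith)
  have hlX : 0 < Real.log X := Real.log_pos (by linarith)
  have h1 := dyadic (fun P => P.Prime ∧ (A * P + 1).Prime ∧ (B * P + 1).Prime) X Z
    (C * 2 ^ k * (Real.log (Real.log (A * Z + 16))) ^ k / Real.log X) hX (by positivity) (by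
      intro Y hXY hYZ
      have h2 := h A B Y hB hBA (by linarith)
      refine h2.trans ?_
      have hlY : 0 < Real.log Y := Real.log_pos (by linarith)
      have hlXY : Real.log X ≤ Real.log Y := Real.log_le_log (by linarith) hXY
      obtain ⟨a0, a1⟩ := loglog_double (A := A) (by linarith) hYZ hZ0
      have h3 := pow_le_pow_left₀ a0 a1 k
      have hCY : 0 ≤ C * Y := by
        have : 0 < Y := by linarith
        positivity
      calc C * Y * Real.log (Real.log (A * Y + 16)) ^ k / Real.log Y ^ 3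
          ≤ C * Y * (2 * Real.log (Real.log (A * Z + 16))) ^ k / Real.log Y ^ 3 := by
            apply div_le_div_of_nonneg_right _ (by positivity)
            exact mul_le_mul_of_nonneg_left h3 hCY
        _ ≤ C * Y * (2 * Real.log (Real.log (A * Z + 16))) ^ k / (Real.log X * Real.log Y ^ 2) := by
            apply div_le_div_of_nonneg_left (by positivity) (by positivity)
            rw [pow_succ' (Real.log Y) 2]
            exact mul_le_mul_of_nonneg_right hlXY (by positivity)
        _ = C * 2 ^ k * Real.log (Real.log (A * Z + 16)) ^ k / Real.log X * Y /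
            Real.log Y ^ 2 := by
            rw [mul_pow]
            field_simp)
  refine h1.trans (le_of_eq ?_)
  field_simp

end P031
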