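import Vale.Agent.P031.Defs
import Vale.Agent.P031.Mert
import Vale.Agent.P031.SieveSum

namespace P031
namespace EMx

open Finset Filter Topology
open scoped Classical

lemma Om_eq_of_subset (a b n : ℕ) (S : Finset ℕ) (h : n.primeFactors ⊆ S) :
    Om a b n = ∑ p ∈ S, (if a ≤ lv p ∧ lv p < b then n.factorization p else 0) := by
  unfold Om
  rw [Finset.sum_filter]
  refine Finset.sum_subset h ?_
  intro p _ hp
  have : n.factorization p = 0 := by
    rw [← Finsupp.notMem_support_iff, Nat.support_factorization]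
    exact hp
  simp [this]

lemma Om_mul (a b m n : ℕ) (hm : m ≠ 0) (hn : n ≠ 0) :
    Om a b (m * n) = Om a b m + Om a b n := by
  rw [Om_eq_of_subset a b (m * n) (m * n).primeFactors subset_rfl,
    Om_eq_of_subset a b m (m * n).primeFactors
      (Nat.primeFactors_mono (Dvd.intro _ rfl) (mul_ne_zero hm hn)),
    Om_eq_of_subset a b n (m * n).primeFactors
      (Nat.primeFactors_mono (Dvd.intro_left _ rfl) (mul_ne_zero hm hn)), ← Finset.sum_add_distrib]
  refine Finset.sum_congr rfl fun p _ => ?_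
  rw [Nat.factorization_mul hm hn]
  split_ifs <;> simp

lemma Om_one (a b : ℕ) : Om a b 1 = 0 := by
  simp [Om]

lemma Om_prime (a b P : ℕ) (hP : P.Prime) :
    Om a b P = if a ≤ lv P ∧ lv P < b then 1 else 0 := by
  rw [Om_eq_of_subset a b P P.primeFactors subset_rfl, hP.primeFactors, Finset.sum_singleton,
    hP.factorization_self]

lemma Om_self (a n : ℕ) : Om a a n = 0 := by
  unfold Om
  rw [Finset.filter_eq_empty_iff.2, Finset.sum_empty]
  intro p _ h
  omega

/-- the completely multiplicative weight -/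
noncomputable def fw (a b : ℕ) (z s : ℝ) : ℕ →* ℝ where
  toFun n := if n = 0 then 0 else z ^ Om a b n * (n : ℝ) ^ (-s)
  map_one' := by simp [Om_one]
  map_mul' m n := by
    by_cases hm : m = 0
    · simp [hm]
    by_cases hn : n = 0
    · simp [hn]
    rw [if_neg (mul_ne_zero hm hn), if_neg hm, if_neg hn, Om_mul a b m n hm hn, pow_add,
      Nat.cast_mul, Real.mul_rpow (Nat.cast_nonneg _) (Nat.cast_nonneg _)]
    ring

lemma fw_apply (a b : ℕ) (z s : ℝ) {n : ℕ} (hn : n ≠ 0) :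
    fw a b z s n = z ^ Om a b n * (n : ℝ) ^ (-s) := by
  show (if n = 0 then 0 else _) = _
  rw [if_neg hn]

lemma fw_nonneg (a b : ℕ) {z : ℝ} (hz : 0 ≤ z) (s : ℝ) (n : ℕ) : 0 ≤ fw a b z s n := by
  show 0 ≤ (if n = 0 then 0 else z ^ Om a b n * (n : ℝ) ^ (-s))
  split_ifs
  · exact le_rfl
  · positivity

lemma inv_one_sub_le {x : ℝ} (h0 : 0 ≤ x) (h1 : x ≤ 3 / 5) :
    (1 - x)⁻¹ ≤ Real.exp (x + 5 / 2 * x ^ 2) := by
  have hpos : 0 < 1 - x := by linarith
  have h := Real.one_sub_inv_le_log_of_pos hpos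
  have h2 : (1 - x)⁻¹ = Real.exp (-Real.log (1 - x)) := by
    rw [Real.exp_neg, Real.exp_log hpos]
  rw [h2]
  apply Real.exp_le_exp.2
  have h3 : (1 - x)⁻¹ ≤ 1 + (x + 5 / 2 * x ^ 2) := by
    rw [inv_le_iff_one_le_mul₀ hpos]
    nlinarith [mul_nonneg (mul_nonneg h0 h0) (sub_nonneg.2 h1)]
  linarith

lemma euler_bound (a b : ℕ) {z s : ℝ} (hz : 0 ≤ z) (N T : ℕ)
    (hf : ∀ p, p.Prime → fw a b z s p ≤ 3 / 5) :
    ∑ m ∈ (Icc 1 T).filter (fun m => m ∈ Nat.smoothNumbers N), fw a b z s m ≤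
      Real.exp (∑ p ∈ N.primesBelow, (fw a b z s p + 5 / 2 * (fw a b z s p) ^ 2)) := by
  have h1 : ∀ {p : ℕ}, p.Prime → ‖fw a b z s p‖ < 1 := by
    intro p hp
    rw [Real.norm_of_nonneg (fw_nonneg a b hz s p)]
    exact lt_of_le_of_lt (hf p hp) (by norm_num)
  have h2 := (EulerProduct.summable_and_hasSum_smoothNumbers_prod_primesBelow_geometric h1 N).2
  have h3 := sum_le_hasSum ((Icc 1 T).subtype (fun m => m ∈ Nat.smoothNumbers N))
    (fun i _ => fw_nonneg a b hz s i) h2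
  rw [Finset.sum_subtype_eq_sum_filter] at h3
  refine h3.trans ?_
  rw [Real.exp_sum]
  refine Finset.prod_le_prod (fun p hp => ?_) (fun p hp => ?_)
  · have := hf p (Nat.prime_of_mem_primesBelow hp)
    exact inv_nonneg.2 (by linarith)
  · exact inv_one_sub_le (fw_nonneg a b hz s p) (hf p (Nat.prime_of_mem_primesBelow hp))

lemma exp_le_of_le_one {x : ℝ} (h0 : 0 ≤ x) (h1 : x ≤ 1) : Real.exp x ≤ 1 + 2 * x := by
  have h := Real.abs_exp_sub_one_sub_id_le (x := x) (by rw [abs_of_nonneg h0]; exact h1)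
  have h2 := (abs_le.1 h).2
  nlinarith

lemma loglog_of_lv {p : ℕ} (h : 1 ≤ lv p) : Real.exp 1 ≤ Real.log p := by
  unfold lv at h
  have h2 : (1 : ℝ) ≤ Real.log (Real.log p) := by
    have := (Nat.one_le_floor_iff _).1 h
    exact this
  have h3 : 0 < Real.log p := by
    by_contra hn
    push Not at hn
    have : Real.log p = 0 := le_antisymm hn (Real.log_natCast_nonneg p)
    rw [this, Real.log_zero] at h2
    linarith
  rwa [Real.le_log_iff_exp_le h3] at h2

lemma fw_prime_small {a b : ℕ} {z s : ℝ} (ha : 1 ≤ a) (hz : 0 ≤ z) (hz2 : z ≤ 2) (hs : 3 / 4 ≤ s)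
    {p : ℕ} (hp : p.Prime) : fw a b z s p ≤ 3 / 5 := by
  rw [fw_apply a b z s hp.ne_zero, Om_prime a b p hp]
  have hp0 : (0 : ℝ) < p := by exact_mod_cast hp.pos
  have hp1 : (1 : ℝ) ≤ p := by exact_mod_cast hp.one_lt.le
  split_ifs with h
  · have h1 := loglog_of_lv (ha.trans h.1)
    have h2 : (p : ℝ) ^ (-s) ≤ Real.exp (-2) := by
      rw [Real.rpow_def_of_pos hp0]
      apply Real.exp_le_exp.2
      have h3 := Real.exp_one_gt_d9
      nlinarith
    have h4 : Real.exp (-2) ≤ 1 / 7 := by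
      have h3 := Real.exp_one_gt_d9
      have h5 : Real.exp 2 = Real.exp 1 * Real.exp 1 := by rw [← Real.exp_add]; norm_num
      rw [Real.exp_neg, h5, one_div]
      apply inv_anti₀ (by norm_num)
      nlinarith
    rw [pow_one]
    have : (0 : ℝ) ≤ (p : ℝ) ^ (-s) := by positivity
    nlinarith
  · rw [pow_zero, one_mul]
    have h2 : (p : ℝ) ^ (-s) ≤ (2 : ℝ) ^ (-(3 / 4 : ℝ)) := by
      calc (p : ℝ) ^ (-s) ≤ (p : ℝ) ^ (-(3 / 4 : ℝ)) :=
            Real.rpow_le_rpow_of_exponent_le hp1 (by linarith)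
        _ ≤ (2 : ℝ) ^ (-(3 / 4 : ℝ)) :=
            Real.rpow_le_rpow_of_nonpos (by norm_num) (by exact_mod_cast hp.two_le) (by norm_num)
    refine h2.trans ?_
    rw [Real.rpow_neg (by norm_num), inv_le_comm₀ (by positivity) (by norm_num)]
    have h3 : ((3 / 5 : ℝ)⁻¹) = ((3 / 5 : ℝ)⁻¹ ^ (4 : ℕ)) ^ (1 / 4 : ℝ) := by
      rw [← Real.rpow_natCast, ← Real.rpow_mul (by norm_num)]; norm_num
    have h4 : (2 : ℝ) ^ (3 / 4 : ℝ) = ((2 : ℝ) ^ (3 : ℕ)) ^ (1 / 4 : ℝ) := by
      rw [← Real.rpow_natCast, ← Real.rpow_mul (by norm_num)]; norm_num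
    rw [h3, h4]
    apply Real.rpow_le_rpow (by positivity) (by norm_num) (by norm_num)

/-- squares of the weights -/
lemma sum_sq_bound : ∃ C : ℝ, 0 < C ∧ ∀ (a b N : ℕ) (z s : ℝ), 0 ≤ z → z ≤ 2 → 3 / 4 ≤ s →
    ∑ p ∈ N.primesBelow, (fw a b z s p) ^ 2 ≤ C := by
  have hsum : Summable (fun n : ℕ => 1 / (n : ℝ) ^ (3 / 2 : ℝ)) :=
    Real.summable_one_div_nat_rpow.2 (by norm_num)
  refine ⟨4 * ∑' n : ℕ, 1 / (n : ℝ) ^ (3 / 2 : ℝ) + 1, ?_, ?_⟩
  · have : 0 ≤ ∑' n : ℕ, 1 / (n : ℝ) ^ (3 / 2 : ℝ) := tsum_nonneg fun n => by positivity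
    linarith
  intro a b N z s hz hz2 hs
  have h1 : ∑ p ∈ N.primesBelow, (fw a b z s p) ^ 2 ≤
      ∑ p ∈ N.primesBelow, 4 * (1 / (p : ℝ) ^ (3 / 2 : ℝ)) := by
    refine Finset.sum_le_sum fun p hp => ?_
    have hp' := Nat.prime_of_mem_primesBelow hp
    have hp1 : (1 : ℝ) ≤ p := by exact_mod_cast hp'.one_lt.le
    have hp0 : (0 : ℝ) < p := by linarith
    rw [fw_apply a b z s hp'.ne_zero, Om_prime a b p hp', mul_pow]
    have h3 : ((p : ℝ) ^ (-s)) ^ 2 ≤ 1 / (p : ℝ) ^ (3 / 2 : ℝ) := by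
      rw [one_div, ← Real.rpow_neg hp0.le, ← Real.rpow_natCast, ← Real.rpow_mul hp0.le]
      apply Real.rpow_le_rpow_of_exponent_le hp1
      push_cast
      linarith
    have h4 : (z ^ (if a ≤ lv p ∧ lv p < b then 1 else 0)) ^ 2 ≤ 4 := by
      split_ifs
      · nlinarith
      · norm_num
    gcongr
  refine h1.trans ?_
  rw [← Finset.mul_sum]
  have := hsum.sum_le_tsum (N.primesBelow) (fun n _ => by positivity)
  linarith

/-- partial mass of the levels `[a,b)` below `y`. -/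
noncomputable def Sm (a b : ℕ) (y : ℝ) : ℝ :=
  ∑ p ∈ (Nat.primesLE ⌊y⌋₊).filter (fun p => a ≤ lv p ∧ lv p < b), (1 : ℝ) / p

lemma log_floor_ge {y : ℝ} (hy : 2 ≤ y) : Real.log y - Real.log 2 ≤ Real.log ⌊y⌋₊ := by
  have h1 : y / 2 ≤ ⌊y⌋₊ := by
    have := Nat.lt_floor_add_one y
    linarith
  rw [← Real.log_div (by linarith) (by norm_num)]
  exact Real.log_le_log (by linarith) h1

lemma ep : ∃ C : ℝ, 0 < C ∧ ∀ (a b T : ℕ) (y z : ℝ), 1 ≤ a → 0 ≤ z → z ≤ 2 → 0 < y →
    4 ≤ Real.log y →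
    ∑ m ∈ (Icc 1 T).filter (fun m => m ∈ Nat.smoothNumbers (⌊y⌋₊ + 1)),
      z ^ Om a b m * (m : ℝ) ^ (-(1 - 1 / Real.log y)) ≤
      C * Real.log y * Real.exp ((z - 1) * Sm a b y) := by
  obtain ⟨B, C1, hM⟩ := mertens_two
  obtain ⟨C2, hL⟩ := sum_log_div
  obtain ⟨C3, hC3, hQ⟩ := sum_sq_bound
  refine ⟨Real.exp (B + |C1| + (4 + 4 * |C2|) + 5 / 2 * C3), Real.exp_pos _, ?_⟩
  intro a b T y z ha hz hz2 hy hlog
  set η := 1 / Real.log y with hη
  have hη0 : 0 < η := by positivity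
  have hη1 : η ≤ 1 / 4 := by
    rw [hη]; exact one_div_le_one_div_of_le (by norm_num) hlog
  have hs : 3 / 4 ≤ 1 - η := by linarith
  have hy2 : 2 ≤ y := by
    have h1 : Real.exp 1 ≤ y := by
      rw [← Real.le_log_iff_exp_le hy]; linarith
    have := Real.exp_one_gt_d9
    linarith
  have h1 : ∑ m ∈ (Icc 1 T).filter (fun m => m ∈ Nat.smoothNumbers (⌊y⌋₊ + 1)),
      z ^ Om a b m * (m : ℝ) ^ (-(1 - η)) =
      ∑ m ∈ (Icc 1 T).filter (fun m => m ∈ Nat.smoothNumbers (⌊y⌋₊ + 1)), fw a b z (1 - η) m := by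
    refine Finset.sum_congr rfl fun m hm => ?_
    rw [fw_apply]
    have := (Finset.mem_Icc.1 (Finset.mem_filter.1 hm).1).1
    omega
  rw [h1]
  refine (euler_bound a b hz _ T (fun p hp => fw_prime_small ha hz hz2 hs hp)).trans ?_
  rw [Finset.sum_add_distrib, ← Finset.mul_sum]
  have h2 : ∑ p ∈ (⌊y⌋₊ + 1).primesBelow, fw a b z (1 - η) p ≤
      ∑ p ∈ (⌊y⌋₊ + 1).primesBelow, ((1 : ℝ) / p + (z - 1) * (if a ≤ lv p ∧ lv p < b then (1 : ℝ) / p else 0)
        + 4 * η * (Real.log p / p)) := by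
    refine Finset.sum_le_sum fun p hp => ?_
    have hp' := Nat.prime_of_mem_primesBelow hp
    have hp1 : (1 : ℝ) ≤ p := by exact_mod_cast hp'.one_lt.le
    have hp0 : (0 : ℝ) < p := by linarith
    have hpy : (p : ℝ) ≤ y := by
      have h3 : p < ⌊y⌋₊ + 1 := Nat.lt_of_mem_primesBelow hp
      have h4 : p ≤ ⌊y⌋₊ := by omega
      exact (Nat.le_floor_iff hy.le).1 h4
    rw [fw_apply a b z _ hp'.ne_zero, Om_prime a b p hp']
    have h5 : (p : ℝ) ^ (-(1 - η)) = 1 / p * Real.exp (η * Real.log p) := by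
      have : -(1 - η) = -1 + η := by ring
      rw [this, Real.rpow_add hp0, Real.rpow_neg_one, one_div, Real.rpow_def_of_pos hp0,
        mul_comm (Real.log p) η]
    have h6 : Real.exp (η * Real.log p) ≤ 1 + 2 * (η * Real.log p) := by
      have hl0 : 0 ≤ Real.log p := Real.log_natCast_nonneg p
      apply exp_le_of_le_one (by positivity)
      rw [hη, one_div, inv_mul_le_iff₀ (by linarith), mul_one]
      exact Real.log_le_log hp0 hpy
    have hl0 : 0 ≤ Real.log p := Real.log_natCast_nonneg p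
    rw [h5]
    have h7 : z ^ (if a ≤ lv p ∧ lv p < b then 1 else 0) ≤ 2 := by
      split_ifs
      · simpa using hz2
      · norm_num
    have h70 : 0 ≤ z ^ (if a ≤ lv p ∧ lv p < b then 1 else 0) := by positivity
    have h8 : z ^ (if a ≤ lv p ∧ lv p < b then 1 else 0) * (1 / (p : ℝ)) =
        (1 : ℝ) / p + (z - 1) * (if a ≤ lv p ∧ lv p < b then (1 : ℝ) / p else 0) := by
      split_ifs
      · rw [pow_one]; ring
      · simp
    calc z ^ (if a ≤ lv p ∧ lv p < b then 1 else 0) * (1 / (p : ℝ) * Real.exp (η * Real.log p))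
        ≤ z ^ (if a ≤ lv p ∧ lv p < b then 1 else 0) * (1 / (p : ℝ) * (1 + 2 * (η * Real.log p))) := by
          gcongr
      _ = z ^ (if a ≤ lv p ∧ lv p < b then 1 else 0) * (1 / (p : ℝ)) +
          z ^ (if a ≤ lv p ∧ lv p < b then 1 else 0) * (1 / (p : ℝ) * (2 * (η * Real.log p))) := by ring
      _ ≤ z ^ (if a ≤ lv p ∧ lv p < b then 1 else 0) * (1 / (p : ℝ)) +
          2 * (1 / (p : ℝ) * (2 * (η * Real.log p))) := by gcongr
      _ = _ := by rw [h8]; ring
  have hpl : (⌊y⌋₊ + 1).primesBelow = Nat.primesLE ⌊y⌋₊ := rfl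
  rw [hpl] at h2 ⊢
  rw [Finset.sum_add_distrib, Finset.sum_add_distrib, ← Finset.mul_sum, ← Finset.mul_sum,
    ← Finset.sum_filter] at h2
  have hn2 : 2 ≤ ⌊y⌋₊ := Nat.le_floor (by exact_mod_cast hy2)
  have h3 := (abs_le.1 (hM ⌊y⌋₊ hn2)).2
  have h4 := (abs_le.1 (hL ⌊y⌋₊ hn2)).2
  have h5 := hQ a b (⌊y⌋₊ + 1) z (1 - η) hz hz2 hs
  rw [hpl] at h5
  have hfl := log_floor_ge hy2
  have hlog2 : Real.log 2 ≤ 1 := by
    have := Real.log_two_lt_d9; linarith
  have hlf : Real.log ⌊y⌋₊ ≤ Real.log y :=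
    Real.log_le_log (by exact_mod_cast (by omega : 0 < ⌊y⌋₊)) (Nat.floor_le hy.le)
  have hlf1 : 1 ≤ Real.log ⌊y⌋₊ := by linarith
  have h6 : C1 / Real.log ⌊y⌋₊ ≤ |C1| := by
    calc C1 / Real.log ⌊y⌋₊ ≤ |C1| / Real.log ⌊y⌋₊ := by
          gcongr; exact le_abs_self _
      _ ≤ |C1| := div_le_self (abs_nonneg _) hlf1
  have h7 : Real.log (Real.log ⌊y⌋₊) ≤ Real.log (Real.log y) :=
    Real.log_le_log (by linarith) hlf
  have h8 : 4 * η * ∑ p ∈ Nat.primesLE ⌊y⌋₊, Real.log p / p ≤ 4 + 4 * |C2| := by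
    have e1 : ∑ p ∈ Nat.primesLE ⌊y⌋₊, Real.log p / p ≤ Real.log y + |C2| := by
      have := le_abs_self C2
      linarith
    have e2 : η * Real.log y = 1 := by
      rw [hη]; field_simp
    have e3 : η * |C2| ≤ |C2| := by
      have := abs_nonneg C2
      nlinarith
    calc 4 * η * ∑ p ∈ Nat.primesLE ⌊y⌋₊, Real.log p / p ≤ 4 * η * (Real.log y + |C2|) := by gcongr
      _ = 4 * (η * Real.log y) + 4 * (η * |C2|) := by ring
      _ ≤ 4 + 4 * |C2| := by rw [e2]; linarith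
  have h9 : Real.log y = Real.exp (Real.log (Real.log y)) := by
    rw [Real.exp_log (by linarith)]
  rw [h9, ← Real.exp_add, ← Real.exp_add]
  apply Real.exp_le_exp.2
  unfold Sm
  linarith

lemma lt_expexp_of_lv {p b : ℕ} (hp : 2 ≤ p) (h : lv p < b) : (p : ℝ) < Real.exp (Real.exp b) := by
  unfold lv at h
  have hb : b ≠ 0 := by omega
  have h1 := (Nat.floor_lt' hb).1 h
  have hlp : 0 < Real.log p := Real.log_pos (by exact_mod_cast hp)
  have hp0 : (0 : ℝ) < p := by positivity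
  rw [← Real.log_lt_iff_lt_exp hp0, ← Real.log_lt_iff_lt_exp hlp]
  exact h1

lemma PL_subset_of (a b : ℕ) (y : ℝ) (hy : Real.exp (Real.exp b) ≤ y) :
    (Nat.primesLE ⌊y⌋₊).filter (fun p => a ≤ lv p ∧ lv p < b) = PL a b := by
  unfold PL
  ext p
  simp only [Finset.mem_filter, Nat.mem_primesLE]
  constructor
  · rintro ⟨⟨h1, h2⟩, h3, h4⟩
    refine ⟨⟨Nat.le_floor (lt_expexp_of_lv h2.two_le h4).le, h2⟩, h3, h4⟩
  · rintro ⟨⟨h1, h2⟩, h3, h4⟩
    refine ⟨⟨h1.trans (Nat.floor_le_floor hy), h2⟩, h3, h4⟩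

/-- comparing the truncated mass with `b - a`. -/
lemma sm_bound : ∃ C : ℝ, 0 < C ∧ ∀ (a b : ℕ) (y L z : ℝ), 1 ≤ a → a ≤ b → 0 ≤ z → z ≤ 2 → 0 < y →
    4 ≤ Real.log y → Real.log y ≤ L → (b : ℝ) ≤ Real.log L →
    (z - 1) * Sm a b y ≤ (z - 1) * ((b : ℝ) - a) + (Real.log L - Real.log (Real.log y)) + C := by
  obtain ⟨B, C1, hM⟩ := mertens_two
  obtain ⟨C2, hL2⟩ := level_mass
  refine ⟨|C2| + 2 * |C1| + 1, by positivity, ?_⟩
  intro a b y L z ha hab hz hz2 hy hlog hyL hb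
  have hC1 := abs_nonneg C1
  have hC2 := le_abs_self C2
  have hC20 := abs_nonneg C2
  have hD : 0 ≤ Real.log L - Real.log (Real.log y) :=
    sub_nonneg.2 (Real.log_le_log (by linarith) hyL)
  have hlm := abs_le.1 (hL2.2 a b hab)
  -- upper bound
  have hup : Sm a b y ≤ ∑ p ∈ PL a b, (1 : ℝ) / p := by
    unfold Sm
    refine Finset.sum_le_sum_of_subset_of_nonneg ?_ (fun p _ _ => by positivity)
    intro p hp
    unfold PL
    simp only [Finset.mem_filter, Nat.mem_primesLE] at hp ⊢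
    obtain ⟨⟨h1, h2⟩, h3, h4⟩ := hp
    exact ⟨⟨Nat.le_floor (lt_expexp_of_lv h2.two_le h4).le, h2⟩, h3, h4⟩
  have hy2 : 2 ≤ y := by
    have h1 : Real.exp 1 ≤ y := by
      rw [← Real.le_log_iff_exp_le hy]; linarith
    have := Real.exp_one_gt_d9
    linarith
  -- lower bound
  have hlow : (b : ℝ) - a - (Real.log L - Real.log (Real.log y)) - (|C2| + 2 * |C1| + 1) ≤ Sm a b y := by
    rcases le_or_gt (Real.exp (Real.exp b)) y with hcase | hcase
    · unfold Sm
      rw [PL_subset_of a b y hcase]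
      linarith
    · have hn2 : 2 ≤ ⌊y⌋₊ := Nat.le_floor (by exact_mod_cast hy2)
      have hn3 : 2 ≤ ⌊Real.exp (Real.exp b)⌋₊ := hn2.trans (Nat.floor_le_floor hcase.le)
      have hsplit : ∑ p ∈ PL a b, (1 : ℝ) / p ≤ Sm a b y +
          (∑ p ∈ Nat.primesLE ⌊Real.exp (Real.exp b)⌋₊, (1 : ℝ) / p
            - ∑ p ∈ Nat.primesLE ⌊y⌋₊, (1 : ℝ) / p) := by
        have hsub : Nat.primesLE ⌊y⌋₊ ⊆ Nat.primesLE ⌊Real.exp (Real.exp b)⌋₊ := by
          intro p hp
          rw [Nat.mem_primesLE] at hp ⊢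
          exact ⟨hp.1.trans (Nat.floor_le_floor hcase.le), hp.2⟩
        rw [← Finset.sum_sdiff hsub, add_sub_cancel_right]
        unfold PL Sm
        rw [Finset.sum_filter, Finset.sum_filter, ← Finset.sum_sdiff hsub, add_comm]
        gcongr with p hp
        split_ifs
        · exact le_rfl
        · positivity
      have e1 := (abs_le.1 (hM _ hn3)).2
      have e2 := (abs_le.1 (hM _ hn2)).1
      have hfl := log_floor_ge hy2
      have hlog2 : Real.log 2 ≤ 1 := by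
        have := Real.log_two_lt_d9; linarith
      have hlfy : Real.log y / 2 ≤ Real.log ⌊y⌋₊ := by linarith
      have hlfy' : Real.log (Real.log y) - Real.log 2 ≤ Real.log (Real.log ⌊y⌋₊) := by
        rw [← Real.log_div (by linarith) (by norm_num)]
        exact Real.log_le_log (by linarith) hlfy
      have hlf1 : 1 ≤ Real.log ⌊y⌋₊ := by linarith
      have hlfb : Real.log ⌊y⌋₊ ≤ Real.log ⌊Real.exp (Real.exp b)⌋₊ :=
        Real.log_le_log (by positivity) (by exact_mod_cast Nat.floor_le_floor hcase.le)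
      have e3 : Real.log (Real.log ⌊Real.exp (Real.exp b)⌋₊) ≤ b := by
        have h1 : Real.log ⌊Real.exp (Real.exp b)⌋₊ ≤ Real.exp b := by
          rw [Real.log_le_iff_le_exp (by exact_mod_cast (by omega))]
          exact Nat.floor_le (Real.exp_pos _).le
        rw [Real.log_le_iff_le_exp (by linarith)]
        exact h1
      have e4 : C1 / Real.log ⌊Real.exp (Real.exp b)⌋₊ ≤ |C1| := by
        calc C1 / Real.log ⌊Real.exp (Real.exp b)⌋₊ ≤ |C1| / Real.log ⌊Real.exp (Real.exp b)⌋₊ := by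
              have : 0 < Real.log ⌊Real.exp (Real.exp b)⌋₊ := by linarith
              gcongr; exact le_abs_self _
          _ ≤ |C1| := div_le_self (abs_nonneg _) (by linarith)
      have e5 : C1 / Real.log ⌊y⌋₊ ≤ |C1| := by
        calc C1 / Real.log ⌊y⌋₊ ≤ |C1| / Real.log ⌊y⌋₊ := by
              gcongr; exact le_abs_self _
          _ ≤ |C1| := div_le_self (abs_nonneg _) hlf1
      linarith
  rcases le_or_gt 1 z with h1 | h1
  · have h2 : Sm a b y ≤ (b : ℝ) - a + |C2| := by linarith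
    nlinarith
  · nlinarith

/-- largest prime factor -/
noncomputable def lpf (n : ℕ) : ℕ := n.primeFactors.sup id

lemma lpf_spec {n : ℕ} (hn : 2 ≤ n) :
    (lpf n).Prime ∧ lpf n ∣ n ∧ ∀ p, p.Prime → p ∣ n → p ≤ lpf n := by
  have hne : n.primeFactors.Nonempty := by
    rw [Nat.nonempty_primeFactors]; omega
  obtain ⟨i, hi, hi2⟩ := Finset.exists_mem_eq_sup n.primeFactors hne id
  have h1 : lpf n = i := hi2
  rw [h1]
  refine ⟨Nat.prime_of_mem_primeFactors hi, Nat.dvd_of_mem_primeFactors hi, fun p hp hpn => ?_⟩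
  rw [← h1]
  exact Finset.le_sup (f := id) (Nat.mem_primeFactors.2 ⟨hp, hpn, by omega⟩)

lemma weighted {CE : ℝ} {a b : ℕ} {t y z K : ℝ} (hK : 0 ≤ K) (hz : 0 ≤ z) (ht : 0 < t)
    (w : ℕ → ℝ)
    (hep : ∑ m ∈ (Icc 1 ⌊t⌋₊).filter (fun m => m ∈ Nat.smoothNumbers (⌊y⌋₊ + 1)),
      z ^ Om a b m * (m : ℝ) ^ (-(1 - 1 / Real.log y)) ≤
      CE * Real.log y * Real.exp ((z - 1) * Sm a b y))
    (hw : ∀ m ∈ (Icc 1 ⌊t⌋₊), w m ≤ K * (t / m) ^ (1 - 1 / Real.log y)) :
    ∑ m ∈ (Icc 1 ⌊t⌋₊).filter (fun m => m ∈ Nat.smoothNumbers (⌊y⌋₊ + 1)),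
      z ^ Om a b m * w m ≤
      K * (t * Real.exp (-(Real.log t / Real.log y))) *
        (CE * Real.log y * Real.exp ((z - 1) * Sm a b y)) := by
  have h1 : t ^ (1 - 1 / Real.log y) = t * Real.exp (-(Real.log t / Real.log y)) := by
    rw [sub_eq_add_neg, Real.rpow_add ht, Real.rpow_one, Real.rpow_def_of_pos ht]
    congr 2
    ring
  calc _ ≤ ∑ m ∈ (Icc 1 ⌊t⌋₊).filter (fun m => m ∈ Nat.smoothNumbers (⌊y⌋₊ + 1)),
        K * t ^ (1 - 1 / Real.log y) * (z ^ Om a b m * (m : ℝ) ^ (-(1 - 1 / Real.log y))) := by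
        refine Finset.sum_le_sum fun m hm => ?_
        have hm1 := (Finset.mem_filter.1 hm).1
        have h2 := hw m hm1
        have hm0 : (0 : ℝ) < m := by exact_mod_cast (Finset.mem_Icc.1 hm1).1
        rw [Real.div_rpow ht.le hm0.le] at h2
        have h3 : (m : ℝ) ^ (-(1 - 1 / Real.log y)) = ((m : ℝ) ^ (1 - 1 / Real.log y))⁻¹ :=
          Real.rpow_neg hm0.le _
        calc z ^ Om a b m * w m ≤ z ^ Om a b m *
              (K * (t ^ (1 - 1 / Real.log y) / (m : ℝ) ^ (1 - 1 / Real.log y))) := by gcongr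
          _ = _ := by rw [h3]; ring
    _ = K * t ^ (1 - 1 / Real.log y) *
        ∑ m ∈ (Icc 1 ⌊t⌋₊).filter (fun m => m ∈ Nat.smoothNumbers (⌊y⌋₊ + 1)),
          (z ^ Om a b m * (m : ℝ) ^ (-(1 - 1 / Real.log y))) := by rw [Finset.mul_sum]
    _ ≤ K * t ^ (1 - 1 / Real.log y) * (CE * Real.log y * Real.exp ((z - 1) * Sm a b y)) := by
        have : 0 ≤ t ^ (1 - 1 / Real.log y) := by positivity
        gcongr
    _ = _ := by rw [h1]

lemma termB (a b : ℕ) (t y' y z : ℝ) (hz : 0 ≤ z) (hz2 : z ≤ 2) (ht : 0 < t) (hy : 0 < y) :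
    ∑ q ∈ (Nat.primesLE ⌊t⌋₊).filter
      (fun q => 2 ≤ q - 1 ∧ y' < (lpf (q - 1) : ℝ) ∧ (lpf (q - 1) : ℝ) ≤ y), z ^ Om a b (q - 1) ≤
    ∑ m ∈ (Icc 1 ⌊t⌋₊).filter (fun m => m ∈ Nat.smoothNumbers (⌊y⌋₊ + 1)),
      z ^ Om a b m * (2 * (((Icc 1 ⌊min (t / m) y⌋₊).filter
        (fun P : ℕ => (P.Prime ∧ (m * P + 1).Prime) ∧ y' < (P : ℝ))).card : ℝ)) := by
  set Q := (Nat.primesLE ⌊t⌋₊).filter
      (fun q => 2 ≤ q - 1 ∧ y' < (lpf (q - 1) : ℝ) ∧ (lpf (q - 1) : ℝ) ≤ y) with hQ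
  set M := (Icc 1 ⌊t⌋₊).filter (fun m => m ∈ Nat.smoothNumbers (⌊y⌋₊ + 1)) with hM
  set R : ℕ → Finset ℕ := fun m => (Icc 1 ⌊min (t / m) y⌋₊).filter
        (fun P : ℕ => (P.Prime ∧ (m * P + 1).Prime) ∧ y' < (P : ℝ)) with hR
  let π : ℕ → (Σ _ : ℕ, ℕ) := fun q => ⟨(q - 1) / lpf (q - 1), lpf (q - 1)⟩
  have hfac : ∀ q ∈ Q, (q - 1) / lpf (q - 1) * lpf (q - 1) = q - 1 := by
    intro q hq
    have h2 := (Finset.mem_filter.1 hq).2.1
    exact Nat.div_mul_cancel (lpf_spec h2).2.1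
  have hinj : Set.InjOn π Q := by
    intro q hq q' hq' h
    have h1 := hfac q hq
    have h2 := hfac q' hq'
    simp only [π, Sigma.mk.injEq, heq_eq_eq] at h
    rw [← h.1, ← h.2, h1] at h2
    have h3 := (Finset.mem_filter.1 hq).2.1
    have h4 := (Finset.mem_filter.1 hq').2.1
    omega
  have hmaps : ∀ q ∈ Q, π q ∈ M.sigma R := by
    intro q hq
    have h0 := hfac q hq
    obtain ⟨h1, h2, h3, h4⟩ := Finset.mem_filter.1 hq
    obtain ⟨hp, hd, hmax⟩ := lpf_spec h2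
    rw [Nat.mem_primesLE] at h1
    have hm1 : 1 ≤ (q - 1) / lpf (q - 1) := Nat.div_pos (Nat.le_of_dvd (by omega) hd) hp.pos
    have hm0 : (0 : ℝ) < ((q - 1) / lpf (q - 1) : ℕ) := by exact_mod_cast hm1
    have hqt : ((q - 1 : ℕ) : ℝ) ≤ t := by
      have h5 : q - 1 ≤ ⌊t⌋₊ := by omega
      exact (Nat.le_floor_iff ht.le).1 h5
    rw [Finset.mem_sigma]
    refine ⟨Finset.mem_filter.2 ⟨Finset.mem_Icc.2 ⟨hm1, ?_⟩, ?_⟩, ?_⟩
    · exact (Nat.div_le_self _ _).trans (by omega)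
    · rw [Nat.mem_smoothNumbers']
      intro p hpp hpd
      have h5 : p ≤ lpf (q - 1) := hmax p hpp (hpd.trans (Nat.div_dvd_of_dvd hd))
      have h6 : lpf (q - 1) ≤ ⌊y⌋₊ := Nat.le_floor h4
      omega
    · refine Finset.mem_filter.2 ⟨Finset.mem_Icc.2 ⟨hp.one_lt.le, Nat.le_floor ?_⟩, ⟨hp, ?_⟩, h3⟩
      · refine le_min ?_ h4
        rw [le_div_iff₀ hm0, mul_comm]
        rw [← h0] at hqt
        push_cast at hqt
        exact_mod_cast hqt
      · show ((q - 1) / lpf (q - 1) * lpf (q - 1) + 1).Prime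
        rw [h0]
        have : q - 1 + 1 = q := by omega
        rw [this]
        exact h1.2
  have hval : ∀ q ∈ Q, z ^ Om a b (q - 1) ≤ 2 * z ^ Om a b (π q).1 := by
    intro q hq
    have h0 := hfac q hq
    obtain ⟨h1, h2, h3, h4⟩ := Finset.mem_filter.1 hq
    obtain ⟨hp, hd, hmax⟩ := lpf_spec h2
    have hm1 : 1 ≤ (q - 1) / lpf (q - 1) := Nat.div_pos (Nat.le_of_dvd (by omega) hd) hp.pos
    have h5 : Om a b (q - 1) = Om a b ((q - 1) / lpf (q - 1)) + Om a b (lpf (q - 1)) := by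
      rw [← Om_mul a b _ _ (by omega) hp.ne_zero, h0]
    rw [h5, pow_add, Om_prime a b _ hp]
    have h7 : z ^ (if a ≤ lv (lpf (q - 1)) ∧ lv (lpf (q - 1)) < b then 1 else 0) ≤ 2 := by
      split_ifs
      · simpa using hz2
      · norm_num
    have h8 : 0 ≤ z ^ Om a b ((q - 1) / lpf (q - 1)) := by positivity
    show _ ≤ 2 * z ^ Om a b ((q - 1) / lpf (q - 1))
    nlinarith
  calc ∑ q ∈ Q, z ^ Om a b (q - 1) ≤ ∑ q ∈ Q, 2 * z ^ Om a b (π q).1 := Finset.sum_le_sum hval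
    _ = ∑ x ∈ Q.image π, 2 * z ^ Om a b x.1 := by
        rw [Finset.sum_image hinj]
    _ ≤ ∑ x ∈ M.sigma R, 2 * z ^ Om a b x.1 := by
        refine Finset.sum_le_sum_of_subset_of_nonneg ?_ (fun x _ _ => by positivity)
        intro x hx
        obtain ⟨q, hq, rfl⟩ := Finset.mem_image.1 hx
        exact hmaps q hq
    _ = _ := by
        rw [Finset.sum_sigma]
        refine Finset.sum_congr rfl fun m _ => ?_
        show ∑ s ∈ R m, 2 * z ^ Om a b m = _
        rw [Finset.sum_const, nsmul_eq_mul]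
        ring

lemma termA (a b : ℕ) (t y z : ℝ) (hz : 0 ≤ z) :
    ∑ q ∈ (Nat.primesLE ⌊t⌋₊).filter (fun q => q - 1 ∈ Nat.smoothNumbers (⌊y⌋₊ + 1)),
      z ^ Om a b (q - 1) ≤
    ∑ m ∈ (Icc 1 ⌊t⌋₊).filter (fun m => m ∈ Nat.smoothNumbers (⌊y⌋₊ + 1)),
      z ^ Om a b m * 1 := by
  set Q := (Nat.primesLE ⌊t⌋₊).filter (fun q => q - 1 ∈ Nat.smoothNumbers (⌊y⌋₊ + 1)) with hQ
  have hinj : Set.InjOn (fun q : ℕ => q - 1) Q := by
    intro q hq q' hq' h
    have h1 := (Nat.mem_primesLE.1 (Finset.mem_filter.1 hq).1).2.two_le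
    have h2 := (Nat.mem_primesLE.1 (Finset.mem_filter.1 hq').1).2.two_le
    simp only at h
    omega
  calc ∑ q ∈ Q, z ^ Om a b (q - 1) = ∑ x ∈ Q.image (fun q : ℕ => q - 1), z ^ Om a b x := by
        rw [Finset.sum_image hinj]
    _ ≤ _ := by
        simp only [mul_one]
        refine Finset.sum_le_sum_of_subset_of_nonneg ?_ (fun x _ _ => by positivity)
        intro x hx
        obtain ⟨q, hq, rfl⟩ := Finset.mem_image.1 hx
        obtain ⟨h1, h2⟩ := Finset.mem_filter.1 hq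
        rw [Nat.mem_primesLE] at h1
        have := h1.2.two_le
        refine Finset.mem_filter.2 ⟨Finset.mem_Icc.2 ⟨by omega, by omega⟩, h2⟩

lemma descend (P : ℝ) (y : ℕ → ℝ) (h0 : P ≤ y 0) (J : ℕ) :
    P ≤ y J ∨ ∃ j < J, y (j + 1) < P ∧ P ≤ y j := by
  induction J with
  | zero => exact Or.inl h0
  | succ J ih =>
    rcases ih with h | ⟨j, hj, h⟩
    · rcases le_or_gt P (y (J + 1)) with h2 | h2
      · exact Or.inl h2
      · exact Or.inr ⟨J, Nat.lt_succ_self J, h2, h⟩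
    · exact Or.inr ⟨j, hj.trans (Nat.lt_succ_self J), h⟩

lemma geom_aux (J : ℕ) : ∑ j ∈ range J, (4 : ℝ) ^ j * Real.exp (-(2 : ℝ) ^ j) ≤ 12 := by
  have h1 : ∀ j : ℕ, (4 : ℝ) ^ j * Real.exp (-(2 : ℝ) ^ j) ≤ 6 * (1 / 2) ^ j := by
    intro j
    have h := Real.pow_div_factorial_le_exp ((2 : ℝ) ^ j) (by positivity) 3
    rw [Real.exp_neg, ← div_eq_mul_inv, div_le_iff₀ (Real.exp_pos _)]
    have h2 : ((2 : ℝ) ^ j) ^ 3 = 4 ^ j * 2 ^ j := by
      rw [← pow_mul, mul_comm j 3, pow_mul, ← mul_pow]; norm_num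
    have h3 : ((Nat.factorial 3 : ℕ) : ℝ) = 6 := by norm_num [Nat.factorial]
    rw [h2, h3] at h
    have h4 : (6 : ℝ) * (1 / 2) ^ j * (4 ^ j * 2 ^ j / 6) ≤ 6 * (1 / 2) ^ j * Real.exp (2 ^ j) := by
      gcongr
    refine le_trans (le_of_eq ?_) h4
    rw [one_div, inv_pow]
    field_simp
  calc _ ≤ ∑ j ∈ range J, 6 * (1 / 2 : ℝ) ^ j := Finset.sum_le_sum fun j _ => h1 j
    _ = 6 * ∑ j ∈ range J, (1 / 2 : ℝ) ^ j := by rw [Finset.mul_sum]
    _ ≤ 6 * 2 := by
        have h2 := (summable_geometric_two).sum_le_tsum (range J) (fun j _ => by positivity)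
        rw [tsum_geometric_two] at h2
        linarith
    _ = 12 := by norm_num

end EMx

open Finset Filter Topology EMx
open scoped Classical

theorem em_bound : ∃ (C : ℝ) (k : ℕ), 0 < C ∧ ∀ (t z : ℝ) (a b : ℕ), 16 ≤ t → 0 ≤ z → z ≤ 2 →
    1 ≤ a → a ≤ b → (b : ℝ) ≤ Real.log (Real.log t) →
    ∑ q ∈ Nat.primesLE ⌊t⌋₊, z ^ (Om a b (q - 1)) ≤
      C * t / Real.log t * (Real.log (Real.log t)) ^ k * Real.exp ((z - 1) * ((b : ℝ) - a)) := by
  obtain ⟨CE, hCE, hep⟩ := ep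
  obtain ⟨CS, hCS, hsm⟩ := sm_bound
  obtain ⟨CV, k, hCV, hsv⟩ := sieve2
  set K1 : ℝ := 128 * CE * Real.exp CS with hK1
  set K2 : ℝ := 8 * 2 ^ k * Real.exp 1 * CV * CE * Real.exp CS with hK2
  have hK1p : 0 < K1 := by positivity
  have hK2p : 0 < K2 := by positivity
  refine ⟨4 + K1 + 12 * K2, k, by positivity, ?_⟩
  intro t z a b ht hz hz2 ha hab hb
  have ht0 : 0 < t := by linarith
  set L := Real.log t with hL
  have hLpos : 0 < L := Real.log_pos (by linarith)
  rcases lt_or_ge L 4 with hL4 | hL4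
  · -- small t: then `a = b = 1`
    have h1 : Real.log L < 2 := by
      rw [Real.log_lt_iff_lt_exp hLpos]
      have h3 := Real.exp_one_gt_d9
      have h5 : Real.exp 2 = Real.exp 1 * Real.exp 1 := by rw [← Real.exp_add]; norm_num
      rw [h5]
      nlinarith
    have hb1 : b < 2 := by
      have : (b : ℝ) < 2 := lt_of_le_of_lt hb h1
      exact_mod_cast this
    have hab1 : a = 1 ∧ b = 1 := by omega
    obtain ⟨rfl, rfl⟩ := hab1
    have h2 : ∑ q ∈ Nat.primesLE ⌊t⌋₊, z ^ (Om 1 1 (q - 1)) ≤ t := by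
      simp only [Om_self, pow_zero]
      rw [Finset.sum_const, nsmul_eq_mul, mul_one]
      have h3 : (Nat.primesLE ⌊t⌋₊).card ≤ ⌊t⌋₊ := by
        calc (Nat.primesLE ⌊t⌋₊).card ≤ (Icc 1 ⌊t⌋₊).card := by
              refine Finset.card_le_card fun p hp => ?_
              rw [Nat.mem_primesLE] at hp
              exact Finset.mem_Icc.2 ⟨hp.2.one_lt.le, hp.1⟩
          _ = ⌊t⌋₊ := by simp
      calc ((Nat.primesLE ⌊t⌋₊).card : ℝ) ≤ (⌊t⌋₊ : ℝ) := by exact_mod_cast h3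
        _ ≤ t := Nat.floor_le ht0.le
    refine h2.trans ?_
    have hLL : 1 ≤ Real.log L := by simpa using hb
    have h3 : 1 ≤ Real.log L ^ k := one_le_pow₀ hLL
    have h4 : t ≤ (4 + K1 + 12 * K2) * t / L := by
      rw [le_div_iff₀ hLpos]
      nlinarith
    simp only [sub_self, mul_zero, Real.exp_zero, mul_one]
    calc t ≤ (4 + K1 + 12 * K2) * t / L := h4
      _ = (4 + K1 + 12 * K2) * t / L * 1 := by ring
      _ ≤ _ := by gcongr
  -- large t
  set LL := Real.log L with hLLd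
  have hLL : 1 ≤ LL := by
    have h3 : (1 : ℝ) ≤ b := by exact_mod_cast ha.trans hab
    linarith
  set E := Real.exp ((z - 1) * ((b : ℝ) - a)) with hE
  have hEp : 0 < E := Real.exp_pos _
  obtain ⟨J, hJ1, hJ2⟩ := exists_nat_pow_near (x := L / 4) (y := 2) (by linarith) (by norm_num)
  -- the scales
  set y : ℕ → ℝ := fun j => Real.exp (L / 2 ^ j) with hy
  have hy0 : y 0 = t := by
    simp only [hy, pow_zero, div_one, hL, Real.exp_log ht0]
  have hyp : ∀ j, 0 < y j := fun j => Real.exp_pos _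
  have hly : ∀ j, Real.log (y j) = L / 2 ^ j := fun j => Real.log_exp _
  have hly4 : ∀ j ≤ J, 4 ≤ Real.log (y j) := by
    intro j hj
    rw [hly, le_div_iff₀ (by positivity)]
    have h1 : (2 : ℝ) ^ j ≤ 2 ^ J := pow_le_pow_right₀ (by norm_num) hj
    linarith
  have hlyL : ∀ j, Real.log (y j) ≤ L := by
    intro j
    rw [hly]
    exact div_le_self hLpos.le (one_le_pow₀ (by norm_num))
  -- the Euler product bound at scale j
  have hmain : ∀ j ≤ J, Real.exp ((z - 1) * Sm a b (y j)) ≤ E * 2 ^ j * Real.exp CS := by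
    intro j hj
    have h1 := hsm a b (y j) L z ha hab hz hz2 (hyp j) (hly4 j hj) (hlyL j) hb
    have h2 : Real.log L - Real.log (Real.log (y j)) = j * Real.log 2 := by
      rw [hly, Real.log_div hLpos.ne' (by positivity), Real.log_pow]; ring
    rw [h2] at h1
    calc Real.exp ((z - 1) * Sm a b (y j)) ≤
          Real.exp ((z - 1) * ((b : ℝ) - a) + j * Real.log 2 + CS) := Real.exp_le_exp.2 h1
      _ = E * 2 ^ j * Real.exp CS := by
          rw [Real.exp_add, Real.exp_add, ← Real.log_pow, Real.exp_log (by positivity)]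
  have hEP : ∀ j ≤ J, CE * Real.log (y j) * Real.exp ((z - 1) * Sm a b (y j)) ≤
      CE * L * E * Real.exp CS := by
    intro j hj
    calc CE * Real.log (y j) * Real.exp ((z - 1) * Sm a b (y j)) ≤
        CE * Real.log (y j) * (E * 2 ^ j * Real.exp CS) := by
          have := hly4 j hj
          have := hmain j hj
          gcongr
      _ = CE * L * E * Real.exp CS := by
          rw [hly]; field_simp
  have hratio : ∀ j, L / Real.log (y j) = 2 ^ j := by
    intro j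
    rw [hly]; field_simp
  -- decomposition
  have hdec : ∑ q ∈ Nat.primesLE ⌊t⌋₊, z ^ (Om a b (q - 1)) ≤
      (∑ q ∈ (Nat.primesLE ⌊t⌋₊).filter (fun q => q - 1 ∈ Nat.smoothNumbers (⌊y J⌋₊ + 1)),
        z ^ Om a b (q - 1)) +
      ∑ j ∈ range J, ∑ q ∈ (Nat.primesLE ⌊t⌋₊).filter
        (fun q => 2 ≤ q - 1 ∧ y (j + 1) < (lpf (q - 1) : ℝ) ∧ (lpf (q - 1) : ℝ) ≤ y j),
          z ^ Om a b (q - 1) := by
    simp_rw [Finset.sum_filter]
    rw [Finset.sum_comm, ← Finset.sum_add_distrib]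
    refine Finset.sum_le_sum fun q hq => ?_
    have hq' := Nat.mem_primesLE.1 hq
    have hnn : ∀ j ∈ range J, 0 ≤ (if 2 ≤ q - 1 ∧ y (j + 1) < (lpf (q - 1) : ℝ) ∧
        (lpf (q - 1) : ℝ) ≤ y j then z ^ Om a b (q - 1) else 0) := by
      intro j _
      split_ifs
      · positivity
      · exact le_rfl
    by_cases hsmooth : q - 1 ∈ Nat.smoothNumbers (⌊y J⌋₊ + 1)
    · rw [if_pos hsmooth]
      have := Finset.sum_nonneg hnn
      linarith
    · rw [if_neg hsmooth, zero_add]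
      have hq2 : 2 ≤ q - 1 := by
        by_contra h
        have h2 := hq'.2.two_le
        have h3 : q - 1 = 1 := by omega
        apply hsmooth
        rw [h3, Nat.mem_smoothNumbers']
        intro p hp hp1
        exact absurd hp1 hp.not_dvd_one
      obtain ⟨hp, hd, hmax⟩ := lpf_spec hq2
      have hle : (lpf (q - 1) : ℝ) ≤ y 0 := by
        rw [hy0]
        have h1 : lpf (q - 1) ≤ ⌊t⌋₊ := (Nat.le_of_dvd (by omega) hd).trans (by omega)
        exact (Nat.le_floor_iff ht0.le).1 h1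
      rcases descend (lpf (q - 1)) y hle J with h | ⟨j, hj, h1, h2⟩
      · exfalso
        apply hsmooth
        rw [Nat.mem_smoothNumbers']
        intro p hp hpd
        have h3 := hmax p hp hpd
        have h4 : lpf (q - 1) ≤ ⌊y J⌋₊ := Nat.le_floor h
        omega
      · refine le_trans ?_ (Finset.single_le_sum hnn (Finset.mem_range.2 hj))
        rw [if_pos ⟨hq2, h1, h2⟩]
  -- the smooth part
  have hA : ∑ q ∈ (Nat.primesLE ⌊t⌋₊).filter (fun q => q - 1 ∈ Nat.smoothNumbers (⌊y J⌋₊ + 1)),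
        z ^ Om a b (q - 1) ≤ K1 * t / L * LL ^ k * E := by
    refine (termA a b t (y J) z hz).trans ?_
    have h1 := weighted (CE := CE) (a := a) (b := b) (t := t) (y := y J) (z := z) (K := 1)
      zero_le_one hz ht0 (fun _ => 1) (hep a b ⌊t⌋₊ (y J) z ha hz hz2 (hyp J) (hly4 J le_rfl)) ?_
    · refine h1.trans ?_
      rw [one_mul, ← hL, hratio]
      have h2 := hEP J le_rfl
      have h3 : Real.exp (-(2 : ℝ) ^ J) ≤ 128 / L ^ 2 := by
        have h4 := Real.pow_div_factorial_le_exp (L / 8) (by positivity) 2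
        have h5 : ((Nat.factorial 2 : ℕ) : ℝ) = 2 := by norm_num [Nat.factorial]
        rw [h5] at h4
        have h6 : L / 8 ≤ 2 ^ J := by
          rw [pow_succ] at hJ2; linarith
        have h7 : Real.exp (L / 8) ≤ Real.exp (2 ^ J) := Real.exp_le_exp.2 h6
        rw [Real.exp_neg, inv_le_comm₀ (Real.exp_pos _) (by positivity)]
        refine le_trans (le_of_eq ?_) (h4.trans h7)
        field_simp
        norm_num
      calc t * Real.exp (-2 ^ J) * (CE * Real.log (y J) * Real.exp ((z - 1) * Sm a b (y J)))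
          ≤ t * (128 / L ^ 2) * (CE * L * E * Real.exp CS) := by
            have : 0 ≤ CE * Real.log (y J) * Real.exp ((z - 1) * Sm a b (y J)) := by
              have := hly4 J le_rfl
              positivity
            gcongr
        _ = K1 * t / L * 1 * E := by
            rw [hK1]; field_simp
        _ ≤ K1 * t / L * LL ^ k * E := by
            have : 1 ≤ LL ^ k := one_le_pow₀ hLL
            gcongr
    · intro m hm
      rw [one_mul]
      apply Real.one_le_rpow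
      · rw [one_le_div (by exact_mod_cast (Finset.mem_Icc.1 hm).1)]
        exact (Nat.le_floor_iff ht0.le).1 (Finset.mem_Icc.1 hm).2
      · have := hly4 J le_rfl
        rw [sub_nonneg, div_le_one (by linarith)]
        linarith
  -- the parts with a large prime
  have hB : ∀ j ∈ range J, ∑ q ∈ (Nat.primesLE ⌊t⌋₊).filter
        (fun q => 2 ≤ q - 1 ∧ y (j + 1) < (lpf (q - 1) : ℝ) ∧ (lpf (q - 1) : ℝ) ≤ y j),
          z ^ Om a b (q - 1) ≤ K2 * t / L * LL ^ k * E * ((4 : ℝ) ^ j * Real.exp (-(2 : ℝ) ^ j)) := by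
    intro j hj
    have hj' : j < J := Finset.mem_range.1 hj
    refine (termB a b t (y (j + 1)) (y j) z hz hz2 ht0 (hyp j)).trans ?_
    have h1 := weighted (CE := CE) (a := a) (b := b) (t := t) (y := y j) (z := z)
      (K := 2 * CV * (2 * LL) ^ k * 4 ^ (j + 1) / L ^ 2 * Real.exp 1)
      (by positivity) hz ht0 (fun m => (2 * (((Icc 1 ⌊min (t / m) (y j)⌋₊).filter
        (fun P : ℕ => (P.Prime ∧ (m * P + 1).Prime) ∧ y (j + 1) < (P : ℝ))).card : ℝ)))
      (hep a b ⌊t⌋₊ (y j) z ha hz hz2 (hyp j) (hly4 j hj'.le)) ?_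
    · refine h1.trans ?_
      rw [← hL, hratio]
      have h2 := hEP j hj'.le
      calc 2 * CV * (2 * LL) ^ k * 4 ^ (j + 1) / L ^ 2 * Real.exp 1 * (t * Real.exp (-2 ^ j)) *
            (CE * Real.log (y j) * Real.exp ((z - 1) * Sm a b (y j)))
          ≤ 2 * CV * (2 * LL) ^ k * 4 ^ (j + 1) / L ^ 2 * Real.exp 1 * (t * Real.exp (-2 ^ j)) *
            (CE * L * E * Real.exp CS) := by gcongr
        _ = K2 * t / L * LL ^ k * E * ((4 : ℝ) ^ j * Real.exp (-(2 : ℝ) ^ j)) := by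
            rw [hK2, mul_pow, pow_succ]; field_simp; ring
    · intro m hm
      have hm1 := (Finset.mem_Icc.1 hm).1
      have hm0 : (0 : ℝ) < m := by exact_mod_cast hm1
      have hmt : (m : ℝ) ≤ t := (Nat.le_floor_iff ht0.le).1 (Finset.mem_Icc.1 hm).2
      set X := min (t / m) (y j) with hX
      have hXpos : 0 < X := lt_min (by positivity) (hyp j)
      -- bound of `X`
      have hη : 0 < 1 / Real.log (y j) := by
        have := hly4 j hj'.le
        positivity
      have hη1 : 1 / Real.log (y j) ≤ 1 := by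
        have := hly4 j hj'.le
        rw [div_le_one (by linarith)]; linarith
      have hXle : X ≤ (t / m) ^ (1 - 1 / Real.log (y j)) * Real.exp 1 := by
        have e1 : X = X ^ (1 - 1 / Real.log (y j)) * X ^ (1 / Real.log (y j)) := by
          rw [← Real.rpow_add hXpos]; simp
        have e2 : X ^ (1 - 1 / Real.log (y j)) ≤ (t / m) ^ (1 - 1 / Real.log (y j)) :=
          Real.rpow_le_rpow hXpos.le (min_le_left _ _) (by linarith)
        have e3 : X ^ (1 / Real.log (y j)) ≤ Real.exp 1 := by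
          calc X ^ (1 / Real.log (y j)) ≤ (y j) ^ (1 / Real.log (y j)) :=
                Real.rpow_le_rpow hXpos.le (min_le_right _ _) hη.le
            _ = Real.exp 1 := by
                rw [Real.rpow_def_of_pos (hyp j)]
                congr 1
                have := hly4 j hj'.le
                field_simp
        calc X = X ^ (1 - 1 / Real.log (y j)) * X ^ (1 / Real.log (y j)) := e1
          _ ≤ _ := by gcongr
      by_cases hne : ((Icc 1 ⌊X⌋₊).filter
        (fun P : ℕ => (P.Prime ∧ (m * P + 1).Prime) ∧ y (j + 1) < (P : ℝ))).Nonempty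
      · obtain ⟨P0, hP0⟩ := hne
        obtain ⟨hP1, hP2, hP3⟩ := Finset.mem_filter.1 hP0
        have hP0X : (P0 : ℝ) ≤ X := (Nat.le_floor_iff hXpos.le).1 (Finset.mem_Icc.1 hP1).2
        have hyX : y (j + 1) < X := lt_of_lt_of_le hP3 hP0X
        have hlX : L / 2 ^ (j + 1) ≤ Real.log X := by
          rw [← hly]
          exact Real.log_le_log (hyp _) hyX.le
        have hlX4 : 4 ≤ Real.log X := by
          have := hly4 (j + 1) hj'
          rw [hly] at this
          linarith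
        have hX3 : 3 ≤ X := by
          have h5 : Real.exp 4 ≤ X := by rwa [← Real.le_log_iff_exp_le hXpos]
          have h6 := Real.add_one_le_exp (4 : ℝ)
          linarith
        have hs := hsv m X hm1 hX3
        have hcard : (((Icc 1 ⌊X⌋₊).filter
            (fun P : ℕ => (P.Prime ∧ (m * P + 1).Prime) ∧ y (j + 1) < (P : ℝ))).card : ℝ) ≤
            (((Icc 1 ⌊X⌋₊).filter (fun P => P.Prime ∧ (m * P + 1).Prime)).card : ℝ) := by
          exact_mod_cast Finset.card_le_card (fun P hP => by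
            obtain ⟨h1, h2, h3⟩ := Finset.mem_filter.1 hP
            exact Finset.mem_filter.2 ⟨h1, h2⟩)
        have hmX : m * X ≤ t := by
          have := min_le_left (t / (m : ℝ)) (y j)
          calc m * X ≤ m * (t / m) := by gcongr
            _ = t := by field_simp
        have hlog1 : Real.log (m * X + 16) ≤ 2 * L := by
          have h5 : m * X + 16 ≤ t ^ 2 := by nlinarith
          calc Real.log (m * X + 16) ≤ Real.log (t ^ 2) := Real.log_le_log (by positivity) h5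
            _ = 2 * L := by rw [Real.log_pow]; norm_num [hL]
        have hl16 : 1 ≤ Real.log (m * X + 16) := by
          rw [Real.le_log_iff_exp_le (by positivity)]
          have h5 := Real.exp_one_lt_d9
          have : 0 ≤ (m : ℝ) * X := by positivity
          linarith
        have hlog2 : Real.log (Real.log (m * X + 16)) ≤ 2 * LL := by
          calc Real.log (Real.log (m * X + 16)) ≤ Real.log (2 * L) :=
                Real.log_le_log (by linarith) hlog1
            _ = Real.log 2 + LL := by rw [Real.log_mul (by norm_num) hLpos.ne']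
            _ ≤ 2 * LL := by
                have := Real.log_two_lt_d9
                linarith
        have hlog0 : 0 ≤ Real.log (Real.log (m * X + 16)) := Real.log_nonneg hl16
        have hfin : (((Icc 1 ⌊X⌋₊).filter
            (fun P : ℕ => (P.Prime ∧ (m * P + 1).Prime) ∧ y (j + 1) < (P : ℝ))).card : ℝ) ≤
            CV * ((t / m) ^ (1 - 1 / Real.log (y j)) * Real.exp 1) * (2 * LL) ^ k
              / (L / 2 ^ (j + 1)) ^ 2 := by
          refine hcard.trans (hs.trans ?_)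
          gcongr
        calc 2 * (((Icc 1 ⌊X⌋₊).filter
            (fun P : ℕ => (P.Prime ∧ (m * P + 1).Prime) ∧ y (j + 1) < (P : ℝ))).card : ℝ)
            ≤ 2 * (CV * ((t / m) ^ (1 - 1 / Real.log (y j)) * Real.exp 1) * (2 * LL) ^ k
              / (L / 2 ^ (j + 1)) ^ 2) := by gcongr
          _ = _ := by
              have h4 : (4 : ℝ) ^ (j + 1) = (2 ^ (j + 1)) ^ 2 := by
                rw [← pow_mul, mul_comm, pow_mul]; norm_num
              rw [h4]
              field_simp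
      · rw [Finset.not_nonempty_iff_eq_empty] at hne
        show 2 * (((Icc 1 ⌊X⌋₊).filter
          (fun P : ℕ => (P.Prime ∧ (m * P + 1).Prime) ∧ y (j + 1) < (P : ℝ))).card : ℝ) ≤ _
        rw [hne, Finset.card_empty, Nat.cast_zero, mul_zero]
        positivity
  refine hdec.trans ((add_le_add hA (Finset.sum_le_sum hB)).trans ?_)
  rw [← Finset.mul_sum]
  have hg := geom_aux J
  have hpos : 0 ≤ K2 * t / L * LL ^ k * E := by positivity
  calc K1 * t / L * LL ^ k * E + K2 * t / L * LL ^ k * E *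
        ∑ j ∈ range J, (4 : ℝ) ^ j * Real.exp (-(2 : ℝ) ^ j)
      ≤ K1 * t / L * LL ^ k * E + K2 * t / L * LL ^ k * E * 12 := by gcongr
    _ = (K1 + 12 * K2) * t / L * LL ^ k * E := by ring
    _ ≤ (4 + K1 + 12 * K2) * t / L * LL ^ k * E := by
        gcongr
        linarith

end P031
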