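import Vale.Agent.P031.Defs
import Vale.Agent.P003.Mertens

/-! P031, [RANKIN]: mean values of multiplicative functions, sums over smooth numbers. -/

namespace P031

open Finset Filter Topology
open scoped Classical

/-! ### mean values -/

namespace RankinAux

/-- `lam ^ v = ∑_{a ≤ v} c_a`, `c_0 = 1`, `c_a = (lam - 1) lam ^ (a - 1)` -/
noncomputable def cc (lam : ℝ) (a : ℕ) : ℝ := if a = 0 then 1 else (lam - 1) * lam ^ (a - 1)

lemma cc_nonneg {lam : ℝ} (h : 1 ≤ lam) (a : ℕ) : 0 ≤ cc lam a := by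
  unfold cc
  split_ifs
  · exact zero_le_one
  · have : 0 ≤ lam := by linarith
    have h1 : 0 ≤ lam - 1 := by linarith
    positivity

lemma sum_cc (lam : ℝ) (v : ℕ) : ∑ a ∈ range (v + 1), cc lam a = lam ^ v := by
  induction v with
  | zero => simp [cc]
  | succ v ih =>
    rw [Finset.sum_range_succ, ih]
    unfold cc
    rw [if_neg (by omega), Nat.add_sub_cancel]
    ring

lemma sum_cc_div {lam q : ℝ} (h : 1 ≤ lam) (hq : lam < q) (n : ℕ) :
    ∑ a ∈ range n, cc lam a / q ^ a ≤ 1 + (lam - 1) / (q - lam) := by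
  have hq0 : 0 < q := by linarith
  have hql : 0 < q - lam := by linarith
  have key : ∀ n : ℕ, ∑ a ∈ range (n + 1), cc lam a / q ^ a =
      1 + (lam - 1) / (q - lam) * (1 - (lam / q) ^ n) := by
    intro n
    induction n with
    | zero => simp [cc]
    | succ n ih =>
      rw [Finset.sum_range_succ, ih]
      unfold cc
      rw [if_neg (by omega), Nat.add_sub_cancel]
      rw [div_pow, div_pow]
      field_simp
      ring
  rcases n with _ | n
  · simp only [range_zero, sum_empty]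
    have : 0 ≤ (lam - 1) / (q - lam) := div_nonneg (by linarith) hql.le
    linarith
  · rw [key]
    have h1 : 0 ≤ (lam / q) ^ n := by
      have : 0 ≤ lam / q := div_nonneg (by linarith) hq0.le
      positivity
    have h2 : 0 ≤ (lam - 1) / (q - lam) := div_nonneg (by linarith) hql.le
    nlinarith

end RankinAux

open RankinAux in
theorem rankin_mean (P : Finset ℕ) (lam : ℕ → ℝ) (hP : ∀ p ∈ P, p.Prime)
    (h1 : ∀ p ∈ P, 1 ≤ lam p) (h2 : ∀ p ∈ P, lam p < p) (x : ℕ) :
    ∑ n ∈ Icc 1 x, ∏ p ∈ P, lam p ^ n.factorization p ≤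
      x * Real.exp (∑ p ∈ P, (lam p - 1) / (p - lam p)) := by
  induction P using Finset.induction_on generalizing x with
  | empty => simp
  | insert q P hq ih =>
    have ihx := ih (fun p hp => hP p (mem_insert_of_mem hp))
      (fun p hp => h1 p (mem_insert_of_mem hp)) (fun p hp => h2 p (mem_insert_of_mem hp))
    have hqp := hP q (mem_insert_self _ _)
    have hq1 := h1 q (mem_insert_self _ _)
    have hq2 := h2 q (mem_insert_self _ _)
    have hqpos : (0 : ℝ) < q := by exact_mod_cast hqp.pos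
    set f : ℕ → ℝ := fun n => ∏ p ∈ P, lam p ^ n.factorization p with hf
    have hf0 : ∀ n, 0 ≤ f n := fun n => Finset.prod_nonneg fun p hp =>
      pow_nonneg (zero_le_one.trans (h1 p (mem_insert_of_mem hp))) _
    have hfq : ∀ a m, 0 < m → f (q ^ a * m) = f m := by
      intro a m hm
      refine Finset.prod_congr rfl fun p hp => ?_
      have hpq : p ≠ q := fun e => hq (e ▸ hp)
      rw [Nat.factorization_mul (pow_ne_zero _ hqp.ne_zero) hm.ne', Finsupp.add_apply,
        hqp.factorization_pow, Finsupp.single_apply, if_neg (Ne.symm hpq), zero_add]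
    set E := Real.exp (∑ p ∈ P, (lam p - 1) / (p - lam p)) with hE
    have hE0 : 0 < E := Real.exp_pos _
    -- expand `lam q ^ v`
    have e1 : ∀ n ∈ Icc 1 x, ∏ p ∈ insert q P, lam p ^ n.factorization p =
        ∑ a ∈ range (x + 1), if q ^ a ∣ n then cc (lam q) a * f n else 0 := by
      intro n hn
      rw [mem_Icc] at hn
      rw [Finset.prod_insert hq, ← sum_cc, Finset.sum_mul]
      have hv : n.factorization q < x + 1 := by
        have := Nat.factorization_lt q (show n ≠ 0 by omega)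
        omega
      rw [← Finset.sum_filter]
      have hset : (range (x + 1)).filter (fun a => q ^ a ∣ n) =
          range (n.factorization q + 1) := by
        ext a
        rw [mem_filter, mem_range, mem_range, hqp.pow_dvd_iff_le_factorization (by omega)]
        omega
      rw [hset]
    rw [Finset.sum_congr rfl e1, Finset.sum_comm]
    have e2 : ∀ a ∈ range (x + 1), (∑ n ∈ Icc 1 x, if q ^ a ∣ n then cc (lam q) a * f n else 0) ≤
        cc (lam q) a / (q : ℝ) ^ a * (x * E) := by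
      intro a _
      have hqa : 0 < q ^ a := pow_pos hqp.pos a
      have h3 : (∑ n ∈ Icc 1 x, if q ^ a ∣ n then cc (lam q) a * f n else 0) =
          cc (lam q) a * ∑ m ∈ Icc 1 (x / q ^ a), f m := by
        rw [← Finset.sum_filter, Finset.mul_sum]
        symm
        refine Finset.sum_bij (fun m _ => q ^ a * m) ?_ ?_ ?_ ?_
        · intro m hm
          rw [mem_Icc] at hm
          rw [mem_filter, mem_Icc]
          refine ⟨⟨Nat.mul_pos hqa hm.1, ?_⟩, dvd_mul_right _ _⟩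
          exact (Nat.mul_le_mul_left _ hm.2).trans (Nat.mul_div_le _ _)
        · intro m _ m' _ h
          exact Nat.eq_of_mul_eq_mul_left hqa h
        · intro n hn
          rw [mem_filter, mem_Icc] at hn
          obtain ⟨⟨hn1, hn2⟩, m, rfl⟩ := hn
          refine ⟨m, ?_, rfl⟩
          rw [mem_Icc]
          exact ⟨Nat.pos_of_mul_pos_left hn1 |>.bot_lt, (Nat.le_div_iff_mul_le hqa).2 (by
            rw [mul_comm]; exact hn2)⟩
        · intro m hm
          rw [mem_Icc] at hm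
          rw [hfq a m hm.1]
      rw [h3, div_mul_eq_mul_div, mul_div_assoc]
      apply mul_le_mul_of_nonneg_left _ (cc_nonneg hq1 a)
      refine (ihx (x / q ^ a)).trans ?_
      have h4 : ((x / q ^ a : ℕ) : ℝ) ≤ (x : ℝ) / (q : ℝ) ^ a := by
        have := @Nat.cast_div_le ℝ _ _ _ x (q ^ a)
        push_cast at this
        exact this
      calc ((x / q ^ a : ℕ) : ℝ) * E ≤ (x : ℝ) / (q : ℝ) ^ a * E :=
            mul_le_mul_of_nonneg_right h4 hE0.le
        _ = x * E / (q : ℝ) ^ a := by ring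
    refine (Finset.sum_le_sum e2).trans ?_
    rw [← Finset.sum_mul, Finset.sum_insert hq, Real.exp_add]
    have h5 := sum_cc_div hq1 hq2 (x + 1)
    have h6 : 1 + (lam q - 1) / ((q : ℝ) - lam q) ≤ Real.exp ((lam q - 1) / ((q : ℝ) - lam q)) := by
      have := Real.add_one_le_exp ((lam q - 1) / ((q : ℝ) - lam q))
      linarith
    have hxE : 0 ≤ (x : ℝ) * E := by positivity
    calc (∑ a ∈ range (x + 1), cc (lam q) a / (q : ℝ) ^ a) * (x * E)
        ≤ Real.exp ((lam q - 1) / ((q : ℝ) - lam q)) * (x * E) :=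
          mul_le_mul_of_nonneg_right (h5.trans h6) hxE
      _ = x * (Real.exp ((lam q - 1) / ((q : ℝ) - lam q)) * E) := by ring

/-! ### sums over smooth numbers -/

namespace RankinAux

/-- `n ↦ n ^ (-s)` as a monoid homomorphism -/
noncomputable def powHom (s : ℝ) : ℕ →* ℝ where
  toFun n := (n : ℝ) ^ (-s)
  map_one' := by simp
  map_mul' a b := by
    push_cast
    rw [Real.mul_rpow (Nat.cast_nonneg _) (Nat.cast_nonneg _)]

lemma powHom_apply (s : ℝ) (n : ℕ) : powHom s n = (n : ℝ) ^ (-s) := rfl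

lemma powHom_nonneg (s : ℝ) (n : ℕ) : 0 ≤ powHom s n := by
  rw [powHom_apply]
  positivity

lemma powHom_norm_lt {s : ℝ} (hs : 0 < s) {p : ℕ} (hp : p.Prime) : ‖powHom s p‖ < 1 := by
  rw [Real.norm_of_nonneg (powHom_nonneg s p), powHom_apply]
  have h2 : (1 : ℝ) < p := by exact_mod_cast hp.one_lt
  exact Real.rpow_lt_one_of_one_lt_of_neg h2 (by linarith)

lemma sum_pow_le_prod {s : ℝ} (hs : 0 < s) (S : Finset ℕ) (hS : ∀ p ∈ S, p.Prime) (F : Finset ℕ)
    (hF : ∀ n ∈ F, n ∈ Nat.factoredNumbers S) :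
    ∑ n ∈ F, (n : ℝ) ^ (-s) ≤ ∏ p ∈ S, (1 - (p : ℝ) ^ (-s))⁻¹ := by
  obtain ⟨_, h⟩ := EulerProduct.summable_and_hasSum_factoredNumbers_prod_filter_prime_geometric
    (f := powHom s) (fun hp => powHom_norm_lt hs hp) S
  rw [Finset.filter_true_of_mem hS] at h
  have h3 : ∑ n ∈ F, (n : ℝ) ^ (-s) =
      ∑ m ∈ F.subtype (fun n => n ∈ Nat.factoredNumbers S), powHom s m := by
    rw [Finset.sum_subtype_eq_sum_filter, Finset.filter_true_of_mem hF]
    rfl
  rw [h3]
  exact sum_le_hasSum _ (fun m _ => powHom_nonneg s _) h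

lemma log16 : (2 : ℝ) < Real.log 16 := by
  have h : Real.log 16 = 4 * Real.log 2 := by
    rw [show (16 : ℝ) = 2 ^ 4 by norm_num, Real.log_pow]
    norm_num
  have := Real.log_two_gt_d9
  linarith

lemma one_sub_inv_le_exp {u : ℝ} (h0 : 0 ≤ u) (h1 : u ≤ 2 / 3) :
    (1 - u)⁻¹ ≤ Real.exp (u + 3 * u ^ 2) := by
  have h2 : 0 < 1 - u := by linarith
  have h3 : (1 - u)⁻¹ = u / (1 - u) + 1 := by
    field_simp
    ring
  rw [h3]
  refine (Real.add_one_le_exp _).trans (Real.exp_le_exp.2 ?_)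
  rw [div_le_iff₀ h2]
  nlinarith [mul_nonneg h0 h0, mul_nonneg (mul_nonneg h0 h0) (by linarith : 0 ≤ 2 / 3 - u)]

/-- the value of the Euler product -/
lemma euler_bound : ∃ C : ℝ, 0 < C ∧ ∀ w : ℝ, 16 ≤ w →
    ∏ p ∈ Nat.primesLE ⌊w⌋₊, (1 - (p : ℝ) ^ (-(1 - 1 / Real.log w)))⁻¹ ≤
      C * (Real.log w) ^ 3 := by
  obtain ⟨C0, hC0⟩ := Vale.Agent.P003.MertensAux.exists_S0_bound
  refine ⟨Real.exp (3 * C0 + 27), Real.exp_pos _, fun w hw => ?_⟩
  have hw0 : 0 < w := by linarith
  have hlw : 2 < Real.log w := log16.trans_le (Real.log_le_log (by norm_num) hw)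
  set η := 1 / Real.log w with hη
  have hη0 : 0 < η := by positivity
  have hηlog : η * Real.log w = 1 := by
    rw [hη]; field_simp
  have hfl : 16 ≤ ⌊w⌋₊ := Nat.le_floor (by exact_mod_cast hw)
  have h2 : Real.log 2 * η ≤ 1 / 4 := by
    have h3 : Real.log 16 = 4 * Real.log 2 := by
      rw [show (16 : ℝ) = 2 ^ 4 by norm_num, Real.log_pow]
      norm_num
    have h4 : Real.log 16 ≤ Real.log w := Real.log_le_log (by norm_num) hw
    have h5 : 4 * Real.log 2 * η ≤ 1 := by
      calc 4 * Real.log 2 * η = Real.log 16 * η := by rw [h3]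
        _ ≤ Real.log w * η := mul_le_mul_of_nonneg_right h4 hη0.le
        _ = 1 := by rw [mul_comm]; exact hηlog
    linarith
  have hterm : ∀ p ∈ Nat.primesLE ⌊w⌋₊, (1 - (p : ℝ) ^ (-(1 - η)))⁻¹ ≤
      Real.exp (3 * (1 / (p : ℝ)) + 27 * (1 / ((p : ℝ) - 1) - 1 / p)) := by
    intro p hp
    rw [Nat.mem_primesLE] at hp
    have hp2 : (2 : ℝ) ≤ p := by exact_mod_cast hp.2.two_le
    have hp0 : (0 : ℝ) < p := by linarith
    have hpw : (p : ℝ) ≤ w := (Nat.cast_le.2 hp.1).trans (Nat.floor_le hw0.le)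
    have hlp : Real.log p ≤ Real.log w := Real.log_le_log hp0 hpw
    have hlp2 : Real.log 2 ≤ Real.log p := Real.log_le_log (by norm_num) hp2
    have hu0 : 0 ≤ (p : ℝ) ^ (-(1 - η)) := by positivity
    have hu1 : (p : ℝ) ^ (-(1 - η)) ≤ 3 * (1 / (p : ℝ)) := by
      rw [show -(1 - η) = η + (-1) by ring, Real.rpow_add hp0, Real.rpow_neg_one, ← one_div]
      apply mul_le_mul_of_nonneg_right _ (by positivity)
      rw [Real.rpow_def_of_pos hp0]
      have h6 : Real.log p * η ≤ 1 := by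
        calc Real.log p * η ≤ Real.log w * η := mul_le_mul_of_nonneg_right hlp hη0.le
          _ = 1 := by rw [mul_comm]; exact hηlog
      calc Real.exp (Real.log p * η) ≤ Real.exp 1 := Real.exp_le_exp.2 h6
        _ ≤ 3 := by
          have := Real.exp_one_lt_d9
          linarith
    have hu2 : (p : ℝ) ^ (-(1 - η)) ≤ 2 / 3 := by
      rw [Real.rpow_def_of_pos hp0]
      have h7 : Real.log p * -(1 - η) ≤ Real.log 2 * -(1 - η) := by
        have h8 : 0 ≤ 1 - η := by
          have : η ≤ 1 := by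
            rw [hη, div_le_one (by linarith)]
            linarith
          linarith
        nlinarith
      have h9 : Real.log 2 * -(1 - η) ≤ 1 / 4 - Real.log 2 := by linarith
      calc Real.exp (Real.log p * -(1 - η)) ≤ Real.exp (1 / 4 - Real.log 2) :=
            Real.exp_le_exp.2 (h7.trans h9)
        _ = Real.exp (1 / 4) / 2 := by rw [Real.exp_sub, Real.exp_log (by norm_num)]
        _ ≤ 2 / 3 := by
          have h10 : Real.exp (1 / 4) ≤ 4 / 3 := by
            have h11 := Real.add_one_le_exp (-(1 / 4 : ℝ))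
            have h12 : Real.exp (1 / 4) * Real.exp (-(1 / 4)) = 1 := by
              rw [← Real.exp_add]; norm_num
            have h13 := Real.exp_pos (1 / 4)
            nlinarith
          linarith
    refine (one_sub_inv_le_exp hu0 hu2).trans (Real.exp_le_exp.2 ?_)
    have h14 : ((p : ℝ) ^ (-(1 - η))) ^ 2 ≤ (3 * (1 / (p : ℝ))) ^ 2 :=
      pow_le_pow_left₀ hu0 hu1 2
    have h15 : (1 / (p : ℝ)) ^ 2 ≤ 1 / ((p : ℝ) - 1) - 1 / p := by
      have hp1 : 0 < (p : ℝ) - 1 := by linarith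
      have h16 : 1 / ((p : ℝ) - 1) - 1 / p = 1 / (((p : ℝ) - 1) * p) := by
        field_simp
        ring
      rw [h16, one_div_pow]
      apply one_div_le_one_div_of_le (by positivity)
      nlinarith
    nlinarith
  have hpos : ∀ p ∈ Nat.primesLE ⌊w⌋₊, 0 ≤ (1 - (p : ℝ) ^ (-(1 - η)))⁻¹ := by
    intro p hp
    have hp' := Nat.mem_primesLE.1 hp
    have hp2 : (1 : ℝ) < p := by exact_mod_cast hp'.2.one_lt
    have hη1 : η < 1 := by
      rw [hη, div_lt_one (by linarith)]
      linarith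
    have := Real.rpow_lt_one_of_one_lt_of_neg hp2 (show -(1 - η) < 0 by linarith)
    exact inv_nonneg.2 (by linarith)
  refine (Finset.prod_le_prod hpos hterm).trans ?_
  rw [← Real.exp_sum, Finset.sum_add_distrib, ← Finset.mul_sum, ← Finset.mul_sum]
  have hS0 := hC0 ⌊w⌋₊ (by omega)
  have hT := Vale.Agent.P003.MertensAux.tele_sum ⌊w⌋₊ (by omega)
  have hT' : ∑ p ∈ Nat.primesLE ⌊w⌋₊, (1 / ((p : ℝ) - 1) - 1 / p) ≤ 1 := by
    refine hT.trans ?_
    have : 0 ≤ 1 / ((⌊w⌋₊ : ℕ) : ℝ) := by positivity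
    linarith
  have hll : Real.log (Real.log ⌊w⌋₊) ≤ Real.log (Real.log w) := by
    have h17 : (16 : ℝ) ≤ (⌊w⌋₊ : ℝ) := by exact_mod_cast hfl
    have h18 : 0 < Real.log ⌊w⌋₊ := Real.log_pos (by linarith)
    exact Real.log_le_log h18 (Real.log_le_log (by linarith) (Nat.floor_le hw0.le))
  have hS0' : ∑ p ∈ Nat.primesLE ⌊w⌋₊, 1 / (p : ℝ) ≤ Real.log (Real.log w) + C0 := by
    have : Vale.Agent.P003.MertensAux.S0 ⌊w⌋₊ = ∑ p ∈ Nat.primesLE ⌊w⌋₊, 1 / (p : ℝ) := rfl
    rw [← this]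
    linarith
  calc Real.exp (3 * ∑ p ∈ Nat.primesLE ⌊w⌋₊, 1 / (p : ℝ) +
        27 * ∑ p ∈ Nat.primesLE ⌊w⌋₊, (1 / ((p : ℝ) - 1) - 1 / p))
      ≤ Real.exp ((3 * C0 + 27) + 3 * Real.log (Real.log w)) :=
        Real.exp_le_exp.2 (by linarith)
    _ = Real.exp (3 * C0 + 27) * (Real.log w) ^ 3 := by
        rw [Real.exp_add]
        congr 1
        have := Real.exp_nat_mul (Real.log (Real.log w)) 3
        rw [Real.exp_log (by linarith)] at this
        rw [← this]
        norm_num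

lemma mem_factored {w : ℝ} (hw : 0 ≤ w) {n : ℕ} (hn : 0 < n)
    (h : ∀ p, p.Prime → p ∣ n → (p : ℝ) ≤ w) :
    n ∈ Nat.factoredNumbers (Nat.primesLE ⌊w⌋₊) := by
  rw [Nat.mem_factoredNumbers]
  refine ⟨hn.ne', fun p hp => ?_⟩
  have hp' := Nat.prime_of_mem_primeFactorsList hp
  have hd := Nat.dvd_of_mem_primeFactorsList hp
  rw [Nat.mem_primesLE]
  exact ⟨Nat.le_floor (h p hp' hd), hp'⟩

/-- `∑ n ^ (-(1 - 1 / log w))` over smooth numbers -/
lemma smooth_pow_sum : ∃ C : ℝ, 0 < C ∧ ∀ (w : ℝ) (F : Finset ℕ), 16 ≤ w →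
    (∀ n ∈ F, 0 < n ∧ ∀ p, p.Prime → p ∣ n → (p : ℝ) ≤ w) →
    ∑ n ∈ F, (n : ℝ) ^ (-(1 - 1 / Real.log w)) ≤ C * (Real.log w) ^ 3 := by
  obtain ⟨C, hC, h⟩ := euler_bound
  refine ⟨C, hC, fun w F hw hF => ?_⟩
  refine le_trans ?_ (h w hw)
  have hlw : 2 < Real.log w := log16.trans_le (Real.log_le_log (by norm_num) hw)
  apply sum_pow_le_prod _ _ (fun p hp => Nat.prime_of_mem_primesLE hp) F
    (fun n hn => mem_factored (by linarith) (hF n hn).1 (hF n hn).2)
  have : 1 / Real.log w < 1 := by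
    rw [div_lt_one (by linarith)]
    linarith
  linarith

/-- Rankin's trick -/
lemma rankin_trick {w z : ℝ} (hw : 16 ≤ w) (hz : 1 ≤ z) {n : ℕ} (hn : z < n) :
    (1 : ℝ) / n ≤ Real.exp (-(Real.log z / Real.log w)) * (n : ℝ) ^ (-(1 - 1 / Real.log w)) := by
  have hlw : 2 < Real.log w := log16.trans_le (Real.log_le_log (by norm_num) hw)
  have hn0 : (0 : ℝ) < n := by linarith
  have hz0 : 0 < z := by linarith
  rw [show -(1 - 1 / Real.log w) = 1 / Real.log w + (-1) by ring, Real.rpow_add hn0,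
    Real.rpow_neg_one, ← mul_assoc, one_div]
  have h1 : 1 ≤ Real.exp (-(Real.log z / Real.log w)) * (n : ℝ) ^ (1 / Real.log w) := by
    rw [Real.rpow_def_of_pos hn0, ← Real.exp_add]
    apply Real.one_le_exp
    have h2 : Real.log z ≤ Real.log n := Real.log_le_log hz0 hn.le
    have h3 : -(Real.log z / Real.log w) + Real.log n * (1 / Real.log w) =
        (Real.log n - Real.log z) / Real.log w := by
      field_simp
      ring
    rw [h3]
    exact div_nonneg (by linarith) (by linarith)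
  have h4 : (0 : ℝ) ≤ (n : ℝ)⁻¹ := by positivity
  nlinarith

end RankinAux

open RankinAux

/-- sum over smooth numbers, Rankin exponent `1/log w`. -/
theorem smooth_sum : ∃ (C : ℝ), 0 < C ∧ ∀ (w z : ℝ) (T : ℕ), 16 ≤ w → 1 ≤ z →
    ∑ n ∈ (Icc 1 T).filter (fun n : ℕ => z < n ∧ ∀ p, p.Prime → p ∣ n → (p : ℝ) ≤ w),
      (1 : ℝ) / n ≤ C * (Real.log w) ^ 3 * Real.exp (-(Real.log z / Real.log w)) := by
  classical
  obtain ⟨C, hC, h⟩ := smooth_pow_sum
  refine ⟨C, hC, fun w z T hw hz => ?_⟩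
  have h1 := h w ((Icc 1 T).filter
    (fun n : ℕ => z < n ∧ ∀ p, p.Prime → p ∣ n → (p : ℝ) ≤ w)) hw (fun n hn => by
      rw [mem_filter, mem_Icc] at hn
      exact ⟨hn.1.1, hn.2.2⟩)
  calc _ ≤ ∑ n ∈ (Icc 1 T).filter
          (fun n : ℕ => z < n ∧ ∀ p, p.Prime → p ∣ n → (p : ℝ) ≤ w),
          Real.exp (-(Real.log z / Real.log w)) * (n : ℝ) ^ (-(1 - 1 / Real.log w)) := by
        refine Finset.sum_le_sum fun n hn => ?_
        rw [mem_filter] at hn
        exact rankin_trick hw hz hn.2.1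
    _ ≤ Real.exp (-(Real.log z / Real.log w)) * (C * (Real.log w) ^ 3) := by
        rw [← Finset.mul_sum]
        exact mul_le_mul_of_nonneg_left h1 (Real.exp_pos _).le
    _ = _ := by ring

namespace RankinAux

lemma smp_dvd (w : ℝ) {n : ℕ} (hn : n ≠ 0) : smp w n ∣ n := by
  unfold smp
  have h := Nat.prod_factorization_pow_eq_self hn
  rw [Finsupp.prod, Nat.support_factorization] at h
  conv_rhs => rw [← h]
  exact Finset.prod_dvd_prod_of_subset _ _ _ (Finset.filter_subset _ _)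

lemma smp_smooth (w : ℝ) {n p : ℕ} (hp : p.Prime) (h : p ∣ smp w n) : (p : ℝ) ≤ w := by
  unfold smp at h
  obtain ⟨q, hq, hpq⟩ := (Prime.dvd_finsetProd_iff hp.prime _).1 h
  rw [mem_filter] at hq
  have h1 := hp.dvd_of_dvd_pow hpq
  have h2 : p = q := (Nat.prime_dvd_prime_iff_eq hp (Nat.prime_of_mem_primeFactors hq.1)).1 h1
  rw [h2]
  exact hq.2

end RankinAux

/-- few integers have a large smooth part. -/
theorem smooth_part_count : ∃ (C : ℝ), 0 < C ∧ ∀ (w z t : ℝ), 16 ≤ w → 1 ≤ z → 1 ≤ t →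
    (((Icc 1 ⌊t⌋₊).filter (fun n : ℕ => z < (smp w n : ℝ))).card : ℝ) ≤
      C * t * (Real.log w) ^ 3 * Real.exp (-(Real.log z / Real.log w)) := by
  classical
  obtain ⟨C, hC, h⟩ := smooth_sum
  refine ⟨C, hC, fun w z t hw hz ht => ?_⟩
  set T := ⌊t⌋₊ with hT
  have hTt : (T : ℝ) ≤ t := Nat.floor_le (by linarith)
  set A := (Icc 1 T).filter (fun n : ℕ => z < n ∧ ∀ p, p.Prime → p ∣ n → (p : ℝ) ≤ w) with hA
  have h1 := h w z T hw hz
  have h2 : (Icc 1 T).filter (fun n : ℕ => z < (smp w n : ℝ)) ⊆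
      A.biUnion (fun s => (Icc 1 T).filter (fun n => s ∣ n)) := by
    intro n hn
    rw [mem_filter, mem_Icc] at hn
    have hn0 : n ≠ 0 := by omega
    have hd := smp_dvd w hn0
    rw [mem_biUnion]
    refine ⟨smp w n, ?_, ?_⟩
    · rw [hA, mem_filter, mem_Icc]
      refine ⟨⟨Nat.pos_of_dvd_of_pos hd (by omega), (Nat.le_of_dvd (by omega) hd).trans hn.1.2⟩,
        hn.2, fun p hp hpd => smp_smooth w hp hpd⟩
    · rw [mem_filter, mem_Icc]
      exact ⟨hn.1, hd⟩
  have h3 : ∀ s ∈ A, (((Icc 1 T).filter (fun n => s ∣ n)).card : ℝ) ≤ t * ((1 : ℝ) / s) := by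
    intro s hs
    rw [hA, mem_filter, mem_Icc] at hs
    have hs0 : (0 : ℝ) < s := by exact_mod_cast hs.1.1
    have h4 : ((Icc 1 T).filter (fun n => s ∣ n)).card = T / s := by
      have := Nat.Ioc_filter_dvd_card_eq_div T s
      rw [← this]
      rfl
    rw [h4]
    calc ((T / s : ℕ) : ℝ) ≤ (T : ℝ) / s := Nat.cast_div_le
      _ ≤ t / s := div_le_div_of_nonneg_right hTt hs0.le
      _ = t * (1 / s) := by ring
  calc (((Icc 1 T).filter (fun n : ℕ => z < (smp w n : ℝ))).card : ℝ)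
      ≤ ((A.biUnion (fun s => (Icc 1 T).filter (fun n => s ∣ n))).card : ℝ) := by
        exact_mod_cast Finset.card_le_card h2
    _ ≤ ∑ s ∈ A, (((Icc 1 T).filter (fun n => s ∣ n)).card : ℝ) := by
        exact_mod_cast Finset.card_biUnion_le
    _ ≤ ∑ s ∈ A, t * ((1 : ℝ) / s) := Finset.sum_le_sum h3
    _ = t * ∑ s ∈ A, (1 : ℝ) / s := by rw [Finset.mul_sum]
    _ ≤ t * (C * (Real.log w) ^ 3 * Real.exp (-(Real.log z / Real.log w))) :=
        mul_le_mul_of_nonneg_left h1 (by linarith)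
    _ = _ := by ring

namespace RankinAux

/-- `m / φ(m) ≤ C log w` for `w`-smooth `m` -/
lemma totient_ratio : ∃ C : ℝ, 0 < C ∧ ∀ (w : ℝ) (m : ℕ), 16 ≤ w → 0 < m →
    (∀ p, p.Prime → p ∣ m → (p : ℝ) ≤ w) → (m : ℝ) ≤ C * Real.log w * (Nat.totient m : ℝ) := by
  obtain ⟨C0, hC0⟩ := Vale.Agent.P003.MertensAux.exists_S0_bound
  refine ⟨Real.exp (C0 + 1), Real.exp_pos _, fun w m hw hm hsm => ?_⟩
  have hw0 : 0 < w := by linarith
  have hlw : 2 < Real.log w := log16.trans_le (Real.log_le_log (by norm_num) hw)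
  have hfl : 16 ≤ ⌊w⌋₊ := Nat.le_floor (by exact_mod_cast hw)
  have hm0 : (0 : ℝ) < m := by exact_mod_cast hm
  have h1 : (Nat.totient m : ℝ) = m * ∏ p ∈ m.primeFactors, (1 - 1 / (p : ℝ)) := by
    have := Nat.totient_eq_mul_prod_factors m
    have h2 : ((Nat.totient m : ℚ) : ℝ) = ((m * ∏ p ∈ m.primeFactors, (1 - (p : ℚ)⁻¹) : ℚ) : ℝ) := by
      rw [this]
    push_cast at h2
    simpa [one_div] using h2
  have hsub : m.primeFactors ⊆ Nat.primesLE ⌊w⌋₊ := by
    intro p hp
    have hp' := Nat.prime_of_mem_primeFactors hp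
    rw [Nat.mem_primesLE]
    exact ⟨Nat.le_floor (hsm p hp' (Nat.dvd_of_mem_primeFactors hp)), hp'⟩
  have h3 : ∏ p ∈ Nat.primesLE ⌊w⌋₊, (1 - 1 / (p : ℝ)) ≤
      ∏ p ∈ m.primeFactors, (1 - 1 / (p : ℝ)) := by
    rw [← Finset.prod_sdiff hsub]
    have h4 : ∏ p ∈ Nat.primesLE ⌊w⌋₊ \ m.primeFactors, (1 - 1 / (p : ℝ)) ≤ 1 := by
      apply Finset.prod_le_one
      · intro p hp
        rw [Finset.mem_sdiff, Nat.mem_primesLE] at hp
        have : (2 : ℝ) ≤ p := by exact_mod_cast hp.1.2.two_le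
        have : 1 / (p : ℝ) ≤ 1 / 2 := one_div_le_one_div_of_le (by norm_num) this
        linarith
      · intro p _
        have : 0 ≤ 1 / (p : ℝ) := by positivity
        linarith
    have h5 : 0 ≤ ∏ p ∈ m.primeFactors, (1 - 1 / (p : ℝ)) := by
      apply Finset.prod_nonneg
      intro p hp
      have : (2 : ℝ) ≤ p := by exact_mod_cast (Nat.prime_of_mem_primeFactors hp).two_le
      have : 1 / (p : ℝ) ≤ 1 / 2 := one_div_le_one_div_of_le (by norm_num) this
      linarith
    nlinarith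
  have h6 : Real.exp (-(Real.log (Real.log w) + (C0 + 1))) ≤
      ∏ p ∈ Nat.primesLE ⌊w⌋₊, (1 - 1 / (p : ℝ)) := by
    calc Real.exp (-(Real.log (Real.log w) + (C0 + 1)))
        ≤ Real.exp (∑ p ∈ Nat.primesLE ⌊w⌋₊, -(1 / (p : ℝ) + (1 / ((p : ℝ) - 1) - 1 / p))) := by
          apply Real.exp_le_exp.2
          rw [Finset.sum_neg_distrib, Finset.sum_add_distrib]
          have hS0 := hC0 ⌊w⌋₊ (by omega)
          have hT := Vale.Agent.P003.MertensAux.tele_sum ⌊w⌋₊ (by omega)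
          have hT' : ∑ p ∈ Nat.primesLE ⌊w⌋₊, (1 / ((p : ℝ) - 1) - 1 / p) ≤ 1 := by
            refine hT.trans ?_
            have : 0 ≤ 1 / ((⌊w⌋₊ : ℕ) : ℝ) := by positivity
            linarith
          have hll : Real.log (Real.log ⌊w⌋₊) ≤ Real.log (Real.log w) := by
            have h17 : (16 : ℝ) ≤ (⌊w⌋₊ : ℝ) := by exact_mod_cast hfl
            have h18 : 0 < Real.log ⌊w⌋₊ := Real.log_pos (by linarith)
            exact Real.log_le_log h18 (Real.log_le_log (by linarith) (Nat.floor_le hw0.le))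
          have hS0' : ∑ p ∈ Nat.primesLE ⌊w⌋₊, 1 / (p : ℝ) ≤ Real.log (Real.log w) + C0 := by
            have : Vale.Agent.P003.MertensAux.S0 ⌊w⌋₊ =
              ∑ p ∈ Nat.primesLE ⌊w⌋₊, 1 / (p : ℝ) := rfl
            rw [← this]
            linarith
          linarith
      _ = ∏ p ∈ Nat.primesLE ⌊w⌋₊,
            Real.exp (-(1 / (p : ℝ) + (1 / ((p : ℝ) - 1) - 1 / p))) := Real.exp_sum _ _
      _ ≤ _ := by
          apply Finset.prod_le_prod (fun p _ => (Real.exp_pos _).le)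
          intro p hp
          exact Vale.Agent.P003.MertensAux.one_sub_inv_ge p (Nat.prime_of_mem_primesLE hp).two_le
  have h7 : 1 ≤ Real.exp (C0 + 1) * Real.log w * ∏ p ∈ m.primeFactors, (1 - 1 / (p : ℝ)) := by
    have h8 : Real.exp (C0 + 1) * Real.log w *
        Real.exp (-(Real.log (Real.log w) + (C0 + 1))) = 1 := by
      rw [Real.exp_neg, Real.exp_add (Real.log (Real.log w)), Real.exp_log (by linarith)]
      have := Real.exp_pos (C0 + 1)
      field_simp
    have h9 : 0 ≤ Real.exp (C0 + 1) * Real.log w := by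
      have := Real.exp_pos (C0 + 1)
      positivity
    calc 1 = _ := h8.symm
      _ ≤ _ := mul_le_mul_of_nonneg_left (h6.trans h3) h9
  rw [h1]
  calc (m : ℝ) = 1 * m := by ring
    _ ≤ (Real.exp (C0 + 1) * Real.log w * ∏ p ∈ m.primeFactors, (1 - 1 / (p : ℝ))) * m :=
        mul_le_mul_of_nonneg_right h7 hm0.le
    _ = _ := by ring

end RankinAux

/-- the same for divisors `∏ (q-1) * totient m` built from `w`-smooth `m` (all representations,
with multiplicity over `m`). -/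
theorem totient_smooth_sum : ∃ (C : ℝ), 0 < C ∧ ∀ (w z : ℝ) (T : ℕ), 16 ≤ w → 1 ≤ z →
    ∑ m ∈ (Icc 1 T).filter (fun m : ℕ => z < Nat.totient m ∧
      ∀ p, p.Prime → p ∣ m → (p : ℝ) ≤ w), (1 : ℝ) / Nat.totient m ≤
      C * (Real.log w) ^ 8 * Real.exp (-(Real.log z / Real.log w)) := by
  classical
  obtain ⟨C, hC, h⟩ := smooth_pow_sum
  obtain ⟨C', hC', h'⟩ := totient_ratio
  refine ⟨C * C', by positivity, fun w z T hw hz => ?_⟩
  have hlw : 2 < Real.log w := log16.trans_le (Real.log_le_log (by norm_num) hw)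
  set A := (Icc 1 T).filter (fun m : ℕ => z < Nat.totient m ∧
      ∀ p, p.Prime → p ∣ m → (p : ℝ) ≤ w) with hA
  have h1 := h w A hw (fun n hn => by
      rw [hA, mem_filter, mem_Icc] at hn
      exact ⟨hn.1.1, hn.2.2⟩)
  have h2 : ∀ m ∈ A, (1 : ℝ) / Nat.totient m ≤
      C' * Real.log w * Real.exp (-(Real.log z / Real.log w)) *
        (m : ℝ) ^ (-(1 - 1 / Real.log w)) := by
    intro m hm
    rw [hA, mem_filter, mem_Icc] at hm
    have hm0 : (0 : ℝ) < m := by exact_mod_cast hm.1.1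
    have hφ : (0 : ℝ) < Nat.totient m := by exact_mod_cast Nat.totient_pos.2 hm.1.1
    have h3 := h' w m hw hm.1.1 hm.2.2
    have hφm : (Nat.totient m : ℝ) ≤ m := by exact_mod_cast Nat.totient_le m
    have hzm : z < m := hm.2.1.trans_le hφm
    have h4 := rankin_trick hw hz hzm
    have h5 : (1 : ℝ) / Nat.totient m ≤ C' * Real.log w * (1 / m) := by
      rw [mul_one_div, div_le_div_iff₀ hφ hm0]
      linarith
    refine h5.trans ?_
    have h6 : 0 ≤ C' * Real.log w := by positivity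
    calc C' * Real.log w * (1 / (m : ℝ)) ≤ C' * Real.log w *
          (Real.exp (-(Real.log z / Real.log w)) * (m : ℝ) ^ (-(1 - 1 / Real.log w))) :=
          mul_le_mul_of_nonneg_left h4 h6
      _ = _ := by ring
  refine (Finset.sum_le_sum h2).trans ?_
  rw [← Finset.mul_sum]
  have h7 : 0 ≤ C' * Real.log w * Real.exp (-(Real.log z / Real.log w)) := by
    have := Real.exp_pos (-(Real.log z / Real.log w))
    positivity
  refine (mul_le_mul_of_nonneg_left h1 h7).trans ?_
  have h8 : (Real.log w) ^ 4 ≤ (Real.log w) ^ 8 :=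
    pow_le_pow_right₀ (by linarith) (by norm_num)
  have h9 : 0 ≤ C * C' * Real.exp (-(Real.log z / Real.log w)) := by
    have := Real.exp_pos (-(Real.log z / Real.log w))
    positivity
  calc C' * Real.log w * Real.exp (-(Real.log z / Real.log w)) * (C * Real.log w ^ 3)
      = C * C' * Real.exp (-(Real.log z / Real.log w)) * (Real.log w) ^ 4 := by ring
    _ ≤ C * C' * Real.exp (-(Real.log z / Real.log w)) * (Real.log w) ^ 8 :=
        mul_le_mul_of_nonneg_left h8 h9
    _ = _ := by ring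

end P031
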