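import Vale.Agent.P031.DefsB
import Vale.Agent.P031.EM
import Vale.Agent.P031.Rankin
import Vale.Agent.P031.Mert

namespace P031
namespace Nrm

open Finset Filter Topology
open scoped Classical

lemma ev_poly (K : ℝ) (m : ℕ) : ∀ᶠ N : ℕ in atTop, K * (N : ℝ) ^ m ≤ Real.exp N := by
  have h1 := (Real.tendsto_pow_mul_exp_neg_atTop_nhds_zero m).comp
    (tendsto_natCast_atTop_atTop (R := ℝ))
  have h2 := h1.const_mul K
  rw [mul_zero] at h2
  filter_upwards [h2.eventually (gt_mem_nhds zero_lt_one)] with N hN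
  simp only [Function.comp] at hN
  rw [Real.exp_neg, ← mul_assoc, ← div_eq_mul_inv, div_lt_one (Real.exp_pos _)] at hN
  exact hN.le

lemma exp_le_of_lv {p B : ℕ} (hB : 1 ≤ B) (h : B ≤ lv p) : Real.exp (Real.exp B) ≤ p := by
  unfold lv at h
  have h2 : (B : ℝ) ≤ Real.log (Real.log p) := by
    exact (Nat.le_floor_iff' (by omega)).1 h
  have hB' : (1 : ℝ) ≤ B := by exact_mod_cast hB
  have h3 : 0 < Real.log p := by
    by_contra hn
    push Not at hn
    have : Real.log p = 0 := le_antisymm hn (Real.log_natCast_nonneg p)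
    rw [this, Real.log_zero] at h2
    linarith
  have hp : (0 : ℝ) < p := by
    rcases Nat.eq_zero_or_pos p with rfl | hp
    · simp at h3
    · exact_mod_cast hp
  rwa [Real.le_log_iff_exp_le h3, Real.le_log_iff_exp_le hp] at h2

lemma lv_le {n B : ℕ} {t : ℝ} (hn : 2 ≤ n) (hnt : (n : ℝ) ≤ t)
    (hB : B = ⌊Real.log (Real.log t)⌋₊) : lv n ≤ B := by
  rw [hB]
  unfold lv
  apply Nat.floor_le_floor
  have h1 : (2 : ℝ) ≤ n := by exact_mod_cast hn
  have h2 : 0 < Real.log n := Real.log_pos (by linarith)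
  exact Real.log_le_log h2 (Real.log_le_log (by linarith) hnt)

/-- at most two prime factors at the top level -/
lemma Om_top {B n : ℕ} {t : ℝ} (hB1 : 1 ≤ B) (hn : 1 ≤ n) (hnt : (n : ℝ) ≤ t)
    (hB : B = ⌊Real.log (Real.log t)⌋₊) : Om B (B + 1) n ≤ 2 := by
  set S := n.primeFactors.filter (fun p => B ≤ lv p ∧ lv p < B + 1) with hS
  have h1 : ∏ p ∈ S, p ^ n.factorization p ≤ n := by
    conv_rhs => rw [← Nat.prod_factorization_pow_eq_self (show n ≠ 0 by omega)]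
    rw [Nat.prod_factorization_eq_prod_primeFactors]
    refine Finset.prod_le_prod_of_subset_of_one_le' (Finset.filter_subset _ _) ?_
    intro p hp _
    exact Nat.one_le_pow _ _ (Nat.prime_of_mem_primeFactors hp).pos
  have h2 : Real.exp (Real.exp B) ^ (Om B (B + 1) n) ≤ (n : ℝ) := by
    have h3 : Real.exp (Real.exp B) ^ (Om B (B + 1) n) =
        ∏ p ∈ S, Real.exp (Real.exp B) ^ n.factorization p := by
      rw [Finset.prod_pow_eq_pow_sum]
      rfl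
    rw [h3]
    calc ∏ p ∈ S, Real.exp (Real.exp B) ^ n.factorization p ≤
        ∏ p ∈ S, (p : ℝ) ^ n.factorization p := by
          refine Finset.prod_le_prod (fun p _ => by positivity) (fun p hp => ?_)
          have := exp_le_of_lv hB1 (Finset.mem_filter.1 hp).2.1
          gcongr
      _ = ((∏ p ∈ S, p ^ n.factorization p : ℕ) : ℝ) := by push_cast; rfl
      _ ≤ n := by exact_mod_cast h1
  have hB' : (1 : ℝ) ≤ B := by exact_mod_cast hB1
  have h4 : Real.log (Real.log t) < B + 1 := by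
    rw [hB]; exact Nat.lt_floor_add_one _
  have hll : (1 : ℝ) ≤ Real.log (Real.log t) := by
    rw [hB] at hB1
    exact (Nat.one_le_floor_iff _).1 hB1
  have ht0 : 0 < t := by
    have : (1 : ℝ) ≤ n := by exact_mod_cast hn
    linarith
  have hn1 : (1 : ℝ) ≤ n := by exact_mod_cast hn
  have hlt : 0 < Real.log t := by
    have h0 : 0 ≤ Real.log t := Real.log_nonneg (by linarith)
    rcases h0.lt_or_eq with h | h
    · exact h
    · rw [← h, Real.log_zero] at hll; linarith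
  have h5 : t < Real.exp (Real.exp (B + 1)) := by
    rw [← Real.log_lt_iff_lt_exp ht0, ← Real.log_lt_iff_lt_exp hlt]
    exact h4
  rw [← Real.exp_nat_mul] at h2
  have h6 : (Om B (B + 1) n : ℝ) * Real.exp B < Real.exp (B + 1) :=
    Real.exp_lt_exp.1 (lt_of_le_of_lt (h2.trans hnt) h5)
  rw [Real.exp_add] at h6
  have h7 : (Om B (B + 1) n : ℝ) < Real.exp 1 := by
    have := Real.exp_pos (B : ℝ)
    nlinarith
  have h8 : (Om B (B + 1) n : ℝ) < 3 := by
    have := Real.exp_one_lt_d9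
    linarith
  have : Om B (B + 1) n < 3 := by exact_mod_cast h8
  omega

lemma Om_le_trunc {a b B n : ℕ} {t : ℝ} (hB1 : 1 ≤ B) (hn : 1 ≤ n) (hnt : (n : ℝ) ≤ t)
    (hB : B = ⌊Real.log (Real.log t)⌋₊) : Om a b n ≤ Om a B n + 2 := by
  have h1 : Om a b n ≤ Om a B n + Om B (B + 1) n := by
    unfold Om
    rw [Finset.sum_filter, Finset.sum_filter, Finset.sum_filter, ← Finset.sum_add_distrib]
    refine Finset.sum_le_sum fun p hp => ?_
    have hpp := Nat.prime_of_mem_primeFactors hp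
    have hpn : p ≤ n := Nat.le_of_mem_primeFactors hp
    have h2 : lv p ≤ B := lv_le hpp.two_le (le_trans (by exact_mod_cast hpn) hnt) hB
    split_ifs <;> omega
  exact h1.trans (Nat.add_le_add_left (Om_top hB1 hn hnt hB) _)

/-- Chernoff type count, from exponential moments. -/
lemma markov {t z : ℝ} {a b K : ℕ} {M : ℝ} (S : Finset ℕ)
    (hS : S ⊆ Nat.primesLE ⌊t⌋₊) (hz : 0 < z)
    (hM : ∑ q ∈ Nat.primesLE ⌊t⌋₊, z ^ (Om a b (q - 1)) ≤ M)
    (h : ∀ q ∈ S, z ^ K ≤ z ^ Om a b (q - 1)) :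
    (S.card : ℝ) ≤ M * Real.exp (-(K * Real.log z)) := by
  have h1 : (S.card : ℝ) * z ^ K ≤ M := by
    calc (S.card : ℝ) * z ^ K = ∑ q ∈ S, z ^ K := by rw [Finset.sum_const, nsmul_eq_mul]
      _ ≤ ∑ q ∈ S, z ^ Om a b (q - 1) := Finset.sum_le_sum h
      _ ≤ ∑ q ∈ Nat.primesLE ⌊t⌋₊, z ^ (Om a b (q - 1)) :=
          Finset.sum_le_sum_of_subset_of_nonneg hS (fun _ _ _ => by positivity)
      _ ≤ M := hM
  have h2 : Real.exp (-(K * Real.log z)) = (z ^ K)⁻¹ := by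
    rw [Real.exp_neg, Real.exp_nat_mul, Real.exp_log hz]
  rw [h2, ← div_eq_mul_inv, le_div_iff₀ (by positivity)]
  exact h1

/-- exponent for the upper deviation -/
lemma expo_up {n len : ℝ} (hn : 4 ≤ n) (hlen : len ≤ n ^ 50) :
    1 / (2 * n ^ 16) * len - (n ^ 50 + n ^ 34 - 1) * Real.log (1 + 1 / (2 * n ^ 16))
      ≤ -(n ^ 18 / 8) := by
  set x := 1 / (2 * n ^ 16) with hx
  have hn0 : 0 < n := by linarith
  have hxp : 0 < x := by positivity
  have hx1 : x * n ^ 16 = 1 / 2 := by rw [hx]; field_simp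
  have h1 : x - x ^ 2 ≤ Real.log (1 + x) := by
    have h := Real.one_sub_inv_le_log_of_pos (show 0 < 1 + x by linarith)
    refine le_trans ?_ h
    have h2 : (1 + x)⁻¹ ≤ 1 - (x - x ^ 2) := by
      rw [inv_le_iff_one_le_mul₀ (by linarith)]
      nlinarith [pow_pos hxp 3]
    linarith
  have h16 : (1 : ℝ) ≤ n ^ 16 := one_le_pow₀ (by linarith)
  have hxle : x ≤ 1 / 2 := by nlinarith
  have h34 : 0 ≤ n ^ 50 + n ^ 34 - 1 := by
    have : (1 : ℝ) ≤ n ^ 50 := one_le_pow₀ (by linarith)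
    have : (1 : ℝ) ≤ n ^ 34 := one_le_pow₀ (by linarith)
    linarith
  have e1 : x * n ^ 50 = n ^ 34 / 2 := by
    have : n ^ 50 = n ^ 16 * n ^ 34 := by ring
    rw [this]; linear_combination (n ^ 34) * hx1
  have e2 : x * n ^ 34 = n ^ 18 / 2 := by
    have : n ^ 34 = n ^ 16 * n ^ 18 := by ring
    rw [this]; linear_combination (n ^ 18) * hx1
  have e3 : x ^ 2 * n ^ 50 = n ^ 18 / 4 := by
    have : n ^ 50 = (n ^ 16) ^ 2 * n ^ 18 := by ring
    rw [this]; linear_combination (n ^ 18) * (x * n ^ 16 + 1 / 2) * hx1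
  have e4 : x ^ 2 * n ^ 34 = n ^ 2 / 4 := by
    have : n ^ 34 = (n ^ 16) ^ 2 * n ^ 2 := by ring
    rw [this]; linear_combination (n ^ 2) * (x * n ^ 16 + 1 / 2) * hx1
  have h18 : 8 * n ^ 2 + 8 ≤ n ^ 18 := by
    have h5 : n ^ 18 = n ^ 2 * n ^ 16 := by ring
    have h6 : (4 : ℝ) ^ 16 ≤ n ^ 16 := pow_le_pow_left₀ (by norm_num) hn 16
    have h7 : (16 : ℝ) ≤ n ^ 2 := by nlinarith
    rw [h5]; nlinarith
  calc x * len - (n ^ 50 + n ^ 34 - 1) * Real.log (1 + x)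
      ≤ x * n ^ 50 - (n ^ 50 + n ^ 34 - 1) * (x - x ^ 2) := by gcongr
    _ = - (x * n ^ 34) + x + x ^ 2 * n ^ 50 + x ^ 2 * n ^ 34 - x ^ 2 := by ring
    _ ≤ -(n ^ 18 / 8) := by
        rw [e2, e3, e4]
        nlinarith [sq_nonneg x]

lemma expo_down {n : ℝ} (hn : 4 ≤ n) :
    -(1 / (4 * n ^ 16)) * n ^ 50 - (n ^ 50 - n ^ 34) * Real.log (1 - 1 / (4 * n ^ 16))
      ≤ -(n ^ 18 / 8) := by
  set x := 1 / (4 * n ^ 16) with hx
  have hn0 : 0 < n := by linarith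
  have hxp : 0 < x := by positivity
  have hx1 : x * n ^ 16 = 1 / 4 := by rw [hx]; field_simp
  have h16 : (1 : ℝ) ≤ n ^ 16 := one_le_pow₀ (by linarith)
  have hxle : x ≤ 1 / 4 := by nlinarith
  have h1 : -(x + 2 * x ^ 2) ≤ Real.log (1 - x) := by
    have h := Real.one_sub_inv_le_log_of_pos (show 0 < 1 - x by linarith)
    refine le_trans ?_ h
    have h2 : (1 - x)⁻¹ ≤ 1 + (x + 2 * x ^ 2) := by
      rw [inv_le_iff_one_le_mul₀ (by linarith)]
      nlinarith [pow_pos hxp 3]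
    linarith
  have h34 : 0 ≤ n ^ 50 - n ^ 34 := by
    have : n ^ 34 ≤ n ^ 50 := pow_le_pow_right₀ (by linarith) (by norm_num)
    linarith
  have e2 : x * n ^ 34 = n ^ 18 / 4 := by
    have : n ^ 34 = n ^ 16 * n ^ 18 := by ring
    rw [this]; linear_combination (n ^ 18) * hx1
  have e3 : x ^ 2 * n ^ 50 = n ^ 18 / 16 := by
    have : n ^ 50 = (n ^ 16) ^ 2 * n ^ 18 := by ring
    rw [this]; linear_combination (n ^ 18) * (x * n ^ 16 + 1 / 4) * hx1
  have e4 : 0 ≤ x ^ 2 * n ^ 34 := by positivity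
  calc -x * n ^ 50 - (n ^ 50 - n ^ 34) * Real.log (1 - x)
      ≤ -x * n ^ 50 - (n ^ 50 - n ^ 34) * (-(x + 2 * x ^ 2)) := by gcongr
    _ = - (x * n ^ 34) + 2 * (x ^ 2 * n ^ 50) - 2 * (x ^ 2 * n ^ 34) := by ring
    _ ≤ -(n ^ 18 / 8) := by
        rw [e2, e3]
        linarith

/-- shape of the exponential moment bound (for `em_bound`). -/
def EMB (CE : ℝ) (k : ℕ) : Prop := ∀ (t z : ℝ) (a b : ℕ), 16 ≤ t → 0 ≤ z → z ≤ 2 →
    1 ≤ a → a ≤ b → (b : ℝ) ≤ Real.log (Real.log t) →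
    ∑ q ∈ Nat.primesLE ⌊t⌋₊, z ^ (Om a b (q - 1)) ≤
      CE * t / Real.log t * (Real.log (Real.log t)) ^ k * Real.exp ((z - 1) * ((b : ℝ) - a))

lemma lv_le_B {t : ℝ} (ht0 : 0 < t) {q : ℕ} (hq : q ∈ Nat.primesLE ⌊t⌋₊) :
    lv q ≤ ⌊Real.log (Real.log t)⌋₊ := by
  rw [Nat.mem_primesLE] at hq
  exact lv_le hq.2.two_le ((Nat.le_floor_iff ht0.le).1 hq.1) rfl

lemma bound_S1 {CE : ℝ} {k : ℕ} (hCE : 0 < CE) (hem : EMB CE k) {N : ℕ} (hN4 : 4 ≤ N) {t : ℝ}
    (ht : 16 ≤ t) (hLL1 : 1 ≤ Real.log (Real.log t)) {b : ℕ} (hb1 : 1 ≤ b) :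
    (((Nat.primesLE ⌊t⌋₊).filter (fun q =>
      b * N ^ 50 ≤ lv q ∧ N ^ 50 + N ^ 34 < Om (b * N ^ 50) ((b + 1) * N ^ 50) (q - 1))).card : ℝ) ≤
      CE * t / Real.log t * (Real.log (Real.log t)) ^ k * Real.exp (-((N : ℝ) ^ 18 / 8)) := by
  have hn4 : (4 : ℝ) ≤ N := by exact_mod_cast hN4
  have ht0 : 0 < t := by linarith
  have hLpos : 0 < Real.log t := Real.log_pos (by linarith)
  have hB1 : 1 ≤ ⌊Real.log (Real.log t)⌋₊ := (Nat.one_le_floor_iff _).2 hLL1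
  have hBle : (⌊Real.log (Real.log t)⌋₊ : ℝ) ≤ Real.log (Real.log t) := Nat.floor_le (by linarith)
  have hΔ1 : 1 ≤ N ^ 50 := Nat.one_le_pow _ _ (by omega)
  by_cases hbΔ : b * N ^ 50 ≤ ⌊Real.log (Real.log t)⌋₊
  · obtain ⟨b', hb'⟩ : ∃ b', b' = min ((b + 1) * N ^ 50) ⌊Real.log (Real.log t)⌋₊ := ⟨_, rfl⟩
    have hlen : b * N ^ 50 ≤ b' := by
      rw [hb']; exact le_min (Nat.mul_le_mul_right _ (Nat.le_succ b)) hbΔ
    have h16 : (1 : ℝ) ≤ (N : ℝ) ^ 16 := one_le_pow₀ (by linarith)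
    have hx0 : 0 < 1 / (2 * (N : ℝ) ^ 16) := by positivity
    have hxle : 1 / (2 * (N : ℝ) ^ 16) ≤ 1 := by
      rw [div_le_one (by positivity)]
      linarith
    have hb'le : (b' : ℝ) ≤ Real.log (Real.log t) := by
      refine le_trans ?_ hBle
      rw [hb']
      exact_mod_cast min_le_right _ _
    have hem1 := hem t (1 + 1 / (2 * (N : ℝ) ^ 16)) (b * N ^ 50) b' ht (by positivity) (by linarith)
      (Nat.mul_pos hb1 hΔ1) hlen hb'le
    have hmk := markov (K := N ^ 50 + N ^ 34 - 1) ((Nat.primesLE ⌊t⌋₊).filter (fun q =>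
      b * N ^ 50 ≤ lv q ∧ N ^ 50 + N ^ 34 < Om (b * N ^ 50) ((b + 1) * N ^ 50) (q - 1)))
      (Finset.filter_subset _ _) (by positivity) hem1 ?_
    · refine hmk.trans ?_
      have hK : ((N ^ 50 + N ^ 34 - 1 : ℕ) : ℝ) = (N : ℝ) ^ 50 + (N : ℝ) ^ 34 - 1 := by
        rw [Nat.cast_sub (by omega)]
        push_cast
        rfl
      rw [hK, mul_assoc, ← Real.exp_add]
      have hl2 : ((b' : ℝ) - (b * N ^ 50 : ℕ)) ≤ (N : ℝ) ^ 50 := by
        have h1 : b' ≤ (b + 1) * N ^ 50 := by rw [hb']; exact min_le_left _ _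
        have h2 : (b' : ℝ) ≤ ((b + 1) * N ^ 50 : ℕ) := by exact_mod_cast h1
        have h3 : (((b + 1) * N ^ 50 : ℕ) : ℝ) = (b * N ^ 50 : ℕ) + (N : ℝ) ^ 50 := by
          push_cast; ring
        linarith
      have hx := expo_up hn4 hl2
      have h9 : (1 + 1 / (2 * (N : ℝ) ^ 16) - 1) * ((b' : ℝ) - (b * N ^ 50 : ℕ)) +
          -(((N : ℝ) ^ 50 + (N : ℝ) ^ 34 - 1) * Real.log (1 + 1 / (2 * (N : ℝ) ^ 16)))
            ≤ -((N : ℝ) ^ 18 / 8) := by
        rw [add_sub_cancel_left]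
        linarith
      have hpos : 0 ≤ CE * t / Real.log t * Real.log (Real.log t) ^ k := by positivity
      exact mul_le_mul_of_nonneg_left (Real.exp_le_exp.2 h9) hpos
    · intro q hq
      obtain ⟨hq1, hq2, hq3⟩ := Finset.mem_filter.1 hq
      have hq1' := Nat.mem_primesLE.1 hq1
      have hqt : ((q - 1 : ℕ) : ℝ) ≤ t := by
        have h5 : q - 1 ≤ ⌊t⌋₊ := by omega
        exact (Nat.le_floor_iff ht0.le).1 h5
      have h1 : Om (b * N ^ 50) ((b + 1) * N ^ 50) (q - 1) ≤ Om (b * N ^ 50) b' (q - 1) + 2 := by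
        rcases le_total ((b + 1) * N ^ 50) ⌊Real.log (Real.log t)⌋₊ with h | h
        · rw [hb', min_eq_left h]; omega
        · rw [hb', min_eq_right h]
          have := hq1'.2.two_le
          exact Om_le_trunc hB1 (by omega) hqt rfl
      apply pow_le_pow_right₀ (by linarith)
      omega
  · have : (Nat.primesLE ⌊t⌋₊).filter (fun q =>
      b * N ^ 50 ≤ lv q ∧ N ^ 50 + N ^ 34 < Om (b * N ^ 50) ((b + 1) * N ^ 50) (q - 1)) = ∅ := by
      rw [Finset.eq_empty_iff_forall_notMem]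
      intro q hq
      obtain ⟨hq1, hq2, hq3⟩ := Finset.mem_filter.1 hq
      have := lv_le_B ht0 hq1
      omega
    rw [this, Finset.card_empty, Nat.cast_zero]
    positivity

lemma bound_S2 {CE : ℝ} {k : ℕ} (hCE : 0 < CE) (hem : EMB CE k) {N : ℕ} (hN4 : 4 ≤ N) {t : ℝ}
    (ht : 16 ≤ t) (hLL1 : 1 ≤ Real.log (Real.log t)) {b : ℕ} (hb1 : 1 ≤ b) :
    (((Nat.primesLE ⌊t⌋₊).filter (fun q =>
      (b + 1) * N ^ 50 ≤ lv q ∧ Om (b * N ^ 50) ((b + 1) * N ^ 50) (q - 1) < N ^ 50 - N ^ 34)).card : ℝ) ≤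
      CE * t / Real.log t * (Real.log (Real.log t)) ^ k * Real.exp (-((N : ℝ) ^ 18 / 8)) := by
  have hn4 : (4 : ℝ) ≤ N := by exact_mod_cast hN4
  have ht0 : 0 < t := by linarith
  have hLpos : 0 < Real.log t := Real.log_pos (by linarith)
  have hBle : (⌊Real.log (Real.log t)⌋₊ : ℝ) ≤ Real.log (Real.log t) := Nat.floor_le (by linarith)
  have hΔ1 : 1 ≤ N ^ 50 := Nat.one_le_pow _ _ (by omega)
  by_cases hbΔ : (b + 1) * N ^ 50 ≤ ⌊Real.log (Real.log t)⌋₊
  · have h16 : (1 : ℝ) ≤ (N : ℝ) ^ 16 := one_le_pow₀ (by linarith)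
    have hx0 : 0 < 1 / (4 * (N : ℝ) ^ 16) := by positivity
    have hxle : 1 / (4 * (N : ℝ) ^ 16) < 1 := by
      rw [div_lt_one (by positivity)]
      linarith
    have hb'le : (((b + 1) * N ^ 50 : ℕ) : ℝ) ≤ Real.log (Real.log t) :=
      le_trans (by exact_mod_cast hbΔ) hBle
    have hem1 := hem t (1 - 1 / (4 * (N : ℝ) ^ 16)) (b * N ^ 50) ((b + 1) * N ^ 50) ht (by linarith)
      (by linarith) (Nat.mul_pos hb1 hΔ1) (Nat.mul_le_mul_right _ (Nat.le_succ b)) hb'le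
    have hmk := markov (K := N ^ 50 - N ^ 34) ((Nat.primesLE ⌊t⌋₊).filter (fun q =>
      (b + 1) * N ^ 50 ≤ lv q ∧ Om (b * N ^ 50) ((b + 1) * N ^ 50) (q - 1) < N ^ 50 - N ^ 34))
      (Finset.filter_subset _ _) (by linarith) hem1 ?_
    · refine hmk.trans ?_
      have hle : N ^ 34 ≤ N ^ 50 := Nat.pow_le_pow_right (by omega) (by norm_num)
      have hK : ((N ^ 50 - N ^ 34 : ℕ) : ℝ) = (N : ℝ) ^ 50 - (N : ℝ) ^ 34 := by
        rw [Nat.cast_sub hle]; push_cast; rfl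
      rw [hK, mul_assoc, ← Real.exp_add]
      have h3 : (((b + 1) * N ^ 50 : ℕ) : ℝ) - (b * N ^ 50 : ℕ) = (N : ℝ) ^ 50 := by
        push_cast; ring
      rw [h3]
      have hx := expo_down hn4
      have h9 : (1 - 1 / (4 * (N : ℝ) ^ 16) - 1) * (N : ℝ) ^ 50 +
          -(((N : ℝ) ^ 50 - (N : ℝ) ^ 34) * Real.log (1 - 1 / (4 * (N : ℝ) ^ 16)))
            ≤ -((N : ℝ) ^ 18 / 8) := by
        have e : (1 - 1 / (4 * (N : ℝ) ^ 16) - 1) = -(1 / (4 * (N : ℝ) ^ 16)) := by ring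
        rw [e]
        linarith
      have hpos : 0 ≤ CE * t / Real.log t * Real.log (Real.log t) ^ k := by positivity
      exact mul_le_mul_of_nonneg_left (Real.exp_le_exp.2 h9) hpos
    · intro q hq
      obtain ⟨hq1, hq2, hq3⟩ := Finset.mem_filter.1 hq
      apply pow_le_pow_of_le_one (by linarith) (by linarith)
      omega
  · have : (Nat.primesLE ⌊t⌋₊).filter (fun q =>
      (b + 1) * N ^ 50 ≤ lv q ∧ Om (b * N ^ 50) ((b + 1) * N ^ 50) (q - 1) < N ^ 50 - N ^ 34) = ∅ := by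
      rw [Finset.eq_empty_iff_forall_notMem]
      intro q hq
      obtain ⟨hq1, hq2, hq3⟩ := Finset.mem_filter.1 hq
      have := lv_le_B ht0 hq1
      omega
    rw [this, Finset.card_empty, Nat.cast_zero]
    positivity

/-- shape of `smooth_part_count`. -/
def SPC (CP : ℝ) : Prop := ∀ (w z t : ℝ), 16 ≤ w → 1 ≤ z → 1 ≤ t →
    (((Icc 1 ⌊t⌋₊).filter (fun n : ℕ => z < (smp w n : ℝ))).card : ℝ) ≤
      CP * t * (Real.log w) ^ 3 * Real.exp (-(Real.log z / Real.log w))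

lemma bound_S4 {CP : ℝ} (hCP : 0 < CP) (hsp : SPC CP) {N : ℕ} (hN4 : 4 ≤ N) {t : ℝ}
    (ht : 16 ≤ t) (hv3 : 3 * (N : ℝ) ^ 110 ≤ Real.exp N) {y : ℕ} (hy1 : N ^ 80 ≤ y)
    (hy2 : y ≤ 3 * N ^ 100) :
    (((Nat.primesLE ⌊t⌋₊).filter (fun q =>
      Real.exp (Real.exp y / (4 * N)) < (smp (Real.exp (Real.exp y / (N : ℝ) ^ 110)) (q - 1) : ℝ))).card : ℝ)
      ≤ CP * t * Real.exp (9 * (N : ℝ) ^ 100 - (N : ℝ) ^ 109 / 4) := by
  have hn4 : (4 : ℝ) ≤ N := by exact_mod_cast hN4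
  have hn0 : (0 : ℝ) < N := by linarith
  have hy1' : (N : ℝ) ^ 80 ≤ (y : ℝ) := by exact_mod_cast hy1
  have hy2' : (y : ℝ) ≤ 3 * (N : ℝ) ^ 100 := by exact_mod_cast hy2
  have hny : (N : ℝ) ≤ y := by
    have h1 : (N : ℝ) ^ 1 ≤ (N : ℝ) ^ 80 := pow_le_pow_right₀ (by linarith) (by norm_num)
    rw [pow_one] at h1
    linarith
  have hw : 3 ≤ Real.exp y / (N : ℝ) ^ 110 := by
    rw [le_div_iff₀ (by positivity)]
    exact hv3.trans (Real.exp_le_exp.2 hny)
  have hw16 : (16 : ℝ) ≤ Real.exp (Real.exp y / (N : ℝ) ^ 110) := by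
    have h1 : Real.exp 3 ≤ Real.exp (Real.exp y / (N : ℝ) ^ 110) := Real.exp_le_exp.2 hw
    have h2 : Real.exp 3 = Real.exp 1 * Real.exp 1 * Real.exp 1 := by
      rw [← Real.exp_add, ← Real.exp_add]; norm_num
    have h3 := Real.exp_one_gt_d9
    have h4 : (7.3 : ℝ) ≤ Real.exp 1 * Real.exp 1 := by nlinarith
    rw [h2] at h1
    nlinarith
  have h1 := hsp (Real.exp (Real.exp y / (N : ℝ) ^ 110)) (Real.exp (Real.exp y / (4 * N))) t hw16
    (Real.one_le_exp (by positivity)) (by linarith)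
  rw [Real.log_exp, Real.log_exp] at h1
  have h2 : Real.exp y / (4 * N) / (Real.exp y / (N : ℝ) ^ 110) = (N : ℝ) ^ 109 / 4 := by
    field_simp
  rw [h2] at h1
  have h3 : (((Nat.primesLE ⌊t⌋₊).filter (fun q =>
      Real.exp (Real.exp y / (4 * N)) < (smp (Real.exp (Real.exp y / (N : ℝ) ^ 110)) (q - 1) : ℝ))).card : ℝ)
      ≤ (((Icc 1 ⌊t⌋₊).filter (fun m : ℕ =>
      Real.exp (Real.exp y / (4 * N)) < (smp (Real.exp (Real.exp y / (N : ℝ) ^ 110)) m : ℝ))).card : ℝ) := by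
    have hinj : Set.InjOn (fun q : ℕ => q - 1) ((Nat.primesLE ⌊t⌋₊).filter (fun q =>
      Real.exp (Real.exp y / (4 * N)) < (smp (Real.exp (Real.exp y / (N : ℝ) ^ 110)) (q - 1) : ℝ))) := by
      intro q hq q' hq' h
      have h1 := (Nat.mem_primesLE.1 (Finset.mem_filter.1 hq).1).2.two_le
      have h2 := (Nat.mem_primesLE.1 (Finset.mem_filter.1 hq').1).2.two_le
      simp only at h
      omega
    rw [← Finset.card_image_of_injOn hinj]
    exact_mod_cast Finset.card_le_card (fun m hm => by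
      obtain ⟨q, hq, rfl⟩ := Finset.mem_image.1 hm
      obtain ⟨hq1, hq2⟩ := Finset.mem_filter.1 hq
      rw [Nat.mem_primesLE] at hq1
      have := hq1.2.two_le
      exact Finset.mem_filter.2 ⟨Finset.mem_Icc.2 ⟨by omega, by omega⟩, hq2⟩)
  refine h3.trans (h1.trans ?_)
  have h4 : (Real.exp y / (N : ℝ) ^ 110) ^ 3 ≤ Real.exp (9 * (N : ℝ) ^ 100) := by
    calc (Real.exp y / (N : ℝ) ^ 110) ^ 3 ≤ (Real.exp y) ^ 3 := by
          gcongr
          exact div_le_self (Real.exp_pos _).le (one_le_pow₀ (by linarith))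
      _ = Real.exp (3 * y) := by rw [← Real.exp_nat_mul]; norm_num
      _ ≤ Real.exp (9 * (N : ℝ) ^ 100) := Real.exp_le_exp.2 (by linarith)
  rw [sub_eq_add_neg, Real.exp_add, ← mul_assoc]
  gcongr

lemma sum_first {CE t n L LL B : ℝ} {k : ℕ} (hCE : 0 < CE) (ht0 : 0 < t) (hLpos : 0 < L)
    (hn4 : 4 ≤ n) (hLL1 : 1 ≤ LL) (hLL : LL ≤ 3 * n ^ 100) (hB0 : 0 ≤ B) (hB : B ≤ 3 * n ^ 100)
    (hv1 : 4 * CE * 3 ^ (k + 1) * n ^ (100 * (k + 1)) ≤ Real.exp n) :
    B * (CE * t / L * LL ^ k * Real.exp (-(n ^ 18 / 8))) ≤ 1 / 4 * (t / L * Real.exp (-n ^ 16)) := by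
  have e1 : 3 * n ^ 100 * CE * (3 * n ^ 100) ^ k * Real.exp (-(n ^ 18 / 8)) ≤
      1 / 4 * Real.exp (-n ^ 16) := by
    have h1 : 3 * n ^ 100 * CE * (3 * n ^ 100) ^ k
        = 1 / 4 * (4 * CE * 3 ^ (k + 1) * n ^ (100 * (k + 1))) := by
      rw [pow_mul, mul_pow, pow_succ 3, pow_succ (n ^ 100)]; ring
    rw [h1]
    calc 1 / 4 * (4 * CE * 3 ^ (k + 1) * n ^ (100 * (k + 1))) * Real.exp (-(n ^ 18 / 8))
        ≤ 1 / 4 * Real.exp n * Real.exp (-(n ^ 18 / 8)) := by gcongr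
      _ = 1 / 4 * Real.exp (n + -(n ^ 18 / 8)) := by
          rw [mul_assoc, ← Real.exp_add]
      _ ≤ 1 / 4 * Real.exp (-n ^ 16) := by
          have h5 : n ^ 18 = n ^ 2 * n ^ 16 := by ring
          have h6 : n ^ 1 ≤ n ^ 16 := pow_le_pow_right₀ (by linarith) (by norm_num)
          have h7 : (16 : ℝ) ≤ n ^ 2 := by nlinarith
          have : n + -(n ^ 18 / 8) ≤ -n ^ 16 := by
            rw [h5]; rw [pow_one] at h6; nlinarith
          gcongr
  calc B * (CE * t / L * LL ^ k * Real.exp (-(n ^ 18 / 8)))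
      ≤ (3 * n ^ 100) * (CE * t / L * (3 * n ^ 100) ^ k * Real.exp (-(n ^ 18 / 8))) := by
        gcongr
    _ = t / L * (3 * n ^ 100 * CE * (3 * n ^ 100) ^ k * Real.exp (-(n ^ 18 / 8))) := by ring
    _ ≤ t / L * (1 / 4 * Real.exp (-n ^ 16)) := by gcongr
    _ = _ := by ring

lemma sum_last {CP t n L Y : ℝ} (hCP : 0 < CP) (ht0 : 0 < t) (hLpos : 0 < L)
    (hn4 : 4 ≤ n) (hhigh : Real.log L ≤ 3 * n ^ 100) (hY0 : 0 ≤ Y) (hY : Y ≤ 4 * n ^ 100)
    (hv2 : 8 * CP * n ^ 100 ≤ Real.exp n) :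
    Y * (CP * t * Real.exp (9 * n ^ 100 - n ^ 109 / 4)) ≤ 1 / 2 * (t / L * Real.exp (-n ^ 16)) := by
  have hLle : L ≤ Real.exp (3 * n ^ 100) := by
    rw [← Real.log_le_iff_le_exp hLpos]; exact hhigh
  calc Y * (CP * t * Real.exp (9 * n ^ 100 - n ^ 109 / 4))
      ≤ 4 * n ^ 100 * (CP * t * Real.exp (9 * n ^ 100 - n ^ 109 / 4)) := by gcongr
    _ = 1 / 2 * ((t / L) * (L * (8 * CP * n ^ 100) * Real.exp (9 * n ^ 100 - n ^ 109 / 4))) := by
        field_simp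
        ring
    _ ≤ 1 / 2 * ((t / L) * (Real.exp (3 * n ^ 100) * Real.exp n *
          Real.exp (9 * n ^ 100 - n ^ 109 / 4))) := by gcongr
    _ = 1 / 2 * ((t / L) * Real.exp (3 * n ^ 100 + n + (9 * n ^ 100 - n ^ 109 / 4))) := by
        rw [Real.exp_add, Real.exp_add]
    _ ≤ 1 / 2 * (t / L * Real.exp (-n ^ 16)) := by
        have h5 : n ^ 109 = n ^ 9 * n ^ 100 := by ring
        have h6 : n ^ 1 ≤ n ^ 100 := pow_le_pow_right₀ (by linarith) (by norm_num)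
        have h60 : n ^ 16 ≤ n ^ 100 := pow_le_pow_right₀ (by linarith) (by norm_num)
        have h7 : (4 : ℝ) ^ 9 ≤ n ^ 9 := pow_le_pow_left₀ (by norm_num) hn4 9
        have h8 : 0 < n ^ 100 := by positivity
        have : 3 * n ^ 100 + n + (9 * n ^ 100 - n ^ 109 / 4) ≤ -n ^ 16 := by
          rw [h5]; rw [pow_one] at h6; nlinarith
        gcongr

lemma cover {N : ℕ} (hN4 : 4 ≤ N) {t : ℝ} (ht0 : 0 < t) :
    (Nat.primesLE ⌊t⌋₊).filter (fun q => N ^ 10 ≤ lv q ∧ ¬ Normal N q) ⊆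
    ((Icc 1 ⌊Real.log (Real.log t)⌋₊).biUnion (fun b => (Nat.primesLE ⌊t⌋₊).filter (fun q =>
      b * N ^ 50 ≤ lv q ∧ N ^ 50 + N ^ 34 < Om (b * N ^ 50) ((b + 1) * N ^ 50) (q - 1))) ∪
     (Icc 1 ⌊Real.log (Real.log t)⌋₊).biUnion (fun b => (Nat.primesLE ⌊t⌋₊).filter (fun q =>
      (b + 1) * N ^ 50 ≤ lv q ∧ Om (b * N ^ 50) ((b + 1) * N ^ 50) (q - 1) < N ^ 50 - N ^ 34))) ∪
      (Icc (N ^ 80) (3 * N ^ 100)).biUnion (fun y => (Nat.primesLE ⌊t⌋₊).filter (fun q =>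
      Real.exp (Real.exp y / (4 * N)) <
        (smp (Real.exp (Real.exp y / (N : ℝ) ^ 110)) (q - 1) : ℝ))) := by
  intro q hq
  obtain ⟨hq1, hq2, hq3⟩ := Finset.mem_filter.1 hq
  have hqB := lv_le_B ht0 hq1
  have hΔ1 : 1 ≤ N ^ 50 := Nat.one_le_pow _ _ (by omega)
  by_contra hcon
  simp only [Finset.mem_union, Finset.mem_biUnion, not_or, not_exists, not_and] at hcon
  obtain ⟨⟨hc1, hc2⟩, hc4⟩ := hcon
  apply hq3
  refine ⟨(Nat.mem_primesLE.1 hq1).2, hq2, ?_, ?_, ?_⟩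
  · intro b hb1 hb2
    by_contra h
    push Not at h
    have hbB : b ≤ ⌊Real.log (Real.log t)⌋₊ := by
      have : b * 1 ≤ b * N ^ 50 := Nat.mul_le_mul_left b hΔ1
      omega
    exact hc1 b (Finset.mem_Icc.2 ⟨hb1, hbB⟩) (Finset.mem_filter.2 ⟨hq1, hb2, h⟩)
  · intro b hb1 hb2
    by_contra h
    push Not at h
    have hbB : b ≤ ⌊Real.log (Real.log t)⌋₊ := by
      have : (b + 1) * 1 ≤ (b + 1) * N ^ 50 := Nat.mul_le_mul_left (b + 1) hΔ1
      omega
    exact hc2 b (Finset.mem_Icc.2 ⟨hb1, hbB⟩) (Finset.mem_filter.2 ⟨hq1, hb2, h⟩)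
  · intro y hy1 hy2
    by_contra h
    push Not at h
    exact hc4 y (Finset.mem_Icc.2 ⟨hy1, hy2⟩) (Finset.mem_filter.2 ⟨hq1, h⟩)

end Nrm

open Finset Filter Topology Nrm
open scoped Classical

theorem nonnormal_count : ∃ N₀ : ℕ, ∀ N ≥ N₀, ∀ t : ℝ, 16 ≤ t →
    (N : ℝ) ^ 10 ≤ Real.log (Real.log t) → Real.log (Real.log t) ≤ 3 * (N : ℝ) ^ 100 →
    (((Nat.primesLE ⌊t⌋₊).filter (fun q => N ^ 10 ≤ lv q ∧ ¬ Normal N q)).card : ℝ) ≤
      t / Real.log t * Real.exp (-(N : ℝ) ^ 16) := by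
  obtain ⟨CE, k, hCE, hem⟩ := em_bound
  obtain ⟨CP, hCP, hsp⟩ := smooth_part_count
  have ev1 := ev_poly (4 * CE * 3 ^ (k + 1)) (100 * (k + 1))
  have ev2 := ev_poly (8 * CP) 100
  have ev3 := ev_poly 3 110
  obtain ⟨N₀, hN₀⟩ := eventually_atTop.1 (ev1.and (ev2.and (ev3.and (eventually_ge_atTop 4))))
  refine ⟨N₀, ?_⟩
  intro N hN t ht hlow hhigh
  obtain ⟨hv1, hv2, hv3, hN4⟩ := hN₀ N hN
  have hn4 : (4 : ℝ) ≤ N := by exact_mod_cast hN4
  have ht0 : 0 < t := by linarith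
  have hLpos : 0 < Real.log t := Real.log_pos (by linarith)
  have hn10 : (1 : ℝ) ≤ (N : ℝ) ^ 10 := one_le_pow₀ (by linarith)
  have hLL1 : 1 ≤ Real.log (Real.log t) := by linarith
  have hBle : (⌊Real.log (Real.log t)⌋₊ : ℝ) ≤ Real.log (Real.log t) := Nat.floor_le (by linarith)
  have h1 := Finset.card_le_card (cover hN4 ht0)
  have hcard := h1.trans ((Finset.card_union_le _ _).trans
    (Nat.add_le_add ((Finset.card_union_le _ _).trans
      (Nat.add_le_add Finset.card_biUnion_le Finset.card_biUnion_le)) Finset.card_biUnion_le))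
  have hcardR : (((Nat.primesLE ⌊t⌋₊).filter (fun q => N ^ 10 ≤ lv q ∧ ¬ Normal N q)).card : ℝ) ≤ _ :=
    Nat.cast_le.2 hcard
  push_cast at hcardR
  have hs1 := Finset.sum_le_sum (fun b (hb : b ∈ Icc 1 ⌊Real.log (Real.log t)⌋₊) =>
    bound_S1 hCE hem hN4 ht hLL1 (Finset.mem_Icc.1 hb).1)
  have hs2 := Finset.sum_le_sum (fun b (hb : b ∈ Icc 1 ⌊Real.log (Real.log t)⌋₊) =>
    bound_S2 hCE hem hN4 ht hLL1 (Finset.mem_Icc.1 hb).1)
  have hs4 := Finset.sum_le_sum (fun y (hy : y ∈ Icc (N ^ 80) (3 * N ^ 100)) =>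
    bound_S4 hCP hsp hN4 ht hv3 (Finset.mem_Icc.1 hy).1 (Finset.mem_Icc.1 hy).2)
  rw [Finset.sum_const, nsmul_eq_mul, Nat.card_Icc] at hs1 hs2 hs4
  have hB' : ((⌊Real.log (Real.log t)⌋₊ + 1 - 1 : ℕ) : ℝ) ≤ 3 * (N : ℝ) ^ 100 := by
    rw [Nat.add_sub_cancel]; linarith
  have hY' : ((3 * N ^ 100 + 1 - N ^ 80 : ℕ) : ℝ) ≤ 4 * (N : ℝ) ^ 100 := by
    have h1 : 3 * N ^ 100 + 1 - N ^ 80 ≤ 4 * N ^ 100 := by
      have : 1 ≤ N ^ 100 := Nat.one_le_pow _ _ (by omega)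
      omega
    calc ((3 * N ^ 100 + 1 - N ^ 80 : ℕ) : ℝ) ≤ ((4 * N ^ 100 : ℕ) : ℝ) := by exact_mod_cast h1
      _ = 4 * (N : ℝ) ^ 100 := by push_cast; rfl
  have hfirst := sum_first (k := k) hCE ht0 hLpos hn4 hLL1 hhigh (Nat.cast_nonneg _) hB' hv1
  have hlast := sum_last hCP ht0 hLpos hn4 hhigh (Nat.cast_nonneg _) hY' hv2
  linarith

theorem nonnormal_sum : ∃ N₀ : ℕ, ∀ N ≥ N₀, ∀ c : ℕ, N ^ 10 ≤ c → c + 2 ≤ 3 * N ^ 100 →
    ∑ q ∈ (PL c (c + 1)).filter (fun q => ¬ Normal N q), (1 : ℝ) / ((q : ℝ) - 1) ≤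
      Real.exp (-(N : ℝ) ^ 15) := by
  obtain ⟨N₀, hN₀⟩ := nonnormal_count
  refine ⟨max N₀ 4, ?_⟩
  intro N hN c hc1 hc2
  have hNN := hN₀ N (le_trans (le_max_left _ _) hN)
  have hN4 : 4 ≤ N := le_trans (le_max_right _ _) hN
  have hn4 : (4 : ℝ) ≤ N := by exact_mod_cast hN4
  have hc0 : 1 ≤ c := le_trans (Nat.one_le_pow _ _ (by omega)) hc1
  have hc0' : (1 : ℝ) ≤ c := by exact_mod_cast hc0
  set S := (PL c (c + 1)).filter (fun q => ¬ Normal N q) with hS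
  have hl2 : (0.69 : ℝ) < Real.log 2 := by have := Real.log_two_gt_d9; linarith
  have hl2' : Real.log 2 < 0.7 := by have := Real.log_two_lt_d9; linarith
  -- data of an element
  have hdata : ∀ q ∈ S, q.Prime ∧ lv q = c ∧ ¬ Normal N q ∧ Real.exp (Real.exp c) ≤ q ∧
      (q : ℝ) ≤ Real.exp (Real.exp (c + 1)) := by
    intro q hq
    obtain ⟨h1, h2⟩ := Finset.mem_filter.1 hq
    unfold PL at h1
    obtain ⟨h3, h4, h5⟩ := Finset.mem_filter.1 h1
    rw [Nat.mem_primesLE] at h3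
    have h6 := (Nat.le_floor_iff (Real.exp_pos _).le).1 h3.1
    push_cast at h6
    exact ⟨h3.2, by omega, h2, exp_le_of_lv hc0 h4, h6⟩
  -- fibres of `clog`
  set I := Nat.clog 2 ⌊Real.exp (Real.exp (c + 1))⌋₊ with hI
  have hmaps : ∀ q ∈ S, Nat.clog 2 q ∈ range (I + 1) := by
    intro q hq
    obtain ⟨h1, h2, h3, h4, h5⟩ := hdata q hq
    rw [Finset.mem_range, Nat.lt_succ_iff]
    exact Nat.clog_mono_right 2 (Nat.le_floor h5)
  rw [← Finset.sum_fiberwise_of_maps_to hmaps]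
  have hfib : ∀ i ∈ range (I + 1), ∑ q ∈ S.filter (fun q => Nat.clog 2 q = i),
      (1 : ℝ) / ((q : ℝ) - 1) ≤ 4 * Real.exp (-(c : ℝ)) * Real.exp (-(N : ℝ) ^ 16) := by
    intro i hi
    by_cases hne : (S.filter (fun q => Nat.clog 2 q = i)).Nonempty
    · obtain ⟨q0, hq0⟩ := hne
      obtain ⟨hq01, hq02⟩ := Finset.mem_filter.1 hq0
      obtain ⟨h1, h2, h3, h4, h5⟩ := hdata q0 hq01
      have hq0le : q0 ≤ 2 ^ i := by rw [← hq02]; exact Nat.le_pow_clog (by norm_num) q0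
      have hq0le' : (q0 : ℝ) ≤ 2 ^ i := by exact_mod_cast hq0le
      have hi0 : i ≠ 0 := by
        rintro rfl
        have := h1.two_le
        omega
      have hlt : (2 : ℝ) ^ i < 2 * q0 := by
        have h6 : 2 ^ (i - 1) < q0 := by
          rw [← hq02]
          exact Nat.pow_pred_clog_lt_self (by norm_num) h1.one_lt
        have h7 : (2 : ℝ) ^ (i - 1) < q0 := by exact_mod_cast h6
        have h8 : (2 : ℝ) ^ i = 2 * 2 ^ (i - 1) := by
          rw [← pow_succ']; congr 1; omega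
        rw [h8]; linarith
      have hE3 : (16 : ℝ) ≤ Real.exp (Real.exp c) := by
        have h6 : (3 : ℝ) ≤ Real.exp c := by
          have := Real.add_one_le_exp (c : ℝ)
          have h60 : 2 ≤ c := by
            have : 4 ^ 10 ≤ N ^ 10 := Nat.pow_le_pow_left hN4 10
            norm_num at this
            omega
          have h61 : (2 : ℝ) ≤ c := by exact_mod_cast h60
          linarith
        have h7 : Real.exp 3 ≤ Real.exp (Real.exp c) := Real.exp_le_exp.2 h6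
        have h8 : Real.exp 3 = Real.exp 1 * Real.exp 1 * Real.exp 1 := by
          rw [← Real.exp_add, ← Real.exp_add]; norm_num
        have h9 := Real.exp_one_gt_d9
        have h10 : (7.3 : ℝ) ≤ Real.exp 1 * Real.exp 1 := by nlinarith
        rw [h8] at h7
        nlinarith
      have ht16 : (16 : ℝ) ≤ 2 ^ i := by linarith
      have hlogge : Real.exp c ≤ Real.log (2 ^ i) := by
        rw [Real.le_log_iff_exp_le (by positivity)]
        linarith
      have hloglogge : (c : ℝ) ≤ Real.log (Real.log (2 ^ i)) := by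
        rw [Real.le_log_iff_exp_le (lt_of_lt_of_le (Real.exp_pos _) hlogge)]
        exact hlogge
      have hloglogle : Real.log (Real.log (2 ^ i)) ≤ c + 2 := by
        rw [Real.log_le_iff_le_exp (lt_of_lt_of_le (Real.exp_pos _) hlogge),
          Real.log_le_iff_le_exp (by positivity)]
        have h6 : Real.exp (c + 1 + 1) = Real.exp (c + 1) * Real.exp 1 := Real.exp_add _ _
        have h7 : (1 : ℝ) ≤ Real.exp (c + 1) := Real.one_le_exp (by positivity)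
        have h8 : Real.log 2 + Real.exp (c + 1) ≤ Real.exp (c + 2) := by
          have h9 : (c : ℝ) + 2 = c + 1 + 1 := by ring
          rw [h9, h6]
          have := Real.exp_one_gt_d9
          nlinarith
        calc (2 : ℝ) ^ i ≤ 2 * Real.exp (Real.exp (c + 1)) := by linarith
          _ = Real.exp (Real.log 2 + Real.exp (c + 1)) := by
              rw [Real.exp_add (Real.log 2), Real.exp_log (by norm_num)]
          _ ≤ _ := Real.exp_le_exp.2 h8
      have hcard := hNN (2 ^ i) ht16 ?_ ?_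
      · have hsub : S.filter (fun q => Nat.clog 2 q = i) ⊆
            (Nat.primesLE ⌊((2 : ℝ) ^ i)⌋₊).filter (fun q => N ^ 10 ≤ lv q ∧ ¬ Normal N q) := by
          intro q hq
          obtain ⟨hq1, hq2⟩ := Finset.mem_filter.1 hq
          obtain ⟨g1, g2, g3, g4, g5⟩ := hdata q hq1
          refine Finset.mem_filter.2 ⟨Nat.mem_primesLE.2 ⟨Nat.le_floor ?_, g1⟩, by omega, g3⟩
          have : q ≤ 2 ^ i := by rw [← hq2]; exact Nat.le_pow_clog (by norm_num) q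
          exact_mod_cast this
        have hterm : ∀ q ∈ S.filter (fun q => Nat.clog 2 q = i), (1 : ℝ) / ((q : ℝ) - 1) ≤ 4 / 2 ^ i := by
          intro q hq
          obtain ⟨hq1, hq2⟩ := Finset.mem_filter.1 hq
          obtain ⟨g1, g2, g3, g4, g5⟩ := hdata q hq1
          have h6 : 2 ^ (i - 1) < q := by
            rw [← hq2]
            exact Nat.pow_pred_clog_lt_self (by norm_num) g1.one_lt
          have h7 : (2 : ℝ) ^ (i - 1) < q := by exact_mod_cast h6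
          have h8 : (2 : ℝ) ^ i = 2 * 2 ^ (i - 1) := by
            rw [← pow_succ']; congr 1; omega
          rw [div_le_div_iff₀ (by linarith) (by positivity)]
          linarith
        have h6 : ((S.filter (fun q => Nat.clog 2 q = i)).card : ℝ) ≤
            2 ^ i / Real.log (2 ^ i) * Real.exp (-(N : ℝ) ^ 16) :=
          le_trans (by exact_mod_cast Finset.card_le_card hsub) hcard
        calc ∑ q ∈ S.filter (fun q => Nat.clog 2 q = i), (1 : ℝ) / ((q : ℝ) - 1)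
            ≤ ∑ q ∈ S.filter (fun q => Nat.clog 2 q = i), (4 : ℝ) / 2 ^ i := Finset.sum_le_sum hterm
          _ = ((S.filter (fun q => Nat.clog 2 q = i)).card : ℝ) * (4 / 2 ^ i) := by
              rw [Finset.sum_const, nsmul_eq_mul]
          _ ≤ (2 ^ i / Real.exp c * Real.exp (-(N : ℝ) ^ 16)) * (4 / 2 ^ i) := by
              refine mul_le_mul_of_nonneg_right (h6.trans ?_) (by positivity)
              gcongr
          _ = 4 * Real.exp (-(c : ℝ)) * Real.exp (-(N : ℝ) ^ 16) := by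
              rw [Real.exp_neg (c : ℝ)]
              field_simp
      · refine le_trans ?_ hloglogge
        exact_mod_cast hc1
      · refine hloglogle.trans ?_
        exact_mod_cast hc2
    · rw [Finset.not_nonempty_iff_eq_empty] at hne
      rw [hne, Finset.sum_empty]
      positivity
  refine (Finset.sum_le_sum hfib).trans ?_
  rw [Finset.sum_const, nsmul_eq_mul, Finset.card_range]
  have hE1 : (1 : ℝ) ≤ Real.exp c := Real.one_le_exp (by positivity)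
  have hI2 : ((I + 1 : ℕ) : ℝ) ≤ 6 * Real.exp c := by
    have hbig : 1 < ⌊Real.exp (Real.exp (c + 1))⌋₊ := by
      have h6 := MertAux.exp_exp_ge (c + 1) (by omega)
      push_cast at h6
      have : (2 : ℝ) ≤ Real.exp (Real.exp (c + 1)) := by linarith
      exact Nat.le_floor (by exact_mod_cast this)
    have h6 : 2 ^ (I - 1) < ⌊Real.exp (Real.exp (c + 1))⌋₊ :=
      Nat.pow_pred_clog_lt_self (by norm_num) hbig
    have h7 : (2 : ℝ) ^ (I - 1) < Real.exp (Real.exp (c + 1)) := by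
      have h8 : ((2 ^ (I - 1) : ℕ) : ℝ) < (⌊Real.exp (Real.exp (c + 1))⌋₊ : ℝ) := by
        exact_mod_cast h6
      push_cast at h8
      exact lt_of_lt_of_le h8 (Nat.floor_le (Real.exp_pos _).le)
    have h8 : ((I - 1 : ℕ) : ℝ) * Real.log 2 < Real.exp (c + 1) := by
      rw [← Real.log_pow, Real.log_lt_iff_lt_exp (by positivity)]
      exact h7
    have h9 : (I : ℝ) - 1 ≤ ((I - 1 : ℕ) : ℝ) := by
      rcases Nat.eq_zero_or_pos I with h | h
      · rw [h]; simp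
      · rw [Nat.cast_sub h]; simp
    have h10 : Real.exp (c + 1) = Real.exp c * Real.exp 1 := Real.exp_add _ _
    have h11 := Real.exp_one_lt_d9
    have h12 : ((I - 1 : ℕ) : ℝ) * 0.69 ≤ Real.exp c * 2.72 := by
      have h13 : (0 : ℝ) ≤ ((I - 1 : ℕ) : ℝ) := Nat.cast_nonneg _
      nlinarith
    push_cast
    nlinarith
  have hfin : 24 * Real.exp (-(N : ℝ) ^ 16) ≤ Real.exp (-(N : ℝ) ^ 15) := by
    have h6 : (N : ℝ) ^ 16 = N * (N : ℝ) ^ 15 := by ring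
    have h7 : (4 : ℝ) ^ 15 ≤ (N : ℝ) ^ 15 := pow_le_pow_left₀ (by norm_num) hn4 15
    have h8 : (24 : ℝ) ≤ Real.exp ((N : ℝ) ^ 15) := by
      have := Real.add_one_le_exp ((N : ℝ) ^ 15)
      norm_num at h7
      linarith
    calc 24 * Real.exp (-(N : ℝ) ^ 16) ≤ Real.exp ((N : ℝ) ^ 15) * Real.exp (-(N : ℝ) ^ 16) := by
          gcongr
      _ = Real.exp ((N : ℝ) ^ 15 + -(N : ℝ) ^ 16) := by rw [Real.exp_add]
      _ ≤ Real.exp (-(N : ℝ) ^ 15) := by
          apply Real.exp_le_exp.2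
          rw [h6]
          nlinarith
  calc ((I + 1 : ℕ) : ℝ) * (4 * Real.exp (-(c : ℝ)) * Real.exp (-(N : ℝ) ^ 16))
      ≤ (6 * Real.exp c) * (4 * Real.exp (-(c : ℝ)) * Real.exp (-(N : ℝ) ^ 16)) := by gcongr
    _ = 24 * Real.exp (-(N : ℝ) ^ 16) := by
        have : Real.exp c * Real.exp (-(c : ℝ)) = 1 := by rw [← Real.exp_add]; simp
        linear_combination (24 * Real.exp (-(N : ℝ) ^ 16)) * this
    _ ≤ _ := hfin

end P031
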