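import Vale.Agent.P031.CRed
import Vale.Agent.P031.Mert
import Vale.Agent.P031.Rankin

/-! P031, [OVER]: overfull integers. -/

namespace P031

open Finset Filter Topology
open scoped Classical

namespace OverAux

open OmT

/-! ### the combinatorial inequality -/

/-- `Q(r) = a_1 + ... + a_{r-1}` -/
noncomputable def QQ (r : ℕ) : ℝ := ∑ i ∈ range (r - 1), aa (1 + i)

/-- sum of the `aa (k+i)` over the entries `≥ θ` -/
noncomputable def Sa : ℕ → ℕ → List ℕ → ℝ
  | _, _, [] => 0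
  | k, θ, x :: c => (if θ ≤ x then aa k else 0) + Sa (k + 1) θ c

theorem Sa_eq_zero {k θ : ℕ} {c : List ℕ} (h : ∀ x ∈ c, x < θ) : Sa k θ c = 0 := by
  induction c generalizing k with
  | nil => rfl
  | cons x c ih =>
    rw [Sa, if_neg (by have := h x (by simp); omega), ih (fun y hy => h y (by simp [hy])), add_zero]

theorem Sa_eq {k θ : ℕ} {c : List ℕ} (h : c.Pairwise (· ≥ ·)) :
    Sa k θ c = ∑ i ∈ range (c.countP (fun x => θ ≤ x)), aa (k + i) := by
  induction c generalizing k with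
  | nil => simp [Sa]
  | cons x c ih =>
    rw [List.pairwise_cons] at h
    by_cases hx : θ ≤ x
    · rw [Sa, if_pos hx, List.countP_cons_of_pos (by simpa using hx), Finset.sum_range_succ',
        ih h.2, add_zero, add_comm]
      congr 1
      refine Finset.sum_congr rfl fun i _ => ?_
      congr 1
      ring
    · have h0 : ∀ y ∈ c, y < θ := fun y hy => by have := h.1 y hy; omega
      rw [Sa, if_neg hx, Sa_eq_zero h0, List.countP_cons_of_neg (by simpa using hx),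
        List.countP_eq_zero.2 (by simpa using h0)]
      simp

/-- for a sorted list, the tail sum is at most `Q` of the number of large entries -/
theorem Sa_tail_le {θ : ℕ} {c : List ℕ} (h : c.Pairwise (· ≥ ·)) :
    Sa 1 θ c.tail ≤ QQ (c.countP (fun x => θ ≤ x)) := by
  cases c with
  | nil => simp [Sa, QQ]
  | cons x c =>
    rw [List.tail_cons, Sa_eq (List.pairwise_cons.1 h).2, QQ]
    by_cases hx : θ ≤ x
    · rw [List.countP_cons_of_pos (by simpa using hx), Nat.add_sub_cancel]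
    · have h0 : ∀ y ∈ c, y < θ := fun y hy => by
        have := (List.pairwise_cons.1 h).1 y hy; omega
      rw [List.countP_cons_of_neg (by simpa using hx),
        List.countP_eq_zero.2 (by simpa using h0)]

theorem card_blocks {D B x : ℕ} (hD : 0 < D) (hx : x < (B + 1) * D) :
    (x : ℝ) - 2 * D ≤ (D : ℝ) * (((Icc 1 B).filter (fun b => (b + 1) * D ≤ x)).card : ℝ) := by
  have h1 : Icc 1 (x / D - 1) ⊆ (Icc 1 B).filter (fun b => (b + 1) * D ≤ x) := by
    intro b hb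
    rw [mem_Icc] at hb
    have h2 : b + 1 ≤ x / D := by omega
    have h3 : (b + 1) * D ≤ x := by
      rw [← Nat.le_div_iff_mul_le hD]; exact h2
    have h4 : x / D < B + 1 := (Nat.div_lt_iff_lt_mul hD).2 hx
    rw [mem_filter, mem_Icc]
    exact ⟨⟨hb.1, by omega⟩, h3⟩
  have h2 := card_le_card h1
  rw [Nat.card_Icc, Nat.add_sub_cancel] at h2
  have h3 : x < (x / D + 1) * D := by
    have := Nat.lt_div_mul_add hD (a := x)
    rw [add_mul, one_mul]; exact this
  have h4 : x / D ≤ ((Icc 1 B).filter (fun b => (b + 1) * D ≤ x)).card + 1 := by omega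
  have h5 : x ≤ (((Icc 1 B).filter (fun b => (b + 1) * D ≤ x)).card + 2) * D :=
    (h3.le).trans (Nat.mul_le_mul_right _ (by omega))
  have h6 : (x : ℝ) ≤ ((((Icc 1 B).filter (fun b => (b + 1) * D ≤ x)).card : ℝ) + 2) * D := by
    exact_mod_cast h5
  linarith

theorem aa_le (n : ℕ) : aa n ≤ n := by
  unfold aa
  rcases Nat.eq_zero_or_pos n with rfl | hn
  · simp
  have hn' : (0 : ℝ) < n := by exact_mod_cast hn
  have h1 : Real.log ((n : ℝ) + 1) - Real.log n ≤ 1 / n := by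
    rw [← Real.log_div (by positivity) (by positivity)]
    have := Real.log_le_sub_one_of_pos (show 0 < ((n : ℝ) + 1) / n by positivity)
    have e : ((n : ℝ) + 1) / n - 1 = 1 / n := by field_simp; ring
    linarith
  have h2 : Real.log ((n : ℝ) + 1) ≤ n := by
    have := Real.log_le_sub_one_of_pos (show 0 < (n : ℝ) + 1 by positivity)
    linarith
  have h3 : (n : ℝ) * (Real.log ((n : ℝ) + 1) - Real.log n) ≤ 1 := by
    calc (n : ℝ) * (Real.log ((n : ℝ) + 1) - Real.log n) ≤ n * (1 / n) := by gcongr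
      _ = 1 := by field_simp
  nlinarith

theorem sum_Sa_ge {D B : ℕ} (hD : 0 < D) {c : List ℕ} (hc : ∀ x ∈ c, x < (B + 1) * D) :
    ∀ {k m : ℕ}, 1 ≤ k → k + c.length ≤ m →
    al k c - 2 * D * (c.length * m) ≤ D * ∑ b ∈ Icc 1 B, Sa k ((b + 1) * D) c := by
  induction c with
  | nil => intro k m _ _; simp [al, Sa]
  | cons x c ih =>
    intro k m hk hm
    rw [List.length_cons] at hm
    have h1 := ih (fun y hy => hc y (by simp [hy])) (k := k + 1) (m := m) (by omega) (by omega)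
    have h2 := card_blocks hD (hc x (by simp))
    have h3 : ∑ b ∈ Icc 1 B, Sa k ((b + 1) * D) (x :: c) =
        aa k * (((Icc 1 B).filter (fun b => (b + 1) * D ≤ x)).card : ℝ) +
          ∑ b ∈ Icc 1 B, Sa (k + 1) ((b + 1) * D) c := by
      simp only [Sa]
      rw [Finset.sum_add_distrib, ← Finset.sum_filter, Finset.sum_const, nsmul_eq_mul, mul_comm]
    rw [h3, mul_add]
    have h4 := aa_nonneg hk
    have h5 : aa k ≤ m := (aa_le k).trans (by exact_mod_cast (by omega : k ≤ m))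
    have h6 := mul_le_mul_of_nonneg_left h2 h4
    have h7 : 2 * (D : ℝ) * aa k ≤ 2 * D * m := by gcongr
    simp only [al, List.length_cons]
    push_cast
    nlinarith

/-- `Q` in closed form -/
theorem QQ_eq {r : ℕ} (hr : 1 ≤ r) : QQ r = r * Real.log r - (r - 1) := by
  unfold QQ
  induction r, hr using Nat.le_induction with
  | base => simp
  | succ r hr ih =>
    obtain ⟨s, rfl⟩ : ∃ s, r = s + 1 := ⟨r - 1, by omega⟩
    rw [Nat.add_sub_cancel] at ih ⊢
    rw [Finset.sum_range_succ, ih]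
    unfold aa
    push_cast
    ring_nf

/-! ### the Rankin bound for given numbers of large entries -/

theorem Om_eq_PL (a b n : ℕ) : Om a b n = ∑ p ∈ PL a b, n.factorization p := by
  unfold Om
  refine Finset.sum_subset (fun p hp => ?_) (fun p hp hp' => ?_)
  · rw [mem_filter, Nat.mem_primeFactors] at hp
    rw [MertAux.mem_PL]
    exact ⟨hp.1.1, hp.2⟩
  · rw [MertAux.mem_PL] at hp
    rw [mem_filter] at hp'
    have h1 : p ∉ n.primeFactors := fun h => hp' ⟨h, hp.2⟩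
    rw [← Nat.support_factorization, Finsupp.notMem_support_iff] at h1
    exact h1

theorem PL_fiber {D B b : ℕ} (hD : 0 < D) (hb : b ∈ Icc 1 B) :
    (PL D ((B + 1) * D)).filter (fun p => lv p / D = b) = PL (b * D) ((b + 1) * D) := by
  rw [mem_Icc] at hb
  ext p
  rw [mem_filter, MertAux.mem_PL, MertAux.mem_PL]
  constructor
  · rintro ⟨⟨h1, h2, h3⟩, h4⟩
    refine ⟨h1, ?_, ?_⟩
    · rw [← h4]; exact Nat.div_mul_le_self _ _
    · rw [← h4, add_mul, one_mul]
      exact Nat.lt_div_mul_add hD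
  · rintro ⟨h1, h2, h3⟩
    refine ⟨⟨h1, ?_, ?_⟩, ?_⟩
    · exact (Nat.le_mul_of_pos_left D (by omega)).trans h2
    · exact h3.trans_le (Nat.mul_le_mul_right _ (by omega))
    · rw [Nat.div_eq_iff hD]
      rw [add_mul, one_mul] at h3
      omega

theorem maps_fiber {D B p : ℕ} (hD : 0 < D) (hp : p ∈ PL D ((B + 1) * D)) :
    lv p / D ∈ Icc 1 B := by
  rw [MertAux.mem_PL] at hp
  rw [mem_Icc]
  refine ⟨(Nat.one_le_div_iff hD).2 hp.2.1, ?_⟩
  have := (Nat.div_lt_iff_lt_mul hD).2 hp.2.2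
  omega

/-- at least `ρ b * (D - E)` prime factors in block `b` -/
def Pat (D E B : ℕ) (ρ : ℕ → ℕ) (v : ℕ) : Prop :=
  ∀ b ∈ Icc 1 B, ρ b * (D - E) ≤ Om (b * D) ((b + 1) * D) v

theorem rankin_step {C : ℝ} (hC : 0 ≤ C)
    (hlm : ∀ a b : ℕ, a ≤ b → |∑ p ∈ PL a b, (1 : ℝ) / p - ((b : ℝ) - a)| ≤ C)
    {D E M B : ℕ} (hE : E ≤ D) (hD : 4 * (M + 1) ≤ D) (ρ : ℕ → ℕ)
    (hρ : ∀ b, ρ b ≤ M) (x : ℕ) :
    (((Icc 1 x).filter (Pat D E B ρ)).card : ℝ) ≤
      x * Real.exp (-(D * ∑ b ∈ Icc 1 B, QQ (ρ b)) + B * (M * (1 + 2 * C) + E * M * M)) := by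
  have hD0 : 0 < D := by omega
  have hDr : (0 : ℝ) < D := by exact_mod_cast hD0
  obtain ⟨lb, hlb⟩ : ∃ lb : ℕ → ℝ, lb = fun b => max 1 (ρ b : ℝ) := ⟨_, rfl⟩
  have hlb1 : ∀ b, 1 ≤ lb b := fun b => by rw [hlb]; exact le_max_left _ _
  have hlbM : ∀ b, lb b ≤ M + 1 := fun b => by
    rw [hlb]
    have : (ρ b : ℝ) ≤ M := by exact_mod_cast hρ b
    exact max_le (by linarith [(Nat.cast_nonneg M : (0 : ℝ) ≤ M)]) (by linarith)
  obtain ⟨P, hP⟩ : ∃ P, P = PL D ((B + 1) * D) := ⟨_, rfl⟩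
  have hPp : ∀ p ∈ P, p.Prime := fun p hp => by
    rw [hP, MertAux.mem_PL] at hp; exact hp.1
  -- primes of the blocks are huge
  have hbig : ∀ p ∈ P, ((M : ℝ) + 1) * (D + 1) ≤ p := by
    intro p hp
    rw [hP, MertAux.mem_PL] at hp
    have h1 := le_of_le_lv (by omega) hp.2.1
    refine le_trans ?_ h1
    have h2 : Real.exp D ≤ Real.exp (Real.exp D) := by
      apply Real.exp_le_exp.2
      have := Real.add_one_le_exp (D : ℝ)
      linarith
    refine le_trans ?_ h2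
    have h3 : (1 + (D : ℝ) / 2) ^ 2 ≤ Real.exp D := by
      have h4 := Real.add_one_le_exp ((D : ℝ) / 2)
      calc (1 + (D : ℝ) / 2) ^ 2 ≤ (Real.exp (D / 2)) ^ 2 := by
            apply pow_le_pow_left₀ (by positivity)
            linarith
        _ = Real.exp D := by rw [← Real.exp_nat_mul]; congr 1; push_cast; ring
    refine le_trans ?_ h3
    have h5 : 4 * ((M : ℝ) + 1) ≤ D := by exact_mod_cast hD
    nlinarith
  -- the Rankin inequality
  have hR := rankin_mean P (fun p => lb (lv p / D)) hPp (fun p _ => hlb1 _) (fun p hp => by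
    refine (hlbM _).trans_lt ?_
    have h1 := hbig p hp
    have h2 : (0 : ℝ) ≤ M := Nat.cast_nonneg M
    nlinarith) x
  -- the weights of the elements of the set
  obtain ⟨S, hS⟩ : ∃ S, S = ∑ b ∈ Icc 1 B, Real.log (lb b) * (ρ b * ((D : ℝ) - E)) := ⟨_, rfl⟩
  have hw : ∀ v ∈ (Icc 1 x).filter (Pat D E B ρ),
      Real.exp S ≤ ∏ p ∈ P, lb (lv p / D) ^ v.factorization p := by
    intro v hv
    rw [mem_filter] at hv
    have h1 : ∏ p ∈ P, lb (lv p / D) ^ v.factorization p =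
        Real.exp (∑ b ∈ Icc 1 B, Real.log (lb b) * (Om (b * D) ((b + 1) * D) v : ℝ)) := by
      have h2 : ∏ p ∈ P, lb (lv p / D) ^ v.factorization p =
          Real.exp (∑ p ∈ P, (v.factorization p : ℝ) * Real.log (lb (lv p / D))) := by
        rw [Real.exp_sum]
        refine Finset.prod_congr rfl fun p _ => ?_
        rw [Real.exp_nat_mul, Real.exp_log (by linarith [hlb1 (lv p / D)])]
      rw [h2]
      congr 1
      rw [hP, ← Finset.sum_fiberwise_of_maps_to (t := Icc 1 B) (g := fun p => lv p / D)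
        (fun p hp => maps_fiber hD0 hp)]
      refine Finset.sum_congr rfl fun b hb => ?_
      rw [Om_eq_PL, ← PL_fiber hD0 hb]
      push_cast
      rw [Finset.mul_sum]
      refine Finset.sum_congr rfl fun p hp => ?_
      rw [(mem_filter.1 hp).2, mul_comm]
    rw [h1, hS]
    apply Real.exp_le_exp.2
    refine Finset.sum_le_sum fun b hb => ?_
    refine mul_le_mul_of_nonneg_left ?_ (Real.log_nonneg (hlb1 b))
    have h3 := hv.2 b hb
    have h4 : ((ρ b * (D - E) : ℕ) : ℝ) = ρ b * ((D : ℝ) - E) := by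
      push_cast [Nat.cast_sub hE]; ring
    rw [← h4]
    exact_mod_cast h3
  have h1 : (((Icc 1 x).filter (Pat D E B ρ)).card : ℝ) * Real.exp S ≤
      x * Real.exp (∑ p ∈ P, (lb (lv p / D) - 1) / (p - lb (lv p / D))) := by
    refine le_trans ?_ hR
    rw [← nsmul_eq_mul, ← Finset.sum_const]
    refine (Finset.sum_le_sum hw).trans ?_
    refine Finset.sum_le_sum_of_subset_of_nonneg (Finset.filter_subset _ _) (fun v _ _ => ?_)
    exact Finset.prod_nonneg fun p _ => pow_nonneg (by linarith [hlb1 (lv p / D)]) _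
  -- the sum over the primes
  have h2 : ∑ p ∈ P, (lb (lv p / D) - 1) / (p - lb (lv p / D)) ≤
      ∑ b ∈ Icc 1 B, (lb b - 1) * ((1 + 1 / D) * (D + C)) := by
    rw [hP, ← Finset.sum_fiberwise_of_maps_to (t := Icc 1 B) (g := fun p => lv p / D)
        (fun p hp => maps_fiber hD0 hp)]
    refine Finset.sum_le_sum fun b hb => ?_
    have h3 : ∀ p ∈ (PL D ((B + 1) * D)).filter (fun p => lv p / D = b),
        (lb (lv p / D) - 1) / (p - lb (lv p / D)) ≤
          (lb b - 1) * ((1 + 1 / D) * (1 / (p : ℝ))) := by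
      intro p hp
      have hpb := (mem_filter.1 hp).2
      have hpP : p ∈ P := by rw [hP]; exact (mem_filter.1 hp).1
      have h4 := hbig p hpP
      have h5 : 0 ≤ lb b - 1 := by linarith [hlb1 b]
      rw [hpb, div_eq_mul_inv]
      refine mul_le_mul_of_nonneg_left ?_ h5
      have hM0 : (0 : ℝ) ≤ M := Nat.cast_nonneg M
      have hp0 : (0 : ℝ) < p := by
        have : (0 : ℝ) < ((M : ℝ) + 1) * (D + 1) := by positivity
        linarith
      have h6 : lb b * (D + 1) ≤ p := by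
        refine le_trans ?_ h4
        exact mul_le_mul_of_nonneg_right (hlbM b) (by positivity)
      have h7 : 0 < p - lb b := by
        nlinarith [hlb1 b]
      rw [inv_eq_one_div, div_le_iff₀ h7]
      have e : (1 + 1 / (D : ℝ)) * (1 / p) * (p - lb b) =
          ((D + 1) * (p - lb b)) / (D * p) := by field_simp
      rw [e, le_div_iff₀ (by positivity)]
      nlinarith
    refine (Finset.sum_le_sum h3).trans ?_
    rw [← Finset.mul_sum, ← Finset.mul_sum, PL_fiber hD0 hb]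
    have h5 : 0 ≤ lb b - 1 := by linarith [hlb1 b]
    refine mul_le_mul_of_nonneg_left ?_ h5
    refine mul_le_mul_of_nonneg_left ?_ (by positivity)
    have h8 := (abs_le.1 (hlm (b * D) ((b + 1) * D) (Nat.mul_le_mul_right _ (by omega)))).2
    push_cast at h8
    linarith
  -- collecting
  have h3 : (((Icc 1 x).filter (Pat D E B ρ)).card : ℝ) ≤
      x * Real.exp (∑ b ∈ Icc 1 B, (lb b - 1) * ((1 + 1 / D) * (D + C)) - S) := by
    rw [Real.exp_sub, mul_div_assoc', le_div_iff₀ (Real.exp_pos _)]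
    refine h1.trans ?_
    exact mul_le_mul_of_nonneg_left (Real.exp_le_exp.2 h2) (Nat.cast_nonneg _)
  refine h3.trans (mul_le_mul_of_nonneg_left (Real.exp_le_exp.2 ?_) (Nat.cast_nonneg _))
  rw [hS, ← Finset.sum_sub_distrib, Finset.mul_sum, ← Finset.sum_neg_distrib]
  have e1 : (B : ℝ) * (M * (1 + 2 * C) + E * M * M) =
      ∑ _b ∈ Icc 1 B, ((M : ℝ) * (1 + 2 * C) + E * M * M) := by
    rw [Finset.sum_const, Nat.card_Icc, Nat.add_sub_cancel, nsmul_eq_mul]
  rw [e1, ← Finset.sum_add_distrib]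
  refine Finset.sum_le_sum fun b _ => ?_
  have hM0 : (0 : ℝ) ≤ M := Nat.cast_nonneg M
  have hE0 : (0 : ℝ) ≤ E := Nat.cast_nonneg E
  have hD1 : (1 : ℝ) ≤ D := by exact_mod_cast hD0
  rcases Nat.eq_zero_or_pos (ρ b) with h0 | h0
  · have h4 : lb b = 1 := by rw [hlb]; simp [h0]
    rw [h4, h0, QQ]
    simp
    positivity
  · have hr1 : (1 : ℝ) ≤ ρ b := by exact_mod_cast h0
    have hrM : (ρ b : ℝ) ≤ M := by exact_mod_cast hρ b
    have h4 : lb b = ρ b := by rw [hlb]; exact max_eq_right hr1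
    rw [h4, QQ_eq h0]
    have h5 : 0 ≤ Real.log (ρ b) := Real.log_nonneg hr1
    have h6 : Real.log (ρ b) ≤ M := by
      have := Real.log_le_sub_one_of_pos (show (0 : ℝ) < ρ b by linarith)
      linarith
    have h7 : (1 + 1 / (D : ℝ)) * (D + C) ≤ D + (1 + 2 * C) := by
      have e : (1 + 1 / (D : ℝ)) * (D + C) = D + 1 + C + C / D := by field_simp; ring
      have : C / D ≤ C := div_le_self hC hD1
      rw [e]; linarith
    have h8 : ((ρ b : ℝ) - 1) * ((1 + 1 / (D : ℝ)) * (D + C)) ≤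
        ((ρ b : ℝ) - 1) * (D + (1 + 2 * C)) :=
      mul_le_mul_of_nonneg_left h7 (by linarith)
    have h9 : ((ρ b : ℝ) - 1) * (1 + 2 * C) ≤ M * (1 + 2 * C) :=
      mul_le_mul_of_nonneg_right (by linarith) (by positivity)
    have h10 : (E : ℝ) * ρ b * Real.log (ρ b) ≤ E * M * M := by gcongr
    nlinarith

theorem Om_qm_ge {N b : ℕ} (hb : 1 ≤ b) {l : List ℕ} (h : ∀ q ∈ l, Normal N q) :
    (l.map lv).countP (fun x => (b + 1) * N ^ 50 ≤ x) * (N ^ 50 - N ^ 34) ≤
      Om (b * N ^ 50) ((b + 1) * N ^ 50) (qm l) := by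
  induction l with
  | nil => simp
  | cons a l ih =>
    have h1 := h a (by simp)
    have h2 : ∀ q ∈ l, Normal N q := fun q hq => h q (by simp [hq])
    have h3 := ih h2
    rw [qm_cons, Om_mul (by have := h1.prime.two_le; omega) (qm_pos fun q hq => (h2 q hq).prime),
      List.map_cons]
    by_cases hx : (b + 1) * N ^ 50 ≤ lv a
    · rw [List.countP_cons_of_pos (by simpa using hx), Nat.add_mul, one_mul, add_comm]
      exact Nat.add_le_add (h1.n2 b hb hx) h3
    · rw [List.countP_cons_of_neg (by simpa using hx)]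
      exact h3.trans (Nat.le_add_left _ _)

theorem lv_of_dvd {q v M : ℕ} {t : ℝ} (hq : q.Prime) (hd : q - 1 ∣ v) (hv : 0 < v)
    (hvt : (v : ℝ) ≤ t) (ht : 16 ≤ t) (hM : Real.log (Real.log t) ≤ M) : lv q ≤ M + 1 := by
  have hq2 := hq.two_le
  have h1 := Nat.le_of_dvd hv hd
  have h2 : (q : ℝ) ≤ t + 1 := by
    have : q ≤ v + 1 := by omega
    have : (q : ℝ) ≤ v + 1 := by exact_mod_cast this
    linarith
  have ht0 : (0 : ℝ) < t := by linarith
  have hlt : 1 < Real.log t := by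
    have h3 : Real.exp 1 < t := by
      have := Real.exp_one_lt_d9
      linarith
    rwa [Real.lt_log_iff_exp_lt ht0]
  have h4 : Real.log t ≤ Real.exp M := by
    rwa [← Real.log_le_iff_le_exp (by linarith)]
  apply lv_le_of_lt
  have h5 : t ≤ Real.exp (Real.exp M) := by
    rw [← Real.exp_log ht0]
    exact Real.exp_le_exp.2 h4
  have h6 : (1 : ℝ) ≤ Real.exp M := Real.one_le_exp (Nat.cast_nonneg M)
  have h7 : t + 1 < t * t := by nlinarith
  have h8 : t * t ≤ Real.exp (Real.exp M) * Real.exp (Real.exp M) := by gcongr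
  have h9 : Real.exp (Real.exp M) * Real.exp (Real.exp M) ≤
      Real.exp (Real.exp (((M + 1 : ℕ) : ℝ) + 1)) := by
    rw [← Real.exp_add]
    apply Real.exp_le_exp.2
    have e : Real.exp (((M + 1 : ℕ) : ℝ) + 1) = Real.exp M * Real.exp 2 := by
      rw [← Real.exp_add]; congr 1; push_cast; ring
    have h10 : (3 : ℝ) ≤ Real.exp 2 := by
      have := Real.add_one_le_exp (2 : ℝ)
      linarith
    rw [e]
    nlinarith
  linarith

end OverAux

open OverAux OmT in
theorem overfull_count : ∃ N₀ : ℕ, ∀ N ≥ N₀, ∀ t : ℝ, 16 ≤ t →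
    Real.log (Real.log t) ≤ 3 * (N : ℝ) ^ 100 →
    (((Icc 1 ⌊t⌋₊).filter (fun v : ℕ => ∃ l : List ℕ, l.length ≤ N + 1 ∧ l.Pairwise (· ≥ ·) ∧
      (∀ q ∈ l, Normal N q) ∧ (l.map (fun q => q - 1)).prod ∣ v ∧
      Real.log (Real.log t) + (N : ℝ) ^ 90 / 2 ≤ al 1 (l.tail.map lv))).card : ℝ) ≤
      t / Real.log t * Real.exp (-(N : ℝ) ^ 89) := by
  obtain ⟨C, hC, hlm⟩ := level_mass
  refine ⟨max 20 ⌈1 + 2 * C⌉₊, fun N hN t ht htau => ?_⟩
  have hN20 : 20 ≤ N := (le_max_left _ _).trans hN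
  have hNC : 1 + 2 * C ≤ N := (Nat.le_ceil _).trans (by exact_mod_cast (le_max_right _ _).trans hN)
  have hN20r : (20 : ℝ) ≤ N := by exact_mod_cast hN20
  have ht0 : (0 : ℝ) < t := by linarith
  have hlt : 1 < Real.log t := by
    have h3 : Real.exp 1 < t := by
      have := Real.exp_one_lt_d9
      linarith
    rwa [Real.lt_log_iff_exp_lt ht0]
  obtain ⟨τ, hτ⟩ : ∃ τ, τ = Real.log (Real.log t) := ⟨_, rfl⟩
  rw [← hτ] at htau ⊢
  obtain ⟨B, hB⟩ : ∃ B, B = 3 * N ^ 50 := ⟨_, rfl⟩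
  -- patterns
  obtain ⟨ext, hext⟩ : ∃ ext : (Fin (B + 1) → ℕ) → ℕ → ℕ,
    ext = fun f b => if h : b < B + 1 then f ⟨b, h⟩ else 0 := ⟨_, rfl⟩
  obtain ⟨F, hF⟩ : ∃ F : Finset (Fin (B + 1) → ℕ), F =
    (Fintype.piFinset (fun _ : Fin (B + 1) => range (N + 2))).filter (fun f =>
      τ + (N : ℝ) ^ 90 / 2 - (N : ℝ) ^ 53 ≤ ((N ^ 50 : ℕ) : ℝ) * ∑ b ∈ Icc 1 B, QQ (ext f b)) :=
    ⟨_, rfl⟩
  have hsub : (Icc 1 ⌊t⌋₊).filter (fun v : ℕ => ∃ l : List ℕ, l.length ≤ N + 1 ∧
      l.Pairwise (· ≥ ·) ∧ (∀ q ∈ l, Normal N q) ∧ (l.map (fun q => q - 1)).prod ∣ v ∧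
      τ + (N : ℝ) ^ 90 / 2 ≤ al 1 (l.tail.map lv)) ⊆
      F.biUnion (fun f => (Icc 1 ⌊t⌋₊).filter (Pat (N ^ 50) (N ^ 34) B (ext f))) := by
    intro v hv
    rw [mem_filter] at hv
    obtain ⟨hv1, l, hlen, hsort, hl, hd, hal⟩ := hv
    change qm l ∣ v at hd
    have hvI := mem_Icc.1 hv1
    have hv0 : 0 < v := hvI.1
    have hvt : (v : ℝ) ≤ t := (Nat.le_floor_iff ht0.le).1 hvI.2
    have hlv : ∀ q ∈ l, lv q ≤ 3 * N ^ 100 + 1 := by
      intro q hq
      refine lv_of_dvd (hl q hq).prime ?_ hv0 hvt ht (by rw [← hτ]; exact_mod_cast htau)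
      exact (List.dvd_prod (List.mem_map.2 ⟨q, hq, rfl⟩)).trans hd
    obtain ⟨c, hc⟩ : ∃ c, c = l.map lv := ⟨_, rfl⟩
    have hcs : c.Pairwise (· ≥ ·) := by
      rw [hc, List.pairwise_map]
      exact hsort.imp (fun h => lv_mono h)
    have hclen : c.length ≤ N + 1 := by rw [hc, List.length_map]; exact hlen
    have hct : l.tail.map lv = c.tail := by rw [hc, List.map_tail]
    obtain ⟨f, hf⟩ : ∃ f : Fin (B + 1) → ℕ,
      f = fun b : Fin (B + 1) => c.countP (fun x => ((b : ℕ) + 1) * N ^ 50 ≤ x) := ⟨_, rfl⟩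
    have hextf : ∀ b ∈ Icc 1 B, ext f b = c.countP (fun x => (b + 1) * N ^ 50 ≤ x) := by
      intro b hb
      rw [mem_Icc] at hb
      rw [hext, hf]
      simp only
      rw [dif_pos (by omega)]
    rw [mem_biUnion]
    refine ⟨f, ?_, ?_⟩
    · rw [hF, mem_filter, Fintype.mem_piFinset]
      refine ⟨fun b => ?_, ?_⟩
      · rw [mem_range, hf]
        have := List.countP_le_length (p := fun x => decide (((b : ℕ) + 1) * N ^ 50 ≤ x)) (l := c)
        simp only
        omega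
      · have h1 := sum_Sa_ge (D := N ^ 50) (B := B) (Nat.pow_pos (by omega)) (c := c.tail) (by
          intro x hx
          have hx' := List.mem_of_mem_tail hx
          rw [hc, List.mem_map] at hx'
          obtain ⟨q, hq, rfl⟩ := hx'
          have h2 := hlv q hq
          have h3 : (B + 1) * N ^ 50 = 3 * N ^ 100 + N ^ 50 := by rw [hB]; ring
          have h4 : 1 < N ^ 50 := Nat.one_lt_pow (by norm_num) (by omega)
          omega) (k := 1) (m := N + 1) le_rfl (by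
            rw [List.length_tail]; omega)
        have h5 : ∑ b ∈ Icc 1 B, Sa 1 ((b + 1) * N ^ 50) c.tail ≤
            ∑ b ∈ Icc 1 B, QQ (ext f b) := by
          refine Finset.sum_le_sum fun b hb => ?_
          rw [hextf b hb]
          exact Sa_tail_le hcs
        have h6 : 2 * ((N ^ 50 : ℕ) : ℝ) * ((c.tail.length : ℝ) * ((N + 1 : ℕ) : ℝ)) ≤
            (N : ℝ) ^ 53 := by
          have h7 : c.tail.length ≤ N := by rw [List.length_tail]; omega
          have h8 : 2 * N ^ 50 * (c.tail.length * (N + 1)) ≤ N ^ 53 := by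
            calc 2 * N ^ 50 * (c.tail.length * (N + 1)) ≤ 2 * N ^ 50 * (N * (N + N)) := by
                  gcongr
                  omega
              _ = 4 * N ^ 52 := by ring
              _ ≤ N * N ^ 52 := Nat.mul_le_mul_right _ (by omega)
              _ = N ^ 53 := by ring
          exact_mod_cast h8
        have h9 := mul_le_mul_of_nonneg_left h5 (Nat.cast_nonneg (α := ℝ) (N ^ 50))
        rw [hct] at hal
        linarith
    · rw [mem_filter]
      refine ⟨hv1, fun b hb => ?_⟩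
      rw [hextf b hb, hc]
      exact (Om_qm_ge (mem_Icc.1 hb).1 hl).trans (Om_le_of_dvd hd hv0)
  have hB' : (B : ℝ) = 3 * (N : ℝ) ^ 50 := by rw [hB]; push_cast; ring
  have herr : (B : ℝ) * (((N + 1 : ℕ) : ℝ) * (1 + 2 * C) +
      ((N ^ 34 : ℕ) : ℝ) * ((N + 1 : ℕ) : ℝ) * ((N + 1 : ℕ) : ℝ)) ≤ (N : ℝ) ^ 87 := by
    rw [hB']
    push_cast
    have h1 : ((N : ℝ) + 1) * (1 + 2 * C) ≤ (2 * N) * N := by
      have : (N : ℝ) + 1 ≤ 2 * N := by linarith
      gcongr
    have h2 : (N : ℝ) ^ 34 * ((N : ℝ) + 1) * ((N : ℝ) + 1) ≤ (N : ℝ) ^ 34 * (2 * N) * (2 * N) := by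
      gcongr <;> linarith
    have h3 : (2 * (N : ℝ)) * N ≤ 2 * (N : ℝ) ^ 36 := by
      have : (N : ℝ) ^ 2 ≤ (N : ℝ) ^ 36 := pow_le_pow_right₀ (by linarith) (by norm_num)
      nlinarith
    calc 3 * (N : ℝ) ^ 50 * (((N : ℝ) + 1) * (1 + 2 * C) +
          (N : ℝ) ^ 34 * ((N : ℝ) + 1) * ((N : ℝ) + 1))
        ≤ 3 * (N : ℝ) ^ 50 * (2 * (N : ℝ) ^ 36 + (N : ℝ) ^ 34 * (2 * N) * (2 * N)) :=
          mul_le_mul_of_nonneg_left (add_le_add (h1.trans h3) h2) (by positivity)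
      _ = 18 * (N : ℝ) ^ 86 := by ring
      _ ≤ N * (N : ℝ) ^ 86 := by gcongr; linarith
      _ = (N : ℝ) ^ 87 := by ring
  have hone : ∀ f ∈ F, (((Icc 1 ⌊t⌋₊).filter (Pat (N ^ 50) (N ^ 34) B (ext f))).card : ℝ) ≤
      t * Real.exp (-(τ + (N : ℝ) ^ 90 / 2 - (N : ℝ) ^ 53) + (N : ℝ) ^ 87) := by
    intro f hf
    rw [hF, mem_filter, Fintype.mem_piFinset] at hf
    have h1 := rankin_step hC.le hlm (D := N ^ 50) (E := N ^ 34) (M := N + 1) (B := B)
      (Nat.pow_le_pow_right (by omega) (by norm_num)) (by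
        calc 4 * (N + 1 + 1) ≤ N * (N * N) := by nlinarith
          _ = N ^ 3 := by ring
          _ ≤ N ^ 50 := Nat.pow_le_pow_right (by omega) (by norm_num)) (ext f) (by
        intro b
        rw [hext]
        simp only
        split_ifs with h
        · have := hf.1 ⟨b, h⟩
          rw [mem_range] at this
          omega
        · omega) ⌊t⌋₊
    refine h1.trans ?_
    refine mul_le_mul (Nat.floor_le ht0.le) (Real.exp_le_exp.2 ?_) (by positivity) ht0.le
    linarith [hf.2]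
  have hFc : (F.card : ℝ) ≤ Real.exp ((N : ℝ) ^ 53) := by
    have h1 : F.card ≤ (N + 2) ^ (B + 1) := by
      rw [hF]
      refine (card_filter_le _ _).trans ?_
      rw [Fintype.card_piFinset]
      simp
    have h2 : ((N : ℝ) + 2) ≤ Real.exp ((N : ℝ) + 1) := by
      have := Real.add_one_le_exp ((N : ℝ) + 1)
      linarith
    calc (F.card : ℝ) ≤ ((N : ℝ) + 2) ^ (B + 1) := by exact_mod_cast h1
      _ ≤ (Real.exp ((N : ℝ) + 1)) ^ (B + 1) := by gcongr
      _ = Real.exp (((B : ℝ) + 1) * ((N : ℝ) + 1)) := by rw [← Real.exp_nat_mul]; push_cast; rfl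
      _ ≤ Real.exp ((N : ℝ) ^ 53) := by
          apply Real.exp_le_exp.2
          rw [hB']
          have h3 : (1 : ℝ) ≤ (N : ℝ) ^ 50 := one_le_pow₀ (by linarith)
          calc (3 * (N : ℝ) ^ 50 + 1) * ((N : ℝ) + 1) ≤ (4 * (N : ℝ) ^ 50) * (2 * N) := by
                gcongr <;> linarith
            _ = 8 * (N : ℝ) ^ 51 := by ring
            _ ≤ (N * N) * (N : ℝ) ^ 51 := by gcongr; nlinarith
            _ = (N : ℝ) ^ 53 := by ring
  calc (((Icc 1 ⌊t⌋₊).filter (fun v : ℕ => ∃ l : List ℕ, l.length ≤ N + 1 ∧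
      l.Pairwise (· ≥ ·) ∧ (∀ q ∈ l, Normal N q) ∧ (l.map (fun q => q - 1)).prod ∣ v ∧
      τ + (N : ℝ) ^ 90 / 2 ≤ al 1 (l.tail.map lv))).card : ℝ)
      ≤ ((F.biUnion (fun f => (Icc 1 ⌊t⌋₊).filter (Pat (N ^ 50) (N ^ 34) B (ext f)))).card : ℝ) := by
        exact_mod_cast card_le_card hsub
    _ ≤ ∑ f ∈ F, (((Icc 1 ⌊t⌋₊).filter (Pat (N ^ 50) (N ^ 34) B (ext f))).card : ℝ) := by
        exact_mod_cast card_biUnion_le
    _ ≤ ∑ _f ∈ F, t * Real.exp (-(τ + (N : ℝ) ^ 90 / 2 - (N : ℝ) ^ 53) + (N : ℝ) ^ 87) :=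
        Finset.sum_le_sum hone
    _ = F.card * (t * Real.exp (-(τ + (N : ℝ) ^ 90 / 2 - (N : ℝ) ^ 53) + (N : ℝ) ^ 87)) := by
        rw [Finset.sum_const, nsmul_eq_mul]
    _ ≤ Real.exp ((N : ℝ) ^ 53) *
          (t * Real.exp (-(τ + (N : ℝ) ^ 90 / 2 - (N : ℝ) ^ 53) + (N : ℝ) ^ 87)) := by gcongr
    _ = t * Real.exp (-τ + (2 * (N : ℝ) ^ 53 + (N : ℝ) ^ 87 - (N : ℝ) ^ 90 / 2)) := by
        rw [mul_left_comm, ← Real.exp_add]
        congr 2
        ring
    _ ≤ t * Real.exp (-τ + -(N : ℝ) ^ 89) := by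
        gcongr
        have h1 : (N : ℝ) ^ 53 ≤ (N : ℝ) ^ 89 := pow_le_pow_right₀ (by linarith) (by norm_num)
        have h2 : (N : ℝ) ^ 87 ≤ (N : ℝ) ^ 89 := pow_le_pow_right₀ (by linarith) (by norm_num)
        have h3 : (N : ℝ) ^ 90 = N * (N : ℝ) ^ 89 := by ring
        have h4 : (0 : ℝ) ≤ (N : ℝ) ^ 89 := by positivity
        nlinarith
    _ = t / Real.log t * Real.exp (-(N : ℝ) ^ 89) := by
        rw [Real.exp_add, Real.exp_neg τ, hτ, Real.exp_log (by linarith)]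
        ring

namespace OverAux

open OmT

/-- size of an overfull integer -/
theorem over_size {N c v : ℕ} (hN : 20 ≤ N) (hc1 : N ^ 100 ≤ c) (h : Over N c v) :
    Real.exp (Real.exp c) - 1 ≤ v ∧ (v : ℝ) ≤ Real.exp (((N : ℝ) + 2) * Real.exp ((c : ℝ) + 1)) := by
  obtain ⟨q₀, l, u, h0, h0c, hl, hlen, -, -, hu, hu', hv⟩ := h
  have h02 := h0.prime.two_le
  have hc : 1 ≤ c := (Nat.one_le_pow _ _ (by omega)).trans hc1
  change v = (q₀ - 1) * qm l * u at hv
  have hlp : ∀ q ∈ l, Nat.Prime q := fun q hq => (hl q hq).1.prime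
  have hqm := qm_pos hlp
  constructor
  · have h1 := le_of_le_lv hc h0c.ge
    have h2 : q₀ - 1 ≤ v := by
      rw [hv, mul_assoc]
      exact Nat.le_mul_of_pos_right _ (Nat.mul_pos hqm hu)
    have h3 : (q₀ : ℝ) ≤ v + 1 := by
      have : q₀ ≤ v + 1 := by omega
      exact_mod_cast this
    linarith
  · have h1 := CRedAux.qm_le (l := q₀ :: l) (c := c) (by
      intro q hq
      rw [List.mem_cons] at hq
      rcases hq with rfl | hq
      · exact ⟨h0.prime, h0c.le⟩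
      · exact ⟨hlp q hq, (lv_mono (hl q hq).2).trans h0c.le⟩)
    have h2 : Real.exp (2 * (N : ℝ) ^ 10) ≤ Real.exp ((c : ℝ) + 1) := by
      apply Real.exp_le_exp.2
      have h3 : 2 * N ^ 10 ≤ c := by
        refine le_trans ?_ hc1
        calc 2 * N ^ 10 ≤ N * N ^ 10 := Nat.mul_le_mul_right _ (by omega)
          _ = N ^ 11 := by ring
          _ ≤ N ^ 100 := Nat.pow_le_pow_right (by omega) (by norm_num)
      have : (2 : ℝ) * (N : ℝ) ^ 10 ≤ c := by exact_mod_cast h3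
      linarith
    have e1 : v = qm (q₀ :: l) * u := by rw [hv, qm_cons]
    rw [e1]
    push_cast
    rw [List.length_cons] at h1
    push_cast at h1
    calc (qm (q₀ :: l) : ℝ) * u ≤
          Real.exp (((l.length : ℝ) + 1) * Real.exp ((c : ℝ) + 1)) *
            Real.exp (Real.exp ((c : ℝ) + 1)) := by
          refine mul_le_mul h1 (hu'.trans ?_) (by positivity) (by positivity)
          exact Real.exp_le_exp.2 h2
      _ = Real.exp (((l.length : ℝ) + 2) * Real.exp ((c : ℝ) + 1)) := by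
          rw [← Real.exp_add]; congr 1; ring
      _ ≤ Real.exp (((N : ℝ) + 2) * Real.exp ((c : ℝ) + 1)) := by
          apply Real.exp_le_exp.2
          have : (l.length : ℝ) ≤ N := by exact_mod_cast hlen
          gcongr

theorem over_list {N c v : ℕ} (h : Over N c v) : ∃ l : List ℕ, l.length ≤ N + 1 ∧
    l.Pairwise (· ≥ ·) ∧ (∀ q ∈ l, Normal N q) ∧ (l.map (fun q => q - 1)).prod ∣ v ∧
      (c : ℝ) + (N : ℝ) ^ 90 ≤ al 1 (l.tail.map lv) := by
  obtain ⟨q₀, l, u, h0, h0c, hl, hlen, hs, hal, hu, hu', hv⟩ := h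
  refine ⟨q₀ :: l, by simpa using hlen, ?_, ?_, ?_, ?_⟩
  · rw [List.pairwise_cons]
    exact ⟨fun q hq => (hl q hq).2, hs⟩
  · intro q hq
    rw [List.mem_cons] at hq
    rcases hq with rfl | hq
    · exact h0
    · exact (hl q hq).1
  · rw [hv]
    simp
  · simpa using hal

theorem exp_A {N c : ℕ} (k : ℕ) (hk : k ≤ 3) :
    ((N : ℝ) + k) * Real.exp ((c : ℝ) + 1) ≤ Real.exp ((N : ℝ) + 3 + c) := by
  have h1 : ((N : ℝ) + k) ≤ Real.exp ((N : ℝ) + 2) := by
    have := Real.add_one_le_exp ((N : ℝ) + 2)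
    have hk' : (k : ℝ) ≤ 3 := by exact_mod_cast hk
    linarith
  calc ((N : ℝ) + k) * Real.exp ((c : ℝ) + 1)
      ≤ Real.exp ((N : ℝ) + 2) * Real.exp ((c : ℝ) + 1) := by gcongr
    _ = Real.exp ((N : ℝ) + 3 + c) := by rw [← Real.exp_add]; congr 1; ring

end OverAux

open OverAux OmT in
theorem overfull_sum : ∃ N₀ : ℕ, ∀ N ≥ N₀, ∀ c : ℕ, N ^ 100 ≤ c → c ≤ 2 * N ^ 100 → ∀ T : ℕ,
    ∑ v ∈ (Icc 1 T).filter (fun v => Over N c v), (1 : ℝ) / v ≤ Real.exp (-(N : ℝ) ^ 88) := by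
  obtain ⟨N₁, hcount⟩ := overfull_count
  refine ⟨max 20 N₁, fun N hN c hc1 hc2 T => ?_⟩
  have hN20 : 20 ≤ N := (le_max_left _ _).trans hN
  have hN20r : (20 : ℝ) ≤ N := by exact_mod_cast hN20
  have hcnt := hcount N ((le_max_right _ _).trans hN)
  obtain ⟨A, hA⟩ : ∃ A, A = ((N : ℝ) + 2) * Real.exp ((c : ℝ) + 1) := ⟨_, rfl⟩
  have hA0 : 0 ≤ A := by rw [hA]; positivity
  have hA1 : 1 ≤ A := by
    rw [hA]
    have : (1 : ℝ) ≤ Real.exp ((c : ℝ) + 1) := Real.one_le_exp (by positivity)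
    nlinarith
  obtain ⟨J, hJ⟩ : ∃ J, J = Nat.log 2 ⌊Real.exp A⌋₊ := ⟨_, rfl⟩
  have hsize : ∀ v, Over N c v → Real.exp (Real.exp c) - 1 ≤ v ∧ (v : ℝ) ≤ Real.exp A :=
    fun v hv => by rw [hA]; exact over_size hN20 hc1 hv
  obtain ⟨S, hS⟩ : ∃ S, S = (Icc 1 T).filter (fun v => Over N c v) := ⟨_, rfl⟩
  have hSm : ∀ v ∈ S, 1 ≤ v ∧ Over N c v := by
    intro v hv
    rw [hS, mem_filter, mem_Icc] at hv
    exact ⟨hv.1.1, hv.2⟩
  rw [← hS, ← Finset.sum_fiberwise_of_maps_to (t := range (J + 1)) (g := fun v => Nat.log 2 v)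
    (fun v hv => by
      rw [mem_range, Nat.lt_succ_iff, hJ]
      exact Nat.log_mono_right (Nat.le_floor (hsize v (hSm v hv).2).2))]
  have hfib : ∀ j ∈ range (J + 1), ∑ v ∈ S.filter (fun v => Nat.log 2 v = j), (1 : ℝ) / v ≤
      3 * Real.exp (-(N : ℝ) ^ 89) * (((j : ℝ) + 1)⁻¹) := by
    intro j _
    rcases (S.filter (fun v => Nat.log 2 v = j)).eq_empty_or_nonempty with he | ⟨w, hw⟩
    · rw [he, Finset.sum_empty]; positivity
    rw [mem_filter] at hw
    have hwS := hSm w hw.1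
    have hws := hsize w hwS.2
    obtain ⟨t, ht⟩ : ∃ t : ℝ, t = 2 ^ (j + 1) := ⟨_, rfl⟩
    have h1 : ∀ v ∈ S.filter (fun v => Nat.log 2 v = j), (2 : ℝ) ^ j ≤ v ∧ (v : ℝ) < t := by
      intro v hv
      rw [mem_filter] at hv
      have hv1 := (hSm v hv.1).1
      constructor
      · have := Nat.pow_log_le_self 2 (show v ≠ 0 by omega)
        rw [hv.2] at this
        exact_mod_cast this
      · have := Nat.lt_pow_succ_log_self (b := 2) (by norm_num) v
        rw [hv.2] at this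
        rw [ht]
        exact_mod_cast this
    have hwf := h1 w (mem_filter.2 hw)
    have hc20 : (20 : ℝ) ≤ c := by
      have h2 : N ≤ N ^ 100 := Nat.le_self_pow (by norm_num) N
      exact_mod_cast (by omega : 20 ≤ c)
    have h16 : 16 ≤ t := by
      have h2 : (21 : ℝ) ≤ Real.exp c := by
        have := Real.add_one_le_exp (c : ℝ)
        linarith
      have h3 := Real.add_one_le_exp (Real.exp c)
      linarith
    have ht0 : 0 < t := by linarith
    have hlogt : Real.log t = ((j : ℝ) + 1) * Real.log 2 := by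
      rw [ht, Real.log_pow]; push_cast; ring
    have hl2 : (1 / 2 : ℝ) ≤ Real.log 2 := by
      have := Real.log_two_gt_d9
      linarith
    have hlogt0 : 0 < Real.log t := Real.log_pos (by linarith)
    have htle : Real.log t ≤ Real.exp ((N : ℝ) + 3 + c) := by
      have h2 : t ≤ 2 * w := by
        rw [ht, pow_succ]; linarith [hwf.1]
      have h3 : t ≤ Real.exp (((N : ℝ) + 3) * Real.exp ((c : ℝ) + 1)) := by
        have h4 : Real.exp (((N : ℝ) + 3) * Real.exp ((c : ℝ) + 1)) =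
            Real.exp A * Real.exp (Real.exp ((c : ℝ) + 1)) := by
          rw [hA, ← Real.exp_add]; congr 1; ring
        have h5 : (2 : ℝ) ≤ Real.exp (Real.exp ((c : ℝ) + 1)) := by
          have h6 := Real.add_one_le_exp (Real.exp ((c : ℝ) + 1))
          have h7 : (1 : ℝ) ≤ Real.exp ((c : ℝ) + 1) := Real.one_le_exp (by positivity)
          linarith
        rw [h4]
        have h8 : (0 : ℝ) < Real.exp A := Real.exp_pos _
        nlinarith [hws.2]
      calc Real.log t ≤ ((N : ℝ) + 3) * Real.exp ((c : ℝ) + 1) := by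
            rw [← Real.log_exp (((N : ℝ) + 3) * Real.exp ((c : ℝ) + 1))]
            exact Real.log_le_log ht0 h3
        _ ≤ Real.exp ((N : ℝ) + 3 + c) := by
            have := exp_A (N := N) (c := c) 3 le_rfl
            exact_mod_cast this
    have hll : Real.log (Real.log t) ≤ (N : ℝ) + 3 + c := by
      rw [Real.log_le_iff_le_exp hlogt0]
      exact htle
    have hc2r : (c : ℝ) ≤ 2 * (N : ℝ) ^ 100 := by exact_mod_cast hc2
    have hNp : (N : ℝ) + 3 ≤ (N : ℝ) ^ 2 := by nlinarith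
    have hN100 : (N : ℝ) ^ 2 ≤ (N : ℝ) ^ 100 := pow_le_pow_right₀ (by linarith) (by norm_num)
    have hN90 : 2 * (N : ℝ) ^ 2 ≤ (N : ℝ) ^ 90 := by
      calc 2 * (N : ℝ) ^ 2 ≤ N * (N : ℝ) ^ 2 := by gcongr; linarith
        _ = (N : ℝ) ^ 3 := by ring
        _ ≤ (N : ℝ) ^ 90 := pow_le_pow_right₀ (by linarith) (by norm_num)
    have hcc := hcnt t h16 (by linarith)
    have hsub : S.filter (fun v => Nat.log 2 v = j) ⊆ (Icc 1 ⌊t⌋₊).filter
        (fun v : ℕ => ∃ l : List ℕ, l.length ≤ N + 1 ∧ l.Pairwise (· ≥ ·) ∧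
        (∀ q ∈ l, Normal N q) ∧ (l.map (fun q => q - 1)).prod ∣ v ∧
        Real.log (Real.log t) + (N : ℝ) ^ 90 / 2 ≤ al 1 (l.tail.map lv)) := by
      intro v hv
      have hv' := h1 v hv
      rw [mem_filter] at hv
      have hvS := hSm v hv.1
      rw [mem_filter, mem_Icc]
      refine ⟨⟨hvS.1, Nat.le_floor hv'.2.le⟩, ?_⟩
      obtain ⟨l, ha, hb, hc, hd, he⟩ := over_list hvS.2
      exact ⟨l, ha, hb, hc, hd, by linarith⟩
    have hcard : ((S.filter (fun v => Nat.log 2 v = j)).card : ℝ) ≤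
        t / Real.log t * Real.exp (-(N : ℝ) ^ 89) := by
      refine le_trans ?_ hcc
      exact_mod_cast card_le_card hsub
    have h2j : (0 : ℝ) < 2 ^ j := by positivity
    calc ∑ v ∈ S.filter (fun v => Nat.log 2 v = j), (1 : ℝ) / v
        ≤ ∑ _v ∈ S.filter (fun v => Nat.log 2 v = j), (1 : ℝ) / 2 ^ j := by
          refine Finset.sum_le_sum fun v hv => ?_
          exact one_div_le_one_div_of_le h2j (h1 v hv).1
      _ = ((S.filter (fun v => Nat.log 2 v = j)).card : ℝ) * (1 / 2 ^ j) := by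
          rw [Finset.sum_const, nsmul_eq_mul]
      _ ≤ (t / Real.log t * Real.exp (-(N : ℝ) ^ 89)) * (1 / 2 ^ j) := by gcongr
      _ = 2 / Real.log 2 * Real.exp (-(N : ℝ) ^ 89) * (((j : ℝ) + 1)⁻¹) := by
          rw [hlogt, ht, pow_succ]
          field_simp
      _ ≤ 3 * Real.exp (-(N : ℝ) ^ 89) * (((j : ℝ) + 1)⁻¹) := by
          gcongr
          have := Real.log_two_gt_d9
          rw [div_le_iff₀ (by linarith)]
          linarith
  refine (Finset.sum_le_sum hfib).trans ?_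
  rw [← Finset.mul_sum]
  have hharm : ∑ j ∈ range (J + 1), ((j : ℝ) + 1)⁻¹ ≤ 1 + Real.log ((J : ℝ) + 1) := by
    have h1 := harmonic_le_one_add_log (J + 1)
    unfold harmonic at h1
    push_cast at h1
    exact h1
  have hJle : (J : ℝ) ≤ 2 * A := by
    have h1 : (2 : ℝ) ^ J ≤ Real.exp A := by
      have h2 : 2 ^ J ≤ ⌊Real.exp A⌋₊ := by
        rw [hJ]
        apply Nat.pow_log_le_self
        have : 1 ≤ ⌊Real.exp A⌋₊ := Nat.le_floor (by exact_mod_cast Real.one_le_exp hA0)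
        omega
      have h3 : ((2 ^ J : ℕ) : ℝ) ≤ Real.exp A :=
        (Nat.cast_le.2 h2).trans (Nat.floor_le (Real.exp_pos _).le)
      exact_mod_cast h3
    have h4 := Real.log_le_log (by positivity) h1
    rw [Real.log_pow, Real.log_exp] at h4
    have hl2 := Real.log_two_gt_d9
    have hJ0 : (0 : ℝ) ≤ J := Nat.cast_nonneg J
    nlinarith
  have hlogJ : Real.log ((J : ℝ) + 1) ≤ (N : ℝ) + 3 + c + 2 := by
    rw [Real.log_le_iff_le_exp (by positivity)]
    have h1 : A ≤ Real.exp ((N : ℝ) + 3 + c) := by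
      rw [hA]
      have := exp_A (N := N) (c := c) 2 (by norm_num)
      exact_mod_cast this
    have h2 : (3 : ℝ) ≤ Real.exp 2 := by
      have := Real.add_one_le_exp (2 : ℝ)
      linarith
    rw [Real.exp_add _ 2]
    have h3 : (0 : ℝ) < Real.exp ((N : ℝ) + 3 + c) := Real.exp_pos _
    nlinarith
  have hc2r : (c : ℝ) ≤ 2 * (N : ℝ) ^ 100 := by exact_mod_cast hc2
  have hNp : (N : ℝ) + 6 ≤ (N : ℝ) ^ 2 := by nlinarith
  have hN100 : (N : ℝ) ^ 2 ≤ (N : ℝ) ^ 100 := pow_le_pow_right₀ (by linarith) (by norm_num)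
  have htot : ∑ j ∈ range (J + 1), ((j : ℝ) + 1)⁻¹ ≤ 3 * (N : ℝ) ^ 100 := by linarith
  have hfin : 3 * (3 * (N : ℝ) ^ 100) ≤ Real.exp ((N : ℝ) ^ 89 - (N : ℝ) ^ 88) := by
    have h1 : 3 * (3 * (N : ℝ) ^ 100) ≤ (N : ℝ) ^ 101 := by
      have e : (N : ℝ) ^ 101 = N * (N : ℝ) ^ 100 := by ring
      rw [e]
      have : (0 : ℝ) ≤ (N : ℝ) ^ 100 := by positivity
      nlinarith
    have h2 : (N : ℝ) ≤ Real.exp N := by
      have := Real.add_one_le_exp (N : ℝ)
      linarith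
    have h3 : (N : ℝ) ^ 101 ≤ Real.exp (101 * N) := by
      calc (N : ℝ) ^ 101 ≤ (Real.exp N) ^ 101 := by gcongr
        _ = Real.exp (101 * N) := by rw [← Real.exp_nat_mul]; norm_num
    refine (h1.trans h3).trans (Real.exp_le_exp.2 ?_)
    have h4 : (N : ℝ) ^ 3 ≤ (N : ℝ) ^ 88 := pow_le_pow_right₀ (by linarith) (by norm_num)
    have h5 : 101 * (N : ℝ) ≤ (N : ℝ) ^ 3 := by
      have : (101 : ℝ) ≤ N * N := by nlinarith
      calc 101 * (N : ℝ) ≤ (N * N) * N := by gcongr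
        _ = (N : ℝ) ^ 3 := by ring
    have h6 : (N : ℝ) ^ 89 = N * (N : ℝ) ^ 88 := by ring
    have h7 : (0 : ℝ) ≤ (N : ℝ) ^ 88 := by positivity
    rw [h6]
    nlinarith
  calc 3 * Real.exp (-(N : ℝ) ^ 89) * ∑ j ∈ range (J + 1), ((j : ℝ) + 1)⁻¹
      ≤ 3 * Real.exp (-(N : ℝ) ^ 89) * (3 * (N : ℝ) ^ 100) := by gcongr
    _ = (3 * (3 * (N : ℝ) ^ 100)) * Real.exp (-(N : ℝ) ^ 89) := by ring
    _ ≤ Real.exp ((N : ℝ) ^ 89 - (N : ℝ) ^ 88) * Real.exp (-(N : ℝ) ^ 89) := by gcongr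
    _ = Real.exp (-(N : ℝ) ^ 88) := by rw [← Real.exp_add]; congr 1; ring

end P031
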