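import Vale.Agent.P031.Can

/-! P031: totients versus `SS k`, analytic part (helper36). -/

namespace P031

open Finset Filter Topology
open scoped Classical

namespace SqAux

theorem le_of_lv {k p : ℕ} (hk : 1 ≤ k) (h : k ≤ lv p) : Real.exp (Real.exp k) ≤ p := by
  have h3 : 3 ≤ p := three_le_of_lv (hk.trans h)
  have hp : (0 : ℝ) < p := by
    have : 0 < p := by omega
    exact_mod_cast this
  unfold lv at h
  rw [Nat.le_floor_iff' (by omega)] at h
  have hk' : (1 : ℝ) ≤ k := by exact_mod_cast hk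
  have hl0 : 0 ≤ Real.log p := Real.log_natCast_nonneg p
  have hl : 0 < Real.log p := by
    rcases hl0.eq_or_lt with h0 | h0
    · rw [← h0, Real.log_zero] at h
      linarith
    · exact h0
  rw [Real.le_log_iff_exp_le hl] at h
  rwa [Real.le_log_iff_exp_le hp] at h

theorem z0_ge {k : ℕ} (hk : 1 ≤ k) : (14 : ℝ) ≤ Real.exp (Real.exp k) := by
  have hk' : (1 : ℝ) ≤ k := by exact_mod_cast hk
  have h1 : (2.7182818 : ℝ) ≤ Real.exp 1 := by
    have := Real.exp_one_gt_d9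
    linarith
  have h2 : (2.71 : ℝ) ≤ Real.exp k := by
    have := Real.exp_le_exp.2 hk'
    linarith
  have h3 : Real.exp 2.71 ≤ Real.exp (Real.exp k) := Real.exp_le_exp.2 h2
  have h4 : (14 : ℝ) ≤ Real.exp 2.71 := by
    have e1 : (2.71 : ℝ) = 1 + 1 + 0.71 := by norm_num
    rw [e1, Real.exp_add, Real.exp_add]
    have h5 : (1 + 0.71 + 0.71 ^ 2 / 2 + 0.71 ^ 3 / 6 : ℝ) ≤ Real.exp 0.71 := by
      have := Real.sum_le_exp_of_nonneg (x := (0.71 : ℝ)) (by norm_num) 4
      simp only [Finset.sum_range_succ, Finset.sum_range_zero, Nat.factorial] at this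
      norm_num at this ⊢
      linarith
    nlinarith
  linarith

/-- the weight `1 / (sqrt n * φ (rad n))` -/
noncomputable def f2 (n : ℕ) : ℝ :=
  (∏ p ∈ n.primeFactors, (1 : ℝ) / ((p : ℝ) - 1)) * (1 / Real.sqrt n)

theorem f2_one : f2 1 = 1 := by
  unfold f2
  simp

theorem f2_nonneg (n : ℕ) : 0 ≤ f2 n := by
  unfold f2
  refine mul_nonneg (Finset.prod_nonneg (fun p hp => ?_)) (by positivity)
  have h2 := (Nat.prime_of_mem_primeFactors hp).two_le
  have : (2 : ℝ) ≤ p := by exact_mod_cast h2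
  have h3 : (0 : ℝ) < (p : ℝ) - 1 := by linarith
  positivity

theorem f2_mul {m n : ℕ} (h : Nat.Coprime m n) : f2 (m * n) = f2 m * f2 n := by
  unfold f2
  rw [h.primeFactors_mul, Finset.prod_union h.disjoint_primeFactors, Nat.cast_mul,
    Real.sqrt_mul (Nat.cast_nonneg m)]
  rw [← one_div_mul_one_div]
  ring

theorem sqrt_pow' {x : ℝ} (hx : 0 ≤ x) (n : ℕ) : Real.sqrt (x ^ n) = Real.sqrt x ^ n := by
  induction n with
  | zero => simp
  | succ n ih => rw [pow_succ, Real.sqrt_mul (pow_nonneg hx n), ih, pow_succ]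

theorem f2_pow {p : ℕ} (hp : p.Prime) (a : ℕ) :
    f2 (p ^ (a + 1)) = 1 / ((p : ℝ) - 1) * (1 / Real.sqrt p) ^ (a + 1) := by
  unfold f2
  rw [Nat.primeFactors_prime_pow (Nat.succ_ne_zero a) hp, Finset.prod_singleton]
  congr 1
  rw [Nat.cast_pow, one_div_pow]
  congr 1
  rw [sqrt_pow' (Nat.cast_nonneg p)]

theorem f2_hasSum {p : ℕ} (hp : p.Prime) :
    HasSum (fun n : ℕ => f2 (p ^ n)) (1 / ((p : ℝ) - 1) * (1 / (Real.sqrt p - 1)) + 1) := by
  have h2 : (2 : ℝ) ≤ p := by exact_mod_cast hp.two_le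
  have hp0 : (0 : ℝ) < p := by linarith
  set r : ℝ := 1 / Real.sqrt p with hr
  have hs0 : 0 < Real.sqrt p := Real.sqrt_pos.2 hp0
  have hs : (1 : ℝ) < Real.sqrt p := by
    rw [Real.lt_sqrt (by norm_num)]
    linarith
  have hr0 : 0 < r := by positivity
  have hr1 : r < 1 := by
    rw [hr, div_lt_one hs0]
    exact hs
  have e : r * (1 - r)⁻¹ = 1 / (Real.sqrt p - 1) := by
    rw [hr]
    have : Real.sqrt p - 1 ≠ 0 := by linarith
    have h2 : (1 - 1 / Real.sqrt p) = (Real.sqrt p - 1) / Real.sqrt p := by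
      field_simp
    rw [h2, inv_div]
    field_simp
  have hgeo : HasSum (fun n : ℕ => f2 (p ^ (n + 1)))
      (1 / ((p : ℝ) - 1) * (1 / (Real.sqrt p - 1))) := by
    rw [← e]
    have h1 := ((hasSum_geometric_of_lt_one hr0.le hr1).mul_left r).mul_left (1 / ((p : ℝ) - 1))
    refine h1.congr_fun ?_
    intro n
    rw [f2_pow hp n, ← hr, pow_succ']
  have := (hasSum_nat_add_iff (f := fun n : ℕ => f2 (p ^ n)) 1).1 hgeo
  simpa [f2_one] using this

theorem f2_tsum_le {p : ℕ} (hp : p.Prime) (h14 : (14 : ℝ) ≤ p) :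
    ∑' n : ℕ, f2 (p ^ n) ≤ Real.exp (2 / ((p : ℝ) * Real.sqrt p)) := by
  have hp0 : (0 : ℝ) < p := by linarith
  have hs0 : 0 < Real.sqrt p := Real.sqrt_pos.2 hp0
  have hs : (3.7 : ℝ) ≤ Real.sqrt p := by
    rw [Real.le_sqrt' (by norm_num)]
    linarith
  have hss : Real.sqrt p * Real.sqrt p = p := Real.mul_self_sqrt hp0.le
  rw [(f2_hasSum hp).tsum_eq]
  refine le_trans ?_ (Real.add_one_le_exp _)
  refine add_le_add_left ?_ 1
  rw [one_div_mul_one_div]
  rw [div_le_div_iff₀ (by nlinarith) (by positivity)]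
  nlinarith

theorem f2_sum (s : Finset ℕ) (hs : ∀ p ∈ s, p.Prime ∧ (14 : ℝ) ≤ p) (G : Finset ℕ)
    (hG : ∀ g ∈ G, g ∈ Nat.factoredNumbers s) :
    ∑ g ∈ G, f2 g ≤ Real.exp (∑ p ∈ s, 2 / ((p : ℝ) * Real.sqrt p)) := by
  have h := (EulerProduct.summable_and_hasSum_factoredNumbers_prod_filter_prime_tsum (f := f2)
    f2_one f2_mul (by
      intro p hp
      simp only [Real.norm_eq_abs, abs_of_nonneg (f2_nonneg _)]
      exact (f2_hasSum hp).summable) s).2
  have h1 : ∑ g ∈ G, f2 g = ∑ x ∈ G.subtype (fun g => g ∈ Nat.factoredNumbers s), f2 x := by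
    rw [Finset.sum_subtype_of_mem f2 hG]
  rw [h1]
  refine (sum_le_hasSum _ (fun x _ => f2_nonneg _) h).trans ?_
  rw [Finset.filter_true_of_mem (fun p hp => (hs p hp).1), Real.exp_sum]
  refine Finset.prod_le_prod (fun p _ => tsum_nonneg (fun n => f2_nonneg _)) (fun p hp => ?_)
  exact f2_tsum_le (hs p hp).1 (hs p hp).2

/-- telescoping bound for `∑ 1/(n √n)` -/
theorem sum_inv_sqrt (n0 : ℕ) (h0 : 2 ≤ n0) (N : ℕ) :
    ∑ n ∈ Finset.Ico n0 N, 1 / ((n : ℝ) * Real.sqrt n) ≤ 2 / Real.sqrt ((n0 : ℝ) - 1) := by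
  have hstep : ∀ n : ℕ, 2 ≤ n → 1 / ((n : ℝ) * Real.sqrt n) ≤
      2 / Real.sqrt ((n : ℝ) - 1) - 2 / Real.sqrt n := by
    intro n hn
    have hn' : (2 : ℝ) ≤ n := by exact_mod_cast hn
    set a := Real.sqrt ((n : ℝ) - 1) with ha
    set b := Real.sqrt n with hb
    have ha0 : 0 < a := Real.sqrt_pos.2 (by linarith)
    have hb0 : 0 < b := Real.sqrt_pos.2 (by linarith)
    have haa : a * a = n - 1 := Real.mul_self_sqrt (by linarith)
    have hbb : b * b = n := Real.mul_self_sqrt (by linarith)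
    have hab : a ≤ b := Real.sqrt_le_sqrt (by linarith)
    have e : (n : ℝ) = b * b := hbb.symm
    rw [e, div_sub_div _ _ ha0.ne' hb0.ne', div_le_div_iff₀ (by positivity) (by positivity)]
    have h1 : (b - a) * (b + a) = 1 := by nlinarith
    have h2 : 1 ≤ 2 * b * (b - a) := by nlinarith
    nlinarith [mul_pos ha0 hb0, mul_le_mul_of_nonneg_left h2 (mul_pos ha0 hb0).le]
  by_cases hN : n0 ≤ N
  · have : ∀ M, n0 ≤ M → ∑ n ∈ Finset.Ico n0 M, 1 / ((n : ℝ) * Real.sqrt n) ≤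
        2 / Real.sqrt ((n0 : ℝ) - 1) - 2 / Real.sqrt ((M : ℝ) - 1) := by
      intro M hM
      induction M, hM using Nat.le_induction with
      | base => simp
      | succ M hM ih =>
        rw [Finset.sum_Ico_succ_top hM]
        have := hstep M (h0.trans hM)
        push_cast
        rw [add_sub_cancel_right]
        linarith
    refine (this N hN).trans ?_
    have : 0 ≤ 2 / Real.sqrt ((N : ℝ) - 1) := by positivity
    linarith
  · rw [Finset.Ico_eq_empty_of_le (by omega), Finset.sum_empty]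
    positivity

/-- sum over a set of integers `≥ z` -/
theorem sum_inv_sqrt_set (z : ℝ) (hz : 14 ≤ z) (s : Finset ℕ) (hs : ∀ p ∈ s, z ≤ (p : ℝ)) :
    ∑ p ∈ s, 1 / ((p : ℝ) * Real.sqrt p) ≤ 3 / Real.sqrt z := by
  set n0 := ⌈z⌉₊ with hn0
  have h0 : 2 ≤ n0 := by
    have : (14 : ℝ) ≤ n0 := hz.trans (Nat.le_ceil z)
    have h2 : 14 ≤ n0 := by exact_mod_cast this
    omega
  have hsub : s ⊆ Finset.Ico n0 (s.sup id + 1) := by
    intro p hp
    rw [Finset.mem_Ico]
    refine ⟨Nat.ceil_le.2 (hs p hp), Nat.lt_succ_of_le ?_⟩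
    exact Finset.le_sup (f := id) hp
  refine (Finset.sum_le_sum_of_subset_of_nonneg hsub (fun p _ _ => by positivity)).trans ?_
  refine (sum_inv_sqrt n0 h0 _).trans ?_
  have h1 : z - 1 ≤ (n0 : ℝ) - 1 := by linarith [Nat.le_ceil z]
  have hz0 : 0 < Real.sqrt z := Real.sqrt_pos.2 (by linarith)
  have h2 : Real.sqrt z * (2 / 3) ≤ Real.sqrt ((n0 : ℝ) - 1) := by
    refine Real.le_sqrt_of_sq_le ?_
    rw [mul_pow, Real.sq_sqrt (by linarith)]
    linarith
  rw [div_le_div_iff₀ (by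
    have : 0 < Real.sqrt z * (2 / 3) := by positivity
    linarith) hz0]
  linarith

/-- the sum of `f2` over `g > 1` with all primes `≥ z` -/
theorem f2_sum_le (z : ℝ) (hz : 14 ≤ z) (T : ℕ) :
    ∑ g ∈ (Icc 2 T).filter (fun g : ℕ => ∀ p, p.Prime → p ∣ g → z ≤ (p : ℝ)), f2 g ≤
      40 / Real.sqrt z := by
  set G := (Icc 2 T).filter (fun g : ℕ => ∀ p, p.Prime → p ∣ g → z ≤ (p : ℝ)) with hG
  set s := (Icc 1 T).filter (fun p : ℕ => p.Prime ∧ z ≤ (p : ℝ)) with hs
  have hsp : ∀ p ∈ s, p.Prime ∧ z ≤ (p : ℝ) := fun p hp => (Finset.mem_filter.1 hp).2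
  have hz0 : 0 < Real.sqrt z := Real.sqrt_pos.2 (by linarith)
  have h1G : 1 ∉ G := by
    intro h
    have := (Finset.mem_filter.1 h).1
    rw [Finset.mem_Icc] at this
    omega
  have hfac : ∀ g ∈ insert 1 G, g ∈ Nat.factoredNumbers s := by
    intro g hg
    rw [Nat.mem_factoredNumbers]
    rcases Finset.mem_insert.1 hg with h | h
    · subst h
      simp
    · have h1 := Finset.mem_filter.1 h
      have h2 := Finset.mem_Icc.1 h1.1
      refine ⟨by omega, fun p hp => ?_⟩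
      have hpp := Nat.prime_of_mem_primeFactorsList hp
      have hpd := Nat.dvd_of_mem_primeFactorsList hp
      rw [hs, Finset.mem_filter, Finset.mem_Icc]
      exact ⟨⟨hpp.one_le, (Nat.le_of_dvd (by omega) hpd).trans h2.2⟩, hpp, h1.2 p hpp hpd⟩
  have h2 := f2_sum s (fun p hp => ⟨(hsp p hp).1, hz.trans (hsp p hp).2⟩) (insert 1 G) hfac
  rw [Finset.sum_insert h1G, f2_one] at h2
  have h3 : ∑ p ∈ s, 2 / ((p : ℝ) * Real.sqrt p) ≤ 6 / Real.sqrt z := by
    have := sum_inv_sqrt_set z hz s (fun p hp => (hsp p hp).2)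
    calc ∑ p ∈ s, 2 / ((p : ℝ) * Real.sqrt p) = 2 * ∑ p ∈ s, 1 / ((p : ℝ) * Real.sqrt p) := by
          rw [Finset.mul_sum]
          exact Finset.sum_congr rfl (fun p _ => by ring)
      _ ≤ 2 * (3 / Real.sqrt z) := by linarith
      _ = 6 / Real.sqrt z := by ring
  have h4 : Real.exp (∑ p ∈ s, 2 / ((p : ℝ) * Real.sqrt p)) ≤ Real.exp (6 / Real.sqrt z) :=
    Real.exp_le_exp.2 h3
  set u := 6 / Real.sqrt z with hu
  have hu0 : 0 < u := by positivity
  have hu1 : u ≤ 1.7 := by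
    rw [hu, div_le_iff₀ hz0]
    have : (3.7 : ℝ) ≤ Real.sqrt z := by
      rw [Real.le_sqrt' (by norm_num)]
      linarith
    linarith
  have h5 : Real.exp u ≤ 1 + u * Real.exp u := by
    have h6 := Real.add_one_le_exp (-u)
    have h7 : Real.exp (-u) * Real.exp u = 1 := by
      rw [← Real.exp_add]
      simp
    nlinarith [Real.exp_pos u]
  have h8 : Real.exp u ≤ 6 := by
    have h9 : Real.exp u ≤ Real.exp 1.7 := Real.exp_le_exp.2 hu1
    have h10 : Real.exp 1.7 ≤ 6 := by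
      have e : (1.7 : ℝ) = 1 + 0.7 := by norm_num
      rw [e, Real.exp_add]
      have h11 : Real.exp 0.7 ≤ 2.1 := by
        have := Real.exp_bound' (x := (0.7 : ℝ)) (by norm_num) (by norm_num) (n := 4) (by norm_num)
        simp only [Finset.sum_range_succ, Finset.sum_range_zero, Nat.factorial] at this
        norm_num at this ⊢
        linarith
      have h12 := Real.exp_one_lt_d9
      nlinarith [Real.exp_pos 0.7, Real.exp_pos 1]
    linarith
  have h13 : ∑ g ∈ G, f2 g ≤ u * 6 := by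
    have : u * Real.exp u ≤ u * 6 := mul_le_mul_of_nonneg_left h8 hu0.le
    linarith
  refine h13.trans ?_
  rw [hu, div_mul_eq_mul_div]
  exact div_le_div_of_nonneg_right (by norm_num) hz0.le

end SqAux

end P031
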