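import Vale.Agent.P031.CRed
import Vale.Agent.P031.CPat
import Vale.Agent.P031.Mert
import Vale.Agent.P031.Normal
import Vale.Agent.P031.SqAux
import Vale.Agent.P031.Over

/-! P031, [COLL]: auxiliary lemmas: the square case and one pattern. -/

namespace P031

open Finset Filter Topology
open scoped Classical

namespace CollAux

open OmT

/-- the box of pairs `(q₀, v)`. -/
noncomputable def Bx (t : ℝ) : Finset (ℕ × ℕ) := Nat.primesLE (⌊t⌋₊ + 1) ×ˢ Icc 1 ⌊t⌋₊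

theorem mem_Bx {t : ℝ} {p : ℕ × ℕ} :
    p ∈ Bx t ↔ (p.1 ≤ ⌊t⌋₊ + 1 ∧ p.1.Prime) ∧ 1 ≤ p.2 ∧ p.2 ≤ ⌊t⌋₊ := by
  unfold Bx
  rw [Finset.mem_product, Nat.mem_primesLE, mem_Icc]

/-- pattern with common primes (`m` is the product of `q - 1` over the common primes) -/
def Pat (N r s : ℕ) (cr : Fin (r + 1) → ℕ) (cc : Fin s → ℕ) (m : ℕ) (p : ℕ × ℕ) : Prop :=
  ∃ v', RPat N r s cr cc p.1 v' ∧ p.2 = m * v'

theorem rpat_dvd {N r s : ℕ} {cr : Fin (r + 1) → ℕ} {cc : Fin s → ℕ} {q₀ v : ℕ}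
    (h : RPat N r s cr cc q₀ v) : q₀ - 1 ∣ v ∧ q₀.Prime := by
  obtain ⟨q, q', U, U', h0, hU, hU', hv, hv', hq, -⟩ := h
  constructor
  · rw [hv, ← h0]
    exact (Finset.dvd_prod_of_mem (fun i => q i - 1) (mem_univ 0)).mul_right U
  · rw [← h0]; exact (hq 0).1

theorem pat_card {N r s : ℕ} {cr : Fin (r + 1) → ℕ} {cc : Fin s → ℕ} {m : ℕ} (hm : 1 ≤ m)
    {t E : ℝ} (ht : 1 ≤ t) (hE : 0 ≤ E)
    (h : ∀ t', 1 ≤ t' → t' ≤ t →
      (((Bx t').filter (fun p => RPat N r s cr cc p.1 p.2)).card : ℝ) ≤ t' * E) :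
    (((Bx t).filter (Pat N r s cr cc m)).card : ℝ) ≤ t / m * E := by
  have hmr : (1 : ℝ) ≤ m := by exact_mod_cast hm
  have hm0 : (0 : ℝ) < m := by linarith
  rcases lt_or_ge (t / m) 1 with hlt | hge
  · have he : (Bx t).filter (Pat N r s cr cc m) = ∅ := by
      rw [Finset.eq_empty_iff_forall_notMem]
      intro p hp
      rw [mem_filter, mem_Bx] at hp
      obtain ⟨⟨-, h1, h2⟩, v', -, hv⟩ := hp
      have h3 : 1 ≤ v' := by
        rcases Nat.eq_zero_or_pos v' with h0 | h0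
        · rw [h0, mul_zero] at hv; omega
        · exact h0
      have h4 : m ≤ p.2 := by rw [hv]; exact Nat.le_mul_of_pos_right _ h3
      have h5 : (m : ℝ) ≤ t := by
        have : ((m : ℕ) : ℝ) ≤ (⌊t⌋₊ : ℝ) := by exact_mod_cast h4.trans h2
        exact this.trans (Nat.floor_le (by linarith))
      rw [div_lt_one hm0] at hlt
      linarith
    rw [he]
    simp only [Finset.card_empty, Nat.cast_zero]
    positivity
  · have h1 := h (t / m) hge (div_le_self (by linarith) hmr)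
    refine le_trans ?_ h1
    have h2 : ((Bx t).filter (Pat N r s cr cc m)).card ≤
        ((Bx (t / m)).filter (fun p => RPat N r s cr cc p.1 p.2)).card := by
      refine Finset.card_le_card_of_injOn (fun p => (p.1, p.2 / m)) ?_ ?_
      · intro p hp
        simp only [Finset.coe_filter, Set.mem_ofPred_eq] at hp ⊢
        rw [mem_Bx] at hp ⊢
        obtain ⟨⟨⟨h1, h1p⟩, h2, h3⟩, v', h4, hv⟩ := hp
        have h5 : p.2 / m = v' := by
          rw [hv]; exact Nat.mul_div_cancel_left v' (by omega)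
        have h6 : 1 ≤ v' := by
          rcases Nat.eq_zero_or_pos v' with h0 | h0
          · rw [h0, mul_zero] at hv; omega
          · exact h0
        have h7 : v' ≤ ⌊t / m⌋₊ := by
          apply Nat.le_floor
          rw [le_div_iff₀ hm0]
          have h8 : ((v' * m : ℕ) : ℝ) ≤ (⌊t⌋₊ : ℝ) := by
            rw [mul_comm v' m, ← hv]; exact_mod_cast h3
          push_cast at h8
          exact h8.trans (Nat.floor_le (by linarith))
        simp only [h5]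
        have h9 := Nat.le_of_dvd (by omega) (rpat_dvd h4).1
        have h10 := h1p.two_le
        exact ⟨⟨⟨by omega, h1p⟩, h6, h7⟩, h4⟩
      · intro p hp p' hp' he
        simp only [Finset.coe_filter, Set.mem_ofPred_eq] at hp hp'
        obtain ⟨-, v', -, hv⟩ := hp
        obtain ⟨-, v'', -, hv'⟩ := hp'
        simp only [Prod.mk.injEq] at he
        obtain ⟨e1, e2⟩ := he
        rw [hv, hv', Nat.mul_div_cancel_left _ (by omega : 0 < m),
          Nat.mul_div_cancel_left _ (by omega : 0 < m)] at e2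
        apply Prod.ext e1
        rw [hv, hv', e2]
    exact_mod_cast h2

theorem card_exists_le {α ι : Type*} (B : Finset α) (I : Finset ι) (P : ι → α → Prop)
    [∀ i, DecidablePred (P i)] [DecidablePred (fun p => ∃ i ∈ I, P i p)]
    (f : ι → ℝ) (h : ∀ i ∈ I, ((B.filter (P i)).card : ℝ) ≤ f i) :
    ((B.filter (fun p => ∃ i ∈ I, P i p)).card : ℝ) ≤ ∑ i ∈ I, f i := by
  have h1 : B.filter (fun p => ∃ i ∈ I, P i p) ⊆ I.biUnion (fun i => B.filter (P i)) := by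
    intro p hp
    rw [mem_filter] at hp
    obtain ⟨hp, i, hi, hP⟩ := hp
    rw [Finset.mem_biUnion]
    exact ⟨i, hi, mem_filter.2 ⟨hp, hP⟩⟩
  have h2 := (card_le_card h1).trans Finset.card_biUnion_le
  have h3 : ((B.filter (fun p => ∃ i ∈ I, P i p)).card : ℝ) ≤
      ∑ i ∈ I, ((B.filter (P i)).card : ℝ) := by exact_mod_cast h2
  exact h3.trans (Finset.sum_le_sum h)

theorem card_exists_le_const {α ι : Type*} (B : Finset α) (I : Finset ι) (P : ι → α → Prop)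
    [∀ i, DecidablePred (P i)] [DecidablePred (fun p => ∃ i ∈ I, P i p)]
    (K X : ℝ) (hK : (I.card : ℝ) ≤ K) (hX : 0 ≤ X)
    (h : ∀ i ∈ I, ((B.filter (P i)).card : ℝ) ≤ X) :
    ((B.filter (fun p => ∃ i ∈ I, P i p)).card : ℝ) ≤ K * X := by
  refine (card_exists_le B I P (fun _ => X) h).trans ?_
  rw [Finset.sum_const, nsmul_eq_mul]
  exact mul_le_mul_of_nonneg_right hK hX

/-! ### squares -/

theorem card_divisors_sq_mul {P k : ℕ} (hP : P.Prime) :
    (P ^ 2 * k).divisors.card ≤ 3 * k.divisors.card := by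
  rw [Nat.divisors_mul]
  refine Finset.card_mul_le.trans ?_
  rw [Nat.divisors_prime_pow hP, Finset.card_map, Finset.card_range]

theorem sum_card_divisors (K : ℕ) (hK : 1 ≤ K) :
    ((∑ k ∈ Icc 1 K, k.divisors.card : ℕ) : ℝ) ≤ K * (1 + Real.log K) := by
  have h1 : ∑ k ∈ Icc 1 K, k.divisors.card = ∑ n ∈ Icc 1 K, K / n := by
    have h := ArithmeticFunction.sum_Ioc_sigma0_eq_sum_div K
    have e : Ioc 0 K = Icc 1 K := rfl
    rw [e] at h
    rw [← h]
    refine Finset.sum_congr rfl fun n _ => ?_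
    rw [ArithmeticFunction.sigma_zero_apply]
  rw [h1]
  push_cast
  have h2 : ∑ n ∈ Icc 1 K, ((K / n : ℕ) : ℝ) ≤ ∑ n ∈ Icc 1 K, (K : ℝ) * (n : ℝ)⁻¹ := by
    refine Finset.sum_le_sum fun n _ => ?_
    rw [← div_eq_mul_inv]
    exact Nat.cast_div_le
  refine h2.trans ?_
  rw [← Finset.mul_sum]
  have h3 := harmonic_le_one_add_log K
  rw [harmonic_eq_sum_Icc] at h3
  push_cast at h3
  gcongr

/-- pairs `(q₀, v)` with `q₀ - 1 ∣ v` and `P ^ 2 ∣ v` -/
theorem sq_one {t : ℝ} (ht : 1 ≤ t) {P : ℕ} (hP : P.Prime) :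
    (((Bx t).filter (fun p => p.1 - 1 ∣ p.2 ∧ P ^ 2 ∣ p.2)).card : ℝ) ≤
      3 * (t / (P : ℝ) ^ 2 * (1 + Real.log t)) := by
  have hP0 : 0 < P ^ 2 := Nat.pow_pos hP.pos
  obtain ⟨K, hK⟩ : ∃ K, K = ⌊t⌋₊ / P ^ 2 := ⟨_, rfl⟩
  have hlogt : 0 ≤ Real.log t := Real.log_nonneg ht
  have hKt : (K : ℝ) ≤ t / (P : ℝ) ^ 2 := by
    have h1 : ((⌊t⌋₊ / P ^ 2 : ℕ) : ℝ) ≤ (⌊t⌋₊ : ℝ) / ((P ^ 2 : ℕ) : ℝ) := Nat.cast_div_le
    rw [hK]
    refine h1.trans ?_
    push_cast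
    gcongr
    exact Nat.floor_le (by linarith)
  -- injection into a sigma set
  have h1 : ((Bx t).filter (fun p => p.1 - 1 ∣ p.2 ∧ P ^ 2 ∣ p.2)).card ≤
      ((Icc 1 K).sigma (fun k => (P ^ 2 * k).divisors)).card := by
    refine Finset.card_le_card_of_injOn
      (fun p => (⟨p.2 / P ^ 2, p.1 - 1⟩ : Σ _ : ℕ, ℕ)) ?_ ?_
    · intro p hp
      simp only [Finset.coe_filter, Set.mem_ofPred_eq] at hp
      rw [mem_Bx] at hp
      obtain ⟨⟨⟨h1, h1p⟩, h2, h3⟩, h4, h5⟩ := hp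
      rw [Finset.mem_coe, Finset.mem_sigma, mem_Icc, Nat.mem_divisors, Nat.mul_div_cancel' h5]
      refine ⟨⟨?_, ?_⟩, h4, by omega⟩
      · exact (Nat.one_le_div_iff hP0).2 (Nat.le_of_dvd (by omega) h5)
      · rw [hK]; exact Nat.div_le_div_right h3
    · intro p hp p' hp' he
      simp only [Finset.coe_filter, Set.mem_ofPred_eq] at hp hp'
      rw [mem_Bx] at hp hp'
      obtain ⟨⟨⟨h1, h1p⟩, h2, h3⟩, h4, h5⟩ := hp
      obtain ⟨⟨⟨h1', h1p'⟩, h2', h3'⟩, h4', h5'⟩ := hp'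
      simp only [Sigma.mk.injEq, heq_eq_eq] at he
      obtain ⟨e1, e2⟩ := he
      have := h1p.two_le
      have := h1p'.two_le
      apply Prod.ext
      · omega
      · rw [← Nat.mul_div_cancel' h5, ← Nat.mul_div_cancel' h5', e1]
  rw [Finset.card_sigma] at h1
  have h2 : ∑ k ∈ Icc 1 K, (P ^ 2 * k).divisors.card ≤ 3 * ∑ k ∈ Icc 1 K, k.divisors.card := by
    rw [Finset.mul_sum]
    exact Finset.sum_le_sum fun k _ => card_divisors_sq_mul hP
  have h3 : (((Bx t).filter (fun p => p.1 - 1 ∣ p.2 ∧ P ^ 2 ∣ p.2)).card : ℝ) ≤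
      3 * ((∑ k ∈ Icc 1 K, k.divisors.card : ℕ) : ℝ) := by exact_mod_cast h1.trans h2
  refine h3.trans ?_
  have h4 : ((∑ k ∈ Icc 1 K, k.divisors.card : ℕ) : ℝ) ≤
      t / (P : ℝ) ^ 2 * (1 + Real.log t) := by
    rcases Nat.eq_zero_or_pos K with h0 | h0
    · rw [h0]
      simp only [Icc_eq_empty_of_lt (by norm_num : (0 : ℕ) < 1), Finset.sum_empty, Nat.cast_zero]
      positivity
    · refine (sum_card_divisors K h0).trans ?_
      have hK1 : (1 : ℝ) ≤ K := by exact_mod_cast h0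
      have hKt' : (K : ℝ) ≤ t := by
        refine hKt.trans (div_le_self (by linarith) ?_)
        have : (1 : ℝ) ≤ P := by exact_mod_cast hP.one_le
        exact one_le_pow₀ this
      have h5 := Real.log_le_log (by linarith : (0 : ℝ) < K) hKt'
      have h6 := Real.log_nonneg hK1
      exact mul_le_mul hKt (by linarith) (by linarith) (by positivity)
  linarith

theorem sum_inv_sq (z : ℝ) (hz : 14 ≤ z) (s : Finset ℕ) (hs : ∀ p ∈ s, z ≤ (p : ℝ)) :
    ∑ p ∈ s, 1 / ((p : ℝ) ^ 2) ≤ 3 / z := by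
  have hz0 : 0 < Real.sqrt z := Real.sqrt_pos.2 (by linarith)
  calc ∑ p ∈ s, 1 / ((p : ℝ) ^ 2)
      ≤ ∑ p ∈ s, (1 / Real.sqrt z) * (1 / ((p : ℝ) * Real.sqrt p)) := by
        refine Finset.sum_le_sum fun p hp => ?_
        have h1 := hs p hp
        have hp0 : (0 : ℝ) < p := by linarith
        have h2 : Real.sqrt z ≤ Real.sqrt p := Real.sqrt_le_sqrt h1
        have h3 : 0 < Real.sqrt p := Real.sqrt_pos.2 hp0
        have h4 : (p : ℝ) ^ 2 = Real.sqrt p * (p * Real.sqrt p) := by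
          have := Real.mul_self_sqrt hp0.le
          nlinarith
        rw [h4, one_div_mul_one_div]
        apply one_div_le_one_div_of_le (by positivity)
        gcongr
    _ = (1 / Real.sqrt z) * ∑ p ∈ s, (1 / ((p : ℝ) * Real.sqrt p)) := by rw [Finset.mul_sum]
    _ ≤ (1 / Real.sqrt z) * (3 / Real.sqrt z) := by
        gcongr
        exact SqAux.sum_inv_sqrt_set z hz s hs
    _ = 3 / z := by
        rw [div_mul_div_comm, Real.mul_self_sqrt (by linarith), one_mul]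

/-- all pairs with a large square -/
theorem sq_card {t : ℝ} (ht : 1 ≤ t) {k : ℕ} (hk : 1 ≤ k) {z : ℝ}
    (hz : z = Real.exp (Real.exp k)) :
    (((Bx t).filter (fun p => p.1 - 1 ∣ p.2 ∧ ∃ P : ℕ, P.Prime ∧ k ≤ lv P ∧ P ^ 2 ∣ p.2)).card : ℝ)
      ≤ 9 * t * (1 + Real.log t) / z := by
  have hz14 : 14 ≤ z := by rw [hz]; exact SqAux.z0_ge hk
  obtain ⟨S, hS⟩ : ∃ S : Finset ℕ, S = (Icc 1 ⌊t⌋₊).filter (fun P => P.Prime ∧ k ≤ lv P) :=
    ⟨_, rfl⟩
  have hlogt : 0 ≤ Real.log t := Real.log_nonneg ht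
  have h1 : (Bx t).filter (fun p => p.1 - 1 ∣ p.2 ∧ ∃ P : ℕ, P.Prime ∧ k ≤ lv P ∧ P ^ 2 ∣ p.2) ⊆
      (Bx t).filter (fun p => ∃ P ∈ S, (p.1 - 1 ∣ p.2 ∧ P ^ 2 ∣ p.2)) := by
    intro p hp
    rw [mem_filter] at hp ⊢
    obtain ⟨hp, hd, P, hP, hk', hPd⟩ := hp
    refine ⟨hp, P, ?_, hd, hPd⟩
    rw [hS, mem_filter, mem_Icc]
    rw [mem_Bx] at hp
    refine ⟨⟨hP.one_le, ?_⟩, hP, hk'⟩
    have := Nat.le_of_dvd (by omega) hPd
    have h2 : P ≤ P ^ 2 := Nat.le_self_pow (by norm_num) P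
    omega
  have h2 := card_exists_le (Bx t) S (fun P p => p.1 - 1 ∣ p.2 ∧ P ^ 2 ∣ p.2)
    (fun P => 3 * (t / (P : ℝ) ^ 2 * (1 + Real.log t))) (by
      intro P hP
      rw [hS, mem_filter] at hP
      exact sq_one ht hP.2.1)
  have h3 := sum_inv_sq z hz14 S (by
    intro P hP
    rw [hS, mem_filter] at hP
    rw [hz]
    exact SqAux.le_of_lv hk hP.2.2)
  refine (Nat.cast_le.2 (card_le_card h1)).trans (h2.trans ?_)
  have h5 : ∑ P ∈ S, 3 * (t / (P : ℝ) ^ 2 * (1 + Real.log t)) =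
      3 * t * (1 + Real.log t) * ∑ P ∈ S, 1 / ((P : ℝ) ^ 2) := by
    rw [Finset.mul_sum]
    refine Finset.sum_congr rfl fun P _ => ?_
    ring
  rw [h5]
  have h6 : 0 ≤ 3 * t * (1 + Real.log t) := by positivity
  calc 3 * t * (1 + Real.log t) * ∑ P ∈ S, 1 / ((P : ℝ) ^ 2)
      ≤ 3 * t * (1 + Real.log t) * (3 / z) := mul_le_mul_of_nonneg_left h3 h6
    _ = 9 * t * (1 + Real.log t) / z := by ring

end CollAux

end P031
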