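import Vale.Agent.P031.AsmDefs

/-! P031, [COLLGEN]: non-canonical pairs are collisions. -/

namespace P031

open Finset
open scoped Classical

theorem pm_filter_split (j : ℕ) (l : List ℕ) :
    pm (l.filter (fun q => decide (j ≤ lv q))) * pm (l.filter (fun q => decide (lv q < j))) =
      pm l := by
  induction l with
  | nil => simp
  | cons a l ih =>
    by_cases h : j ≤ lv a
    · have h' : ¬ lv a < j := by omega
      rw [List.filter_cons_of_pos (by simpa using h), List.filter_cons_of_neg (by simpa using h),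
        pm_cons, pm_cons, mul_assoc, ih]
    · have h' : lv a < j := by omega
      rw [List.filter_cons_of_neg (by simpa using h'), List.filter_cons_of_pos (by simpa using h'),
        pm_cons, pm_cons, ← ih]
      ring

theorem up_mul_lowp {k j w : ℕ} (hk : 1 ≤ k) (hw : w ∈ SS k) :
    pm (up k j w) * lowp k j w = w := by
  unfold up lowp
  rw [← mul_assoc, pm_filter_split, pm_can_mul_rest hk hw]

theorem lowp_pos {k j w : ℕ} (hk : 1 ≤ k) (hw : w ∈ SS k) : 0 < lowp k j w := by
  apply Nat.pos_of_ne_zero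
  intro h
  have h1 := up_mul_lowp (j := j) hk hw
  rw [h, mul_zero] at h1
  have := SS_pos hw
  omega

theorem prime_dvd_pm {p : ℕ} (hp : p.Prime) {l : List ℕ} (h : p ∣ pm l) :
    ∃ r ∈ l, p ∣ r - 1 := by
  induction l with
  | nil =>
    rw [pm_nil] at h
    exact absurd (Nat.dvd_one.1 h) hp.one_lt.ne'
  | cons a l ih =>
    rw [pm_cons] at h
    rcases (Nat.Prime.dvd_mul hp).1 h with h | h
    · exact ⟨a, List.mem_cons_self, h⟩
    · obtain ⟨r, hr, hpr⟩ := ih h
      exact ⟨r, List.mem_cons_of_mem _ hr, hpr⟩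

theorem lv_le_of_dvd_sub {p r : ℕ} (hr : r.Prime) (h : p ∣ r - 1) : lv p ≤ lv r := by
  apply lv_mono
  have h2 := hr.two_le
  have := Nat.le_of_dvd (by omega) h
  omega

theorem prime_dvd_totient {p m : ℕ} (hp : p.Prime) (h : p ∣ Nat.totient m) :
    p ∣ m ∨ ∃ r, r.Prime ∧ r ∣ m ∧ p ∣ r - 1 := by
  rcases Nat.eq_zero_or_pos m with hm | hm
  · subst hm
    left
    exact dvd_zero p
  · rw [Nat.totient_eq_prod_factorization hm.ne'] at h
    rw [Finsupp.prod, Prime.dvd_finsetProd_iff (Nat.prime_iff.1 hp)] at h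
    obtain ⟨r, hr, hpr⟩ := h
    rw [Nat.support_factorization] at hr
    have hrp := Nat.prime_of_mem_primeFactors hr
    have hrm := Nat.dvd_of_mem_primeFactors hr
    rcases (Nat.Prime.dvd_mul hp).1 hpr with h | h
    · left
      have := hp.dvd_of_dvd_pow h
      rw [Nat.prime_dvd_prime_iff_eq hp hrp] at this
      rw [this]; exact hrm
    · right
      exact ⟨r, hrp, hrm, h⟩

theorem lv_of_dvd_lowp {k j w p : ℕ} (hk : 1 ≤ k) (hkj : k ≤ j) (hw : w ∈ SS k) (hp : p.Prime)
    (h : p ∣ lowp k j w) : lv p < j := by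
  unfold lowp at h
  rcases (Nat.Prime.dvd_mul hp).1 h with h | h
  · obtain ⟨r, hr, hpr⟩ := prime_dvd_pm hp h
    rw [List.mem_filter] at hr
    have hrp := (mem_can hk hw hr.1).1
    have h1 := lv_le_of_dvd_sub hrp hpr
    have h2 : lv r < j := by simpa using hr.2
    omega
  · obtain ⟨m, hm, hs, he⟩ := exists_totient_of_no_top (rest_mem hk hw) (rest_no_top hk hw)
    rw [he] at h
    rcases prime_dvd_totient hp h with h | ⟨r, hr, hrm, hpr⟩
    · have := hs p hp h
      omega
    · have h1 := hs r hr hrm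
      have h2 := lv_le_of_dvd_sub hr hpr
      omega

theorem coll_of_ne {k N q w : ℕ} (hk : 1 ≤ k) (hkN : k ≤ N ^ 10) (hw : w ∈ SS k)
    (hq : Normal N q) (hkq : k ≤ lv q)
    (h1 : ∀ r ∈ can k w, lv r + 2 ≤ lv q)
    (h2 : ∀ r ∈ up k (N ^ 10) w, Normal N r)
    (h3 : (up k (N ^ 10) w).length ≤ N)
    (h4 : al 1 ((up k (N ^ 10) w).map lv) + (N : ℝ) ^ 90 ≤ lv q)
    (h5 : (lowp k (N ^ 10) w : ℝ) ≤ Real.exp (Real.exp (2 * (N : ℝ) ^ 10)))
    (hne : can k ((q - 1) * w) ≠ q :: can k w) :
    Coll N (lv q) q ((q - 1) * w) := by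
  have hv : (q - 1) * w ∈ SS k := SS_mul hq.prime hkq hw
  have hv0 := SS_pos hv
  have hsort := can_sorted hk hw
  refine ⟨up k (N ^ 10) w, lowp k (N ^ 10) w, up k (N ^ 10) ((q - 1) * w),
    lowp k (N ^ 10) ((q - 1) * w), hq, rfl, ?_, h3, ?_, h4, lowp_pos hk hw, h5, ?_, ?_,
    lowp_pos hk hv, ?_, ?_, ?_⟩
  · intro r hr
    refine ⟨h2 r hr, h1 r ?_⟩
    unfold up at hr
    exact (List.mem_filter.1 hr).1
  · unfold up
    exact List.Pairwise.filter _ hsort
  · intro r hr
    unfold up at hr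
    rw [List.mem_filter] at hr
    exact ⟨(mem_can hk hv hr.1).1, by simpa using hr.2⟩
  · intro hmem
    unfold up at hmem
    have hqc : q ∈ can k ((q - 1) * w) := (List.mem_filter.1 hmem).1
    rw [ne_eq, can_mul_iff hk hq.prime hkq hw] at hne
    push Not at hne
    obtain ⟨r, hr, hrq⟩ := hne
    have hex : ∃ q', IsTop k ((q - 1) * w) q' := ⟨r, hr⟩
    have ht := topq_spec hv0 hex
    have hle := le_topq hv0 hr
    set T0 := topq k ((q - 1) * w) with hT0
    rw [can_eq_cons hk hv0 hex, List.mem_cons] at hqc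
    rcases hqc with hqc | hqc
    · omega
    · have hv1 := ht.2.2.2
      obtain ⟨hqp, hkq', ⟨c, hc⟩, hc2⟩ := isTop_of_mem_can hk hv1 hqc
      have hq0 : 0 < q - 1 := by have := hqp.two_le; omega
      have hT00 : 0 < T0 - 1 := by have := ht.1.two_le; omega
      have e1 : (q - 1) * w = (T0 - 1) * ((q - 1) * c) := by
        rw [← hc]
        exact (Nat.mul_div_cancel' ht.2.2.1).symm
      have e2 : w = (T0 - 1) * c := by
        have : (q - 1) * w = (q - 1) * ((T0 - 1) * c) := by rw [e1]; ring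
        exact Nat.eq_of_mul_eq_mul_left hq0 this
      have e3 : ((q - 1) * w) / (T0 - 1) / (q - 1) = c := by
        rw [hc]
        exact Nat.mul_div_cancel_left _ hq0
      rw [e3] at hc2
      have htop : IsTop k w T0 := by
        refine ⟨ht.1, ht.2.1, ⟨c, e2⟩, ?_⟩
        rw [e2, Nat.mul_div_cancel_left _ hT00]
        exact hc2
      have hw0 := SS_pos hw
      have h6 := le_topq hw0 htop
      have h7 : topq k w ∈ can k w := by
        rw [can_eq_cons hk hw0 ⟨T0, htop⟩]
        exact List.mem_cons_self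
      have h8 := h1 _ h7
      have h9 : lv q ≤ lv (topq k w) := lv_mono (by omega)
      omega
  · intro p hp hpd
    exact lv_of_dvd_lowp hk hkN hv hp hpd
  · have := up_mul_lowp (j := N ^ 10) hk hw
    unfold pm at this
    rw [mul_assoc, this]
  · have := up_mul_lowp (j := N ^ 10) hk hv
    unfold pm at this
    exact this.symm

end P031
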