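import Vale.Agent.P031.CollAux

/-! P031, [COLL]: the number of collisions. -/

namespace P031

open Finset Filter Topology
open scoped Classical

namespace CollAux

open OmT

theorem coll_dvd {N c q₀ v : ℕ} (h : Coll N c q₀ v) : q₀ - 1 ∣ v ∧ 1 ≤ v ∧ q₀.Prime := by
  obtain ⟨l, u, l', u', h0, h0c, hl, hlen, hsort, hal, hu, hu', hl', hq0l', hup', hu's, hv, hv'⟩ :=
    h
  have hlp : ∀ q ∈ l, Nat.Prime q := fun q hq => (hl q hq).1.prime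
  have h02 := h0.prime.two_le
  refine ⟨?_, ?_, h0.prime⟩
  · rw [hv, mul_assoc]; exact dvd_mul_right _ _
  · rw [hv]
    exact Nat.mul_pos (Nat.mul_pos (by omega) (qm_pos hlp)) hu

theorem coll_size {N c q₀ v : ℕ} (hN : 20 ≤ N) (hc1 : N ^ 100 ≤ c) (h : Coll N c q₀ v) :
    (v : ℝ) ≤ Real.exp (((N : ℝ) + 2) * Real.exp ((c : ℝ) + 1)) := by
  obtain ⟨l, u, l', u', h0, h0c, hl, hlen, hsort, hal, hu, hu', hl', hq0l', hup', hu's, hv, hv'⟩ :=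
    h
  have h02 := h0.prime.two_le
  have hc : 1 ≤ c := (Nat.one_le_pow _ _ (by omega)).trans hc1
  change v = (q₀ - 1) * qm l * u at hv
  have hlp : ∀ q ∈ l, Nat.Prime q := fun q hq => (hl q hq).1.prime
  have h1 := CRedAux.qm_le (l := q₀ :: l) (c := c) (by
    intro q hq
    rw [List.mem_cons] at hq
    rcases hq with rfl | hq
    · exact ⟨h0.prime, h0c.le⟩
    · exact ⟨hlp q hq, by have := (hl q hq).2; omega⟩)
  have h2 : Real.exp (2 * (N : ℝ) ^ 10) ≤ Real.exp ((c : ℝ) + 1) := by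
    apply Real.exp_le_exp.2
    have h3 : 2 * N ^ 10 ≤ c := by
      refine le_trans ?_ hc1
      calc 2 * N ^ 10 ≤ N * N ^ 10 := Nat.mul_le_mul_right _ (by omega)
        _ = N ^ 11 := by ring
        _ ≤ N ^ 100 := Nat.pow_le_pow_right (by omega) (by norm_num)
    have : (2 : ℝ) * (N : ℝ) ^ 10 ≤ c := by exact_mod_cast h3
    linarith
  have e1 : v = qm (q₀ :: l) * u := by rw [hv, qm_cons]
  rw [e1]
  push_cast
  rw [List.length_cons] at h1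
  push_cast at h1
  calc (qm (q₀ :: l) : ℝ) * u ≤
        Real.exp (((l.length : ℝ) + 1) * Real.exp ((c : ℝ) + 1)) *
          Real.exp (Real.exp ((c : ℝ) + 1)) := by
        refine mul_le_mul h1 (hu'.trans ?_) (by positivity) (by positivity)
        exact Real.exp_le_exp.2 h2
    _ = Real.exp (((l.length : ℝ) + 2) * Real.exp ((c : ℝ) + 1)) := by
        rw [← Real.exp_add]; congr 1; ring
    _ ≤ Real.exp (((N : ℝ) + 2) * Real.exp ((c : ℝ) + 1)) := by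
        apply Real.exp_le_exp.2
        have : (l.length : ℝ) ≤ N := by exact_mod_cast hlen
        gcongr

/-- side conditions of a pattern -/
def Side (N c r s : ℕ) (cr : Fin (r + 1) → ℕ) (cc : Fin s → ℕ) : Prop :=
  Antitone cr ∧ cr 0 = c ∧ (∀ i, N ^ 80 ≤ cr i) ∧
    (∀ j, N ^ 80 ≤ cc j ∧ cc j ≤ 3 * N ^ 100) ∧
    al 1 (List.ofFn (fun i : Fin r => cr i.succ)) + (N : ℝ) ^ 90 ≤ c

def Q6 (N c r s : ℕ) (cr : Fin (r + 1) → ℕ) (cc : Fin s → ℕ) (m : ℕ) (p : ℕ × ℕ) : Prop :=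
  Side N c r s cr cc ∧ Pat N r s cr cc m p

theorem piece {N c r s : ℕ} {cr : Fin (r + 1) → ℕ} {cc : Fin s → ℕ} {m : ℕ} (hm : 1 ≤ m)
    (hr : r ≤ N) (hs : s ≤ N ^ 102) (hc2 : c ≤ 2 * N ^ 100)
    (hcount : ∀ (r s : ℕ) (cr : Fin (r + 1) → ℕ) (cc : Fin s → ℕ),
      r ≤ N → s ≤ N ^ 102 → Antitone cr → (∀ i, N ^ 80 ≤ cr i ∧ cr i ≤ 2 * N ^ 100) →
      (∀ j, N ^ 80 ≤ cc j ∧ cc j ≤ 3 * N ^ 100) →
      ∀ t : ℝ, 1 ≤ t → t ≤ Real.exp (Real.exp (3 * (N : ℝ) ^ 100)) →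
      (((Nat.primesLE (⌊t⌋₊ + 1) ×ˢ Icc 1 ⌊t⌋₊).filter
        (fun p => RPat N r s cr cc p.1 p.2)).card : ℝ) ≤
        t * Real.exp (-2 * (cr 0 : ℝ) + al 1 (List.ofFn (fun i : Fin r => cr i.succ)) +
          (N : ℝ) ^ 88 - s * (N : ℝ) ^ 79))
    {t : ℝ} (ht : 1 ≤ t) (htle : t ≤ Real.exp (Real.exp (3 * (N : ℝ) ^ 100))) :
    (((Bx t).filter (Q6 N c r s cr cc m)).card : ℝ) ≤
      t / m * (Real.exp (-(c : ℝ) - (N : ℝ) ^ 90 + (N : ℝ) ^ 88) *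
        Real.exp (-((s : ℝ) * (N : ℝ) ^ 79))) := by
  by_cases hside : Side N c r s cr cc
  · obtain ⟨h1, h2, h3, h4, h5⟩ := hside
    have h6 : ∀ i, N ^ 80 ≤ cr i ∧ cr i ≤ 2 * N ^ 100 := fun i => by
      refine ⟨h3 i, ?_⟩
      have := h1 (Fin.zero_le i)
      omega
    have h7 := pat_card (N := N) (cr := cr) (cc := cc) hm ht
      (E := Real.exp (-2 * (cr 0 : ℝ) + al 1 (List.ofFn (fun i : Fin r => cr i.succ)) +
          (N : ℝ) ^ 88 - s * (N : ℝ) ^ 79)) (Real.exp_pos _).le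
      (fun t' h1t h2t => hcount r s cr cc hr hs h1 h6 h4 t' h1t (h2t.trans htle))
    have h8 : (((Bx t).filter (Q6 N c r s cr cc m)).card : ℝ) ≤
        (((Bx t).filter (Pat N r s cr cc m)).card : ℝ) := by
      refine Nat.cast_le.2 (card_le_card ?_)
      intro p hp
      rw [mem_filter] at hp ⊢
      exact ⟨hp.1, hp.2.2⟩
    refine h8.trans (h7.trans ?_)
    rw [← Real.exp_add]
    have h9 : -2 * (cr 0 : ℝ) + al 1 (List.ofFn (fun i : Fin r => cr i.succ)) +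
          (N : ℝ) ^ 88 - s * (N : ℝ) ^ 79 ≤
        -(c : ℝ) - (N : ℝ) ^ 90 + (N : ℝ) ^ 88 + -((s : ℝ) * (N : ℝ) ^ 79) := by
      rw [h2]; linarith
    have h10 : (0 : ℝ) ≤ t / m := by positivity
    exact mul_le_mul_of_nonneg_left (Real.exp_le_exp.2 h9) h10
  · have h8 : (Bx t).filter (Q6 N c r s cr cc m) = ∅ := by
      rw [Finset.eq_empty_iff_forall_notMem]
      intro p hp
      rw [mem_filter] at hp
      exact hside hp.2.1
    rw [h8]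
    simp only [Finset.card_empty, Nat.cast_zero]
    positivity

theorem sumD {j : ℕ} {t E : ℝ} (S : Finset ℕ) :
    ∑ D ∈ Fintype.piFinset (fun _ : Fin j => S), t / ((∏ i, (D i - 1) : ℕ) : ℝ) * E =
      t * E * (∑ q ∈ S, 1 / ((q - 1 : ℕ) : ℝ)) ^ j := by
  have h := Finset.prod_univ_sum (fun _ : Fin j => S) (fun _ q => 1 / ((q - 1 : ℕ) : ℝ))
  rw [Finset.prod_const, Finset.card_univ, Fintype.card_fin] at h
  rw [h, Finset.mul_sum]
  refine Finset.sum_congr rfl fun D _ => ?_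
  rw [Nat.cast_prod, Finset.prod_div_distrib, Finset.prod_const_one]
  ring

theorem card_le_of {α ι : Type*} (B : Finset α) (I : Finset ι) (Q : α → Prop) (P : ι → α → Prop)
    (hQ : ∀ p, Q p → ∃ i ∈ I, P i p) (f : ι → ℝ)
    (h : ∀ i ∈ I, ((B.filter (P i)).card : ℝ) ≤ f i) :
    ((B.filter Q).card : ℝ) ≤ ∑ i ∈ I, f i := by
  have h1 : B.filter Q ⊆ I.biUnion (fun i => B.filter (P i)) := by
    intro p hp
    rw [mem_filter] at hp
    obtain ⟨i, hi, hP⟩ := hQ p hp.2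
    rw [Finset.mem_biUnion]
    exact ⟨i, hi, mem_filter.2 ⟨hp.1, hP⟩⟩
  have h2 := (card_le_card h1).trans Finset.card_biUnion_le
  have h3 : ((B.filter Q).card : ℝ) ≤ ∑ i ∈ I, ((B.filter (P i)).card : ℝ) := by
    exact_mod_cast h2
  exact h3.trans (Finset.sum_le_sum h)

theorem card_le_of_const {α ι : Type*} (B : Finset α) (I : Finset ι) (Q : α → Prop)
    (P : ι → α → Prop) (hQ : ∀ p, Q p → ∃ i ∈ I, P i p)
    (K X : ℝ) (hK : (I.card : ℝ) ≤ K) (hX : 0 ≤ X)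
    (h : ∀ i ∈ I, ((B.filter (P i)).card : ℝ) ≤ X) :
    ((B.filter Q).card : ℝ) ≤ K * X := by
  refine (card_le_of B I Q P hQ (fun _ => X) h).trans ?_
  rw [Finset.sum_const, nsmul_eq_mul]
  exact mul_le_mul_of_nonneg_right hK hX

def Q5 (N c r s : ℕ) (cr : Fin (r + 1) → ℕ) (cc : Fin s → ℕ) (j : ℕ) (p : ℕ × ℕ) : Prop :=
  ∃ D ∈ Fintype.piFinset (fun _ : Fin j => PL (N ^ 10) (c + 1)),
    Q6 N c r s cr cc (∏ i, (D i - 1)) p

def Q4 (N c r s : ℕ) (cr : Fin (r + 1) → ℕ) (cc : Fin s → ℕ) (p : ℕ × ℕ) : Prop :=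
  ∃ j ∈ range (N + 1), Q5 N c r s cr cc j p

def Q3 (N c r s : ℕ) (cr : Fin (r + 1) → ℕ) (p : ℕ × ℕ) : Prop :=
  ∃ cc ∈ Fintype.piFinset (fun _ : Fin s => range (3 * N ^ 100 + 1)), Q4 N c r s cr cc p

def Q2 (N c r s : ℕ) (p : ℕ × ℕ) : Prop :=
  ∃ cr ∈ Fintype.piFinset (fun _ : Fin (r + 1) => range (2 * N ^ 100 + 1)), Q3 N c r s cr p

def Q1 (N c r : ℕ) (p : ℕ × ℕ) : Prop :=
  ∃ s ∈ range (N ^ 102 + 1), Q2 N c r s p

def Q0 (N c : ℕ) (p : ℕ × ℕ) : Prop :=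
  ∃ r ∈ range (N + 1), Q1 N c r p

theorem Q5_card {N c r s j : ℕ} {cr : Fin (r + 1) → ℕ} {cc : Fin s → ℕ} {t E : ℝ} (ht : 1 ≤ t)
    (hE : 0 ≤ E) (hN : 1 ≤ N) (hj : j ≤ N)
    (hM : ∑ q ∈ PL (N ^ 10) (c + 1), 1 / ((q - 1 : ℕ) : ℝ) ≤ (N : ℝ) ^ 101)
    (hpiece : ∀ m : ℕ, 1 ≤ m → (((Bx t).filter (Q6 N c r s cr cc m)).card : ℝ) ≤ t / m * E) :
    (((Bx t).filter (Q5 N c r s cr cc j)).card : ℝ) ≤ t * E * ((N : ℝ) ^ 101) ^ N := by
  have hNr : (1 : ℝ) ≤ N := by exact_mod_cast hN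
  have hN101 : (1 : ℝ) ≤ (N : ℝ) ^ 101 := one_le_pow₀ hNr
  have hM0 : 0 ≤ ∑ q ∈ PL (N ^ 10) (c + 1), 1 / ((q - 1 : ℕ) : ℝ) :=
    Finset.sum_nonneg fun q _ => by positivity
  refine (card_le_of (Bx t) (Fintype.piFinset (fun _ : Fin j => PL (N ^ 10) (c + 1))) _
    (fun D => Q6 N c r s cr cc (∏ i, (D i - 1))) (fun p hp => hp)
    (fun D : Fin j → ℕ => t / ((∏ i, (D i - 1) : ℕ) : ℝ) * E) ?_).trans ?_
  · intro D hD
    rw [Fintype.mem_piFinset] at hD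
    refine hpiece _ ?_
    apply Finset.one_le_prod''
    intro i
    have := (MertAux.mem_PL.1 (hD i)).1.two_le
    omega
  · rw [sumD]
    have h1 : (∑ q ∈ PL (N ^ 10) (c + 1), 1 / ((q - 1 : ℕ) : ℝ)) ^ j ≤ ((N : ℝ) ^ 101) ^ N :=
      (pow_le_pow_left₀ hM0 hM j).trans (pow_le_pow_right₀ hN101 hj)
    exact mul_le_mul_of_nonneg_left h1 (by positivity)

theorem Q4_card {N c r s : ℕ} {cr : Fin (r + 1) → ℕ} {cc : Fin s → ℕ} {t E : ℝ} (ht : 1 ≤ t)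
    (hE : 0 ≤ E) (hN : 1 ≤ N)
    (hM : ∑ q ∈ PL (N ^ 10) (c + 1), 1 / ((q - 1 : ℕ) : ℝ) ≤ (N : ℝ) ^ 101)
    (hpiece : ∀ m : ℕ, 1 ≤ m → (((Bx t).filter (Q6 N c r s cr cc m)).card : ℝ) ≤ t / m * E) :
    (((Bx t).filter (Q4 N c r s cr cc)).card : ℝ) ≤
      ((N : ℝ) + 1) * (t * E * ((N : ℝ) ^ 101) ^ N) := by
  refine card_le_of_const (Bx t) (range (N + 1)) _ (fun j => Q5 N c r s cr cc j)
    (fun p hp => hp) _ _ (by simp) (by positivity) ?_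
  intro j hj
  rw [mem_range, Nat.lt_succ_iff] at hj
  exact Q5_card ht hE hN hj hM hpiece

theorem Q3_card {N c r s : ℕ} {cr : Fin (r + 1) → ℕ} {t E0 : ℝ} (ht : 1 ≤ t)
    (hE0 : 0 ≤ E0) (hN : 1 ≤ N)
    (hM : ∑ q ∈ PL (N ^ 10) (c + 1), 1 / ((q - 1 : ℕ) : ℝ) ≤ (N : ℝ) ^ 101)
    (hpiece : ∀ (cc : Fin s → ℕ) (m : ℕ), 1 ≤ m →
      (((Bx t).filter (Q6 N c r s cr cc m)).card : ℝ) ≤
      t / m * (E0 * Real.exp (-((s : ℝ) * (N : ℝ) ^ 79))))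
    (h79 : (3 * (N : ℝ) ^ 100 + 1) * Real.exp (-(N : ℝ) ^ 79) ≤ 1) :
    (((Bx t).filter (Q3 N c r s cr)).card : ℝ) ≤
      ((N : ℝ) + 1) * (t * E0 * ((N : ℝ) ^ 101) ^ N) := by
  have key : (3 * (N : ℝ) ^ 100 + 1) ^ s * (((N : ℝ) + 1) *
      (t * (E0 * Real.exp (-((s : ℝ) * (N : ℝ) ^ 79))) * ((N : ℝ) ^ 101) ^ N)) ≤
      (((N : ℝ) + 1) * (t * E0 * ((N : ℝ) ^ 101) ^ N)) := by
    have h1 : Real.exp (-((s : ℝ) * (N : ℝ) ^ 79)) = Real.exp (-(N : ℝ) ^ 79) ^ s := by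
      rw [← Real.exp_nat_mul]; congr 1; ring
    have h2 : ((3 * (N : ℝ) ^ 100 + 1) * Real.exp (-(N : ℝ) ^ 79)) ^ s ≤ 1 :=
      pow_le_one₀ (by positivity) h79
    rw [h1]
    calc (3 * (N : ℝ) ^ 100 + 1) ^ s * (((N : ℝ) + 1) *
          (t * (E0 * Real.exp (-(N : ℝ) ^ 79) ^ s) * ((N : ℝ) ^ 101) ^ N))
        = ((3 * (N : ℝ) ^ 100 + 1) * Real.exp (-(N : ℝ) ^ 79)) ^ s *
          (((N : ℝ) + 1) * (t * E0 * ((N : ℝ) ^ 101) ^ N)) := by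
          rw [mul_pow]; ring
      _ ≤ 1 * (((N : ℝ) + 1) * (t * E0 * ((N : ℝ) ^ 101) ^ N)) :=
          mul_le_mul_of_nonneg_right h2 (by positivity)
      _ = _ := by rw [one_mul]
  refine le_trans ?_ key
  refine card_le_of_const (Bx t) (Fintype.piFinset (fun _ : Fin s => range (3 * N ^ 100 + 1))) _
    (fun cc => Q4 N c r s cr cc) (fun p hp => hp) _ _ ?_ (by positivity) ?_
  · rw [Fintype.card_piFinset_const, card_range]
    push_cast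
    exact le_rfl
  intro cc _
  exact Q4_card ht (by positivity) hN hM (hpiece cc)

theorem pattern_total {N c : ℕ} {t E0 : ℝ} (ht : 1 ≤ t) (hE0 : 0 ≤ E0) (hN : 1 ≤ N)
    (hM : ∑ q ∈ PL (N ^ 10) (c + 1), 1 / ((q - 1 : ℕ) : ℝ) ≤ (N : ℝ) ^ 101)
    (hpiece : ∀ (r s : ℕ) (cr : Fin (r + 1) → ℕ) (cc : Fin s → ℕ) (m : ℕ), 1 ≤ m → r ≤ N →
      s ≤ N ^ 102 →
      (((Bx t).filter (Q6 N c r s cr cc m)).card : ℝ) ≤
      t / m * (E0 * Real.exp (-((s : ℝ) * (N : ℝ) ^ 79))))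
    (h79 : (3 * (N : ℝ) ^ 100 + 1) * Real.exp (-(N : ℝ) ^ 79) ≤ 1) :
    (((Bx t).filter (Q0 N c)).card : ℝ) ≤
      ((N : ℝ) + 1) * (((N : ℝ) ^ 102 + 1) * ((2 * (N : ℝ) ^ 100 + 1) ^ (N + 1) *
        (((N : ℝ) + 1) * (t * E0 * ((N : ℝ) ^ 101) ^ N)))) := by
  refine card_le_of_const (Bx t) (range (N + 1)) _ (fun r => Q1 N c r)
    (fun p hp => hp) _ _ (by simp) (by positivity) ?_
  intro r hr
  rw [mem_range, Nat.lt_succ_iff] at hr
  refine card_le_of_const (Bx t) (range (N ^ 102 + 1)) _ (fun s => Q2 N c r s)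
    (fun p hp => hp) _ _ (by simp) (by positivity) ?_
  intro s hs
  rw [mem_range, Nat.lt_succ_iff] at hs
  refine card_le_of_const (Bx t) (Fintype.piFinset (fun _ : Fin (r + 1) => range (2 * N ^ 100 + 1)))
    _ (fun cr => Q3 N c r s cr) (fun p hp => hp) _ _ ?_ (by positivity) ?_
  · rw [Fintype.card_piFinset_const, card_range]
    push_cast
    apply pow_le_pow_right₀
    · have : (0 : ℝ) ≤ (N : ℝ) ^ 100 := by positivity
      linarith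
    · omega
  intro cr _
  exact Q3_card ht hE0 hN hM (fun cc m hm => hpiece r s cr cc m hm hr hs) h79

theorem mass_bound {N c : ℕ} {C : ℝ} (hN : 20 ≤ N) (hCN : C ≤ N)
    (hc2 : c ≤ 2 * N ^ 100)
    (hC : |∑ p ∈ PL (N ^ 10) (c + 1), (1 : ℝ) / p - (((c + 1 : ℕ) : ℝ) - ((N ^ 10 : ℕ) : ℝ))| ≤ C) :
    ∑ q ∈ PL (N ^ 10) (c + 1), 1 / ((q - 1 : ℕ) : ℝ) ≤ (N : ℝ) ^ 101 := by
  have hN' : (20 : ℝ) ≤ N := by exact_mod_cast hN
  have h1 : ∑ q ∈ PL (N ^ 10) (c + 1), 1 / ((q - 1 : ℕ) : ℝ) ≤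
      ∑ q ∈ PL (N ^ 10) (c + 1), 2 * ((1 : ℝ) / q) := by
    refine Finset.sum_le_sum fun q hq => ?_
    have h2 := (MertAux.mem_PL.1 hq).1.two_le
    have h3 : (2 : ℝ) ≤ q := by exact_mod_cast h2
    rw [Nat.cast_sub (by omega), Nat.cast_one, mul_one_div, div_le_div_iff₀ (by linarith)
      (by linarith)]
    linarith
  rw [← Finset.mul_sum] at h1
  have h2 := (abs_le.1 hC).2
  push_cast at h2
  have hc2r : (c : ℝ) ≤ 2 * (N : ℝ) ^ 100 := by exact_mod_cast hc2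
  have h3 : (0 : ℝ) ≤ (N : ℝ) ^ 10 := by positivity
  have h4 : (N : ℝ) ≤ (N : ℝ) ^ 100 := le_self_pow₀ (by linarith) (by norm_num)
  have h5 : (N : ℝ) ^ 101 = N * (N : ℝ) ^ 100 := by ring
  have h6 : 20 * (N : ℝ) ^ 100 ≤ N * (N : ℝ) ^ 100 := by gcongr
  rw [h5]
  linarith

theorem exp3 : (18 : ℝ) ≤ Real.exp 3 := by
  have h1 : Real.exp 3 = Real.exp 1 ^ 3 := by rw [← Real.exp_nat_mul]; norm_num
  have h2 := Real.exp_one_gt_d9
  rw [h1]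
  have h3 : (2.7 : ℝ) ≤ Real.exp 1 := by linarith
  calc (18 : ℝ) ≤ 2.7 ^ 3 := by norm_num
    _ ≤ Real.exp 1 ^ 3 := by gcongr

theorem num_sq {N c : ℕ} {t : ℝ} (hN : 20 ≤ N) (h6 : 6 * (N : ℝ) ^ 100 ≤ Real.exp N)
    (hc2 : c ≤ 2 * N ^ 100) (ht : 1 ≤ t)
    (htle : t ≤ Real.exp (((N : ℝ) + 2) * Real.exp ((c : ℝ) + 1))) {z : ℝ}
    (hz : z = Real.exp (Real.exp ((N ^ 50 : ℕ) : ℝ))) :
    9 * t * (1 + Real.log t) / z ≤ t * Real.exp (-(c : ℝ) - (N : ℝ) ^ 89) / 2 := by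
  have hN' : (20 : ℝ) ≤ N := by exact_mod_cast hN
  have h1 : Real.log t ≤ Real.exp ((N : ℝ) + 3 + c) := by
    have h2 : Real.log t ≤ ((N : ℝ) + 2) * Real.exp ((c : ℝ) + 1) := by
      rw [← Real.log_exp (((N : ℝ) + 2) * Real.exp ((c : ℝ) + 1))]
      exact Real.log_le_log (by linarith) htle
    have h3 := OverAux.exp_A (N := N) (c := c) 2 (by norm_num)
    push_cast at h3
    exact h2.trans h3
  have h2 : 1 + Real.log t ≤ Real.exp ((N : ℝ) + 4 + c) := by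
    have h3 : (1 : ℝ) ≤ Real.exp ((N : ℝ) + 3 + c) := Real.one_le_exp (by positivity)
    have h4 : Real.exp ((N : ℝ) + 4 + c) = Real.exp 1 * Real.exp ((N : ℝ) + 3 + c) := by
      rw [← Real.exp_add]; congr 1; ring
    have h5 : (2 : ℝ) ≤ Real.exp 1 := by
      have := Real.exp_one_gt_d9
      linarith
    rw [h4]
    nlinarith
  have hz0 : 0 < z := by rw [hz]; exact Real.exp_pos _
  have h3 : 18 * Real.exp ((N : ℝ) + 4 + c) * Real.exp ((c : ℝ) + (N : ℝ) ^ 89) ≤ z := by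
    have h4 : (18 : ℝ) * Real.exp ((N : ℝ) + 4 + c) * Real.exp ((c : ℝ) + (N : ℝ) ^ 89) ≤
        Real.exp 3 * Real.exp ((N : ℝ) + 4 + c) * Real.exp ((c : ℝ) + (N : ℝ) ^ 89) := by
      gcongr
      exact exp3
    refine h4.trans ?_
    rw [hz, ← Real.exp_add, ← Real.exp_add]
    apply Real.exp_le_exp.2
    have h5 : (N : ℝ) ≤ (N : ℝ) ^ 50 := le_self_pow₀ (by linarith) (by norm_num)
    have h7 : Real.exp (N : ℝ) ≤ Real.exp ((N ^ 50 : ℕ) : ℝ) := by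
      apply Real.exp_le_exp.2
      push_cast
      exact h5
    have hc2r : (c : ℝ) ≤ 2 * (N : ℝ) ^ 100 := by exact_mod_cast hc2
    have h8 : (N : ℝ) ^ 89 ≤ (N : ℝ) ^ 100 := pow_le_pow_right₀ (by linarith) (by norm_num)
    have h9 : (N : ℝ) + 7 ≤ (N : ℝ) ^ 2 := by nlinarith
    have h10 : (N : ℝ) ^ 2 ≤ (N : ℝ) ^ 100 := pow_le_pow_right₀ (by linarith) (by norm_num)
    linarith
  rw [div_le_div_iff₀ hz0 (by norm_num)]
  have h4 : 0 < Real.exp (-(c : ℝ) - (N : ℝ) ^ 89) := Real.exp_pos _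
  have h5 : Real.exp (-(c : ℝ) - (N : ℝ) ^ 89) * Real.exp ((c : ℝ) + (N : ℝ) ^ 89) = 1 := by
    rw [← Real.exp_add]
    simp
  have h7 : 18 * Real.exp ((N : ℝ) + 4 + c) ≤ Real.exp (-(c : ℝ) - (N : ℝ) ^ 89) * z := by
    calc 18 * Real.exp ((N : ℝ) + 4 + c) = Real.exp (-(c : ℝ) - (N : ℝ) ^ 89) *
          (18 * Real.exp ((N : ℝ) + 4 + c) * Real.exp ((c : ℝ) + (N : ℝ) ^ 89)) := by
          linear_combination (-(18 * Real.exp ((N : ℝ) + 4 + c))) * h5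
      _ ≤ Real.exp (-(c : ℝ) - (N : ℝ) ^ 89) * z := by gcongr
  calc 9 * t * (1 + Real.log t) * 2 ≤ 9 * t * Real.exp ((N : ℝ) + 4 + c) * 2 := by gcongr
    _ = t * (18 * Real.exp ((N : ℝ) + 4 + c)) := by ring
    _ ≤ t * (Real.exp (-(c : ℝ) - (N : ℝ) ^ 89) * z) := by gcongr
    _ = t * Real.exp (-(c : ℝ) - (N : ℝ) ^ 89) * z := by ring

theorem num_pat {N c : ℕ} {t : ℝ} (hN : 1000 ≤ N) (ht : 1 ≤ t) :
    ((N : ℝ) + 1) * (((N : ℝ) ^ 102 + 1) * ((2 * (N : ℝ) ^ 100 + 1) ^ (N + 1) *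
        (((N : ℝ) + 1) * (t * Real.exp (-(c : ℝ) - (N : ℝ) ^ 90 + (N : ℝ) ^ 88) *
          ((N : ℝ) ^ 101) ^ N)))) ≤ t * Real.exp (-(c : ℝ) - (N : ℝ) ^ 89) / 2 := by
  have hN' : (1000 : ℝ) ≤ N := by exact_mod_cast hN
  have h1 : (N : ℝ) + 1 ≤ (N : ℝ) ^ 2 := by nlinarith
  have h2 : (N : ℝ) ^ 102 + 1 ≤ (N : ℝ) ^ 103 := by
    have e : (N : ℝ) ^ 103 = N * (N : ℝ) ^ 102 := by ring
    have e1 : (1 : ℝ) ≤ (N : ℝ) ^ 102 := one_le_pow₀ (by linarith)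
    rw [e]; nlinarith
  have h3 : 2 * (N : ℝ) ^ 100 + 1 ≤ (N : ℝ) ^ 101 := by
    have e : (N : ℝ) ^ 101 = N * (N : ℝ) ^ 100 := by ring
    have e1 : (1 : ℝ) ≤ (N : ℝ) ^ 100 := one_le_pow₀ (by linarith)
    rw [e]; nlinarith
  obtain ⟨E, hE⟩ : ∃ E, E = Real.exp (-(c : ℝ) - (N : ℝ) ^ 90 + (N : ℝ) ^ 88) := ⟨_, rfl⟩
  have hE0 : 0 < E := by rw [hE]; exact Real.exp_pos _
  rw [← hE]
  have h4 : ((N : ℝ) + 1) * (((N : ℝ) ^ 102 + 1) * ((2 * (N : ℝ) ^ 100 + 1) ^ (N + 1) *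
        (((N : ℝ) + 1) * (t * E * ((N : ℝ) ^ 101) ^ N)))) ≤
      (N : ℝ) ^ 2 * ((N : ℝ) ^ 103 * (((N : ℝ) ^ 101) ^ (N + 1) *
        ((N : ℝ) ^ 2 * (t * E * ((N : ℝ) ^ 101) ^ N)))) := by
    gcongr
  refine h4.trans ?_
  have h5 : (N : ℝ) ^ 2 * ((N : ℝ) ^ 103 * (((N : ℝ) ^ 101) ^ (N + 1) *
        ((N : ℝ) ^ 2 * (t * E * ((N : ℝ) ^ 101) ^ N)))) =
      t * ((N : ℝ) ^ (208 + 202 * N) * E) := by
    ring
  rw [h5]
  have h6 : (N : ℝ) ^ (208 + 202 * N) ≤ Real.exp (410 * (N : ℝ) ^ 2) := by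
    have h7 : (N : ℝ) ≤ Real.exp N := by
      have := Real.add_one_le_exp (N : ℝ)
      linarith
    calc (N : ℝ) ^ (208 + 202 * N) ≤ (Real.exp N) ^ (208 + 202 * N) := by gcongr
      _ = Real.exp (((208 + 202 * N : ℕ) : ℝ) * N) := by rw [← Real.exp_nat_mul]
      _ ≤ Real.exp (410 * (N : ℝ) ^ 2) := by
          apply Real.exp_le_exp.2
          push_cast
          nlinarith
  have h7 : (N : ℝ) ^ (208 + 202 * N) * E ≤ Real.exp (-(c : ℝ) - (N : ℝ) ^ 89) / 2 := by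
    calc (N : ℝ) ^ (208 + 202 * N) * E ≤ Real.exp (410 * (N : ℝ) ^ 2) * E := by gcongr
      _ = Real.exp (410 * (N : ℝ) ^ 2 + (-(c : ℝ) - (N : ℝ) ^ 90 + (N : ℝ) ^ 88)) := by
          rw [hE, ← Real.exp_add]
      _ ≤ Real.exp (-(c : ℝ) - (N : ℝ) ^ 89 - 1) := by
          apply Real.exp_le_exp.2
          have e1 : (N : ℝ) ^ 90 = N ^ 2 * (N : ℝ) ^ 88 := by ring
          have e2 : (N : ℝ) ^ 89 = N * (N : ℝ) ^ 88 := by ring
          have e3 : (N : ℝ) ^ 3 ≤ (N : ℝ) ^ 88 := pow_le_pow_right₀ (by linarith) (by norm_num)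
          have e4 : 411 * (N : ℝ) ^ 2 ≤ (N : ℝ) ^ 3 := by
            have : (N : ℝ) ^ 3 = N * (N : ℝ) ^ 2 := by ring
            rw [this]
            have : (0 : ℝ) ≤ (N : ℝ) ^ 2 := by positivity
            nlinarith
          have e5 : (1 : ℝ) ≤ (N : ℝ) ^ 2 := one_le_pow₀ (by linarith)
          have e6 : (2 : ℝ) * (N : ℝ) ^ 88 + N * (N : ℝ) ^ 88 ≤ N ^ 2 * (N : ℝ) ^ 88 := by
            have : (0 : ℝ) ≤ (N : ℝ) ^ 88 := by positivity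
            rw [← add_mul]
            apply mul_le_mul_of_nonneg_right _ this
            nlinarith
          rw [e1, e2]
          linarith
      _ = Real.exp (-(c : ℝ) - (N : ℝ) ^ 89) * Real.exp (-1) := by
          rw [← Real.exp_add]; congr 1
      _ ≤ Real.exp (-(c : ℝ) - (N : ℝ) ^ 89) / 2 := by
          have e1 : Real.exp (-1) ≤ 1 / 2 := by
            rw [Real.exp_neg, inv_eq_one_div]
            apply one_div_le_one_div_of_le (by norm_num)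
            have := Real.exp_one_gt_d9
            linarith
          have e2 : 0 < Real.exp (-(c : ℝ) - (N : ℝ) ^ 89) := Real.exp_pos _
          nlinarith
  calc t * ((N : ℝ) ^ (208 + 202 * N) * E) ≤ t * (Real.exp (-(c : ℝ) - (N : ℝ) ^ 89) / 2) := by
        gcongr
    _ = t * Real.exp (-(c : ℝ) - (N : ℝ) ^ 89) / 2 := by ring

theorem to_Q0 {N c q₀ v : ℕ} (hc2 : c ≤ 2 * N ^ 100)
    (h : ∃ (D : List ℕ) (r s : ℕ) (cr : Fin (r + 1) → ℕ) (cc : Fin s → ℕ) (v' : ℕ),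
        D.length ≤ N ∧ (∀ q ∈ D, q.Prime ∧ N ^ 10 ≤ lv q ∧ lv q ≤ c) ∧
        r ≤ N ∧ s ≤ N ^ 102 ∧ Antitone cr ∧ cr 0 = c ∧ (∀ i, N ^ 80 ≤ cr i) ∧
        (∀ j, N ^ 80 ≤ cc j ∧ cc j ≤ 3 * N ^ 100) ∧
        al 1 (List.ofFn (fun i : Fin r => cr i.succ)) + (N : ℝ) ^ 90 ≤ c ∧
        RPat N r s cr cc q₀ v' ∧ v = (D.map (fun q => q - 1)).prod * v') :
    Q0 N c (q₀, v) := by
  obtain ⟨D, r, s, cr, cc, v', h1, h2, h3, h4, h5, h6, h7, h8, h9, h10, h11⟩ := h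
  refine ⟨r, ?_, s, ?_, cr, ?_, cc, ?_, D.length, ?_, D.get, ?_, ?_, v', h10, ?_⟩
  · rw [mem_range]; omega
  · rw [mem_range]; omega
  · rw [Fintype.mem_piFinset]
    intro i
    rw [mem_range]
    have := h5 (Fin.zero_le i)
    omega
  · rw [Fintype.mem_piFinset]
    intro i
    rw [mem_range]
    have := h8 i
    omega
  · rw [mem_range]; omega
  · rw [Fintype.mem_piFinset]
    intro i
    rw [MertAux.mem_PL]
    obtain ⟨h12, h13, h14⟩ := h2 _ (List.get_mem D i)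
    exact ⟨h12, h13, by omega⟩
  · exact ⟨h5, h6, h7, h8, h9⟩
  · rw [CRedAux.qm_get]
    exact h11

end CollAux

open CollAux in
theorem collision_count : ∃ N₀ : ℕ, ∀ N ≥ N₀, ∀ c : ℕ, N ^ 100 ≤ c → c ≤ 2 * N ^ 100 →
    ∀ t : ℝ, 1 ≤ t → (((Nat.primesLE (⌊t⌋₊ + 1) ×ˢ Icc 1 ⌊t⌋₊).filter
      (fun p => Coll N c p.1 p.2)).card : ℝ) ≤ t * Real.exp (-(c : ℝ) - (N : ℝ) ^ 89) := by
  obtain ⟨N₁, hred⟩ := coll_reduce
  obtain ⟨N₂, hcount⟩ := rpat_count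
  obtain ⟨C, hC, hmass⟩ := level_mass
  obtain ⟨C', hC'⟩ := exists_nat_ge C
  obtain ⟨N₃, hev⟩ := eventually_atTop.1 (Nrm.ev_poly 6 100)
  refine ⟨max (max N₁ N₂) (max (max N₃ C') 1000), fun N hN c hc1 hc2 => ?_⟩
  have hN1 : N₁ ≤ N := by omega
  have hN2 : N₂ ≤ N := by omega
  have hN3 : N₃ ≤ N := by omega
  have hNC : C' ≤ N := by omega
  have hN1000 : 1000 ≤ N := by omega
  have hN' : (1000 : ℝ) ≤ N := by exact_mod_cast hN1000
  have h6 := hev N hN3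
  have hCN : C ≤ N := hC'.trans (by exact_mod_cast hNC)
  have hc2r : (c : ℝ) ≤ 2 * (N : ℝ) ^ 100 := by exact_mod_cast hc2
  obtain ⟨A, hA⟩ : ∃ A, A = ((N : ℝ) + 2) * Real.exp ((c : ℝ) + 1) := ⟨_, rfl⟩
  have hA1 : A ≤ Real.exp (3 * (N : ℝ) ^ 100) := by
    have h3 := OverAux.exp_A (N := N) (c := c) 2 (by norm_num)
    push_cast at h3
    rw [hA]
    refine h3.trans (Real.exp_le_exp.2 ?_)
    have h9 : (N : ℝ) + 3 ≤ (N : ℝ) ^ 2 := by nlinarith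
    have h10 : (N : ℝ) ^ 2 ≤ (N : ℝ) ^ 100 := pow_le_pow_right₀ (by linarith) (by norm_num)
    linarith
  have hA0 : 0 ≤ A := by rw [hA]; positivity
  have hM := mass_bound (N := N) (c := c) (by omega) hCN hc2 (hmass (N ^ 10) (c + 1) (by
    have : N ^ 10 ≤ N ^ 100 := Nat.pow_le_pow_right (by omega) (by norm_num)
    omega))
  have h79 : (3 * (N : ℝ) ^ 100 + 1) * Real.exp (-(N : ℝ) ^ 79) ≤ 1 := by
    rw [Real.exp_neg, ← div_eq_mul_inv, div_le_one (Real.exp_pos _)]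
    have h7 : Real.exp (N : ℝ) ≤ Real.exp ((N : ℝ) ^ 79) :=
      Real.exp_le_exp.2 (le_self_pow₀ (by linarith) (by norm_num))
    have h8 : (1 : ℝ) ≤ (N : ℝ) ^ 100 := one_le_pow₀ (by linarith)
    linarith
  -- the bound for `t ≤ exp A`
  have main : ∀ t : ℝ, 1 ≤ t → t ≤ Real.exp A →
      (((Bx t).filter (fun p => Coll N c p.1 p.2)).card : ℝ) ≤
        t * Real.exp (-(c : ℝ) - (N : ℝ) ^ 89) := by
    intro t ht htA
    have htle : t ≤ Real.exp (Real.exp (3 * (N : ℝ) ^ 100)) :=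
      htA.trans (Real.exp_le_exp.2 hA1)
    have hpat := pattern_total (c := c) (E0 := Real.exp (-(c : ℝ) - (N : ℝ) ^ 90 + (N : ℝ) ^ 88)) ht
      (Real.exp_pos _).le (by omega) hM
      (fun r s cr cc m hm hr hs => piece hm hr hs hc2 (hcount N hN2) ht htle) h79
    have hsq := sq_card ht (k := N ^ 50) (Nat.one_le_pow _ _ (by omega)) rfl
    have h1 := hpat.trans (num_pat hN1000 ht)
    have h2 := hsq.trans (num_sq (by omega) h6 hc2 ht (hA ▸ htA) rfl)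
    have h3 : (Bx t).filter (fun p => Coll N c p.1 p.2) ⊆
        (Bx t).filter (fun p => p.1 - 1 ∣ p.2 ∧ ∃ P : ℕ, P.Prime ∧ N ^ 50 ≤ lv P ∧ P ^ 2 ∣ p.2) ∪
        (Bx t).filter (Q0 N c) := by
      intro p hp
      rw [mem_filter] at hp
      rw [mem_union, mem_filter, mem_filter]
      rcases hred N hN1 c hc1 hc2 p.1 p.2 hp.2 with h | h
      · exact Or.inl ⟨hp.1, (coll_dvd hp.2).1, h⟩
      · exact Or.inr ⟨hp.1, to_Q0 hc2 h⟩
    have h4 : (((Bx t).filter (fun p => Coll N c p.1 p.2)).card : ℝ) ≤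
        (((Bx t).filter (fun p => p.1 - 1 ∣ p.2 ∧
          ∃ P : ℕ, P.Prime ∧ N ^ 50 ≤ lv P ∧ P ^ 2 ∣ p.2)).card : ℝ) +
        (((Bx t).filter (Q0 N c)).card : ℝ) := by
      rw [← Nat.cast_add]
      exact Nat.cast_le.2 ((card_le_card h3).trans (Finset.card_union_le _ _))
    linarith
  intro t ht
  change (((Bx t).filter (fun p => Coll N c p.1 p.2)).card : ℝ) ≤ _
  rcases le_or_gt t (Real.exp A) with h | h
  · exact main t ht h
  · have h1 := main (Real.exp A) (Real.one_le_exp hA0) le_rfl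
    have h2 : (Bx t).filter (fun p => Coll N c p.1 p.2) ⊆
        (Bx (Real.exp A)).filter (fun p => Coll N c p.1 p.2) := by
      intro p hp
      rw [mem_filter] at hp ⊢
      refine ⟨?_, hp.2⟩
      have h3 := coll_size (by omega) hc1 hp.2
      rw [← hA] at h3
      have h4 : p.2 ≤ ⌊Real.exp A⌋₊ := Nat.le_floor h3
      obtain ⟨h5, h6, h7⟩ := coll_dvd hp.2
      have h8 := Nat.le_of_dvd (by omega) h5
      rw [mem_Bx]
      exact ⟨⟨by omega, h7⟩, h6, h4⟩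
    refine (Nat.cast_le.2 (card_le_card h2)).trans (h1.trans ?_)
    exact mul_le_mul_of_nonneg_right h.le (Real.exp_pos _).le

open CollAux in
theorem collision_sum : ∃ N₀ : ℕ, ∀ N ≥ N₀, ∀ c : ℕ, N ^ 100 ≤ c → c ≤ 2 * N ^ 100 →
    ∀ T : ℕ, ∑ p ∈ (Nat.primesLE (T + 1) ×ˢ Icc 1 T).filter (fun p => Coll N c p.1 p.2),
      (1 : ℝ) / p.2 ≤ Real.exp (-(N : ℝ) ^ 88) := by
  obtain ⟨N₁, hcount⟩ := collision_count
  refine ⟨max 20 N₁, fun N hN c hc1 hc2 T => ?_⟩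
  have hN20 : 20 ≤ N := (le_max_left _ _).trans hN
  have hN20r : (20 : ℝ) ≤ N := by exact_mod_cast hN20
  have hcnt := hcount N ((le_max_right _ _).trans hN) c hc1 hc2
  obtain ⟨A, hA⟩ : ∃ A, A = ((N : ℝ) + 2) * Real.exp ((c : ℝ) + 1) := ⟨_, rfl⟩
  have hA0 : 0 ≤ A := by rw [hA]; positivity
  have hA1 : 1 ≤ A := by
    rw [hA]
    have : (1 : ℝ) ≤ Real.exp ((c : ℝ) + 1) := Real.one_le_exp (by positivity)
    nlinarith
  obtain ⟨J, hJ⟩ : ∃ J, J = Nat.log 2 ⌊Real.exp A⌋₊ := ⟨_, rfl⟩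
  obtain ⟨S, hS⟩ : ∃ S, S = (Nat.primesLE (T + 1) ×ˢ Icc 1 T).filter
    (fun p => Coll N c p.1 p.2) := ⟨_, rfl⟩
  have hSm : ∀ p ∈ S, Coll N c p.1 p.2 := by
    intro v hv
    rw [hS, mem_filter] at hv
    exact hv.2
  rw [← hS, ← Finset.sum_fiberwise_of_maps_to (t := range (J + 1)) (g := fun p => Nat.log 2 p.2)
    (fun p hp => by
      rw [mem_range, Nat.lt_succ_iff, hJ]
      apply Nat.log_mono_right
      apply Nat.le_floor
      rw [hA]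
      exact coll_size hN20 hc1 (hSm p hp))]
  have hfib : ∀ j ∈ range (J + 1), ∑ p ∈ S.filter (fun p => Nat.log 2 p.2 = j), (1 : ℝ) / p.2 ≤
      2 * Real.exp (-(c : ℝ) - (N : ℝ) ^ 89) := by
    intro j _
    obtain ⟨t, ht⟩ : ∃ t : ℝ, t = 2 ^ (j + 1) := ⟨_, rfl⟩
    have ht1 : 1 ≤ t := by rw [ht]; exact one_le_pow₀ (by norm_num)
    have h1 : ∀ p ∈ S.filter (fun p => Nat.log 2 p.2 = j), (2 : ℝ) ^ j ≤ p.2 ∧ (p.2 : ℝ) < t := by
      intro p hp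
      rw [mem_filter] at hp
      have hp1 := (coll_dvd (hSm p hp.1)).2.1
      constructor
      · have := Nat.pow_log_le_self 2 (show p.2 ≠ 0 by omega)
        rw [hp.2] at this
        exact_mod_cast this
      · have := Nat.lt_pow_succ_log_self (b := 2) (by norm_num) p.2
        rw [hp.2] at this
        rw [ht]
        exact_mod_cast this
    have hsub : S.filter (fun p => Nat.log 2 p.2 = j) ⊆
        (Nat.primesLE (⌊t⌋₊ + 1) ×ˢ Icc 1 ⌊t⌋₊).filter (fun p => Coll N c p.1 p.2) := by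
      intro p hp
      have hp' := h1 p hp
      rw [mem_filter] at hp
      have hpC := hSm p hp.1
      rw [mem_filter]
      refine ⟨?_, hpC⟩
      obtain ⟨h5, h6, h7⟩ := coll_dvd hpC
      have h4 : p.2 ≤ ⌊t⌋₊ := Nat.le_floor hp'.2.le
      have h8 := Nat.le_of_dvd (by omega) h5
      change p ∈ Bx t
      rw [mem_Bx]
      exact ⟨⟨by omega, h7⟩, h6, h4⟩
    have hcard := (Nat.cast_le (α := ℝ).2 (card_le_card hsub)).trans (hcnt t ht1)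
    have h2j : (0 : ℝ) < 2 ^ j := by positivity
    calc ∑ p ∈ S.filter (fun p => Nat.log 2 p.2 = j), (1 : ℝ) / p.2
        ≤ ∑ _p ∈ S.filter (fun p => Nat.log 2 p.2 = j), (1 : ℝ) / 2 ^ j := by
          refine Finset.sum_le_sum fun p hp => ?_
          exact one_div_le_one_div_of_le h2j (h1 p hp).1
      _ = ((S.filter (fun p => Nat.log 2 p.2 = j)).card : ℝ) * (1 / 2 ^ j) := by
          rw [Finset.sum_const, nsmul_eq_mul]
      _ ≤ (t * Real.exp (-(c : ℝ) - (N : ℝ) ^ 89)) * (1 / 2 ^ j) := by gcongr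
      _ = 2 * Real.exp (-(c : ℝ) - (N : ℝ) ^ 89) := by
          rw [ht, pow_succ]
          field_simp
  refine (Finset.sum_le_sum hfib).trans ?_
  rw [Finset.sum_const, card_range, nsmul_eq_mul]
  push_cast
  have hJle : (J : ℝ) ≤ 2 * A := by
    have h1 : (2 : ℝ) ^ J ≤ Real.exp A := by
      have h2 : 2 ^ J ≤ ⌊Real.exp A⌋₊ := by
        rw [hJ]
        apply Nat.pow_log_le_self
        have : 1 ≤ ⌊Real.exp A⌋₊ := Nat.le_floor (by exact_mod_cast Real.one_le_exp hA0)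
        omega
      have h3 : ((2 ^ J : ℕ) : ℝ) ≤ Real.exp A :=
        (Nat.cast_le.2 h2).trans (Nat.floor_le (Real.exp_pos _).le)
      exact_mod_cast h3
    have h4 := Real.log_le_log (by positivity) h1
    rw [Real.log_pow, Real.log_exp] at h4
    have hl2 := Real.log_two_gt_d9
    have hJ0 : (0 : ℝ) ≤ J := Nat.cast_nonneg J
    nlinarith
  have hA2 : A ≤ Real.exp ((N : ℝ) + 3 + c) := by
    rw [hA]
    have := OverAux.exp_A (N := N) (c := c) 2 (by norm_num)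
    exact_mod_cast this
  have he2 : (6 : ℝ) ≤ Real.exp 2 := by
    have h1 : Real.exp 2 = Real.exp 1 ^ 2 := by rw [← Real.exp_nat_mul]; norm_num
    have h2 := Real.exp_one_gt_d9
    have h3 : (2.7 : ℝ) ≤ Real.exp 1 := by linarith
    rw [h1]
    calc (6 : ℝ) ≤ 2.7 ^ 2 := by norm_num
      _ ≤ Real.exp 1 ^ 2 := by gcongr
  calc ((J : ℝ) + 1) * (2 * Real.exp (-(c : ℝ) - (N : ℝ) ^ 89))
      ≤ (3 * A) * (2 * Real.exp (-(c : ℝ) - (N : ℝ) ^ 89)) := by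
        gcongr
        linarith
    _ = 6 * A * Real.exp (-(c : ℝ) - (N : ℝ) ^ 89) := by ring
    _ ≤ Real.exp 2 * Real.exp ((N : ℝ) + 3 + c) * Real.exp (-(c : ℝ) - (N : ℝ) ^ 89) := by
        gcongr
    _ = Real.exp (2 + ((N : ℝ) + 3 + c) + (-(c : ℝ) - (N : ℝ) ^ 89)) := by
        rw [← Real.exp_add, ← Real.exp_add]
    _ ≤ Real.exp (-(N : ℝ) ^ 88) := by
        apply Real.exp_le_exp.2
        have e2 : (N : ℝ) ^ 89 = N * (N : ℝ) ^ 88 := by ring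
        have e3 : (N : ℝ) ^ 2 ≤ (N : ℝ) ^ 88 := pow_le_pow_right₀ (by linarith) (by norm_num)
        have e4 : (N : ℝ) + 5 ≤ (N : ℝ) ^ 2 := by nlinarith
        have e5 : 20 * (N : ℝ) ^ 88 ≤ N * (N : ℝ) ^ 88 := by gcongr
        rw [e2]
        linarith

end P031
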