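import Mathlib

/-! P031: common definitions. -/

namespace P031

open Finset

/-- The level `⌊log log q⌋` of a natural number (`0` if `log log q < 0`).
Primes `2,...,13` have level `0`, the first prime of level `1` is `17`. -/
noncomputable def lv (q : ℕ) : ℕ := ⌊Real.log (Real.log q)⌋₊

/-- The primes of level in `[a, b)`. -/
noncomputable def PL (a b : ℕ) : Finset ℕ :=
  (Nat.primesLE ⌊Real.exp (Real.exp b)⌋₊).filter (fun p => a ≤ lv p ∧ lv p < b)

/-- The number of prime factors with multiplicity of `n`, of level in `[a, b)`. -/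
noncomputable def Om (a b n : ℕ) : ℕ :=
  ∑ p ∈ n.primeFactors.filter (fun p => a ≤ lv p ∧ lv p < b), n.factorization p

/-- The `w`-smooth part of `n`. -/
noncomputable def smp (w : ℝ) (n : ℕ) : ℕ :=
  ∏ p ∈ n.primeFactors.filter (fun p : ℕ => (p : ℝ) ≤ w), p ^ n.factorization p

/-- `a_n = (n+1) log (n+1) - n log n - 1`. -/
noncomputable def aa (n : ℕ) : ℝ :=
  ((n : ℝ) + 1) * Real.log ((n : ℝ) + 1) - n * Real.log n - 1

/-- `al k [c_0, c_1, ...] = a_k c_0 + a_{k+1} c_1 + ...`. -/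
noncomputable def al : ℕ → List ℕ → ℝ
  | _, [] => 0
  | k, c :: l => aa k * c + al (k + 1) l

/-- `phi`-type values: products of `q - 1` over a multiset of primes of level `≥ k`, times
the totient of a number all of whose primes have level `< k`. -/
def SS (k : ℕ) : Set ℕ :=
  {w | ∃ (L : Multiset ℕ) (m : ℕ), 0 < m ∧ (∀ q ∈ L, q.Prime ∧ k ≤ lv q) ∧
    (∀ p, p.Prime → p ∣ m → lv p < k) ∧ w = (L.map (fun q => q - 1)).prod * Nat.totient m}

/-- `N`-normal primes (parameters: block length `N^50`, deviation `N^34`). -/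
structure Normal (N q : ℕ) : Prop where
  prime : q.Prime
  low : N ^ 10 ≤ lv q
  n1 : ∀ b : ℕ, 1 ≤ b → b * N ^ 50 ≤ lv q →
    Om (b * N ^ 50) ((b + 1) * N ^ 50) (q - 1) ≤ N ^ 50 + N ^ 34
  n2 : ∀ b : ℕ, 1 ≤ b → (b + 1) * N ^ 50 ≤ lv q →
    N ^ 50 - N ^ 34 ≤ Om (b * N ^ 50) ((b + 1) * N ^ 50) (q - 1)
  n4 : ∀ y : ℕ, N ^ 80 ≤ y → y ≤ 3 * N ^ 100 →
    (smp (Real.exp (Real.exp y / (N : ℝ) ^ 110)) (q - 1) : ℝ) ≤ Real.exp (Real.exp y / (4 * N))

open scoped Classical in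
/-- The counting function of totients. -/
noncomputable def V (x : ℝ) : ℕ :=
  ((Finset.Icc 1 ⌊x⌋₊).filter (fun v => ∃ n : ℕ, 0 < n ∧ Nat.totient n = v)).card

end P031
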