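import Vale.Agent.P031.Defs

/-! P031: further definitions (second batch). -/

namespace P031

open Finset

/-- elements of `SS k` having a representation with all primes of level `< y` (meant for `k ≤ y`). -/
def SSl (k y : ℕ) : Set ℕ :=
  {w | ∃ (L : Multiset ℕ) (m : ℕ), 0 < m ∧ (∀ q ∈ L, q.Prime ∧ k ≤ lv q ∧ lv q < y) ∧
    (∀ p, p.Prime → p ∣ m → lv p < k) ∧ w = (L.map (fun q => q - 1)).prod * Nat.totient m}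

/-- smoothness threshold `w_y = exp (e^y / N^110)`. -/
noncomputable def wP (N y : ℕ) : ℝ := Real.exp (Real.exp y / (N : ℝ) ^ 110)

/-- the integer `v` has two factorisations: `(q₀-1) ∏_{q ∈ l} (q-1) u` with normal primes and slack
`≥ N^90`, and `∏_{q' ∈ l'} (q'-1) u'` where `q₀` does not occur in `l'`. -/
def Coll (N c q₀ v : ℕ) : Prop :=
  ∃ (l : List ℕ) (u : ℕ) (l' : List ℕ) (u' : ℕ),
    Normal N q₀ ∧ lv q₀ = c ∧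
    (∀ q ∈ l, Normal N q ∧ lv q + 2 ≤ c) ∧ l.length ≤ N ∧ l.Pairwise (· ≥ ·) ∧
    al 1 (l.map lv) + (N : ℝ) ^ 90 ≤ c ∧
    0 < u ∧ (u : ℝ) ≤ Real.exp (Real.exp (2 * (N : ℝ) ^ 10)) ∧
    (∀ q ∈ l', q.Prime ∧ N ^ 10 ≤ lv q) ∧ q₀ ∉ l' ∧
    0 < u' ∧ (∀ p, p.Prime → p ∣ u' → lv p < N ^ 10) ∧
    v = (q₀ - 1) * (l.map (fun q => q - 1)).prod * u ∧
    v = (l'.map (fun q => q - 1)).prod * u'

/-- the integer `v` is overfull at top level `c`. -/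
def Over (N c v : ℕ) : Prop :=
  ∃ (q₀ : ℕ) (l : List ℕ) (u : ℕ),
    Normal N q₀ ∧ lv q₀ = c ∧ (∀ q ∈ l, Normal N q ∧ q ≤ q₀) ∧ l.length ≤ N ∧
    l.Pairwise (· ≥ ·) ∧ (c : ℝ) + (N : ℝ) ^ 90 ≤ al 1 (l.map lv) ∧
    0 < u ∧ (u : ℝ) ≤ Real.exp (Real.exp (2 * (N : ℝ) ^ 10)) ∧
    v = (q₀ - 1) * (l.map (fun q => q - 1)).prod * u

/-- reduced collision pattern: rows indexed by `Fin (r+1)` of levels `cr`, columns indexed by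
`Fin s` of levels `cc`, no common prime; `q₀` is the prime of row `0`. -/
def RPat (N r s : ℕ) (cr : Fin (r + 1) → ℕ) (cc : Fin s → ℕ) (q₀ v : ℕ) : Prop :=
  ∃ (q : Fin (r + 1) → ℕ) (q' : Fin s → ℕ) (U U' : ℕ),
    q 0 = q₀ ∧ 0 < U ∧ 0 < U' ∧
    v = (∏ i, (q i - 1)) * U ∧ v = (∏ j, (q' j - 1)) * U' ∧
    (∀ i, (q i).Prime ∧ lv (q i) = cr i ∧
      ∃ P : ℕ, P.Prime ∧ P ∣ q i - 1 ∧ wP N (cr i) ≤ P) ∧
    (∀ j, (q' j).Prime ∧ lv (q' j) = cc j ∧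
      ∃ P : ℕ, P.Prime ∧ P ∣ q' j - 1 ∧ wP N (cc j) ≤ P) ∧
    (∀ i j, q i ≠ q' j) ∧
    (∀ p, p.Prime → p ∣ U → lv p < N ^ 80) ∧ (∀ p, p.Prime → p ∣ U' → lv p < N ^ 80) ∧
    (∀ b, N ^ 30 ≤ b → Om (b * N ^ 50) ((b + 1) * N ^ 50) v ≤
      (univ.filter (fun i => b * N ^ 50 ≤ cr i)).card * (N ^ 50 + N ^ 34)) ∧
    (∀ b, 1 ≤ b → b < N ^ 30 → Om (b * N ^ 50) ((b + 1) * N ^ 50) v ≤
      (N + 1) * (N ^ 50 + N ^ 34)) ∧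
    (∀ P : ℕ, P.Prime → N ^ 50 ≤ lv P → ¬ P ^ 2 ∣ v)

/-- completely multiplicative extension of a weight on primes. -/
noncomputable def cm (z : ℕ → ℝ) (n : ℕ) : ℝ :=
  ∏ p ∈ n.primeFactors, z p ^ n.factorization p

/-- admissible matrices: `A` the live rows with thresholds `X`, `B` the live columns with
thresholds `X'`, no square of a prime `≥ W`. -/
def Adm {ι κ : Type} [Fintype ι] [Fintype κ] (A : Finset ι) (B : Finset κ)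
    (X : ι → ℝ) (X' : κ → ℝ) (W : ℝ) (d : ι → κ → ℕ) : Prop :=
  (∀ i ∈ A, ((∏ j, d i j) + 1).Prime ∧ ∃ P : ℕ, P.Prime ∧ X i ≤ P ∧ P ∣ ∏ j, d i j) ∧
  (∀ j ∈ B, ((∏ i, d i j) + 1).Prime ∧ ∃ P : ℕ, P.Prime ∧ X' j ≤ P ∧ P ∣ ∏ i, d i j) ∧
  (∀ i ∈ A, ∀ j ∈ B, (∏ j', d i j') ≠ ∏ i', d i' j) ∧
  (∀ P : ℕ, P.Prime → W ≤ P → ¬ P ^ 2 ∣ ∏ i, ∏ j, d i j)

end P031
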