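import Vale.Agent.P031.Mert
import Vale.Agent.P031.Rankin
import Vale.Agent.P031.EM

/-! P031, [P0]: at least 24 primes of high level is a rare event. -/

namespace P031

open Finset Filter Topology
open scoped Classical

namespace PZ

open MertAux

/-- partial summation: a set of integers `≥ m0` with at most `K u / log u` elements up to `u` has
sum of reciprocals at most `K (1 + 2 log log n)` up to `n`. -/
theorem psum (S : Finset ℕ) (K : ℝ) (m0 n : ℕ) (hK : 0 ≤ K) (hm0 : 3 ≤ m0) (hn : m0 ≤ n)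
    (hS : ∀ q ∈ S, m0 ≤ q)
    (hN : ∀ u : ℕ, m0 ≤ u → u ≤ n →
      ((S.filter (fun q => q ≤ u)).card : ℝ) ≤ K * u / Real.log u) :
    ∑ q ∈ S.filter (fun q => q ≤ n), (1 : ℝ) / q ≤ K * (1 + 2 * Real.log (Real.log n)) := by
  have hl3 : (1 : ℝ) < Real.log 3 := by
    rw [Real.lt_log_iff_exp_lt (by norm_num)]
    exact Real.exp_one_lt_d9.trans (by norm_num)
  have key : ∀ n : ℕ, m0 ≤ n → (∀ u : ℕ, m0 ≤ u → u ≤ n →
      ((S.filter (fun q => q ≤ u)).card : ℝ) ≤ K * u / Real.log u) →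
      ∑ q ∈ S.filter (fun q => q ≤ n), (1 : ℝ) / q ≤
        ((S.filter (fun q => q ≤ n)).card : ℝ) / n +
          2 * K * (Real.log (Real.log n) - Real.log (Real.log m0)) := by
    intro n hn
    induction n, hn using Nat.le_induction with
    | base =>
      intro _
      rw [sub_self, mul_zero, add_zero]
      have h1 : ∀ q ∈ S.filter (fun q => q ≤ m0), (1 : ℝ) / q = 1 / m0 := by
        intro q hq
        rw [Finset.mem_filter] at hq
        have := hS q hq.1
        have h2 : q = m0 := by omega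
        rw [h2]
      rw [Finset.sum_congr rfl h1, Finset.sum_const, nsmul_eq_mul]
      rw [mul_one_div]
    | succ n hn ih =>
      intro hN
      have ih' := ih (fun u h1 h2 => hN u h1 (by omega))
      have hNn := hN n hn (by omega)
      have hn3 : (3 : ℝ) ≤ n := by exact_mod_cast (hm0.trans hn)
      have hln : 1 < Real.log n := lt_of_lt_of_le hl3 (Real.log_le_log (by norm_num) hn3)
      have hln' : Real.log n < Real.log ((n : ℝ) + 1) :=
        Real.log_lt_log (by linarith) (by linarith)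
      have hsplit : ∀ f : ℕ → ℝ, ∑ q ∈ S.filter (fun q => q ≤ n + 1), f q =
          ∑ q ∈ S.filter (fun q => q ≤ n), f q + (if n + 1 ∈ S then f (n + 1) else 0) := by
        intro f
        have h1 : S.filter (fun q => q ≤ n + 1) =
            S.filter (fun q => q ≤ n) ∪ S.filter (fun q => q = n + 1) := by
          ext q
          simp only [Finset.mem_filter, Finset.mem_union]
          constructor
          · rintro ⟨h1, h2⟩
            rcases Nat.lt_or_ge q (n + 1) with h | h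
            · exact Or.inl ⟨h1, by omega⟩
            · exact Or.inr ⟨h1, by omega⟩
          · rintro (⟨h1, h2⟩ | ⟨h1, h2⟩)
            · exact ⟨h1, by omega⟩
            · exact ⟨h1, by omega⟩
        rw [h1, Finset.sum_union]
        · congr 1
          rw [Finset.filter_eq']
          split_ifs <;> simp
        · rw [Finset.disjoint_left]
          intro q hq1 hq2
          rw [Finset.mem_filter] at hq1 hq2
          omega
      have hcard : ((S.filter (fun q => q ≤ n + 1)).card : ℝ) =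
          ((S.filter (fun q => q ≤ n)).card : ℝ) + (if n + 1 ∈ S then 1 else 0) := by
        have := hsplit (fun _ => 1)
        simpa using this
      rw [hsplit (fun q => (1 : ℝ) / q), hcard]
      push_cast
      set A := ((S.filter (fun q => q ≤ n)).card : ℝ) with hA
      have hA0 : 0 ≤ A := by positivity
      have h1 : A / n - A / ((n : ℝ) + 1) ≤
          2 * K * (Real.log (Real.log ((n : ℝ) + 1)) - Real.log (Real.log n)) := by
        have h2 : A / n - A / ((n : ℝ) + 1) = A / n * (1 / ((n : ℝ) + 1)) := by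
          field_simp
          ring
        have h3 : A / n ≤ K / Real.log n := by
          rw [div_le_iff₀ (by linarith)]
          calc A ≤ K * n / Real.log n := hNn
            _ = _ := by ring
        have h4 : K / Real.log n ≤ 2 * K / Real.log ((n : ℝ) + 1) := by
          rw [div_le_div_iff₀ (by linarith) (by linarith)]
          have h5 : Real.log ((n : ℝ) + 1) ≤ 2 * Real.log n := by
            have h6 : Real.log ((n : ℝ) + 1) ≤ Real.log ((n : ℝ) ^ 2) := by
              apply Real.log_le_log (by linarith)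
              nlinarith
            rw [Real.log_pow] at h6
            push_cast at h6
            linarith
          nlinarith
        have h7 : 1 / (((n : ℝ) + 1) * Real.log ((n : ℝ) + 1)) ≤
            Real.log (Real.log ((n : ℝ) + 1)) - Real.log (Real.log n) := by
          have hl1 : 0 < Real.log ((n : ℝ) + 1) := by linarith
          have hl0 : 0 < Real.log n := by linarith
          rw [← Real.log_div hl1.ne' hl0.ne']
          have h8 := Real.log_le_sub_one_of_pos (div_pos hl0 hl1)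
          have h9 : Real.log (Real.log n / Real.log ((n : ℝ) + 1)) =
              - Real.log (Real.log ((n : ℝ) + 1) / Real.log n) := by
            rw [← Real.log_inv, inv_div]
          have h10 : 1 / ((n : ℝ) + 1) ≤ Real.log ((n : ℝ) + 1) - Real.log n := by
            have h11 := Real.log_le_sub_one_of_pos (show 0 < (n : ℝ) / (n + 1) by positivity)
            rw [Real.log_div (by positivity) (by positivity)] at h11
            have h12 : (n : ℝ) / (n + 1) - 1 = -(1 / ((n : ℝ) + 1)) := by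
              field_simp
              ring
            linarith
          have h13 : 1 / (((n : ℝ) + 1) * Real.log ((n : ℝ) + 1)) ≤
              1 - Real.log n / Real.log ((n : ℝ) + 1) := by
            have h14 : 1 - Real.log n / Real.log ((n : ℝ) + 1) =
                (Real.log ((n : ℝ) + 1) - Real.log n) / Real.log ((n : ℝ) + 1) := by
              field_simp
            rw [h14, ← div_div]
            exact div_le_div_of_nonneg_right h10 hl1.le
          linarith
        calc A / n - A / ((n : ℝ) + 1) = A / n * (1 / ((n : ℝ) + 1)) := h2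
          _ ≤ (2 * K / Real.log ((n : ℝ) + 1)) * (1 / ((n : ℝ) + 1)) :=
              mul_le_mul_of_nonneg_right (h3.trans h4) (by positivity)
          _ = 2 * K * (1 / (((n : ℝ) + 1) * Real.log ((n : ℝ) + 1))) := by
              field_simp
          _ ≤ _ := mul_le_mul_of_nonneg_left h7 (by positivity)
      have h15 : (A + (if n + 1 ∈ S then (1 : ℝ) else 0)) / ((n : ℝ) + 1) =
          A / ((n : ℝ) + 1) + (if n + 1 ∈ S then 1 / ((n : ℝ) + 1) else 0) := by
        split_ifs
        · rw [add_div]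
        · simp
      rw [h15]
      linarith
  have h1 := key n hn hN
  have hn3 : (3 : ℝ) ≤ n := by exact_mod_cast (hm0.trans hn)
  have hln : 1 < Real.log n := lt_of_lt_of_le hl3 (Real.log_le_log (by norm_num) hn3)
  have hm3 : (3 : ℝ) ≤ m0 := by exact_mod_cast hm0
  have hlm : 1 < Real.log m0 := lt_of_lt_of_le hl3 (Real.log_le_log (by norm_num) hm3)
  have hllm : 0 ≤ Real.log (Real.log m0) := Real.log_nonneg hlm.le
  have h2 := hN n hn le_rfl
  have h3 : ((S.filter (fun q => q ≤ n)).card : ℝ) / n ≤ K := by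
    rw [div_le_iff₀ (by linarith)]
    refine h2.trans ?_
    rw [div_le_iff₀ (by linarith)]
    have : 0 ≤ K * n := by positivity
    nlinarith
  have h4 : 0 ≤ 2 * K * Real.log (Real.log m0) := by positivity
  nlinarith

theorem Om_eq (a b n : ℕ) : Om a b n = ∑ p ∈ PL a b, n.factorization p := by
  unfold Om
  apply Finset.sum_subset
  · intro p hp
    rw [Finset.mem_filter, Nat.mem_primeFactors] at hp
    rw [mem_PL]
    exact ⟨hp.1.1, hp.2⟩
  · intro p hp1 hp2
    rw [mem_PL] at hp1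
    rw [Finset.mem_filter, not_and_or] at hp2
    rcases hp2 with h | h
    · rw [← Nat.support_factorization, Finsupp.notMem_support_iff] at h
      exact h
    · exact absurd hp1.2 h

theorem Om_mul (a b : ℕ) {m n : ℕ} (hm : m ≠ 0) (hn : n ≠ 0) :
    Om a b (m * n) = Om a b m + Om a b n := by
  rw [Om_eq, Om_eq, Om_eq, Nat.factorization_mul hm hn, ← Finset.sum_add_distrib]
  rfl

theorem Om_le_of_dvd (a b : ℕ) {m n : ℕ} (hn : n ≠ 0) (h : m ∣ n) : Om a b m ≤ Om a b n := by
  have hm : m ≠ 0 := fun h0 => hn (by rw [h0] at h; exact Nat.eq_zero_of_zero_dvd h)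
  rw [Om_eq, Om_eq]
  apply Finset.sum_le_sum
  intro p _
  exact (Nat.factorization_le_iff_dvd hm hn).2 h p

theorem Om_one (a b : ℕ) : Om a b 1 = 0 := by
  unfold Om
  simp

theorem Om_multiset_prod (a b : ℕ) (L : Multiset ℕ) (hL : ∀ x ∈ L, x ≠ 0) :
    Om a b L.prod = (L.map (Om a b)).sum := by
  induction L using Multiset.induction_on with
  | empty => simp [Om_one]
  | cons x s ih =>
    have h1 : x ≠ 0 := hL x (Multiset.mem_cons_self x s)
    have h2 : ∀ y ∈ s, y ≠ 0 := fun y hy => hL y (Multiset.mem_cons_of_mem hy)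
    have h3 : s.prod ≠ 0 := Multiset.prod_ne_zero (fun h0 => h2 0 h0 rfl)
    rw [Multiset.prod_cons, Om_mul a b h1 h3, Multiset.map_cons, Multiset.sum_cons, ih h2]

theorem le_of_mem_PL {b p : ℕ} (hp : p ∈ PL 1 b) : 7 ≤ p := by
  rw [mem_PL] at hp
  by_contra h
  have h1 : p ≤ nc 1 := by
    have h2 := nc_ge 1 le_rfl
    have h3 : 6 < nc 1 := by exact_mod_cast h2
    omega
  have := (lt_iff hp.1 le_rfl).2 h1
  omega

/-- many prime factors of level in `[1, b)`. -/
theorem rich_count : ∃ C : ℝ, 0 < C ∧ ∀ (b x : ℕ), 1 ≤ b →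
    (((Icc 1 x).filter (fun v => 4 * b ≤ Om 1 b v)).card : ℝ) ≤
      C * x * Real.exp (-(4 * Real.log 4 - 3) * b) := by
  obtain ⟨C, hC, hmass⟩ := level_mass
  refine ⟨Real.exp (3 * C + 24), Real.exp_pos _, fun b x hb => ?_⟩
  have hr := rankin_mean (PL 1 b) (fun _ => 4) (fun p hp => (mem_PL.1 hp).1)
    (fun _ _ => by norm_num) (fun p hp => by
      have := le_of_mem_PL hp
      have h2 : (7 : ℝ) ≤ p := by exact_mod_cast this
      linarith) x
  have hexp : ∑ p ∈ PL 1 b, ((4 : ℝ) - 1) / (p - 4) ≤ 3 * b + (3 * C + 24) := by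
    have h1 : ∀ p ∈ PL 1 b, ((4 : ℝ) - 1) / (p - 4) ≤
        3 * (1 / (p : ℝ)) + 24 * (1 / ((p : ℝ) - 1) - 1 / p) := by
      intro p hp
      have h2 : (7 : ℝ) ≤ p := by exact_mod_cast le_of_mem_PL hp
      have h3 : (0 : ℝ) < p - 4 := by linarith
      have h4 : (0 : ℝ) < p - 1 := by linarith
      have h5 : (0 : ℝ) < p := by linarith
      have h6 : 3 * (1 / (p : ℝ)) + 24 * (1 / ((p : ℝ) - 1) - 1 / p) =
          (3 * ((p : ℝ) - 1) + 24) / (p * (p - 1)) := by
        field_simp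
        ring
      rw [h6, div_le_div_iff₀ h3 (by positivity)]
      nlinarith
    refine (Finset.sum_le_sum h1).trans ?_
    rw [Finset.sum_add_distrib, ← Finset.mul_sum, ← Finset.mul_sum]
    have h2 := (abs_le.1 (hmass 1 b hb)).2
    have h3 : ∑ p ∈ PL 1 b, (1 / ((p : ℝ) - 1) - 1 / p) ≤ 1 := by
      have h4 : PL 1 b ⊆ Nat.primesLE (nc b) := by
        rw [PL_eq le_rfl hb]
        exact Finset.sdiff_subset
      have h5 : ∑ p ∈ PL 1 b, (1 / ((p : ℝ) - 1) - 1 / p) ≤
          ∑ p ∈ Nat.primesLE (nc b), (1 / ((p : ℝ) - 1) - 1 / p) := by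
        apply Finset.sum_le_sum_of_subset_of_nonneg h4
        intro p hp _
        have hp2 : (2 : ℝ) ≤ p := by exact_mod_cast ((Nat.mem_primesLE.1 hp).2).two_le
        have := one_div_le_one_div_of_le (by linarith : (0 : ℝ) < p - 1)
          (by linarith : (p : ℝ) - 1 ≤ p)
        linarith
      have h6 : 1 ≤ nc b := by
        have h7 := nc_ge b hb
        have h8 : 6 < nc b := by exact_mod_cast h7
        omega
      have h7 := Vale.Agent.P003.MertensAux.tele_sum (nc b) h6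
      have h8 : (0 : ℝ) ≤ 1 / (nc b : ℝ) := by positivity
      linarith
    push_cast at h2
    linarith
  have hlow : (((Icc 1 x).filter (fun v => 4 * b ≤ Om 1 b v)).card : ℝ) *
      Real.exp (4 * Real.log 4 * b) ≤ ∑ n ∈ Icc 1 x, ∏ p ∈ PL 1 b, (4 : ℝ) ^ n.factorization p := by
    rw [← nsmul_eq_mul, ← Finset.sum_const]
    refine le_trans (Finset.sum_le_sum ?_) (Finset.sum_le_sum_of_subset_of_nonneg
      (Finset.filter_subset (fun v => 4 * b ≤ Om 1 b v) (Icc 1 x)) (fun n _ _ => by positivity))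
    intro n hn
    rw [Finset.mem_filter, Om_eq] at hn
    rw [Finset.prod_pow_eq_pow_sum]
    have h1 : Real.exp (4 * Real.log 4 * b) = (4 : ℝ) ^ (4 * b) := by
      rw [← Real.exp_log (show (0 : ℝ) < 4 ^ (4 * b) by positivity), Real.log_pow]
      congr 1
      push_cast
      ring
    rw [h1]
    exact pow_le_pow_right₀ (by norm_num) hn.2
  have h1 : (((Icc 1 x).filter (fun v => 4 * b ≤ Om 1 b v)).card : ℝ) *
      Real.exp (4 * Real.log 4 * b) ≤ x * Real.exp (3 * b + (3 * C + 24)) := by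
    refine hlow.trans (hr.trans ?_)
    exact mul_le_mul_of_nonneg_left (Real.exp_le_exp.2 hexp) (by positivity)
  have h2 := mul_le_mul_of_nonneg_right h1 (Real.exp_pos (-(4 * Real.log 4 * b))).le
  rw [mul_assoc, ← Real.exp_add, add_neg_cancel, Real.exp_zero, mul_one, mul_assoc,
    ← Real.exp_add] at h2
  refine h2.trans (le_of_eq ?_)
  have h3 : Real.exp (3 * b + (3 * C + 24) + -(4 * Real.log 4 * b)) =
      Real.exp (3 * C + 24) * Real.exp (-(4 * Real.log 4 - 3) * b) := by
    rw [← Real.exp_add]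
    congr 1
    ring
  rw [h3]
  ring

/-- the poor primes: level at least `b`, few prime factors of level in `[1, b)` of `q - 1`. -/
noncomputable def poor (b x : ℕ) : Finset ℕ :=
  (Nat.primesLE x).filter (fun q => b ≤ lv q ∧ 2 * Om 1 b (q - 1) < b)

theorem poor_sum : ∃ (C : ℝ) (k : ℕ), 0 < C ∧ ∀ (b x : ℕ), 2 ≤ b → 16 ≤ x →
    ∑ q ∈ poor b x, (1 : ℝ) / ((q : ℝ) - 1) ≤
      C * (1 + 2 * Real.log (Real.log x)) ^ (k + 1) *
        Real.exp (-((1 - Real.log 2) / 2) * b) := by
  obtain ⟨C, k, hC, hem⟩ := em_bound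
  refine ⟨2 * C * Real.exp (1 / 2), k, by positivity, fun b x hb hx => ?_⟩
  have hx16 : (16 : ℝ) ≤ x := by exact_mod_cast hx
  have hl3 : (1 : ℝ) < Real.log 3 := by
    rw [Real.lt_log_iff_exp_lt (by norm_num)]
    exact Real.exp_one_lt_d9.trans (by norm_num)
  have hlx : 1 < Real.log x := lt_of_lt_of_le hl3 (Real.log_le_log (by norm_num) (by linarith))
  have hllx : 0 < Real.log (Real.log x) := Real.log_pos hlx
  have hm0 : 16 ≤ nc b + 1 := by
    have h1 := le_nc b
    have h2 : (16 : ℝ) < Real.exp (Real.exp b) := by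
      have h3 : (4 : ℝ) < Real.exp b := by
        have h4 : Real.exp 2 ≤ Real.exp b := Real.exp_le_exp.2 (by exact_mod_cast hb)
        have h5 : Real.exp 2 = Real.exp 1 * Real.exp 1 := by
          rw [← Real.exp_add]; norm_num
        have h6 := exp_one_gt
        nlinarith
      have h4 : Real.exp 4 < Real.exp (Real.exp b) := Real.exp_lt_exp.2 h3
      have h5 : Real.exp 4 = Real.exp 1 * Real.exp 1 * (Real.exp 1 * Real.exp 1) := by
        rw [← Real.exp_add, ← Real.exp_add]; norm_num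
      have h6 := exp_one_gt
      have h7 : (7 : ℝ) < Real.exp 1 * Real.exp 1 := by nlinarith
      nlinarith
    have h3 : (15 : ℝ) < nc b := by linarith
    have h4 : 15 < nc b := by exact_mod_cast h3
    omega
  have hge : ∀ q ∈ poor b x, nc b + 1 ≤ q := by
    intro q hq
    unfold poor at hq
    rw [Finset.mem_filter, Nat.mem_primesLE] at hq
    by_contra h
    have := (lt_iff hq.1.2 (by omega : 1 ≤ b)).2 (by omega)
    omega
  rcases Nat.lt_or_ge x (nc b + 1) with hlt | hle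
  · have hempty : poor b x = ∅ := by
      rw [Finset.eq_empty_iff_forall_notMem]
      intro q hq
      have h1 := hge q hq
      unfold poor at hq
      rw [Finset.mem_filter, Nat.mem_primesLE] at hq
      omega
    rw [hempty, Finset.sum_empty]
    positivity
  set K : ℝ := C * Real.exp (1 / 2) * (Real.log (Real.log x)) ^ k *
    Real.exp (-((1 - Real.log 2) / 2) * b) with hK
  have hK0 : 0 ≤ K := by positivity
  have hcount : ∀ u : ℕ, nc b + 1 ≤ u → u ≤ x →
      (((poor b x).filter (fun q => q ≤ u)).card : ℝ) ≤ K * u / Real.log u := by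
    intro u hu1 hu2
    have hu16 : (16 : ℝ) ≤ u := by exact_mod_cast (hm0.trans hu1)
    have hlu : 1 < Real.log u := lt_of_lt_of_le hl3 (Real.log_le_log (by norm_num) (by linarith))
    have hllu : 0 < Real.log (Real.log u) := Real.log_pos hlu
    have hllux : Real.log (Real.log u) ≤ Real.log (Real.log x) := by
      apply Real.log_le_log (by linarith)
      apply Real.log_le_log (by linarith)
      exact_mod_cast hu2
    have hbu : (b : ℝ) ≤ Real.log (Real.log u) := by
      rw [Real.le_log_iff_exp_le (by linarith), Real.le_log_iff_exp_le (by linarith)]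
      have h1 := le_nc b
      have h2 : ((nc b : ℝ)) + 1 ≤ u := by exact_mod_cast hu1
      linarith
    have h1 := hem u (1 / 2) 1 b hu16 (by norm_num) (by norm_num) le_rfl (by omega) hbu
    rw [Nat.floor_natCast] at h1
    have h2 : (((poor b x).filter (fun q => q ≤ u)).card : ℝ) *
        Real.exp (-(b / 2 * Real.log 2)) ≤
        ∑ q ∈ Nat.primesLE u, ((1 : ℝ) / 2) ^ (Om 1 b (q - 1)) := by
      rw [← nsmul_eq_mul, ← Finset.sum_const]
      have hsub : (poor b x).filter (fun q => q ≤ u) ⊆ Nat.primesLE u := by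
        intro q hq
        unfold poor at hq
        rw [Finset.mem_filter, Finset.mem_filter, Nat.mem_primesLE] at hq
        rw [Nat.mem_primesLE]
        exact ⟨hq.2, hq.1.1.2⟩
      refine le_trans (Finset.sum_le_sum ?_) (Finset.sum_le_sum_of_subset_of_nonneg hsub
        (fun n _ _ => by positivity))
      intro q hq
      unfold poor at hq
      rw [Finset.mem_filter, Finset.mem_filter] at hq
      have h3 : ((1 : ℝ) / 2) ^ (Om 1 b (q - 1)) =
          Real.exp (-((Om 1 b (q - 1) : ℝ) * Real.log 2)) := by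
        rw [← Real.exp_log (show (0 : ℝ) < ((1 : ℝ) / 2) ^ (Om 1 b (q - 1)) by positivity),
          Real.log_pow, one_div, Real.log_inv]
        congr 1
        ring
      rw [h3]
      apply Real.exp_le_exp.2
      have h4 : 2 * (Om 1 b (q - 1) : ℝ) ≤ b := by exact_mod_cast hq.1.2.2.le
      have h5 : 0 < Real.log 2 := Real.log_pos (by norm_num)
      nlinarith
    have h3 := h2.trans h1
    have h4 := mul_le_mul_of_nonneg_right h3 (Real.exp_pos (b / 2 * Real.log 2)).le
    rw [mul_assoc, ← Real.exp_add, neg_add_cancel, Real.exp_zero, mul_one] at h4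
    refine h4.trans ?_
    have h5 : (Real.log (Real.log u)) ^ k ≤ (Real.log (Real.log x)) ^ k :=
      pow_le_pow_left₀ hllu.le hllux k
    have h6 : C * (u : ℝ) / Real.log u * (Real.log (Real.log u)) ^ k *
        Real.exp ((1 / 2 - 1) * ((b : ℝ) - (1 : ℕ))) * Real.exp (b / 2 * Real.log 2) =
        (C * (u : ℝ) / Real.log u * (Real.exp (1 / 2) *
          Real.exp (-((1 - Real.log 2) / 2) * b))) * (Real.log (Real.log u)) ^ k := by
      have h7 : Real.exp ((1 / 2 - 1) * ((b : ℝ) - (1 : ℕ))) * Real.exp (b / 2 * Real.log 2) =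
          Real.exp (1 / 2) * Real.exp (-((1 - Real.log 2) / 2) * b) := by
        rw [← Real.exp_add, ← Real.exp_add]
        congr 1
        push_cast
        ring
      rw [mul_assoc _ (Real.exp ((1 / 2 - 1) * ((b : ℝ) - (1 : ℕ)))) _, h7]
      ring
    rw [h6]
    calc _ ≤ (C * (u : ℝ) / Real.log u * (Real.exp (1 / 2) *
          Real.exp (-((1 - Real.log 2) / 2) * b))) * (Real.log (Real.log x)) ^ k :=
          mul_le_mul_of_nonneg_left h5 (by positivity)
      _ = K * u / Real.log u := by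
          rw [hK]; ring
  have hps := psum (poor b x) K (nc b + 1) x hK0 (by omega) hle hge hcount
  have hfil : (poor b x).filter (fun q => q ≤ x) = poor b x := by
    apply Finset.filter_true_of_mem
    intro q hq
    unfold poor at hq
    rw [Finset.mem_filter, Nat.mem_primesLE] at hq
    exact hq.1.1
  rw [hfil] at hps
  have h1 : ∑ q ∈ poor b x, (1 : ℝ) / ((q : ℝ) - 1) ≤ ∑ q ∈ poor b x, 2 * ((1 : ℝ) / q) := by
    apply Finset.sum_le_sum
    intro q hq
    have h2 := hge q hq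
    have h3 : (2 : ℝ) ≤ q := by exact_mod_cast (by omega : 2 ≤ q)
    rw [mul_one_div, div_le_div_iff₀ (by linarith) (by linarith)]
    linarith
  rw [← Finset.mul_sum] at h1
  refine h1.trans ?_
  have h2 : (Real.log (Real.log x)) ^ k ≤ (1 + 2 * Real.log (Real.log x)) ^ k :=
    pow_le_pow_left₀ hllx.le (by linarith) k
  calc 2 * ∑ q ∈ poor b x, (1 : ℝ) / q ≤ 2 * (K * (1 + 2 * Real.log (Real.log x))) := by linarith
    _ = (2 * C * Real.exp (1 / 2) * (1 + 2 * Real.log (Real.log x)) *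
        Real.exp (-((1 - Real.log 2) / 2) * b)) * (Real.log (Real.log x)) ^ k := by
        rw [hK]; ring
    _ ≤ (2 * C * Real.exp (1 / 2) * (1 + 2 * Real.log (Real.log x)) *
        Real.exp (-((1 - Real.log 2) / 2) * b)) * (1 + 2 * Real.log (Real.log x)) ^ k :=
        mul_le_mul_of_nonneg_left h2 (by positivity)
    _ = _ := by
        rw [pow_succ]; ring

theorem exists_ofFn (l : List ℕ) (n : ℕ) (h : l.length = n) : ∃ f : Fin n → ℕ,
    List.ofFn f = l := by
  subst h
  exact ⟨l.get, List.ofFn_get l⟩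

/-- the number of integers divisible by a product of `n` shifted elements of `S`. -/
theorem count_div (S : Finset ℕ) (n x : ℕ) (hS : ∀ q ∈ S, 2 ≤ q) :
    (((Icc 1 x).filter (fun v => ∃ f : Fin n → ℕ, (∀ i, f i ∈ S) ∧
      (∏ i, (f i - 1)) ∣ v)).card : ℝ) ≤ x * (∑ q ∈ S, (1 : ℝ) / ((q : ℝ) - 1)) ^ n := by
  have hsub : (Icc 1 x).filter (fun v => ∃ f : Fin n → ℕ, (∀ i, f i ∈ S) ∧
      (∏ i, (f i - 1)) ∣ v) ⊆ (Fintype.piFinset (fun _ : Fin n => S)).biUnion
        (fun f => (Ioc 0 x).filter (fun v => (∏ i, (f i - 1)) ∣ v)) := by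
    intro v hv
    rw [Finset.mem_filter, Finset.mem_Icc] at hv
    obtain ⟨hv1, f, hf, hd⟩ := hv
    rw [Finset.mem_biUnion]
    refine ⟨f, Fintype.mem_piFinset.2 hf, ?_⟩
    rw [Finset.mem_filter, Finset.mem_Ioc]
    exact ⟨⟨by omega, hv1.2⟩, hd⟩
  have h1 := (Finset.card_le_card hsub).trans Finset.card_biUnion_le
  have h2 : (((Icc 1 x).filter (fun v => ∃ f : Fin n → ℕ, (∀ i, f i ∈ S) ∧
      (∏ i, (f i - 1)) ∣ v)).card : ℝ) ≤ ∑ f ∈ Fintype.piFinset (fun _ : Fin n => S),
        (((Ioc 0 x).filter (fun v => (∏ i, (f i - 1)) ∣ v)).card : ℝ) := by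
    exact_mod_cast h1
  refine h2.trans ?_
  have h3 : ∀ f ∈ Fintype.piFinset (fun _ : Fin n => S),
      (((Ioc 0 x).filter (fun v => (∏ i, (f i - 1)) ∣ v)).card : ℝ) ≤
        x * ∏ i, (1 : ℝ) / ((f i : ℝ) - 1) := by
    intro f hf
    rw [Fintype.mem_piFinset] at hf
    rw [Nat.Ioc_filter_dvd_card_eq_div]
    refine Nat.cast_div_le.trans ?_
    rw [Finset.prod_div_distrib, Finset.prod_const_one, mul_one_div]
    apply le_of_eq
    congr 1
    push_cast
    refine Finset.prod_congr rfl (fun i _ => ?_)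
    rw [Nat.cast_sub (by have := hS _ (hf i); omega)]
    simp
  refine (Finset.sum_le_sum h3).trans ?_
  rw [← Finset.mul_sum, ← Finset.prod_univ_sum (fun _ : Fin n => S)
    (fun _ q => (1 : ℝ) / ((q : ℝ) - 1))]
  simp

theorem rich_of_multiset {b v : ℕ} (hv : v ≠ 0) (L : Multiset ℕ) (hcard : 8 ≤ L.card)
    (hL : ∀ q ∈ L, q.Prime ∧ b ≤ 2 * Om 1 b (q - 1)) (hd : (L.map (fun q => q - 1)).prod ∣ v) :
    4 * b ≤ Om 1 b v := by
  have h1 := Om_le_of_dvd 1 b hv hd
  rw [Om_multiset_prod 1 b _ (by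
    intro x hx
    rw [Multiset.mem_map] at hx
    obtain ⟨q, hq, rfl⟩ := hx
    have := (hL q hq).1.two_le
    omega), Multiset.map_map] at h1
  have h2 : L.card * b ≤ 2 * (L.map (Om 1 b ∘ fun q => q - 1)).sum := by
    clear hcard hd h1
    induction L using Multiset.induction_on with
    | empty => simp
    | cons x s ih =>
      have h3 := ih (fun q hq => hL q (Multiset.mem_cons_of_mem hq))
      have h4 := (hL x (Multiset.mem_cons_self x s)).2
      rw [Multiset.card_cons, Multiset.map_cons, Multiset.sum_cons, Function.comp_apply]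
      nlinarith
  have h3 : 8 * b ≤ L.card * b := Nat.mul_le_mul_right b hcard
  omega

theorem poor_of_multiset {b x v : ℕ} (L : Multiset ℕ) (hcard : 17 ≤ L.card)
    (hL : ∀ q ∈ L, q ∈ poor b x) (hd : (L.map (fun q => q - 1)).prod ∣ v) :
    ∃ f : Fin 17 → ℕ, (∀ i, f i ∈ poor b x) ∧ (∏ i, (f i - 1)) ∣ v := by
  obtain ⟨f, hf⟩ := exists_ofFn (L.toList.take 17) 17 (by
    rw [List.length_take, Multiset.length_toList]
    omega)
  refine ⟨f, fun i => ?_, ?_⟩
  · apply hL
    have h1 : f i ∈ List.ofFn f := by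
      rw [List.mem_ofFn]
      exact ⟨i, rfl⟩
    rw [hf] at h1
    exact Multiset.mem_toList.1 (List.mem_of_mem_take h1)
  · refine dvd_trans ?_ hd
    have h1 : ∏ i, (f i - 1) = ((L.toList.take 17).map (fun q => q - 1)).prod := by
      rw [← hf, List.map_ofFn, List.prod_ofFn]
      rfl
    have h2 : (L.map (fun q => q - 1)).prod = (L.toList.map (fun q => q - 1)).prod := by
      conv_lhs => rw [← Multiset.coe_toList L]
      rw [Multiset.map_coe, Multiset.prod_coe]
    rw [h1, h2]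
    exact List.Sublist.prod_dvd_prod ((List.take_sublist 17 L.toList).map _)

theorem pow_le_exp (M : ℕ) (y : ℝ) (hy : 0 ≤ y) :
    y ^ M ≤ 100 ^ M * (M.factorial : ℝ) * Real.exp (y / 100) := by
  have h1 := Real.pow_div_factorial_le_exp (x := y / 100) (by positivity) M
  have h2 : (0 : ℝ) < M.factorial := by exact_mod_cast M.factorial_pos
  rw [div_le_iff₀ h2, div_pow, div_le_iff₀ (by positivity)] at h1
  linarith

theorem hl3 : (1 : ℝ) < Real.log 3 := by
  rw [Real.lt_log_iff_exp_lt (by norm_num)]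
  exact Real.exp_one_lt_d9.trans (by norm_num)

theorem hl4 : Real.log 4 = 2 * Real.log 2 := by
  rw [show (4 : ℝ) = 2 ^ 2 by norm_num, Real.log_pow]
  norm_num

theorem num_rich {τ b : ℝ} (hτ : 0 < τ) (hb : (45 / 100 : ℝ) * τ - 2 ≤ b) :
    Real.exp (-(4 * Real.log 4 - 3) * b) ≤ Real.exp 10 * Real.exp (-(105 / 100) * τ) := by
  have hl2 := Real.log_two_gt_d9
  have hl2' := Real.log_two_lt_d9
  rw [← Real.exp_add]
  apply Real.exp_le_exp.2
  rw [hl4]
  have h1 : (2.54 : ℝ) ≤ 4 * (2 * Real.log 2) - 3 := by linarith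
  have h2 : 4 * (2 * Real.log 2) - 3 ≤ (3 : ℝ) := by linarith
  have h3 : (4 * (2 * Real.log 2) - 3) * ((45 / 100 : ℝ) * τ - 2) ≤
      (4 * (2 * Real.log 2) - 3) * b := mul_le_mul_of_nonneg_left hb (by linarith)
  have h4 : 2.54 * ((45 / 100 : ℝ) * τ) ≤ (4 * (2 * Real.log 2) - 3) * ((45 / 100 : ℝ) * τ) :=
    mul_le_mul_of_nonneg_right h1 (by positivity)
  linarith

theorem num_poor {τ b Y : ℝ} (hτ : 0 < τ) (hb : (45 / 100 : ℝ) * τ - 2 ≤ b)
    (hY : Y ≤ 3 + 2 * τ) :
    Real.exp (Y / 100) * Real.exp (-(17 * ((1 - Real.log 2) / 2)) * b) ≤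
      Real.exp 10 * Real.exp (-(105 / 100) * τ) := by
  have hl2 := Real.log_two_gt_d9
  have hl2' := Real.log_two_lt_d9
  rw [← Real.exp_add, ← Real.exp_add]
  apply Real.exp_le_exp.2
  have h1 : (2.608 : ℝ) ≤ 17 * ((1 - Real.log 2) / 2) := by linarith
  have h2 : 17 * ((1 - Real.log 2) / 2) ≤ (3 : ℝ) := by linarith
  have h3 : (17 * ((1 - Real.log 2) / 2)) * ((45 / 100 : ℝ) * τ - 2) ≤
      (17 * ((1 - Real.log 2) / 2)) * b := mul_le_mul_of_nonneg_left hb (by linarith)
  have h4 : 2.608 * ((45 / 100 : ℝ) * τ) ≤ (17 * ((1 - Real.log 2) / 2)) * ((45 / 100 : ℝ) * τ) :=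
    mul_le_mul_of_nonneg_right h1 (by positivity)
  linarith

theorem rich_part : ∃ C : ℝ, 0 < C ∧ ∀ (b : ℕ) (t τ : ℝ), 2 ≤ b → 0 < t → 0 < τ →
    (45 / 100 : ℝ) * τ - 2 ≤ b →
    (((Icc 1 ⌊t⌋₊).filter (fun v => 4 * b ≤ Om 1 b v)).card : ℝ) ≤
      C * Real.exp (-(105 / 100) * τ) * t := by
  obtain ⟨C1, hC1, hrich⟩ := rich_count
  refine ⟨C1 * Real.exp 10, by positivity, fun b t τ hb ht hτ hbge => ?_⟩
  have hflt : ((⌊t⌋₊ : ℕ) : ℝ) ≤ t := Nat.floor_le ht.le
  refine (hrich b ⌊t⌋₊ (by omega)).trans ?_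
  have h1 := num_rich hτ hbge
  calc C1 * (⌊t⌋₊ : ℝ) * Real.exp (-(4 * Real.log 4 - 3) * b)
      ≤ C1 * t * (Real.exp 10 * Real.exp (-(105 / 100) * τ)) := by
        apply mul_le_mul _ h1 (Real.exp_pos _).le (by positivity)
        exact mul_le_mul_of_nonneg_left hflt hC1.le
    _ = _ := by ring

theorem loglog_succ {t : ℝ} (ht : 16 ≤ t) :
    Real.log (Real.log ((⌊t⌋₊ + 1 : ℕ) : ℝ)) ≤ Real.log (Real.log t) + 1 ∧
    0 ≤ Real.log (Real.log ((⌊t⌋₊ + 1 : ℕ) : ℝ)) := by
  have hflt : ((⌊t⌋₊ : ℕ) : ℝ) ≤ t := Nat.floor_le (by linarith)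
  have hx16 : (16 : ℝ) ≤ ((⌊t⌋₊ + 1 : ℕ) : ℝ) := by
    have := Nat.lt_floor_add_one t
    push_cast
    linarith
  have hlt : 1 < Real.log t := lt_of_lt_of_le hl3 (Real.log_le_log (by norm_num) (by linarith))
  constructor
  · have h2 : ((⌊t⌋₊ + 1 : ℕ) : ℝ) ≤ t + 1 := by
      push_cast
      linarith
    have h3 : Real.log ((⌊t⌋₊ + 1 : ℕ) : ℝ) ≤ 2 * Real.log t := by
      have h4 : Real.log ((⌊t⌋₊ + 1 : ℕ) : ℝ) ≤ Real.log (t ^ 2) := by
        apply Real.log_le_log (by linarith)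
        nlinarith
      rw [Real.log_pow] at h4
      push_cast at h4 ⊢
      exact h4
    have h5 : 0 < Real.log ((⌊t⌋₊ + 1 : ℕ) : ℝ) := Real.log_pos (by linarith)
    have h6 := Real.log_le_log h5 h3
    rw [Real.log_mul (by norm_num) (by linarith)] at h6
    have h7 := Real.log_two_lt_d9
    linarith
  · apply Real.log_nonneg
    exact (lt_of_lt_of_le hl3 (Real.log_le_log (by norm_num) (by linarith))).le

theorem poor_part : ∃ C : ℝ, 0 < C ∧ ∀ (b : ℕ) (t : ℝ), 2 ≤ b → 16 ≤ t →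
    (45 / 100 : ℝ) * Real.log (Real.log t) - 2 ≤ b →
    (((Icc 1 ⌊t⌋₊).filter (fun v => ∃ f : Fin 17 → ℕ, (∀ i, f i ∈ poor b (⌊t⌋₊ + 1)) ∧
      (∏ i, (f i - 1)) ∣ v)).card : ℝ) ≤
      C * Real.exp (-(105 / 100) * Real.log (Real.log t)) * t := by
  obtain ⟨C2, k, hC2, hpoor⟩ := poor_sum
  refine ⟨C2 ^ 17 * (100 ^ ((k + 1) * 17) * (((k + 1) * 17).factorial : ℝ)) * Real.exp 10,
    by positivity, fun b t hb ht hbge => ?_⟩
  set M : ℕ := (k + 1) * 17 with hM
  set D : ℝ := 100 ^ M * (M.factorial : ℝ) with hD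
  have hD0 : 0 < D := by positivity
  have hflt : ((⌊t⌋₊ : ℕ) : ℝ) ≤ t := Nat.floor_le (by linarith)
  have hlt : 1 < Real.log t := lt_of_lt_of_le hl3 (Real.log_le_log (by norm_num) (by linarith))
  obtain ⟨hllx, hllx0⟩ := loglog_succ ht
  have hx16 : 16 ≤ ⌊t⌋₊ + 1 := by
    have : 16 ≤ ⌊t⌋₊ := Nat.le_floor (by exact_mod_cast ht)
    omega
  set τ := Real.log (Real.log t) with hτ
  have hτ0 : 0 < τ := Real.log_pos hlt
  refine (count_div (poor b (⌊t⌋₊ + 1)) 17 ⌊t⌋₊ (fun q hq => by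
    unfold poor at hq
    rw [Finset.mem_filter, Nat.mem_primesLE] at hq
    exact hq.1.2.two_le)).trans ?_
  have h1 := hpoor b (⌊t⌋₊ + 1) hb hx16
  have hsum0 : 0 ≤ ∑ q ∈ poor b (⌊t⌋₊ + 1), (1 : ℝ) / ((q : ℝ) - 1) := by
    apply Finset.sum_nonneg
    intro q hq
    unfold poor at hq
    rw [Finset.mem_filter, Nat.mem_primesLE] at hq
    have h2 : (2 : ℝ) ≤ q := by exact_mod_cast hq.1.2.two_le
    apply div_nonneg zero_le_one
    linarith
  set Y : ℝ := 1 + 2 * Real.log (Real.log ((⌊t⌋₊ + 1 : ℕ) : ℝ)) with hY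
  have hY0 : 0 ≤ Y := by positivity
  set Z := ∑ q ∈ poor b (⌊t⌋₊ + 1), (1 : ℝ) / ((q : ℝ) - 1) with hZ
  have h2 : Z ^ 17 ≤ C2 ^ 17 * Y ^ M * Real.exp (-(17 * ((1 - Real.log 2) / 2)) * b) := by
    calc Z ^ 17 ≤ (C2 * Y ^ (k + 1) * Real.exp (-((1 - Real.log 2) / 2) * b)) ^ 17 :=
          pow_le_pow_left₀ hsum0 h1 17
      _ = C2 ^ 17 * Y ^ M * Real.exp (-(17 * ((1 - Real.log 2) / 2)) * b) := by
          rw [mul_pow, mul_pow, ← pow_mul, ← Real.exp_nat_mul]
          congr 2
          push_cast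
          ring
  have h3 : Y ^ M ≤ D * Real.exp (Y / 100) := pow_le_exp M Y hY0
  have h4 := num_poor (Y := Y) hτ0 hbge (by rw [hY]; linarith)
  have h5 : C2 ^ 17 * Y ^ M * Real.exp (-(17 * ((1 - Real.log 2) / 2)) * b) ≤
      C2 ^ 17 * D * (Real.exp 10 * Real.exp (-(105 / 100) * τ)) := by
    calc C2 ^ 17 * Y ^ M * Real.exp (-(17 * ((1 - Real.log 2) / 2)) * b) ≤
        C2 ^ 17 * (D * Real.exp (Y / 100)) * Real.exp (-(17 * ((1 - Real.log 2) / 2)) * b) := by
          apply mul_le_mul_of_nonneg_right _ (Real.exp_pos _).le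
          exact mul_le_mul_of_nonneg_left h3 (by positivity)
      _ = C2 ^ 17 * D * (Real.exp (Y / 100) *
          Real.exp (-(17 * ((1 - Real.log 2) / 2)) * b)) := by ring
      _ ≤ _ := mul_le_mul_of_nonneg_left h4 (by positivity)
  calc (⌊t⌋₊ : ℝ) * Z ^ 17
      ≤ t * (C2 ^ 17 * D * (Real.exp 10 * Real.exp (-(105 / 100) * τ))) :=
        mul_le_mul hflt (h2.trans h5) (by positivity) (by linarith)
    _ = _ := by ring

/-- the combinatorial inclusion. -/
theorem cover (t τ : ℝ) (b : ℕ) (hb2 : ⌊(45 / 100 : ℝ) * τ⌋₊ = b + 1) (hτ : 0 < τ) :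
    (Icc 1 ⌊t⌋₊).filter (fun v : ℕ => ∃ L : Multiset ℕ, L.card = 24 ∧
      (∀ q ∈ L, q.Prime ∧ (45 / 100 : ℝ) * τ ≤ (lv q : ℝ) + 1) ∧
      (L.map (fun q => q - 1)).prod ∣ v) ⊆
      (Icc 1 ⌊t⌋₊).filter (fun v => 4 * b ≤ Om 1 b v) ∪
      (Icc 1 ⌊t⌋₊).filter (fun v => ∃ f : Fin 17 → ℕ, (∀ i, f i ∈ poor b (⌊t⌋₊ + 1)) ∧
      (∏ i, (f i - 1)) ∣ v) := by
  have hfl : ((⌊(45 / 100 : ℝ) * τ⌋₊ : ℕ) : ℝ) ≤ (45 / 100 : ℝ) * τ :=
    Nat.floor_le (by positivity)
  intro v hv
  rw [Finset.mem_filter, Finset.mem_Icc] at hv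
  obtain ⟨⟨hv1, hv2⟩, L, hL1, hL2, hL3⟩ := hv
  rw [Finset.mem_union, Finset.mem_filter, Finset.mem_filter, Finset.mem_Icc]
  have hv0 : v ≠ 0 := by omega
  have hsplit := Multiset.filter_add_not (fun q => b ≤ 2 * Om 1 b (q - 1)) L
  have hcard : (L.filter (fun q => b ≤ 2 * Om 1 b (q - 1))).card +
      (L.filter (fun q => ¬ b ≤ 2 * Om 1 b (q - 1))).card = 24 := by
    rw [← Multiset.card_add, hsplit, hL1]
  have hdvd1 : ((L.filter (fun q => b ≤ 2 * Om 1 b (q - 1))).map (fun q => q - 1)).prod ∣ v :=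
    dvd_trans (Multiset.prod_dvd_prod_of_le (Multiset.map_le_map (Multiset.filter_le _ L))) hL3
  have hdvd2 : ((L.filter (fun q => ¬ b ≤ 2 * Om 1 b (q - 1))).map (fun q => q - 1)).prod ∣ v :=
    dvd_trans (Multiset.prod_dvd_prod_of_le (Multiset.map_le_map (Multiset.filter_le _ L))) hL3
  rcases Nat.lt_or_ge (L.filter (fun q => b ≤ 2 * Om 1 b (q - 1))).card 8 with h | h
  · right
    refine ⟨⟨hv1, hv2⟩, ?_⟩
    apply poor_of_multiset _ (by omega) _ hdvd2
    intro q hq
    rw [Multiset.mem_filter] at hq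
    obtain ⟨hq1, hq2⟩ := hL2 q hq.1
    unfold poor
    rw [Finset.mem_filter, Nat.mem_primesLE]
    refine ⟨⟨?_, hq1⟩, ?_, by omega⟩
    · have h2 : q - 1 ∣ v :=
        dvd_trans (Multiset.dvd_prod (Multiset.mem_map_of_mem (fun q => q - 1) hq.1)) hL3
      have h3 := Nat.le_of_dvd (by omega) h2
      omega
    · have h2 : ((b : ℝ)) + 1 ≤ (lv q : ℝ) + 1 := by
        have h3 : ((b : ℝ)) + 1 = ((⌊(45 / 100 : ℝ) * τ⌋₊ : ℕ) : ℝ) := by
          rw [hb2]; push_cast; ring
        rw [h3]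
        exact hfl.trans hq2
      have h4 : (b : ℝ) ≤ lv q := by linarith
      exact_mod_cast h4
  · left
    refine ⟨⟨hv1, hv2⟩, rich_of_multiset hv0 _ h ?_ hdvd1⟩
    intro q hq
    rw [Multiset.mem_filter] at hq
    exact ⟨(hL2 q hq.1).1, hq.2⟩

end PZ

open PZ MertAux

theorem p0_bound : ∃ C : ℝ, 0 < C ∧ ∀ t : ℝ, 16 ≤ t →
    (((Icc 1 ⌊t⌋₊).filter (fun v : ℕ => ∃ L : Multiset ℕ, L.card = 24 ∧
      (∀ q ∈ L, q.Prime ∧ (45 / 100 : ℝ) * Real.log (Real.log t) ≤ (lv q : ℝ) + 1) ∧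
      (L.map (fun q => q - 1)).prod ∣ v)).card : ℝ) ≤
      C * t * Real.exp (-(105 / 100) * Real.log (Real.log t)) := by
  obtain ⟨C1, hC1, hR⟩ := rich_part
  obtain ⟨C2, hC2, hP⟩ := poor_part
  refine ⟨Real.exp 10 + C1 + C2, by positivity, fun t ht => ?_⟩
  have ht0 : 0 < t := by linarith
  have hlt : 1 < Real.log t := lt_of_lt_of_le hl3 (Real.log_le_log (by norm_num) (by linarith))
  have hτ0 : 0 < Real.log (Real.log t) := Real.log_pos hlt
  have hflt : ((⌊t⌋₊ : ℕ) : ℝ) ≤ t := Nat.floor_le ht0.le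
  have hE := Real.exp_pos (-(105 / 100) * Real.log (Real.log t))
  rcases lt_or_ge (Real.log (Real.log t)) 8 with h8 | h8
  · have h1 : (((Icc 1 ⌊t⌋₊).filter (fun v : ℕ => ∃ L : Multiset ℕ, L.card = 24 ∧
      (∀ q ∈ L, q.Prime ∧ (45 / 100 : ℝ) * Real.log (Real.log t) ≤ (lv q : ℝ) + 1) ∧
      (L.map (fun q => q - 1)).prod ∣ v)).card : ℝ) ≤ t := by
      refine le_trans ?_ hflt
      have := Finset.card_filter_le (Icc 1 ⌊t⌋₊) (fun v : ℕ => ∃ L : Multiset ℕ, L.card = 24 ∧
        (∀ q ∈ L, q.Prime ∧ (45 / 100 : ℝ) * Real.log (Real.log t) ≤ (lv q : ℝ) + 1) ∧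
        (L.map (fun q => q - 1)).prod ∣ v)
      rw [Nat.card_Icc, Nat.add_sub_cancel] at this
      exact_mod_cast this
    refine h1.trans ?_
    set E := Real.exp (-(105 / 100) * Real.log (Real.log t)) with hEd
    have h2 : 1 ≤ Real.exp 10 * E := by
      rw [hEd, ← Real.exp_add]
      exact Real.one_le_exp (by linarith)
    have h3 : t * 1 ≤ t * (Real.exp 10 * E) := mul_le_mul_of_nonneg_left h2 ht0.le
    have h4 : 0 ≤ (C1 + C2) * t * E := by positivity
    calc t = t * 1 := by ring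
      _ ≤ t * (Real.exp 10 * E) := h3
      _ ≤ t * (Real.exp 10 * E) + (C1 + C2) * t * E := by linarith
      _ = _ := by ring
  -- the main case
  obtain ⟨b, hb2, hb⟩ : ∃ b : ℕ, ⌊(45 / 100 : ℝ) * Real.log (Real.log t)⌋₊ = b + 1 ∧ 2 ≤ b := by
    have h1 : 3 ≤ ⌊(45 / 100 : ℝ) * Real.log (Real.log t)⌋₊ := by
      apply Nat.le_floor
      push_cast
      linarith
    exact ⟨⌊(45 / 100 : ℝ) * Real.log (Real.log t)⌋₊ - 1, by omega, by omega⟩
  have hbge : (45 / 100 : ℝ) * Real.log (Real.log t) - 2 ≤ b := by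
    have h1 := Nat.lt_floor_add_one ((45 / 100 : ℝ) * Real.log (Real.log t))
    rw [hb2] at h1
    push_cast at h1
    linarith
  have hcard := (Finset.card_le_card (cover t _ b hb2 hτ0)).trans (Finset.card_union_le _ _)
  have h1 := hR b t _ hb ht0 hτ0 hbge
  have h2 := hP b t hb ht hbge
  set E := Real.exp (-(105 / 100) * Real.log (Real.log t)) with hEd
  have h0 : 0 ≤ Real.exp 10 * t * E := by positivity
  refine (Nat.cast_le (α := ℝ).2 hcard).trans ?_
  rw [Nat.cast_add]
  calc _ ≤ C1 * E * t + C2 * E * t := add_le_add h1 h2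
    _ ≤ C1 * E * t + C2 * E * t + Real.exp 10 * t * E := by linarith
    _ = _ := by ring

end P031
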