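import Vale.Agent.P031.DefsB
import Vale.Agent.P031.Mert

/-! P031, [TAIL]: Rankin bound for the sums over `SSl k y`. -/

namespace P031

open Finset Filter Topology
open scoped Classical

namespace TailAux

open MertAux

/-- values generated by the primes in `P`. -/
def W (k : ℕ) (P : Finset ℕ) : Set ℕ :=
  {w | ∃ (L : Multiset ℕ) (m : ℕ), 0 < m ∧ (∀ q ∈ L, q ∈ P ∧ k ≤ lv q) ∧
    (∀ p, p.Prime → p ∣ m → p ∈ P ∧ lv p < k) ∧ w = (L.map (fun q => q - 1)).prod * Nat.totient m}

theorem SSl_sub (k y : ℕ) (hk : k ≤ y) : SSl k y ⊆ W k (PL 0 y) := by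
  rintro w ⟨L, m, hm, hL, hp, hw⟩
  refine ⟨L, m, hm, fun q hq => ?_, fun p hpp hpm => ?_, hw⟩
  · obtain ⟨h1, h2, h3⟩ := hL q hq
    exact ⟨mem_PL.2 ⟨h1, Nat.zero_le _, h3⟩, h2⟩
  · have := hp p hpp hpm
    exact ⟨mem_PL.2 ⟨hpp, Nat.zero_le _, by omega⟩, this⟩

/-- local values. -/
noncomputable def gg (k p a : ℕ) : ℕ := if k ≤ lv p then (p - 1) ^ a else Nat.totient (p ^ a)

theorem W_empty (k : ℕ) : W k ∅ ⊆ {1} := by
  rintro w ⟨L, m, hm, hL, hp, hw⟩
  have h1 : L = 0 := by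
    rw [Multiset.eq_zero_iff_forall_notMem]
    intro q hq
    have := (hL q hq).1
    simp at this
  have h2 : m = 1 := by
    by_contra h
    obtain ⟨p, hpp, hpm⟩ := Nat.exists_prime_and_dvd h
    have := (hp p hpp hpm).1
    simp at this
  rw [h1, h2] at hw
  simpa using hw

theorem W_insert (k p : ℕ) (P : Finset ℕ) (hpp : p.Prime) (hp : p ∉ P) :
    ∀ w ∈ W k (insert p P), ∃ a w', w' ∈ W k P ∧ w = gg k p a * w' := by
  rintro w ⟨L, m, hm, hL, hp', hw⟩
  by_cases hk : k ≤ lv p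
  · have hsplit := Multiset.filter_add_not (fun q => q = p) L
    have h1 : L.filter (fun q => q = p) = Multiset.replicate (L.count p) p := by
      rw [Multiset.filter_eq']
    refine ⟨L.count p, ((L.filter (fun q => ¬ q = p)).map (fun q => q - 1)).prod * Nat.totient m,
      ⟨L.filter (fun q => ¬ q = p), m, hm, fun q hq => ?_, fun q hq hqm => ?_, rfl⟩, ?_⟩
    · rw [Multiset.mem_filter] at hq
      have := hL q hq.1
      rw [Finset.mem_insert] at this
      exact ⟨this.1.resolve_left hq.2, this.2⟩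
    · have := hp' q hq hqm
      rw [Finset.mem_insert] at this
      refine ⟨this.1.resolve_left ?_, this.2⟩
      rintro rfl
      omega
    · rw [hw, ← hsplit, Multiset.map_add, Multiset.prod_add, h1, Multiset.map_replicate,
        Multiset.prod_replicate]
      unfold gg
      rw [if_pos hk, Multiset.filter_add, Multiset.count_add, Multiset.count_replicate_self]
      have h2 : Multiset.filter (fun q => ¬ q = p) (Multiset.replicate (L.count p) p) = 0 := by
        rw [Multiset.filter_eq_nil]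
        intro a ha
        rw [Multiset.mem_replicate] at ha
        simp [ha.2]
      have h3 : Multiset.count p (Multiset.filter (fun q => ¬ q = p) L) = 0 := by
        rw [Multiset.count_eq_zero, Multiset.mem_filter]
        simp
      rw [h2, h3, Multiset.filter_filter]
      simp only [and_self, zero_add, add_zero]
      ring
  · push Not at hk
    obtain ⟨e, m', hm', hme⟩ := Nat.exists_eq_pow_mul_and_not_dvd hm.ne' p hpp.ne_one
    refine ⟨e, (L.map (fun q => q - 1)).prod * Nat.totient m', ⟨L, m', ?_, fun q hq => ?_,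
      fun q hq hqm => ?_, rfl⟩, ?_⟩
    · rcases Nat.eq_zero_or_pos m' with h | h
      · exact absurd (by rw [h]; exact dvd_zero p) hm'
      · exact h
    · have := hL q hq
      rw [Finset.mem_insert] at this
      refine ⟨this.1.resolve_left ?_, this.2⟩
      rintro rfl
      omega
    · have := hp' q hq (by rw [hme]; exact hqm.mul_left _)
      rw [Finset.mem_insert] at this
      refine ⟨this.1.resolve_left ?_, this.2⟩
      rintro rfl
      exact hm' hqm
    · have hcop : Nat.Coprime (p ^ e) m' := Nat.Coprime.pow_left e ((Nat.Prime.coprime_iff_not_dvd hpp).2 hm')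
      rw [hw, hme, Nat.totient_mul hcop]
      unfold gg
      rw [if_neg (by omega)]
      ring

theorem W_one_le {k : ℕ} {P : Finset ℕ} (hP : ∀ p ∈ P, p.Prime) {w : ℕ} (hw : w ∈ W k P) :
    1 ≤ w := by
  obtain ⟨L, m, hm, hL, -, rfl⟩ := hw
  have h1 : 0 < (L.map (fun q => q - 1)).prod := by
    apply Nat.pos_of_ne_zero
    apply Multiset.prod_ne_zero
    intro h0
    rw [Multiset.mem_map] at h0
    obtain ⟨q, hq, hq0⟩ := h0
    have := (hP q (hL q hq).1).two_le
    omega
  exact Nat.mul_pos h1 (Nat.totient_pos.2 hm)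

theorem gg_pos (k p a : ℕ) (hp : p.Prime) : 1 ≤ gg k p a := by
  unfold gg
  have h2 := hp.two_le
  split_ifs
  · exact Nat.one_le_pow _ _ (by omega)
  · exact Nat.totient_pos.2 (Nat.pow_pos hp.pos)

/-- `(p-1)^a ≤ gg k p a`. -/
theorem pow_le_gg (k p a : ℕ) (hp : p.Prime) : (p - 1) ^ a ≤ gg k p a := by
  unfold gg
  split_ifs
  · exact le_rfl
  · rcases Nat.eq_zero_or_pos a with rfl | ha
    · simp
    · rw [Nat.totient_prime_pow hp ha]
      obtain ⟨b, rfl⟩ : ∃ b, a = b + 1 := ⟨a - 1, by omega⟩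
      rw [pow_succ]
      simp only [Nat.add_sub_cancel]
      exact Nat.mul_le_mul_right _ (Nat.pow_le_pow_left (by omega) b)

/-- the exponents which are needed. -/
noncomputable def AA (k p T : ℕ) : Finset ℕ := if p = 2 ∧ k ≤ lv p then {0} else range (T + 1)

theorem exists_AA (k p T : ℕ) (hp : p.Prime) (a : ℕ) (ha : gg k p a ≤ T) :
    ∃ b ∈ AA k p T, gg k p b = gg k p a := by
  by_cases h : p = 2 ∧ k ≤ lv p
  · refine ⟨0, ?_, ?_⟩
    · unfold AA
      rw [if_pos h]
      simp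
    · unfold gg
      rw [if_pos h.2, if_pos h.2, h.1]
      simp
  · refine ⟨a, ?_, rfl⟩
    unfold AA
    rw [if_neg h, Finset.mem_range]
    have h2 := hp.two_le
    have h3 : a ≤ gg k p a := by
      by_cases h4 : p = 2
      · have h5 : ¬ k ≤ lv p := fun h6 => h ⟨h4, h6⟩
        unfold gg
        rw [if_neg h5]
        rcases Nat.eq_zero_or_pos a with rfl | ha'
        · simp
        · rw [Nat.totient_prime_pow hp ha', h4]
          have := @Nat.lt_two_pow_self (a - 1)
          omega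
      · have h5 := pow_le_gg k p a hp
        have h6 : 2 ^ a ≤ (p - 1) ^ a := Nat.pow_le_pow_left (by omega) a
        have := @Nat.lt_two_pow_self a
        omega
    omega

/-- the summand. -/
noncomputable def ff (s : ℝ) (u : ℕ) : ℝ := (u : ℝ) ^ (-s)

theorem ff_nonneg (s : ℝ) (u : ℕ) : 0 ≤ ff s u := Real.rpow_nonneg (Nat.cast_nonneg u) _

theorem ff_mul (s : ℝ) (a b : ℕ) : ff s (a * b) = ff s a * ff s b := by
  unfold ff
  rw [Nat.cast_mul, Real.mul_rpow (Nat.cast_nonneg a) (Nat.cast_nonneg b)]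

theorem ff_one (s : ℝ) : ff s 1 = 1 := by
  unfold ff
  simp

theorem ff_pow (s : ℝ) (a n : ℕ) : ff s (a ^ n) = ff s a ^ n := by
  induction n with
  | zero => rw [pow_zero, pow_zero, ff_one]
  | succ n ih => rw [pow_succ, pow_succ, ff_mul, ih]

theorem ff_anti {s : ℝ} (hs : 0 ≤ s) {a b : ℕ} (ha : 1 ≤ a) (hab : a ≤ b) : ff s b ≤ ff s a := by
  unfold ff
  apply Real.rpow_le_rpow_of_nonpos
  · exact_mod_cast ha
  · exact_mod_cast hab
  · linarith

theorem ff_two {s : ℝ} (hs : 0.63 ≤ s) : ff s 2 ≤ 0.655 := by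
  unfold ff
  rw [Real.rpow_def_of_pos (by norm_num)]
  have h1 := Real.log_two_gt_d9
  have h2 : Real.log ((2 : ℕ) : ℝ) * -s ≤ -0.436 := by
    push_cast
    nlinarith
  have h3 := Real.exp_le_exp.2 h2
  refine h3.trans ?_
  have h4 := Real.quadratic_le_exp_of_nonneg (show (0 : ℝ) ≤ 0.436 by norm_num)
  rw [Real.exp_neg]
  rw [inv_le_comm₀ (Real.exp_pos _) (by norm_num)]
  refine le_trans ?_ h4
  norm_num

theorem geom_le {x : ℝ} (hx0 : 0 ≤ x) (hx1 : x < 1) (n : ℕ) :
    ∑ a ∈ range n, x ^ a ≤ 1 / (1 - x) := by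
  rw [le_div_iff₀ (by linarith)]
  have h1 := geom_sum_mul x n
  have h2 : 0 ≤ x ^ n := by positivity
  nlinarith

/-- bound for the local factor. -/
noncomputable def Phi (s : ℝ) (p : ℕ) : ℝ := if p = 2 then 4 else Real.exp (2.9 * ff s (p - 1))

theorem factor_le {s : ℝ} (hs : 0.63 ≤ s) (k p T : ℕ) (hp : p.Prime) :
    ∑ a ∈ AA k p T, ff s (gg k p a) ≤ Phi s p := by
  have hs0 : 0 ≤ s := by linarith
  have h2 := ff_two hs
  have h20 := ff_nonneg s 2
  by_cases h : p = 2
  · subst h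
    unfold Phi
    rw [if_pos rfl]
    unfold AA
    by_cases hk : k ≤ lv 2
    · rw [if_pos ⟨rfl, hk⟩, Finset.sum_singleton]
      unfold gg
      rw [if_pos hk, pow_zero, ff_one]
      norm_num
    · rw [if_neg (fun h => hk h.2), Finset.sum_range_succ']
      have h1 : ∀ a ∈ range T, ff s (gg k 2 (a + 1)) = ff s 2 ^ a := by
        intro a _
        unfold gg
        rw [if_neg hk, Nat.totient_prime_pow Nat.prime_two (Nat.succ_pos a)]
        simp only [Nat.succ_eq_add_one, Nat.add_one_sub_one, mul_one]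
        rw [ff_pow]
      rw [Finset.sum_congr rfl h1]
      have h3 : gg k 2 0 = 1 := by
        unfold gg
        rw [if_neg hk]
        simp
      rw [h3, ff_one]
      have h4 := geom_le h20 (by linarith) T
      have h5 : 1 / (1 - ff s 2) ≤ 3 := by
        rw [div_le_iff₀ (by linarith)]
        linarith
      linarith
  · unfold Phi
    rw [if_neg h]
    unfold AA
    rw [if_neg (fun h' => h h'.1)]
    have hp3 : 2 ≤ p - 1 := by
      have := hp.two_le
      omega
    have hx : ff s (p - 1) ≤ 0.655 := (ff_anti hs0 (by norm_num) hp3).trans h2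
    have hx0 := ff_nonneg s (p - 1)
    have h1 : ∑ a ∈ range (T + 1), ff s (gg k p a) ≤ ∑ a ∈ range (T + 1), ff s (p - 1) ^ a := by
      apply Finset.sum_le_sum
      intro a _
      rw [← ff_pow]
      exact ff_anti hs0 (Nat.one_le_pow _ _ (by omega)) (pow_le_gg k p a hp)
    refine h1.trans ((geom_le hx0 (by linarith) _).trans ?_)
    have h3 : 1 / (1 - ff s (p - 1)) ≤ Real.exp (ff s (p - 1) / (1 - ff s (p - 1))) := by
      have h4 := Real.add_one_le_exp (ff s (p - 1) / (1 - ff s (p - 1)))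
      have h5 : ff s (p - 1) / (1 - ff s (p - 1)) + 1 = 1 / (1 - ff s (p - 1)) := by
        have : (1 - ff s (p - 1)) ≠ 0 := by linarith
        field_simp
        ring
      linarith
    refine h3.trans (Real.exp_le_exp.2 ?_)
    rw [div_le_iff₀ (by linarith)]
    nlinarith

theorem sum_W_le {s : ℝ} (hs : 0.63 ≤ s) (k T : ℕ) (P : Finset ℕ) (hP : ∀ p ∈ P, p.Prime) :
    ∑ u ∈ (Icc 1 T).filter (fun u => u ∈ W k P), ff s u ≤ ∏ p ∈ P, Phi s p := by
  induction P using Finset.induction_on with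
  | empty =>
    rw [Finset.prod_empty]
    have hsub : (Icc 1 T).filter (fun u => u ∈ W k ∅) ⊆ {1} := by
      intro u hu
      rw [Finset.mem_filter] at hu
      have := W_empty k hu.2
      simpa using this
    refine (Finset.sum_le_sum_of_subset_of_nonneg hsub (fun u _ _ => ff_nonneg s u)).trans ?_
    rw [Finset.sum_singleton, ff_one]
  | insert p P hp ih =>
    have hpp : p.Prime := hP p (Finset.mem_insert_self p P)
    have hP' : ∀ q ∈ P, q.Prime := fun q hq => hP q (Finset.mem_insert_of_mem hq)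
    have ih' := ih hP'
    rw [Finset.prod_insert hp]
    have hsub : (Icc 1 T).filter (fun u => u ∈ W k (insert p P)) ⊆
        ((AA k p T) ×ˢ ((Icc 1 T).filter (fun u => u ∈ W k P))).image
          (fun x => gg k p x.1 * x.2) := by
      intro u hu
      rw [Finset.mem_filter, Finset.mem_Icc] at hu
      obtain ⟨a, w', hw', huw⟩ := W_insert k p P hpp hp u hu.2
      have h1 := gg_pos k p a hpp
      have h2 := W_one_le hP' hw'
      have h3 : gg k p a ≤ T := by
        have : gg k p a * 1 ≤ gg k p a * w' := Nat.mul_le_mul_left _ h2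
        omega
      have h4 : w' ≤ T := by
        have : 1 * w' ≤ gg k p a * w' := Nat.mul_le_mul_right _ h1
        omega
      obtain ⟨b, hb, hgb⟩ := exists_AA k p T hpp a h3
      rw [Finset.mem_image]
      refine ⟨(b, w'), ?_, ?_⟩
      · rw [Finset.mem_product, Finset.mem_filter, Finset.mem_Icc]
        exact ⟨hb, ⟨h2, h4⟩, hw'⟩
      · simp only
        rw [hgb, huw]
    refine (Finset.sum_le_sum_of_subset_of_nonneg hsub (fun u _ _ => ff_nonneg s u)).trans ?_
    refine (Finset.sum_image_le_of_nonneg (fun u _ => ff_nonneg s u)).trans ?_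
    rw [Finset.sum_product]
    simp only [ff_mul]
    rw [← Finset.sum_mul_sum]
    apply mul_le_mul (factor_le hs k p T hpp) ih'
    · exact Finset.sum_nonneg (fun u _ => ff_nonneg s u)
    · unfold Phi
      split_ifs
      · norm_num
      · exact (Real.exp_pos _).le

theorem ff_le_exp {η : ℝ} (hη : 0 < η) (p : ℕ) (hp : p.Prime) (hlog : Real.log p ≤ 1 / η) :
    ff (1 - η) (p - 1) ≤ Real.exp 1 * (1 / ((p : ℝ) - 1)) := by
  have hp2 : (2 : ℝ) ≤ p := by exact_mod_cast hp.two_le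
  have h1 : ((p - 1 : ℕ) : ℝ) = (p : ℝ) - 1 := by
    rw [Nat.cast_sub hp.one_lt.le]
    simp
  unfold ff
  rw [h1]
  have hr : 0 < (p : ℝ) - 1 := by linarith
  have h2 : ((p : ℝ) - 1) ^ (-(1 - η)) = ((p : ℝ) - 1) ^ η * (1 / ((p : ℝ) - 1)) := by
    rw [show -(1 - η) = η + (-1) by ring, Real.rpow_add hr, Real.rpow_neg_one, one_div]
  rw [h2]
  apply mul_le_mul_of_nonneg_right _ (by positivity)
  rw [Real.rpow_def_of_pos hr]
  apply Real.exp_le_exp.2
  have h3 : Real.log ((p : ℝ) - 1) ≤ Real.log p := Real.log_le_log hr (by linarith)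
  have h4 : Real.log ((p : ℝ) - 1) ≤ 1 / η := h3.trans hlog
  rwa [le_div_iff₀ hη] at h4

theorem prod_Phi_le {η : ℝ} (hη : 0 < η) (P : Finset ℕ) (hP : ∀ p ∈ P, p.Prime)
    (hlog : ∀ p ∈ P, Real.log p ≤ 1 / η) :
    ∏ p ∈ P, Phi (1 - η) p ≤
      4 * Real.exp (2.9 * Real.exp 1 * ∑ p ∈ P, 1 / ((p : ℝ) - 1)) := by
  have h1 : ∀ p ∈ P, Phi (1 - η) p ≤
      (if p = 2 then 4 else 1) * Real.exp (2.9 * Real.exp 1 * (1 / ((p : ℝ) - 1))) := by
    intro p hp
    have hp2 : (2 : ℝ) ≤ p := by exact_mod_cast (hP p hp).two_le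
    have h0 : 0 ≤ 1 / ((p : ℝ) - 1) := by
      apply div_nonneg zero_le_one
      linarith
    unfold Phi
    split_ifs
    · have h2 : 1 ≤ Real.exp (2.9 * Real.exp 1 * (1 / ((p : ℝ) - 1))) := by
        apply Real.one_le_exp
        positivity
      linarith
    · rw [one_mul]
      apply Real.exp_le_exp.2
      have h2 := ff_le_exp hη p (hP p hp) (hlog p hp)
      calc 2.9 * ff (1 - η) (p - 1) ≤ 2.9 * (Real.exp 1 * (1 / ((p : ℝ) - 1))) :=
            mul_le_mul_of_nonneg_left h2 (by norm_num)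
        _ = _ := by ring
  have h0 : ∀ p ∈ P, 0 ≤ Phi (1 - η) p := by
    intro p _
    unfold Phi
    split_ifs
    · norm_num
    · exact (Real.exp_pos _).le
  refine (Finset.prod_le_prod h0 h1).trans ?_
  rw [Finset.prod_mul_distrib, ← Real.exp_sum, ← Finset.mul_sum]
  apply mul_le_mul_of_nonneg_right _ (Real.exp_pos _).le
  rw [Finset.prod_ite_eq' P 2 (fun _ => (4 : ℝ))]
  split_ifs <;> norm_num

theorem eta_facts (y : ℕ) (hy : 1 ≤ y) : 0.63 ≤ 1 - Real.exp (-(y : ℝ)) := by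
  have h1 : Real.exp (-(y : ℝ)) ≤ Real.exp (-1) := by
    apply Real.exp_le_exp.2
    have : (1 : ℝ) ≤ y := by exact_mod_cast hy
    linarith
  have h2 : Real.exp (-1) ≤ 0.37 := by
    rw [Real.exp_neg, inv_le_comm₀ (Real.exp_pos _) (by norm_num)]
    have := Real.exp_one_gt_d9
    refine le_trans ?_ this.le
    norm_num
  linarith

theorem log_le_of_mem {y p : ℕ} (hy : 1 ≤ y) (hp : p ∈ PL 0 y) :
    Real.log p ≤ 1 / Real.exp (-(y : ℝ)) := by
  rw [mem_PL] at hp
  have h1 := (lt_iff hp.1 hy).1 hp.2.2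
  have hp2 : (2 : ℝ) ≤ p := by exact_mod_cast hp.1.two_le
  have h2 : (p : ℝ) ≤ nc y := by exact_mod_cast h1
  have h3 := Real.log_le_log (by linarith) (h2.trans (nc_lt y).le)
  rw [Real.log_exp] at h3
  rw [Real.exp_neg, one_div, inv_inv]
  exact h3

theorem exists_sum_bound : ∃ C : ℝ, 0 < C ∧ ∀ (k y T : ℕ), 1 ≤ y → k ≤ y →
    ∑ u ∈ (Icc 1 T).filter (fun u : ℕ => u ∈ SSl k y), ff (1 - Real.exp (-(y : ℝ))) u ≤
      C * Real.exp (8 * y) := by
  obtain ⟨C, hC, hmass⟩ := level_mass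
  refine ⟨4 * Real.exp (8 * (C + 1)), by positivity, fun k y T hy hk => ?_⟩
  have hη : 0 < Real.exp (-(y : ℝ)) := Real.exp_pos _
  have hs := eta_facts y hy
  have hP : ∀ p ∈ PL 0 y, p.Prime := fun p hp => (mem_PL.1 hp).1
  have h1 : ∑ u ∈ (Icc 1 T).filter (fun u : ℕ => u ∈ SSl k y), ff (1 - Real.exp (-(y : ℝ))) u ≤
      ∑ u ∈ (Icc 1 T).filter (fun u => u ∈ W k (PL 0 y)), ff (1 - Real.exp (-(y : ℝ))) u := by
    apply Finset.sum_le_sum_of_subset_of_nonneg
    · intro u hu
      rw [Finset.mem_filter] at hu ⊢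
      exact ⟨hu.1, SSl_sub k y hk hu.2⟩
    · intro u _ _
      exact ff_nonneg _ u
  refine h1.trans ((sum_W_le hs k T (PL 0 y) hP).trans ((prod_Phi_le hη (PL 0 y) hP
    (fun p hp => log_le_of_mem hy hp)).trans ?_))
  rw [mul_assoc 4 (Real.exp (8 * (C + 1))), ← Real.exp_add]
  apply mul_le_mul_of_nonneg_left _ (by norm_num)
  apply Real.exp_le_exp.2
  have h2 := (abs_le.1 (hmass 0 y (Nat.zero_le _))).2
  have h3 : ∑ p ∈ PL 0 y, (1 / ((p : ℝ) - 1) - 1 / p) ≤ 1 := by
    rw [PL_zero_left hy]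
    have h6 : 1 ≤ nc y := by
      have h7 := nc_ge y hy
      have h8 : 6 < nc y := by exact_mod_cast h7
      omega
    have h7 := Vale.Agent.P003.MertensAux.tele_sum (nc y) h6
    have h8 : (0 : ℝ) ≤ 1 / (nc y : ℝ) := by positivity
    linarith
  have h4 : ∑ p ∈ PL 0 y, 1 / ((p : ℝ) - 1) ≤ y + (C + 1) := by
    have h5 : ∑ p ∈ PL 0 y, 1 / ((p : ℝ) - 1) = ∑ p ∈ PL 0 y, 1 / (p : ℝ) +
        ∑ p ∈ PL 0 y, (1 / ((p : ℝ) - 1) - 1 / p) := by
      rw [← Finset.sum_add_distrib]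
      refine Finset.sum_congr rfl (fun p _ => ?_)
      ring
    rw [h5]
    push_cast at h2
    linarith
  have h5 : 0 ≤ ∑ p ∈ PL 0 y, 1 / ((p : ℝ) - 1) := by
    apply Finset.sum_nonneg
    intro p hp
    have hp2 : (2 : ℝ) ≤ p := by exact_mod_cast (hP p hp).two_le
    apply div_nonneg zero_le_one
    linarith
  have h6 : 2.9 * Real.exp 1 ≤ 8 := by
    have := Real.exp_one_lt_d9
    linarith
  calc 2.9 * Real.exp 1 * ∑ p ∈ PL 0 y, 1 / ((p : ℝ) - 1)
      ≤ 8 * ∑ p ∈ PL 0 y, 1 / ((p : ℝ) - 1) := mul_le_mul_of_nonneg_right h6 h5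
    _ ≤ 8 * (y + (C + 1)) := by linarith
    _ = _ := by ring

end TailAux

open TailAux MertAux

/-- Rankin bound with exponent `e^{-y}` for the tail of the sum over `SSl k y`. -/
theorem ss_tail : ∃ C : ℝ, 0 < C ∧ ∀ (k y T : ℕ) (z : ℝ), 1 ≤ y → k ≤ y → 1 ≤ z →
    ∑ u ∈ (Icc 1 T).filter (fun u : ℕ => u ∈ SSl k y ∧ z < u), (1 : ℝ) / u ≤
      C * Real.exp (8 * y) * Real.exp (-(Real.log z / Real.exp y)) := by
  obtain ⟨C, hC, h⟩ := exists_sum_bound
  refine ⟨C, hC, fun k y T z hy hk hz => ?_⟩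
  have hb := h k y T hy hk
  have hη : 0 < Real.exp (-(y : ℝ)) := Real.exp_pos _
  have h1 : ∀ u ∈ (Icc 1 T).filter (fun u : ℕ => u ∈ SSl k y ∧ z < u), (1 : ℝ) / u ≤
      ff (1 - Real.exp (-(y : ℝ))) u * Real.exp (-(Real.log z / Real.exp y)) := by
    intro u hu
    rw [Finset.mem_filter] at hu
    have hzu := hu.2.2
    have hu0 : (0 : ℝ) < u := by linarith
    unfold ff
    have h2 : (1 : ℝ) / u = (u : ℝ) ^ (-(1 - Real.exp (-(y : ℝ)))) *
        (u : ℝ) ^ (-Real.exp (-(y : ℝ))) := by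
      rw [← Real.rpow_add hu0]
      rw [show -(1 - Real.exp (-(y : ℝ))) + -Real.exp (-(y : ℝ)) = -1 by ring,
        Real.rpow_neg_one, one_div]
    rw [h2]
    apply mul_le_mul_of_nonneg_left _ (Real.rpow_nonneg hu0.le _)
    rw [Real.rpow_def_of_pos hu0]
    apply Real.exp_le_exp.2
    have h3 : Real.log z / Real.exp y = Real.log z * Real.exp (-(y : ℝ)) := by
      rw [Real.exp_neg, div_eq_mul_inv]
    rw [h3]
    have h4 := Real.log_le_log (by linarith) hzu.le
    nlinarith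
  refine (Finset.sum_le_sum h1).trans ?_
  rw [← Finset.sum_mul]
  apply mul_le_mul_of_nonneg_right _ (Real.exp_pos _).le
  refine le_trans ?_ hb
  apply Finset.sum_le_sum_of_subset_of_nonneg
  · intro u hu
    rw [Finset.mem_filter] at hu ⊢
    exact ⟨hu.1, hu.2.1⟩
  · intro u _ _
    exact ff_nonneg _ u

/-- the full sum (`z` absent). -/
theorem ss_trivial : ∃ C : ℝ, 0 < C ∧ ∀ (k y T : ℕ), 1 ≤ y → k ≤ y →
    ∑ u ∈ (Icc 1 T).filter (fun u : ℕ => u ∈ SSl k y), (1 : ℝ) / u ≤ C * Real.exp (8 * y) := by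
  obtain ⟨C, hC, h⟩ := exists_sum_bound
  refine ⟨C, hC, fun k y T hy hk => ?_⟩
  refine le_trans (Finset.sum_le_sum ?_) (h k y T hy hk)
  intro u hu
  rw [Finset.mem_filter, Finset.mem_Icc] at hu
  have hu1 : (1 : ℝ) ≤ u := by exact_mod_cast hu.1.1
  unfold ff
  rw [one_div, ← Real.rpow_neg_one]
  apply Real.rpow_le_rpow_of_exponent_le hu1
  have := Real.exp_pos (-(y : ℝ))
  linarith

end P031
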