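import Vale.Agent.P031.DefsB
import Vale.Agent.P031.Can
import Vale.Agent.P031.Tail
import Vale.Agent.P031.PZero

/-! P031 [TOPBIG]: the largest prime is rarely `< t^(1/100)`. -/

namespace P031

open Finset Filter Topology
open scoped Classical

/-- analytic estimate: the Rankin saving beats everything. -/
theorem tb_numeric : ∃ C : ℝ, 0 < C ∧ ∀ L : ℝ, 1 ≤ L → ∀ b : ℝ, b ≤ (45 / 100) * Real.log L + 1 →
    0 ≤ b →
    (1 + L) * (Real.exp (8 * b) * Real.exp (-((27 / 100) * L / Real.exp b))) ≤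
      C * Real.exp (-(104 / 100) * Real.log L) := by
  refine ⟨2 * Real.exp 8 * ((Nat.factorial 11 : ℝ) * (100 * Real.exp 1 / 27) ^ 11),
    by positivity, ?_⟩
  intro L hL b hb hb0
  have hL0 : 0 < L := by linarith
  set u := Real.log L with hu
  have hu0 : 0 ≤ u := Real.log_nonneg hL
  have hLu : L = Real.exp u := (Real.exp_log hL0).symm
  -- x = .27 L / e^b ≥ (27/(100 e)) exp(.55 u)
  set x := (27 / 100) * L / Real.exp b with hx
  have hx1 : 27 / (100 * Real.exp 1) * Real.exp ((55 / 100) * u) ≤ x := by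
    rw [hx, div_mul_eq_mul_div, div_le_div_iff₀ (by positivity) (Real.exp_pos b)]
    have h1 : Real.exp ((55 / 100) * u) * Real.exp b ≤ L * Real.exp 1 := by
      rw [← Real.exp_add, hLu, ← Real.exp_add]
      apply Real.exp_le_exp.mpr
      linarith
    nlinarith
  have hx0 : 0 < x := by rw [hx]; positivity
  have h2 : Real.exp (-x) ≤ (Nat.factorial 11 : ℝ) / x ^ 11 := by
    have h3 := Real.pow_div_factorial_le_exp x hx0.le 11
    rw [Real.exp_neg, inv_le_comm₀ (Real.exp_pos x) (by positivity)]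
    rw [inv_div]
    exact h3
  have h4 : (Nat.factorial 11 : ℝ) / x ^ 11 ≤
      (Nat.factorial 11 : ℝ) * (100 * Real.exp 1 / 27) ^ 11 * Real.exp (-(605 / 100) * u) := by
    rw [div_le_iff₀ (by positivity)]
    have h5 : (27 / (100 * Real.exp 1) * Real.exp ((55 / 100) * u)) ^ 11 ≤ x ^ 11 := by
      gcongr
    have h6 : (27 / (100 * Real.exp 1) * Real.exp ((55 / 100) * u)) ^ 11 =
        (27 / (100 * Real.exp 1)) ^ 11 * Real.exp ((605 / 100) * u) := by
      rw [mul_pow, ← Real.exp_nat_mul]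
      congr 2
      push_cast
      ring
    rw [h6] at h5
    have h7 : (1 : ℝ) = (100 * Real.exp 1 / 27) ^ 11 * Real.exp (-(605 / 100) * u) *
        ((27 / (100 * Real.exp 1)) ^ 11 * Real.exp ((605 / 100) * u)) := by
      have e1 : Real.exp (-(605 / 100) * u) * Real.exp ((605 / 100) * u) = 1 := by
        rw [← Real.exp_add, show -(605 / 100) * u + 605 / 100 * u = 0 by ring, Real.exp_zero]
      have e2 : (100 * Real.exp 1 / 27) ^ 11 * (27 / (100 * Real.exp 1)) ^ 11 = 1 := by
        rw [← mul_pow]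
        have : 100 * Real.exp 1 / 27 * (27 / (100 * Real.exp 1)) = 1 := by
          have := (Real.exp_pos 1).ne'
          field_simp
        rw [this, one_pow]
      calc (1 : ℝ) = ((100 * Real.exp 1 / 27) ^ 11 * (27 / (100 * Real.exp 1)) ^ 11) *
            (Real.exp (-(605 / 100) * u) * Real.exp ((605 / 100) * u)) := by rw [e1, e2, one_mul]
        _ = _ := by ring
    calc (Nat.factorial 11 : ℝ) = (Nat.factorial 11 : ℝ) * 1 := (mul_one _).symm
      _ = (Nat.factorial 11 : ℝ) * ((100 * Real.exp 1 / 27) ^ 11 *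
          Real.exp (-(605 / 100) * u) *
          ((27 / (100 * Real.exp 1)) ^ 11 * Real.exp ((605 / 100) * u))) := by rw [← h7]
      _ ≤ (Nat.factorial 11 : ℝ) * ((100 * Real.exp 1 / 27) ^ 11 *
          Real.exp (-(605 / 100) * u) * x ^ 11) := by gcongr
      _ = _ := by ring
  have h8 : 1 + L ≤ 2 * Real.exp u := by rw [← hLu]; linarith
  have h9 : Real.exp (8 * b) ≤ Real.exp 8 * Real.exp ((36 / 10) * u) := by
    rw [← Real.exp_add]
    apply Real.exp_le_exp.mpr
    linarith
  calc (1 + L) * (Real.exp (8 * b) * Real.exp (-x))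
      ≤ (2 * Real.exp u) * ((Real.exp 8 * Real.exp ((36 / 10) * u)) *
        ((Nat.factorial 11 : ℝ) * (100 * Real.exp 1 / 27) ^ 11 *
          Real.exp (-(605 / 100) * u))) := by
        have := h2.trans h4
        gcongr
    _ = 2 * Real.exp 8 * ((Nat.factorial 11 : ℝ) * (100 * Real.exp 1 / 27) ^ 11) *
        (Real.exp u * Real.exp ((36 / 10) * u) * Real.exp (-(605 / 100) * u)) := by ring
    _ = 2 * Real.exp 8 * ((Nat.factorial 11 : ℝ) * (100 * Real.exp 1 / 27) ^ 11) *
        Real.exp (-(145 / 100) * u) := by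
        rw [← Real.exp_add, ← Real.exp_add]
        congr 2
        ring
    _ ≤ 2 * Real.exp 8 * ((Nat.factorial 11 : ℝ) * (100 * Real.exp 1 / 27) ^ 11) *
        Real.exp (-(104 / 100) * u) := by
        have : Real.exp (-(145 / 100) * u) ≤ Real.exp (-(104 / 100) * u) := by
          apply Real.exp_le_exp.mpr
          nlinarith
        gcongr

theorem tb_exists_le (M : Multiset ℕ) (n : ℕ) (h : n ≤ Multiset.card M) :
    ∃ M', M' ≤ M ∧ Multiset.card M' = n := by
  induction M using Quotient.inductionOn with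
  | _ l =>
    refine ⟨(l.take n : Multiset ℕ), ?_, ?_⟩
    · exact (List.take_sublist n l).subperm
    · have h' : n ≤ l.length := h
      simp [h']

/-- product of a multiset of bounded numbers -/
theorem tb_prod_le (M : Multiset ℕ) (B : ℝ) (hB : 0 ≤ B) (h : ∀ q ∈ M, ((q - 1 : ℕ) : ℝ) ≤ B) :
    (((M.map (fun q => q - 1)).prod : ℕ) : ℝ) ≤ B ^ (Multiset.card M) := by
  induction M using Multiset.induction_on with
  | empty => simp
  | cons q M ih =>
    rw [Multiset.map_cons, Multiset.prod_cons, Multiset.card_cons, pow_succ', Nat.cast_mul]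
    have h3 := h q (Multiset.mem_cons_self q M)
    have h4 := ih (fun r hr => h r (Multiset.mem_cons_of_mem hr))
    exact mul_le_mul h3 h4 (by positivity) hB

/-- harmonic sum -/
theorem tb_harm (t : ℝ) (ht : 1 ≤ t) : ∑ a ∈ Icc 1 ⌊t⌋₊, (1 : ℝ) / a ≤ 1 + Real.log t := by
  have h1 := harmonic_floor_le_one_add_log t ht
  rw [harmonic_eq_sum_Icc] at h1
  push_cast at h1
  simpa [one_div] using h1

theorem small_top_count : ∃ C : ℝ, 0 < C ∧ ∀ (k : ℕ) (t : ℝ), 1 ≤ k → 16 ≤ t →
    (k : ℝ) ≤ Real.log (Real.log t) / 4 →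
    (((Icc 1 ⌊t⌋₊).filter (fun v : ℕ => v ∈ SS k ∧ ∀ q, IsTop k v q → (q : ℝ) ^ 100 ≤ t)).card : ℝ) ≤
      C * t * Real.exp (-(104 / 100) * Real.log (Real.log t)) := by
  obtain ⟨C1, hC1, hp0⟩ := p0_bound
  obtain ⟨C2, hC2, htail⟩ := ss_tail
  obtain ⟨C3, hC3, hnum⟩ := tb_numeric
  refine ⟨C1 + C2 * C3 + 100, by positivity, ?_⟩
  intro k t hk ht hkt
  have ht0 : 0 < t := by linarith
  set L := Real.log t with hL
  have hL1 : 1 ≤ L := by
    rw [hL, Real.le_log_iff_exp_le ht0]
    have := Real.exp_one_lt_d9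
    linarith
  set u := Real.log L with hu
  have hu0 : 0 ≤ u := Real.log_nonneg hL1
  have hk1 : (1 : ℝ) ≤ k := by exact_mod_cast hk
  set b : ℕ := ⌈(45 / 100 : ℝ) * u⌉₊ with hb
  have hbu : (45 / 100 : ℝ) * u ≤ b := Nat.le_ceil _
  have hbu' : (b : ℝ) ≤ (45 / 100) * u + 1 := (Nat.ceil_lt_add_one (by positivity)).le
  have hkb : k ≤ b := by
    have : (k : ℝ) ≤ b := by linarith
    exact_mod_cast this
  have hb1 : 1 ≤ b := hk.trans hkb
  -- the three sets
  set S := (Icc 1 ⌊t⌋₊).filter (fun v : ℕ => v ∈ SS k ∧ ∀ q, IsTop k v q → (q : ℝ) ^ 100 ≤ t)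
    with hS
  set S0 := (Icc 1 ⌊t⌋₊).filter (fun v : ℕ => ∃ L : Multiset ℕ, L.card = 24 ∧
      (∀ q ∈ L, q.Prime ∧ (45 / 100 : ℝ) * Real.log (Real.log t) ≤ (lv q : ℝ) + 1) ∧
      (L.map (fun q => q - 1)).prod ∣ v) with hS0
  set z : ℝ := Real.exp ((27 / 100) * L) with hz
  have hz1 : 1 ≤ z := by
    rw [hz]; apply Real.one_le_exp; positivity
  let Ws : Finset ℕ := (Icc 1 ⌊t⌋₊).filter (fun u : ℕ => u ∈ SSl k b ∧ z < u)
  set S2 : Finset ℕ := (Icc 1 ⌊t⌋₊).biUnion fun a =>
    ((Icc 1 ⌊t⌋₊).filter (fun w : ℕ => w ∈ SSl k b ∧ z < w ∧ ((a * w : ℕ) : ℝ) ≤ t)).image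
      fun w => a * w with hS2
  have hcover : S ⊆ (Icc 1 ⌊Real.sqrt t⌋₊) ∪ (S0 ∪ S2) := by
    intro v hv
    rw [hS, Finset.mem_filter, Finset.mem_Icc] at hv
    obtain ⟨⟨hv1, hvt⟩, hvS, hvtop⟩ := hv
    rw [Finset.mem_union, Finset.mem_union]
    by_cases hvs : (v : ℝ) ≤ Real.sqrt t
    · left
      rw [Finset.mem_Icc]
      exact ⟨hv1, Nat.le_floor hvs⟩
    right
    push Not at hvs
    obtain ⟨M, m, hm, hM, hs, hv⟩ := hvS
    have htopM : ∀ q ∈ M, (q : ℝ) ^ 100 ≤ t := by
      intro q hq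
      apply hvtop
      obtain ⟨M', hM'⟩ := Multiset.exists_cons_of_mem hq
      have h1 := isTop_mul (k := k) (w := (M'.map (fun q => q - 1)).prod * Nat.totient m)
        (hM q hq).1 (hM q hq).2
        ⟨M', m, hm, fun r hr => hM r (by rw [hM']; exact Multiset.mem_cons_of_mem hr), hs, rfl⟩
      have h2 : (q - 1) * ((M'.map (fun q => q - 1)).prod * Nat.totient m) = v := by
        rw [hv, hM', Multiset.map_cons, Multiset.prod_cons, mul_assoc]
      rwa [h2] at h1
    set M1 := M.filter (fun q => (45 / 100 : ℝ) * Real.log (Real.log t) ≤ (lv q : ℝ) + 1) with hM1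
    set M2 := M.filter (fun q => ¬ (45 / 100 : ℝ) * Real.log (Real.log t) ≤ (lv q : ℝ) + 1)
      with hM2
    have hMM : M1 + M2 = M := Multiset.filter_add_not _ M
    have hprod : (M1.map (fun q => q - 1)).prod * ((M2.map (fun q => q - 1)).prod *
        Nat.totient m) = v := by
      rw [hv, ← hMM, Multiset.map_add, Multiset.prod_add, mul_assoc]
    by_cases hcard : 24 ≤ Multiset.card M1
    · left
      obtain ⟨M3, hM3le, hM3card⟩ := tb_exists_le M1 24 hcard
      rw [hS0, Finset.mem_filter, Finset.mem_Icc]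
      refine ⟨⟨hv1, hvt⟩, M3, hM3card, ?_, ?_⟩
      · intro q hq
        have h1 := Multiset.mem_of_le hM3le hq
        rw [hM1, Multiset.mem_filter] at h1
        exact ⟨(hM q h1.1).1, h1.2⟩
      · have h1 : (M3.map (fun q => q - 1)).prod ∣ (M1.map (fun q => q - 1)).prod :=
          Multiset.prod_dvd_prod_of_le (Multiset.map_le_map hM3le)
        exact h1.trans (Dvd.intro _ hprod)
    · right
      push Not at hcard
      set a := (M1.map (fun q => q - 1)).prod with ha
      set w := (M2.map (fun q => q - 1)).prod * Nat.totient m with hw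
      have hapos : 0 < a := Nat.pos_of_ne_zero (by
        rintro h0
        rw [h0, zero_mul] at hprod
        omega)
      have hwpos : 0 < w := Nat.pos_of_ne_zero (by
        rintro h0
        rw [h0, mul_zero] at hprod
        omega)
      -- `a ≤ exp(.23 L)`
      have hale : (a : ℝ) ≤ Real.exp ((23 / 100) * L) := by
        have h1 : ∀ q ∈ M1, ((q - 1 : ℕ) : ℝ) ≤ Real.exp (L / 100) := by
          intro q hq
          rw [hM1, Multiset.mem_filter] at hq
          have h2 := htopM q hq.1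
          have hq0 : (0 : ℝ) < q := by exact_mod_cast (hM q hq.1).1.pos
          have h3 : Real.log q ≤ L / 100 := by
            have := Real.log_le_log (by positivity) h2
            rw [Real.log_pow] at this
            push_cast at this
            linarith
          have h4 : (q : ℝ) ≤ Real.exp (L / 100) := by
            rw [← Real.log_le_iff_le_exp hq0]
            exact h3
          have h5 : ((q - 1 : ℕ) : ℝ) ≤ q := by exact_mod_cast Nat.sub_le q 1
          linarith
        have h2 : (a : ℝ) ≤ Real.exp (L / 100) ^ (Multiset.card M1) :=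
          tb_prod_le M1 _ (Real.exp_pos _).le h1
        refine h2.trans ?_
        rw [← Real.exp_nat_mul]
        apply Real.exp_le_exp.mpr
        have : (Multiset.card M1 : ℝ) ≤ 23 := by exact_mod_cast (by omega : Multiset.card M1 ≤ 23)
        nlinarith
      have hwz : z < w := by
        have h1 : (v : ℝ) = a * w := by rw [← hprod]; push_cast; ring
        have h2 : Real.exp (L / 2) < v := by
          have : Real.exp (L / 2) = Real.sqrt t := by
            rw [hL, Real.sqrt_eq_rpow, Real.rpow_def_of_pos ht0]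
            congr 1
            ring
          rw [this]; exact hvs
        rw [hz]
        have h3 : Real.exp (L / 2) = Real.exp ((23 / 100) * L) * Real.exp ((27 / 100) * L) := by
          rw [← Real.exp_add]; congr 1; ring
        rw [h1, h3] at h2
        by_contra hcon
        push Not at hcon
        have : (a : ℝ) * w ≤ Real.exp ((23 / 100) * L) * Real.exp ((27 / 100) * L) := by
          gcongr
        linarith
      have hwv : w ≤ v := by
        rw [← hprod]
        exact Nat.le_mul_of_pos_left w hapos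
      have hav : a ≤ v := by
        rw [← hprod]
        exact Nat.le_mul_of_pos_right a hwpos
      rw [hS2, Finset.mem_biUnion]
      refine ⟨a, ?_, ?_⟩
      · rw [Finset.mem_Icc]
        exact ⟨hapos, hav.trans hvt⟩
      rw [Finset.mem_image]
      refine ⟨w, ?_, hprod⟩
      rw [Finset.mem_filter, Finset.mem_Icc]
      refine ⟨⟨hwpos, hwv.trans hvt⟩, ?_, hwz, ?_⟩
      · refine ⟨M2, m, hm, ?_, hs, rfl⟩
        intro q hq
        rw [hM2, Multiset.mem_filter] at hq
        refine ⟨(hM q hq.1).1, (hM q hq.1).2, ?_⟩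
        have h1 := hq.2
        push Not at h1
        have h2 : (lv q : ℝ) < b := by
          rw [← hL, ← hu] at h1
          linarith
        exact_mod_cast h2
      · rw [hprod]
        exact (Nat.cast_le.mpr hvt).trans (Nat.floor_le ht0.le)
  -- bounds
  have hb0 : ((Icc 1 ⌊Real.sqrt t⌋₊).card : ℝ) ≤ 100 * t * Real.exp (-(104 / 100) * u) := by
    rw [Nat.card_Icc, Nat.add_sub_cancel]
    refine (Nat.floor_le (Real.sqrt_nonneg t)).trans ?_
    -- sqrt t = exp(L/2), t exp(-1.04 u) with u = log L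
    have e1 : Real.sqrt t = Real.exp (L / 2) := by
      rw [hL, Real.sqrt_eq_rpow, Real.rpow_def_of_pos ht0]
      congr 1
      ring
    have e2 : t = Real.exp L := (Real.exp_log ht0).symm
    rw [e1]
    conv_rhs => rw [e2, mul_assoc, ← Real.exp_add]
    have h3 : L / 2 ≤ L + -(104 / 100) * u + 1 := by
      have h4 : u ≤ L / 2 - 1 + Real.log 2 := by
        have h5 := Real.log_le_sub_one_of_pos (show (0 : ℝ) < L / 2 by linarith)
        rw [Real.log_div (by linarith) (by norm_num)] at h5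
        linarith
      have h6 := Real.log_two_lt_d9
      have h7 : u ≤ L / 2 - 0.3 := by linarith
      have hLpos : 0 < L := by linarith
      have h8 : u ≤ L * (10000 / 27182) := by
        have h9 := Real.log_le_sub_one_of_pos (show (0 : ℝ) < L * (10000 / 27182) by positivity)
        rw [Real.log_mul hLpos.ne' (by norm_num)] at h9
        have h10 : Real.log (27182 / 10000) ≤ 1 := by
          rw [Real.log_le_iff_le_exp (by norm_num)]
          have := Real.exp_one_gt_d9
          linarith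
        have h11 : Real.log (10000 / 27182) = -Real.log (27182 / 10000) := by
          rw [← Real.log_inv]; norm_num
        rw [h11] at h9
        linarith
      nlinarith
    calc Real.exp (L / 2) ≤ Real.exp (L + -(104 / 100) * u + 1) := Real.exp_le_exp.mpr h3
      _ = Real.exp 1 * Real.exp (L + -(104 / 100) * u) := by
          rw [Real.exp_add _ 1]; ring
      _ ≤ 100 * Real.exp (L + -(104 / 100) * u) := by
          have := Real.exp_one_lt_d9
          have h5 := Real.exp_pos (L + -(104 / 100) * u)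
          nlinarith
  have hb1' : (S0.card : ℝ) ≤ C1 * t * Real.exp (-(104 / 100) * u) := by
    refine (hp0 t ht).trans ?_
    have : Real.exp (-(105 / 100) * Real.log (Real.log t)) ≤ Real.exp (-(104 / 100) * u) := by
      apply Real.exp_le_exp.mpr
      rw [← hL, ← hu]
      nlinarith
    gcongr
  have hb2 : (S2.card : ℝ) ≤ C2 * C3 * t * Real.exp (-(104 / 100) * u) := by
    have h1 : (S2.card : ℝ) ≤ ∑ a ∈ Icc 1 ⌊t⌋₊, ∑ w ∈ Ws, (t * ((1 / (a : ℝ)) * (1 / (w : ℝ)))) := by
      have h2 : S2.card ≤ ∑ a ∈ Icc 1 ⌊t⌋₊, ((Icc 1 ⌊t⌋₊).filter (fun w : ℕ => w ∈ SSl k b ∧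
          z < w ∧ ((a * w : ℕ) : ℝ) ≤ t)).card := by
        rw [hS2]
        refine Finset.card_biUnion_le.trans (Finset.sum_le_sum fun a _ => ?_)
        exact Finset.card_image_le
      have h3 : (S2.card : ℝ) ≤ ∑ a ∈ Icc 1 ⌊t⌋₊, (((Icc 1 ⌊t⌋₊).filter (fun w : ℕ =>
          w ∈ SSl k b ∧ z < w ∧ ((a * w : ℕ) : ℝ) ≤ t)).card : ℝ) := by exact_mod_cast h2
      refine h3.trans (Finset.sum_le_sum fun a ha => ?_)
      rw [Finset.mem_Icc] at ha
      have ha0 : (0 : ℝ) < a := by exact_mod_cast ha.1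
      rw [Finset.card_eq_sum_ones, Nat.cast_sum, Nat.cast_one]
      have h4 : ∀ w ∈ (Icc 1 ⌊t⌋₊).filter (fun w : ℕ => w ∈ SSl k b ∧ z < w ∧
          ((a * w : ℕ) : ℝ) ≤ t), (1 : ℝ) ≤ t * ((1 / (a : ℝ)) * (1 / (w : ℝ))) := by
        intro w hw
        rw [Finset.mem_filter, Finset.mem_Icc] at hw
        have hw0 : (0 : ℝ) < w := by exact_mod_cast hw.1.1
        have h5 := hw.2.2.2
        push_cast at h5
        rw [show t * ((1 / (a : ℝ)) * (1 / (w : ℝ))) = t / (a * w) by field_simp]
        rw [le_div_iff₀ (by positivity), one_mul]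
        exact h5
      refine (Finset.sum_le_sum h4).trans ?_
      apply Finset.sum_le_sum_of_subset_of_nonneg
      · intro w hw
        rw [Finset.mem_filter] at hw
        simp only [Ws, Finset.mem_filter]
        exact ⟨hw.1, hw.2.1, hw.2.2.1⟩
      · intro w _ _
        positivity
    have h2 : ∑ a ∈ Icc 1 ⌊t⌋₊, ∑ w ∈ Ws, (t * ((1 / (a : ℝ)) * (1 / (w : ℝ)))) =
        t * ((∑ a ∈ Icc 1 ⌊t⌋₊, (1 : ℝ) / a) * ∑ w ∈ Ws, (1 : ℝ) / w) := by
      simp only [← Finset.mul_sum, ← Finset.sum_mul]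
    rw [h2] at h1
    have h3 := tb_harm t (by linarith)
    have h4 : ∑ w ∈ Ws, (1 : ℝ) / w ≤
        C2 * Real.exp (8 * b) * Real.exp (-(Real.log z / Real.exp b)) :=
      htail k b ⌊t⌋₊ z hb1 hkb hz1
    have h5 : Real.log z = (27 / 100) * L := by rw [hz, Real.log_exp]
    rw [h5] at h4
    have h6 := hnum L hL1 b hbu' (Nat.cast_nonneg b)
    have h7 : (0 : ℝ) ≤ ∑ w ∈ Ws, (1 : ℝ) / w := Finset.sum_nonneg fun w _ => by positivity
    have h8 : (0 : ℝ) ≤ 1 + L := by linarith
    calc (S2.card : ℝ) ≤ t * ((∑ a ∈ Icc 1 ⌊t⌋₊, (1 : ℝ) / a) * ∑ w ∈ Ws, (1 : ℝ) / w) := h1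
      _ ≤ t * ((1 + L) * (C2 * Real.exp (8 * b) * Real.exp (-((27 / 100) * L / Real.exp b)))) := by
          gcongr
      _ = C2 * t * ((1 + L) * (Real.exp (8 * b) *
          Real.exp (-((27 / 100) * L / Real.exp b)))) := by ring
      _ ≤ C2 * t * (C3 * Real.exp (-(104 / 100) * Real.log L)) := by gcongr
      _ = C2 * C3 * t * Real.exp (-(104 / 100) * u) := by rw [← hu]; ring
  have hfin : (S.card : ℝ) ≤ ((Icc 1 ⌊Real.sqrt t⌋₊).card : ℝ) + (S0.card + S2.card) := by
    have h1 := (Finset.card_le_card hcover).trans ((Finset.card_union_le _ _).trans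
      (Nat.add_le_add_left (Finset.card_union_le _ _) _))
    exact_mod_cast h1
  calc (S.card : ℝ) ≤ ((Icc 1 ⌊Real.sqrt t⌋₊).card : ℝ) + (S0.card + S2.card) := hfin
    _ ≤ 100 * t * Real.exp (-(104 / 100) * u) + (C1 * t * Real.exp (-(104 / 100) * u) +
        C2 * C3 * t * Real.exp (-(104 / 100) * u)) := by gcongr
    _ = (C1 + C2 * C3 + 100) * t * Real.exp (-(104 / 100) * u) := by ring

end P031
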