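import Vale.Agent.P031.ExcC
import Vale.Agent.P031.TopBig
import Vale.Agent.P031.Cnt

/-! P031, [EXC]: the exceptional values are few. -/

namespace P031

open Finset Filter Topology
open scoped Classical

theorem card_or (S : Finset ℕ) (p q r : ℕ → Prop) (h : ∀ v ∈ S, r v → p v ∨ q v) :
    ((S.filter r).card : ℝ) ≤ ((S.filter p).card : ℝ) + ((S.filter q).card : ℝ) := by
  have h1 : S.filter r ⊆ S.filter p ∪ S.filter q := by
    intro v hv
    rw [Finset.mem_filter] at hv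
    rw [Finset.mem_union, Finset.mem_filter, Finset.mem_filter]
    rcases h v hv.1 hv.2 with h | h
    · exact Or.inl ⟨hv.1, h⟩
    · exact Or.inr ⟨hv.1, h⟩
  have h2 := (Finset.card_le_card h1).trans (Finset.card_union_le _ _)
  exact_mod_cast h2

theorem card_or9 (S : Finset ℕ) (r p0 p1 p2 p3 p4 p5 p6 p7 p8 : ℕ → Prop)
    (b0 b1 b2 b3 b4 b5 b6 b7 b8 : ℝ)
    (h : ∀ v ∈ S, r v → p0 v ∨ p1 v ∨ p2 v ∨ p3 v ∨ p4 v ∨ p5 v ∨ p6 v ∨ p7 v ∨ p8 v)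
    (h0 : ((S.filter p0).card : ℝ) ≤ b0) (h1 : ((S.filter p1).card : ℝ) ≤ b1)
    (h2 : ((S.filter p2).card : ℝ) ≤ b2) (h3 : ((S.filter p3).card : ℝ) ≤ b3)
    (h4 : ((S.filter p4).card : ℝ) ≤ b4) (h5 : ((S.filter p5).card : ℝ) ≤ b5)
    (h6 : ((S.filter p6).card : ℝ) ≤ b6) (h7 : ((S.filter p7).card : ℝ) ≤ b7)
    (h8 : ((S.filter p8).card : ℝ) ≤ b8) :
    ((S.filter r).card : ℝ) ≤ b0 + b1 + b2 + b3 + b4 + b5 + b6 + b7 + b8 := by
  have s1 := card_or S p0 _ r h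
  have s2 := card_or S p1 (fun v => p2 v ∨ p3 v ∨ p4 v ∨ p5 v ∨ p6 v ∨ p7 v ∨ p8 v) _
    (fun v _ h => h)
  have s3 := card_or S p2 (fun v => p3 v ∨ p4 v ∨ p5 v ∨ p6 v ∨ p7 v ∨ p8 v) _
    (fun v _ h => h)
  have s4 := card_or S p3 (fun v => p4 v ∨ p5 v ∨ p6 v ∨ p7 v ∨ p8 v) _ (fun v _ h => h)
  have s5 := card_or S p4 (fun v => p5 v ∨ p6 v ∨ p7 v ∨ p8 v) _ (fun v _ h => h)
  have s6 := card_or S p5 (fun v => p6 v ∨ p7 v ∨ p8 v) _ (fun v _ h => h)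
  have s7 := card_or S p6 (fun v => p7 v ∨ p8 v) _ (fun v _ h => h)
  have s8 := card_or S p7 p8 _ (fun v _ h => h)
  linarith

/-- `C t exp(-(1+a) loglog t) ≤ ε t/log t`. -/
theorem small_power (K : ℕ) (hK : 2 ≤ K) (C a ε : ℝ) (hC : 0 < C) (ha : 1 / 25 ≤ a) (hε : 0 < ε) :
    ∃ M₀ : ℕ, ∀ M ≥ M₀, ∀ Y t : ℝ, Reg0 K M Y t →
    C * t * Real.exp (-(1 + a) * Real.log (Real.log t)) ≤ t / Real.log t * ε := by
  obtain ⟨M2, hM2⟩ := rg_facts K hK 2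
  obtain ⟨M3, hM3⟩ := num_small K C ε hε
  refine ⟨max M2 M3, fun M hM Y t hR => ?_⟩
  obtain ⟨-, ⟨h16, hll, -⟩, ⟨h10, hY20, -⟩, -, hm1, -, -⟩ := hM2 M (by omega) Y t hR
  have h3 := hM3 M (by omega) Y hR.1
  have hm2 : (2 : ℝ) ≤ Nf M := by exact_mod_cast hm1
  have hlt : 0 < Real.log t := Real.log_pos (by linarith)
  have hc := const_le hC.le (show (0 : ℝ) ≤ Y by linarith)
  have h5 : (25 : ℝ) * Nf M ≤ Y := by
    have h6 : (2 : ℝ) ^ 9 ≤ (Nf M : ℝ) ^ 9 := pow_le_pow_left₀ (by norm_num) hm2 9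
    have h7 : (Nf M : ℝ) ^ 10 = (Nf M : ℝ) ^ 9 * Nf M := by ring
    have h8 : (100 : ℝ) ≤ (Nf M : ℝ) ^ 9 := by norm_num at h6; linarith
    have h9 : 100 * (Nf M : ℝ) ≤ (Nf M : ℝ) ^ 9 * Nf M :=
      mul_le_mul_of_nonneg_right h8 (by linarith)
    rw [h7] at h10
    linarith
  have e1 : Real.exp (-(1 + a) * Real.log (Real.log t)) =
      (1 / Real.log t) * Real.exp (-(a * Real.log (Real.log t))) := by
    rw [show -(1 + a) * Real.log (Real.log t) = -Real.log (Real.log t) +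
      -(a * Real.log (Real.log t)) by ring, Real.exp_add, Real.exp_neg, Real.exp_log hlt, one_div]
  have e2 : Real.exp (-(a * Real.log (Real.log t))) ≤ Real.exp (-(Nf M : ℝ)) := by
    apply Real.exp_le_exp.2
    have : (Nf M : ℝ) ≤ a * Real.log (Real.log t) := by
      calc (Nf M : ℝ) ≤ 1 / 25 * Y := by linarith
        _ ≤ a * Real.log (Real.log t) := mul_le_mul ha hll (by linarith) (by linarith)
    linarith
  rw [e1]
  have htl : 0 ≤ t / Real.log t := by positivity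
  calc C * t * ((1 / Real.log t) * Real.exp (-(a * Real.log (Real.log t)))) =
      t / Real.log t * (C * Real.exp (-(a * Real.log (Real.log t)))) := by ring
    _ ≤ t / Real.log t * (Real.exp (C * (Real.log (Y + 3)) ^ 2) * Real.exp (-(Nf M : ℝ))) := by
        apply mul_le_mul_of_nonneg_left _ htl
        exact mul_le_mul hc e2 (Real.exp_pos _).le (Real.exp_pos _).le
    _ ≤ _ := mul_le_mul_of_nonneg_left h3 htl

theorem count_EC (K : ℕ) (hK : 2 ≤ K) (ε : ℝ) (hε : 0 < ε) : ∃ M₀ : ℕ, ∀ M ≥ M₀, ∀ Y t : ℝ,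
    Reg0 K M Y t → (((Icc 1 ⌊t⌋₊).filter (fun v => EC t v)).card : ℝ) ≤ t / Real.log t * ε := by
  obtain ⟨C, hC, hp⟩ := p0_bound
  obtain ⟨M1, hM1⟩ := small_power K hK C (5 / 100) ε hC (by norm_num) hε
  obtain ⟨M2, hM2⟩ := rg_facts K hK 2
  refine ⟨max M1 M2, fun M hM Y t hR => ?_⟩
  obtain ⟨-, ⟨h16, -, -⟩, -⟩ := hM2 M (by omega) Y t hR
  have h1 := hp t h16
  have h2 := hM1 M (by omega) Y t hR
  have h3 : (((Icc 1 ⌊t⌋₊).filter (fun v => EC t v)).card : ℝ) ≤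
      C * t * Real.exp (-(105 / 100) * Real.log (Real.log t)) := by
    convert h1
    exact Iff.rfl
  refine h3.trans (le_trans (le_of_eq ?_) h2)
  norm_num

theorem count_E0 (K : ℕ) (hK : 2 ≤ K) (ε : ℝ) (hε : 0 < ε) : ∃ M₀ : ℕ, ∀ M ≥ M₀, ∀ Y t : ℝ,
    Reg0 K M Y t → (((Icc 1 ⌊t⌋₊).filter (fun v : ℕ => v ∈ SS (kk M) ∧
      ∀ q, IsTop (kk M) v q → (q : ℝ) ^ 100 ≤ t)).card : ℝ) ≤ t / Real.log t * ε := by
  obtain ⟨C, hC, hp⟩ := small_top_count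
  obtain ⟨M1, hM1⟩ := small_power K hK C (4 / 100) ε hC (by norm_num) hε
  obtain ⟨M2, hM2⟩ := rg_facts K hK 2
  refine ⟨max M1 M2, fun M hM Y t hR => ?_⟩
  obtain ⟨⟨hk1, -, hk4⟩, ⟨h16, hll, -⟩, -⟩ := hM2 M (by omega) Y t hR
  have h1 := hp (kk M) t hk1 h16 (by linarith)
  have h2 := hM1 M (by omega) Y t hR
  refine h1.trans (le_trans (le_of_eq ?_) h2)
  norm_num

theorem exp_neg_m (K : ℕ) (ε : ℝ) (hε : 0 < ε) : ∃ M₀ : ℕ, ∀ M ≥ M₀, ∀ Y : ℝ, Rgm K M Y →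
    Real.exp (-(Nf M : ℝ)) ≤ ε := by
  obtain ⟨M1, hM1⟩ := num_small K 0 ε hε
  refine ⟨M1, fun M hM Y hY => ?_⟩
  have := hM1 M hM Y hY
  simpa using this

theorem count_EF (K : ℕ) (hK : 2 ≤ K) (ε : ℝ) (hε : 0 < ε) : ∃ M₀ : ℕ, ∀ M ≥ M₀, ∀ Y t : ℝ,
    Reg0 K M Y t → (((Icc 1 ⌊t⌋₊).filter (fun v => EF (Nf ⌊Y⌋₊) t v)).card : ℝ) ≤
      t / Real.log t * ε := by
  obtain ⟨N0, hN0⟩ := overfull_count
  obtain ⟨M1, hM1⟩ := exp_neg_m K ε hε
  obtain ⟨M2, hM2⟩ := rg_facts K hK (max N0 2)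
  refine ⟨max M1 M2, fun M hM Y t hR => ?_⟩
  obtain ⟨-, ⟨h16, hll, hll2⟩, -, ⟨hmN, hN2⟩, hm1, -, -⟩ := hM2 M (by omega) Y t hR
  have h2 := hM1 M (by omega) Y hR.1
  have hlt : 0 < Real.log t := Real.log_pos (by linarith)
  have h7 : Y < ⌊Y⌋₊ + 1 := Nat.lt_floor_add_one Y
  have h8 : ((⌊Y⌋₊ + 4 : ℕ) : ℝ) ≤ ((2 * Nf ⌊Y⌋₊ ^ 100 : ℕ) : ℝ) := by exact_mod_cast hN2
  push_cast at h8
  have hpow : (0 : ℝ) ≤ (Nf ⌊Y⌋₊ : ℝ) ^ 100 := by positivity
  have h1 := hN0 (Nf ⌊Y⌋₊) (by omega) t h16 (by linarith)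
  have h3 : (((Icc 1 ⌊t⌋₊).filter (fun v => EF (Nf ⌊Y⌋₊) t v)).card : ℝ) ≤
      t / Real.log t * Real.exp (-(Nf ⌊Y⌋₊ : ℝ) ^ 89) := by
    convert h1
    exact Iff.rfl
  refine h3.trans ?_
  apply mul_le_mul_of_nonneg_left _ (by positivity)
  refine le_trans ?_ h2
  apply Real.exp_le_exp.2
  have h4 : (Nf M : ℝ) ≤ Nf ⌊Y⌋₊ := by exact_mod_cast hmN
  have h5 : (1 : ℝ) ≤ Nf ⌊Y⌋₊ := by
    have : 1 ≤ Nf ⌊Y⌋₊ := by omega
    exact_mod_cast this
  have h6 : (Nf ⌊Y⌋₊ : ℝ) ≤ (Nf ⌊Y⌋₊ : ℝ) ^ 89 := le_self_pow₀ h5 (by norm_num)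
  linarith

theorem SSl_pos {k y w : ℕ} (h : w ∈ SSl k y) : 0 < w := by
  obtain ⟨L, m, hm, hL, hs, rfl⟩ := h
  apply Nat.mul_pos
  · apply Nat.pos_of_ne_zero
    intro h0
    rw [Multiset.prod_eq_zero_iff, Multiset.mem_map] at h0
    obtain ⟨q, hq, h1⟩ := h0
    have := (hL q hq).1.two_le
    omega
  · exact Nat.totient_pos.2 hm

theorem count_EG : ∃ A : ℝ, 0 < A ∧ ∀ K : ℕ, 2 ≤ K → ∃ M₀ : ℕ, ∀ M ≥ M₀, ∀ Y t : ℝ,
    Reg0 K M Y t → (((Icc 1 ⌊t⌋₊).filter (fun v => EG (kk M) M t v)).card : ℝ) ≤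
      t / Real.log t * Real.exp (A * (Real.log M) ^ 2) := by
  obtain ⟨C1, hC1, h1⟩ := top_suffix_count
  obtain ⟨C2, hC2, h2⟩ := h_bound
  refine ⟨C1 + 8 * C2, by linarith, fun K hK => ?_⟩
  obtain ⟨M2, hM2⟩ := rg_facts K hK 20
  refine ⟨max M2 3, fun M hM Y t hR => ?_⟩
  obtain ⟨⟨hk1, hkm, -⟩, ⟨h16, hll, hll2⟩, -, -, hm1, hm10, -⟩ := hM2 M (by omega) Y t hR
  have hM3 : (3 : ℝ) ≤ M := by
    have : 3 ≤ M := by omega
    exact_mod_cast this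
  have hlt : 0 < Real.log t := Real.log_pos (by linarith)
  have h3 := h1 t (SSl (kk M) M) h16 (fun d hd => SSl_pos hd)
  have h4 := h2 (kk M) M ⌊t⌋₊ (by omega) (hkm.trans hm10)
  have h5 : (((Icc 1 ⌊t⌋₊).filter (fun v => EG (kk M) M t v)).card : ℝ) ≤
      C1 * (t / Real.log t) *
        (∑ d ∈ (Icc 1 ⌊t⌋₊).filter (fun d : ℕ => d ∈ SSl (kk M) M), (1 : ℝ) / d) := by
    convert h3
    exact Iff.rfl
  refine h5.trans ?_
  have hlogM : 1 ≤ Real.log M := by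
    rw [Real.le_log_iff_exp_le (by linarith)]
    have := Real.exp_one_lt_d9
    linarith
  have hlog2 : 1 ≤ (Real.log M) ^ 2 := one_le_pow₀ hlogM
  have hlle : Real.log M ≤ (Real.log M) ^ 2 := by nlinarith
  have hkr : (kk M : ℝ) ≤ 2 * Real.log M := by
    have h6 : 2 ^ kk M ≤ M := Nat.pow_log_le_self 2 (by omega)
    have h7 : ((2 ^ kk M : ℕ) : ℝ) ≤ M := by exact_mod_cast h6
    push_cast at h7
    have h8 := Real.log_le_log (by positivity) h7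
    rw [Real.log_pow] at h8
    have h9 := Real.log_two_gt_d9
    nlinarith [Nat.cast_nonneg (α := ℝ) (kk M)]
  have hl2 : Real.log ((M : ℝ) + 2) ≤ 2 * Real.log M := by
    have h6 : (M : ℝ) + 2 ≤ (M : ℝ) ^ 2 := by nlinarith
    have h7 := Real.log_le_log (by linarith) h6
    rw [Real.log_pow] at h7
    push_cast at h7
    linarith
  have hl20 : 0 ≤ Real.log ((M : ℝ) + 2) := Real.log_nonneg (by linarith)
  have hsq : (Real.log ((M : ℝ) + 2)) ^ 2 ≤ 4 * (Real.log M) ^ 2 := by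
    calc (Real.log ((M : ℝ) + 2)) ^ 2 ≤ (2 * Real.log M) ^ 2 := pow_le_pow_left₀ hl20 hl2 2
      _ = _ := by ring
  have h6 : Real.exp (C2 * ((kk M : ℝ) + 1 + (Real.log ((M : ℝ) + 2)) ^ 2)) ≤
      Real.exp (8 * C2 * (Real.log M) ^ 2) := by
    apply Real.exp_le_exp.2
    have : (kk M : ℝ) + 1 + (Real.log ((M : ℝ) + 2)) ^ 2 ≤ 8 * (Real.log M) ^ 2 := by linarith
    nlinarith
  have h7 : C1 ≤ Real.exp (C1 * (Real.log M) ^ 2) := by
    have h8 := Real.add_one_le_exp (C1 * (Real.log M) ^ 2)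
    nlinarith
  have hS0 : 0 ≤ ∑ d ∈ (Icc 1 ⌊t⌋₊).filter (fun d : ℕ => d ∈ SSl (kk M) M), (1 : ℝ) / d :=
    Finset.sum_nonneg fun _ _ => by positivity
  have htl : 0 ≤ t / Real.log t := by positivity
  calc C1 * (t / Real.log t) *
        (∑ d ∈ (Icc 1 ⌊t⌋₊).filter (fun d : ℕ => d ∈ SSl (kk M) M), (1 : ℝ) / d) ≤
      Real.exp (C1 * (Real.log M) ^ 2) * (t / Real.log t) *
        Real.exp (8 * C2 * (Real.log M) ^ 2) := by
        apply mul_le_mul _ (h4.trans h6) hS0 (by positivity)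
        exact mul_le_mul_of_nonneg_right h7 htl
    _ = t / Real.log t * Real.exp ((C1 + 8 * C2) * (Real.log M) ^ 2) := by
        rw [show (C1 + 8 * C2) * (Real.log M) ^ 2 = C1 * (Real.log M) ^ 2 +
          8 * C2 * (Real.log M) ^ 2 by ring, Real.exp_add]
        ring

theorem count_EH (K : ℕ) (hK : 2 ≤ K) (ε : ℝ) (hε : 0 < ε) : ∃ M₀ : ℕ, ∀ M ≥ M₀, ∀ Y t : ℝ,
    Reg0 K M Y t → (((Icc 1 ⌊t⌋₊).filter (fun v => EH (kk M) (Nf ⌊Y⌋₊) t v)).card : ℝ) ≤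
      t / Real.log t * ε := by
  obtain ⟨N0, hN0⟩ := nonnormal_count
  obtain ⟨A, hA, hmass⟩ := mass_bound
  obtain ⟨M1, hM1⟩ := hmass K hK
  obtain ⟨M2, hM2⟩ := rg_facts K hK (max N0 2)
  obtain ⟨M3, hM3⟩ := num_small K (200 + A) ε hε
  refine ⟨max (max M1 M2) M3, fun M hM Y t hR => ?_⟩
  obtain ⟨⟨hk1, -, -⟩, ⟨h16, hll, hll2⟩, ⟨-, hY20, -⟩, ⟨hmN, hN2⟩, hm1, -, -⟩ :=
    hM2 M (by omega) Y t hR
  have hmassM := hM1 M (by omega) Y t hR
  have hnum := hM3 M (by omega) Y hR.1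
  have ht0 : 0 < t := by linarith
  have hlt : 0 < Real.log t := Real.log_pos (by linarith)
  set N := Nf ⌊Y⌋₊ with hN
  have h7 : Y < ⌊Y⌋₊ + 1 := Nat.lt_floor_add_one Y
  have h8 : ((⌊Y⌋₊ + 4 : ℕ) : ℝ) ≤ ((2 * N ^ 100 : ℕ) : ℝ) := by exact_mod_cast hN2
  push_cast at h8
  have hpow : (0 : ℝ) ≤ (N : ℝ) ^ 100 := by positivity
  set SA := (Icc 1 ⌊t⌋₊).filter (fun a : ℕ => a ∈ SS (kk M)) with hSA
  let Qs : ℕ → Finset ℕ := fun w => (Nat.primesLE (⌊t⌋₊ + 1)).filter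
    (fun q => 3 ≤ q ∧ N ^ 10 ≤ lv q ∧ ¬ Normal N q ∧ t < (q : ℝ) ^ 100 ∧
      (((q - 1) * w : ℕ) : ℝ) ≤ t)
  have hQs : ∀ w ∈ SA, ((Qs w).card : ℝ) ≤
      200 * (t / Real.log t) * Real.exp (-(N : ℝ) ^ 16) * (1 / w) := by
    intro w hw
    rw [hSA, Finset.mem_filter, Finset.mem_Icc] at hw
    have hw0 : (0 : ℝ) < w := by exact_mod_cast hw.1.1
    have hw1 : (1 : ℝ) ≤ w := by exact_mod_cast hw.1.1
    rcases (Qs w).eq_empty_or_nonempty with he | ⟨q1, hq1⟩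
    · rw [he, Finset.card_empty]
      push_cast
      positivity
    · set y : ℝ := t / w with hy
      have hy0 : 0 < y := by positivity
      have hqy : ∀ q ∈ Qs w, ((q : ℝ) - 1) ≤ y := by
        intro q hq
        simp only [Qs, Finset.mem_filter] at hq
        rw [hy, le_div_iff₀ hw0]
        have h1 := hq.2.2.2.2.2
        have h2 : 1 ≤ q := by omega
        push_cast [Nat.cast_sub h2] at h1
        linarith
      have hq1' := hq1
      simp only [Qs, Finset.mem_filter, Nat.mem_primesLE] at hq1'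
      have hN10 : 1 ≤ N ^ 10 := Nat.one_le_pow _ _ (by omega)
      have hq17 : (17 : ℝ) ≤ q1 := by
        exact_mod_cast ps_seventeen hq1'.1.2 (hN10.trans hq1'.2.2.1)
      have hy16 : 16 ≤ y := by
        have := hqy q1 hq1
        linarith
      have hq1y : (q1 : ℝ) ≤ y + 1 := by linarith [hqy q1 hq1]
      have hcard : ((Qs w).card : ℝ) ≤ (((Nat.primesLE ⌊y + 1⌋₊).filter
          (fun q => N ^ 10 ≤ lv q ∧ ¬ Normal N q)).card : ℝ) := by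
        have hsub : Qs w ⊆ (Nat.primesLE ⌊y + 1⌋₊).filter
            (fun q => N ^ 10 ≤ lv q ∧ ¬ Normal N q) := by
          intro q hq
          have h1 := hqy q hq
          simp only [Qs, Finset.mem_filter, Nat.mem_primesLE] at hq
          rw [Finset.mem_filter, Nat.mem_primesLE]
          exact ⟨⟨Nat.le_floor (by linarith), hq.1.2⟩, hq.2.2.1, hq.2.2.2.1⟩
        exact_mod_cast Finset.card_le_card hsub
      have hlq : 0 < Real.log q1 := Real.log_pos (by linarith)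
      have hllq : (N : ℝ) ^ 10 ≤ Real.log (Real.log q1) := by
        have h1 : N ^ 10 ≤ lv q1 := hq1'.2.2.1
        have h2 : ((N ^ 10 : ℕ) : ℝ) ≤ (lv q1 : ℝ) := by exact_mod_cast h1
        push_cast at h2
        refine h2.trans ?_
        unfold lv at h1 ⊢
        apply Nat.floor_le
        by_contra hneg
        push Not at hneg
        rw [Nat.floor_of_nonpos hneg.le] at h1
        omega
      have hcond1 : (N : ℝ) ^ 10 ≤ Real.log (Real.log (y + 1)) :=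
        hllq.trans (Real.log_le_log hlq (Real.log_le_log (by linarith) hq1y))
      have hyt : y ≤ t := by
        rw [hy]
        exact div_le_self ht0.le hw1
      have hcond2 : Real.log (Real.log (y + 1)) ≤ 3 * (N : ℝ) ^ 100 := by
        have h1 : Real.log (Real.log (y + 1)) ≤ Real.log (Real.log (t + 1)) :=
          Real.log_le_log (Real.log_pos (by linarith))
            (Real.log_le_log (by linarith) (by linarith))
        have h2 := hR.2.2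
        linarith
      refine hcard.trans ((hN0 N (by omega) (y + 1) (by linarith) hcond1 hcond2).trans ?_)
      have hlogy : Real.log t / 100 ≤ Real.log (y + 1) := by
        have h1 : t < (q1 : ℝ) ^ 100 := hq1'.2.2.2.2.1
        have h2 : Real.log t ≤ 100 * Real.log q1 := by
          have := Real.log_le_log ht0 h1.le
          rwa [Real.log_pow] at this
        have h3 : Real.log q1 ≤ Real.log (y + 1) := by
          apply Real.log_le_log (by linarith) hq1y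
        linarith
      have h4 : (y + 1) / Real.log (y + 1) ≤ (2 * y) / (Real.log t / 100) := by
        have : 0 < Real.log t / 100 := by positivity
        gcongr
        linarith
      calc (y + 1) / Real.log (y + 1) * Real.exp (-(N : ℝ) ^ 16) ≤
          (2 * y) / (Real.log t / 100) * Real.exp (-(N : ℝ) ^ 16) := by gcongr
        _ = _ := by
          rw [hy]
          field_simp
          ring
  have hcov : (((Icc 1 ⌊t⌋₊).filter (fun v => EH (kk M) N t v)).card : ℝ) ≤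
      ∑ w ∈ SA, ((Qs w).card : ℝ) := by
    have h1 : (Icc 1 ⌊t⌋₊).filter (fun v => EH (kk M) N t v) ⊆
        SA.biUnion fun w => (Qs w).image fun q => (q - 1) * w := by
      intro v hv
      rw [Finset.mem_filter, Finset.mem_Icc] at hv
      obtain ⟨⟨hv1, hvt⟩, q₀, w, hqp, hq10, hqn, hqt, hwS, hve⟩ := hv
      have hw0 := SS_pos hwS
      have hN10 : 1 ≤ N ^ 10 := Nat.one_le_pow _ _ (by omega)
      have hq17 := ps_seventeen hqp (hN10.trans hq10)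
      have hqm : 0 < q₀ - 1 := by omega
      have hvw : w ≤ v := by rw [hve]; exact Nat.le_mul_of_pos_left _ hqm
      have hvq : q₀ - 1 ≤ v := by rw [hve]; exact Nat.le_mul_of_pos_right _ hw0
      rw [Finset.mem_biUnion]
      refine ⟨w, ?_, ?_⟩
      · rw [hSA, Finset.mem_filter, Finset.mem_Icc]
        exact ⟨⟨hw0, hvw.trans hvt⟩, hwS⟩
      rw [Finset.mem_image]
      refine ⟨q₀, ?_, hve.symm⟩
      simp only [Qs, Finset.mem_filter, Nat.mem_primesLE]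
      refine ⟨⟨by omega, hqp⟩, by omega, hq10, hqn, hqt, ?_⟩
      rw [← hve]
      exact (Nat.cast_le.2 hvt).trans (Nat.floor_le ht0.le)
    have h2 := Finset.card_le_card h1
    have h3 : (SA.biUnion fun w => (Qs w).image fun q => (q - 1) * w).card ≤
        ∑ w ∈ SA, (Qs w).card :=
      Finset.card_biUnion_le.trans (Finset.sum_le_sum fun d _ => Finset.card_image_le)
    exact_mod_cast h2.trans h3
  refine hcov.trans ((Finset.sum_le_sum hQs).trans ?_)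
  rw [← Finset.mul_sum]
  have hc := const_le (show (0 : ℝ) ≤ 200 by norm_num) (show (0 : ℝ) ≤ Y by linarith)
  have h4 : (Nf M : ℝ) ≤ N := by exact_mod_cast hmN
  have h5 : (1 : ℝ) ≤ N := by
    have : 1 ≤ N := by omega
    exact_mod_cast this
  have h6 : (N : ℝ) ≤ (N : ℝ) ^ 16 := le_self_pow₀ h5 (by norm_num)
  have h9 : Real.exp (-(N : ℝ) ^ 16) ≤ Real.exp (-(Nf M : ℝ)) :=
    Real.exp_le_exp.2 (by linarith)
  have hS0 : 0 ≤ ∑ w ∈ SA, (1 : ℝ) / w := Finset.sum_nonneg fun _ _ => by positivity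
  have htl : 0 ≤ t / Real.log t := by positivity
  calc 200 * (t / Real.log t) * Real.exp (-(N : ℝ) ^ 16) * ∑ w ∈ SA, (1 : ℝ) / w ≤
      Real.exp (200 * (Real.log (Y + 3)) ^ 2) * (t / Real.log t) * Real.exp (-(Nf M : ℝ)) *
        Real.exp (A * (Real.log (Y + 3)) ^ 2) := by
        gcongr
    _ = t / Real.log t * (Real.exp ((200 + A) * (Real.log (Y + 3)) ^ 2) *
        Real.exp (-(Nf M : ℝ))) := by
        rw [show (200 + A) * (Real.log (Y + 3)) ^ 2 = 200 * (Real.log (Y + 3)) ^ 2 +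
          A * (Real.log (Y + 3)) ^ 2 by ring, Real.exp_add]
        ring
    _ ≤ _ := mul_le_mul_of_nonneg_left hnum htl

theorem exc_count : ∃ A : ℝ, 0 < A ∧ ∀ K : ℕ, 2 ≤ K → ∀ ε : ℝ, 0 < ε → ∃ M₀ : ℕ, ∀ M ≥ M₀,
    ∀ Y : ℝ, Rgm K M Y →
    ∀ t : ℝ, Real.exp (Real.exp Y) ≤ t → Real.log (Real.log (t + 1)) ≤ Y + 1 →
    (((Icc 1 ⌊t⌋₊).filter (fun v => v ∈ SS (kk M) ∧ ¬ RegV M (kk M) Y t v)).card : ℝ) ≤
      t / Real.log t * (ε + Real.exp (A * (Real.log M) ^ 2)) := by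
  obtain ⟨A, hA, hEG⟩ := count_EG
  obtain ⟨Aa, hAa, hDA⟩ := sum_DA
  obtain ⟨Ab, hAb, hDB⟩ := sum_DB
  obtain ⟨Ad, hAd, hDD⟩ := sum_DD
  obtain ⟨Ae, hAe, hDE⟩ := sum_DE
  obtain ⟨m0, hm0⟩ := cnt_entries
  refine ⟨A, hA, fun K hK ε hε => ?_⟩
  have hε8 : 0 < ε / 8 := by linarith
  obtain ⟨M1, hM1⟩ := hEG K hK
  obtain ⟨Ma, hMa⟩ := hDA K hK
  obtain ⟨Mb, hMb⟩ := hDB K hK
  obtain ⟨Md, hMd⟩ := hDD K hK
  obtain ⟨Me, hMe⟩ := hDE K hK
  obtain ⟨Pa, hPa⟩ := ps_bound K hK Aa (ε / 8) hε8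
  obtain ⟨Pb, hPb⟩ := ps_bound K hK Ab (ε / 8) hε8
  obtain ⟨Pd, hPd⟩ := ps_bound K hK Ad (ε / 8) hε8
  obtain ⟨Pe, hPe⟩ := ps_bound K hK Ae (ε / 8) hε8
  obtain ⟨M2, hM2⟩ := count_E0 K hK (ε / 8) hε8
  obtain ⟨M3, hM3⟩ := count_EC K hK (ε / 8) hε8
  obtain ⟨M4, hM4⟩ := count_EF K hK (ε / 8) hε8
  obtain ⟨M5, hM5⟩ := count_EH K hK (ε / 8) hε8
  obtain ⟨M6, hM6⟩ := rg_facts K hK (max m0 2)
  refine ⟨(M1 + M2 + M3 + M4 + M5 + M6) + (Ma + Mb + Md + Me) + (Pa + Pb + Pd + Pe),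
    fun M hM Y hY t ht htY => ?_⟩
  have hR : Reg0 K M Y t := ⟨hY, ht, htY⟩
  obtain ⟨⟨hk1, hkm, hk4⟩, ⟨h16, hll, hll2⟩, ⟨h10, hY20, h20⟩, ⟨hmN, hN2⟩, hm1, hm10, hMY⟩ :=
    hM6 M (by omega) Y t hR
  have c0 := hM2 M (by omega) Y t hR
  have cA := hPa M (by omega) Y t hR _ (hMa M (by omega) Y t hR)
  have cB := hPb M (by omega) Y t hR _ (hMb M (by omega) Y t hR)
  have cD := hPd M (by omega) Y t hR _ (hMd M (by omega) Y t hR)
  have cE := hPe M (by omega) Y t hR _ (hMe M (by omega) Y t hR)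
  have cC := hM3 M (by omega) Y t hR
  have cF := hM4 M (by omega) Y t hR
  have cG := hM1 M (by omega) Y t hR
  have cH := hM5 M (by omega) Y t hR
  have ht0 : 0 < t := by linarith
  have hcov : ∀ v ∈ Icc 1 ⌊t⌋₊, (v ∈ SS (kk M) ∧ ¬ RegV M (kk M) Y t v) →
      (v ∈ SS (kk M) ∧ ∀ q, IsTop (kk M) v q → (q : ℝ) ^ 100 ≤ t) ∨
      PS (kk M) t (DA (kk M) (Nf M)) v ∨ PS (kk M) t (DB (kk M) (Nf M) Y) v ∨
      PS (kk M) t (DD (kk M) (Nf M)) v ∨ PS (kk M) t (DE M Y) v ∨ EC t v ∨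
      EF (Nf ⌊Y⌋₊) t v ∨ EG (kk M) M t v ∨ EH (kk M) (Nf ⌊Y⌋₊) t v := by
    intro v hv hvr
    rw [Finset.mem_Icc] at hv
    have hvt : (v : ℝ) ≤ t := (Nat.cast_le.2 hv.2).trans (Nat.floor_le ht0.le)
    have h := exc_cover hk1 ht htY hY20 h10 hmN hN2
      (fun L hb hc => hm0 (Nf M) (by omega) Y L h10 hb hc (Nf ⌊Y⌋₊) hmN) hvt hvr.1 hvr.2
    rcases h with h | h
    · exact Or.inl ⟨hvr.1, h⟩
    · exact Or.inr h
  have key := card_or9 (Icc 1 ⌊t⌋₊) (fun v => v ∈ SS (kk M) ∧ ¬ RegV M (kk M) Y t v)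
    (fun v => v ∈ SS (kk M) ∧ ∀ q, IsTop (kk M) v q → (q : ℝ) ^ 100 ≤ t)
    (fun v => PS (kk M) t (DA (kk M) (Nf M)) v) (fun v => PS (kk M) t (DB (kk M) (Nf M) Y) v)
    (fun v => PS (kk M) t (DD (kk M) (Nf M)) v) (fun v => PS (kk M) t (DE M Y) v)
    (fun v => EC t v) (fun v => EF (Nf ⌊Y⌋₊) t v) (fun v => EG (kk M) M t v)
    (fun v => EH (kk M) (Nf ⌊Y⌋₊) t v) (t / Real.log t * (ε / 8)) (t / Real.log t * (ε / 8))
    (t / Real.log t * (ε / 8)) (t / Real.log t * (ε / 8)) (t / Real.log t * (ε / 8))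
    (t / Real.log t * (ε / 8)) (t / Real.log t * (ε / 8))
    (t / Real.log t * Real.exp (A * (Real.log M) ^ 2)) (t / Real.log t * (ε / 8)) hcov
    (by convert c0) (by convert cA) (by convert cB) (by convert cD) (by convert cE)
    (by convert cC) (by convert cF) (by convert cG) (by convert cH)
  have hsum : t / Real.log t * (ε + Real.exp (A * (Real.log M) ^ 2)) =
      t / Real.log t * (ε / 8) + t / Real.log t * (ε / 8) + t / Real.log t * (ε / 8) +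
      t / Real.log t * (ε / 8) + t / Real.log t * (ε / 8) + t / Real.log t * (ε / 8) +
      t / Real.log t * (ε / 8) + t / Real.log t * (ε / 8) +
      t / Real.log t * Real.exp (A * (Real.log M) ^ 2) := by ring
  rw [hsum]
  have e : (((Icc 1 ⌊t⌋₊).filter (fun v => v ∈ SS (kk M) ∧ ¬ RegV M (kk M) Y t v)).card : ℝ) ≤
      t / Real.log t * (ε / 8) + t / Real.log t * (ε / 8) + t / Real.log t * (ε / 8) +
      t / Real.log t * (ε / 8) + t / Real.log t * (ε / 8) + t / Real.log t * (ε / 8) +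
      t / Real.log t * (ε / 8) + t / Real.log t * Real.exp (A * (Real.log M) ^ 2) +
      t / Real.log t * (ε / 8) := by
    convert key
  linarith

end P031
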