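import Vale.Agent.P031.DefsB
import Vale.Agent.P031.Can

/-! P031: common lemmas on `Om`, `smp`, `al`, `lv` (for [CRED] and [OVER]). -/

namespace P031

open Finset

namespace OmT

/-! ### levels -/

theorem le_of_le_lv {q y : ℕ} (hy : 1 ≤ y) (h : y ≤ lv q) : Real.exp (Real.exp y) ≤ q := by
  have h3 : 3 ≤ q := three_le_of_lv (hy.trans h)
  have hq : (3 : ℝ) ≤ q := by exact_mod_cast h3
  have hl : 0 < Real.log q := Real.log_pos (by linarith)
  unfold lv at h
  rw [Nat.le_floor_iff' (by omega)] at h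
  rw [← Real.le_log_iff_exp_le (by linarith), ← Real.le_log_iff_exp_le hl]
  exact h

theorem le_lv_of_le {q y : ℕ} (h : Real.exp (Real.exp y) ≤ q) : y ≤ lv q := by
  have h0 : (0 : ℝ) < q := (Real.exp_pos _).trans_le h
  rw [← Real.le_log_iff_exp_le h0] at h
  rw [← Real.le_log_iff_exp_le ((Real.exp_pos _).trans_le h)] at h
  exact Nat.le_floor h

theorem lt_exp_lv (q : ℕ) : (q : ℝ) < Real.exp (Real.exp ((lv q : ℝ) + 1)) := by
  by_contra hc
  push Not at hc
  have h1 : lv q + 1 ≤ lv q := by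
    apply le_lv_of_le
    push_cast
    exact hc
  omega

theorem lv_le_of_lt {q y : ℕ} (h : (q : ℝ) < Real.exp (Real.exp ((y : ℝ) + 1))) : lv q ≤ y := by
  by_contra hc
  push Not at hc
  have h1 := le_of_le_lv (y := y + 1) (by omega) hc
  push_cast at h1
  linarith

/-! ### `Om` -/

theorem Om_eq_sum {a b n : ℕ} {S : Finset ℕ} (hS : n.primeFactors ⊆ S) :
    Om a b n = ∑ p ∈ S.filter (fun p => a ≤ lv p ∧ lv p < b), n.factorization p := by
  unfold Om
  refine Finset.sum_subset (Finset.filter_subset_filter _ hS) (fun p hp hp' => ?_)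
  rw [mem_filter] at hp hp'
  have h1 : p ∉ n.primeFactors := fun h => hp' ⟨h, hp.2⟩
  rw [← Nat.support_factorization, Finsupp.notMem_support_iff] at h1
  exact h1

theorem Om_mul {a b m n : ℕ} (hm : 0 < m) (hn : 0 < n) : Om a b (m * n) = Om a b m + Om a b n := by
  rw [Om_eq_sum (n := m * n) (S := (m * n).primeFactors) subset_rfl,
    Om_eq_sum (n := m) (S := (m * n).primeFactors)
      (Nat.primeFactors_mono (Dvd.intro _ rfl) (Nat.mul_pos hm hn).ne'),
    Om_eq_sum (n := n) (S := (m * n).primeFactors)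
      (Nat.primeFactors_mono (Dvd.intro_left _ rfl) (Nat.mul_pos hm hn).ne'),
    ← Finset.sum_add_distrib]
  refine Finset.sum_congr rfl fun p _ => ?_
  rw [Nat.factorization_mul hm.ne' hn.ne', Finsupp.add_apply]

theorem Om_one (a b : ℕ) : Om a b 1 = 0 := by
  simp [Om]

theorem Om_eq_zero {a b n : ℕ} (h : ∀ p, p.Prime → p ∣ n → ¬ (a ≤ lv p ∧ lv p < b)) :
    Om a b n = 0 := by
  unfold Om
  rw [Finset.sum_eq_zero]
  intro p hp
  rw [mem_filter, Nat.mem_primeFactors] at hp
  exact absurd hp.2 (h p hp.1.1 hp.1.2.1)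

theorem Om_le_of_dvd {a b m n : ℕ} (h : m ∣ n) (hn : 0 < n) : Om a b m ≤ Om a b n := by
  obtain ⟨k, rfl⟩ := h
  have hm : 0 < m := Nat.pos_of_mul_pos_right hn
  have hk : 0 < k := Nat.pos_of_mul_pos_left hn
  rw [Om_mul hm hk]
  omega

/-- product of `q - 1` -/
def qm (l : List ℕ) : ℕ := (l.map (fun q => q - 1)).prod

theorem qm_nil : qm [] = 1 := rfl

theorem qm_cons (a : ℕ) (l : List ℕ) : qm (a :: l) = (a - 1) * qm l := by simp [qm]

theorem qm_pos {l : List ℕ} (h : ∀ q ∈ l, Nat.Prime q) : 0 < qm l := by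
  induction l with
  | nil => simp [qm]
  | cons a l ih =>
    rw [qm_cons]
    have h1 := (h a (by simp)).two_le
    exact Nat.mul_pos (by omega) (ih (fun q hq => h q (by simp [hq])))

theorem qm_perm {l l' : List ℕ} (h : l.Perm l') : qm l = qm l' :=
  (h.map _).prod_eq

theorem qm_append (l l' : List ℕ) : qm (l ++ l') = qm l * qm l' := by simp [qm]

theorem Om_qm (a b : ℕ) {l : List ℕ} (h : ∀ q ∈ l, Nat.Prime q) :
    Om a b (qm l) = (l.map (fun q => Om a b (q - 1))).sum := by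
  induction l with
  | nil => simp [qm, Om]
  | cons c l ih =>
    have h1 := (h c (by simp)).two_le
    have h2 : ∀ q ∈ l, Nat.Prime q := fun q hq => h q (by simp [hq])
    rw [qm_cons, Om_mul (by omega) (qm_pos h2), ih h2]
    simp

theorem prime_dvd_qm {l : List ℕ} {p : ℕ} (hp : p.Prime) (h : p ∣ qm l) : ∃ q ∈ l, p ∣ q - 1 := by
  induction l with
  | nil => exact absurd (Nat.dvd_one.1 h) hp.one_lt.ne'
  | cons a l ih =>
    rw [qm_cons] at h
    rcases (hp.dvd_mul).1 h with h | h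
    · exact ⟨a, by simp, h⟩
    · obtain ⟨q, hq, h'⟩ := ih h
      exact ⟨q, by simp [hq], h'⟩

theorem lv_le_of_dvd {p q : ℕ} (hq : q.Prime) (h : p ∣ q - 1) : lv p ≤ lv q := by
  have h1 := hq.two_le
  have h2 := Nat.le_of_dvd (by omega) h
  exact lv_mono (by omega)

/-! ### smooth parts -/

theorem smp_pos (w : ℝ) (n : ℕ) : 0 < smp w n := by
  unfold smp
  refine Finset.prod_pos fun p hp => ?_
  rw [mem_filter, Nat.mem_primeFactors] at hp
  exact Nat.pow_pos hp.1.1.pos

theorem smp_eq_prod {w : ℝ} {n : ℕ} {S : Finset ℕ} (hS : n.primeFactors ⊆ S) :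
    smp w n = ∏ p ∈ S.filter (fun p : ℕ => (p : ℝ) ≤ w), p ^ n.factorization p := by
  unfold smp
  refine Finset.prod_subset (Finset.filter_subset_filter _ hS) (fun p hp hp' => ?_)
  rw [mem_filter] at hp hp'
  have h1 : p ∉ n.primeFactors := fun h => hp' ⟨h, hp.2⟩
  rw [← Nat.support_factorization, Finsupp.notMem_support_iff] at h1
  rw [h1, pow_zero]

theorem smp_mul {w : ℝ} {m n : ℕ} (hm : 0 < m) (hn : 0 < n) :
    smp w (m * n) = smp w m * smp w n := by
  rw [smp_eq_prod (n := m * n) (S := (m * n).primeFactors) subset_rfl,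
    smp_eq_prod (n := m) (S := (m * n).primeFactors)
      (Nat.primeFactors_mono (Dvd.intro _ rfl) (Nat.mul_pos hm hn).ne'),
    smp_eq_prod (n := n) (S := (m * n).primeFactors)
      (Nat.primeFactors_mono (Dvd.intro_left _ rfl) (Nat.mul_pos hm hn).ne'),
    ← Finset.prod_mul_distrib]
  refine Finset.prod_congr rfl fun p _ => ?_
  rw [Nat.factorization_mul hm.ne' hn.ne', Finsupp.add_apply, pow_add]

theorem smp_le {w : ℝ} {n : ℕ} (hn : 0 < n) : smp w n ≤ n := by
  have h1 := Nat.prod_factorization_pow_eq_self hn.ne'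
  rw [Finsupp.prod, Nat.support_factorization] at h1
  conv_rhs => rw [← h1]
  unfold smp
  refine Finset.prod_le_prod_of_subset_of_one_le' (Finset.filter_subset _ _) (fun p hp _ => ?_)
  exact Nat.one_le_pow _ _ (Nat.prime_of_mem_primeFactors hp).pos

theorem smp_eq_self {w : ℝ} {n : ℕ} (hn : 0 < n) (h : ∀ p : ℕ, p.Prime → p ∣ n → (p : ℝ) ≤ w) :
    smp w n = n := by
  have h1 := Nat.prod_factorization_pow_eq_self hn.ne'
  rw [Finsupp.prod, Nat.support_factorization] at h1
  conv_rhs => rw [← h1]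
  unfold smp
  rw [Finset.filter_true_of_mem]
  intro p hp
  rw [Nat.mem_primeFactors] at hp
  exact h p hp.1 hp.2.1

theorem smp_le_of_dvd {w : ℝ} {m n : ℕ} (h : m ∣ n) (hn : 0 < n) : smp w m ≤ smp w n := by
  obtain ⟨k, rfl⟩ := h
  have hm : 0 < m := Nat.pos_of_mul_pos_right hn
  have hk : 0 < k := Nat.pos_of_mul_pos_left hn
  rw [smp_mul hm hk]
  exact Nat.le_mul_of_pos_right _ (smp_pos _ _)

theorem smp_qm_le (w B : ℝ) (hB : 0 ≤ B) {l : List ℕ} (h : ∀ q ∈ l, Nat.Prime q)
    (h' : ∀ q ∈ l, (smp w (q - 1) : ℝ) ≤ B) : (smp w (qm l) : ℝ) ≤ B ^ l.length := by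
  induction l with
  | nil => simp [qm, smp]
  | cons c l ih =>
    have h1 := (h c (by simp)).two_le
    have h2 : ∀ q ∈ l, Nat.Prime q := fun q hq => h q (by simp [hq])
    rw [qm_cons, smp_mul (by omega) (qm_pos h2), List.length_cons, pow_succ, mul_comm]
    push_cast
    exact mul_le_mul (ih h2 (fun q hq => h' q (by simp [hq]))) (h' c (by simp))
      (by positivity) (by positivity)

/-! ### `aa`, `al` -/

theorem aa_mono {m n : ℕ} (h : m ≤ n) : aa m ≤ aa n := by
  refine monotone_nat_of_le_succ (f := aa) (fun n => ?_) h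
  unfold aa
  push_cast
  have hn0 : (0 : ℝ) ≤ n := Nat.cast_nonneg n
  have h1 := Real.convexOn_mul_log.2 (show (n : ℝ) ∈ Set.Ici 0 from hn0)
    (show (n : ℝ) + 2 ∈ Set.Ici 0 from by simp only [Set.mem_Ici]; linarith)
    (show (0 : ℝ) ≤ 1 / 2 by norm_num) (show (0 : ℝ) ≤ 1 / 2 by norm_num)
    (by norm_num)
  simp only [smul_eq_mul] at h1
  have e : (1 / 2 : ℝ) * n + 1 / 2 * ((n : ℝ) + 2) = n + 1 := by ring
  rw [e] at h1
  have e2 : (n : ℝ) + 1 + 1 = n + 2 := by ring
  rw [e2]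
  linarith

theorem aa_one_nonneg : 0 ≤ aa 1 := by
  unfold aa
  push_cast
  rw [Real.log_one]
  have := Real.log_two_gt_d9
  norm_num
  linarith

theorem aa_nonneg {n : ℕ} (h : 1 ≤ n) : 0 ≤ aa n := aa_one_nonneg.trans (aa_mono h)

theorem al_succ_ge (k : ℕ) (l : List ℕ) : al k l ≤ al (k + 1) l := by
  induction l generalizing k with
  | nil => simp [al]
  | cons c l ih =>
    simp only [al]
    have := aa_mono (Nat.le_succ k)
    exact add_le_add (mul_le_mul_of_nonneg_right this (Nat.cast_nonneg _)) (ih (k + 1))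

theorem al_sublist {l₁ l₂ : List ℕ} (h : l₁.Sublist l₂) :
    ∀ k, 1 ≤ k → al k l₁ ≤ al k l₂ := by
  induction h with
  | slnil => intro k _; exact le_rfl
  | cons a _ ih =>
    intro k hk
    simp only [al]
    have h1 := mul_nonneg (aa_nonneg hk) (Nat.cast_nonneg (α := ℝ) a)
    have h2 := (al_succ_ge k _).trans (ih (k + 1) (by omega))
    linarith
  | cons_cons a _ ih =>
    intro k hk
    simp only [al]
    have h2 := ih (k + 1) (by omega)
    linarith

end OmT

end P031
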