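import Vale.Agent.P031.DefsB
import Vale.Agent.P031.Can
import Vale.Agent.P031.Cheb

/-! P031 [PS]: the prefix-suffix lemma. -/

namespace P031

open Finset Filter Topology
open scoped Classical

theorem ps_seventeen {q : ℕ} (hq : q.Prime) (h : 1 ≤ lv q) : 17 ≤ q := by
  by_contra hlt
  push Not at hlt
  have h1 : lv q = 0 := by
    unfold lv
    rw [Nat.floor_eq_zero]
    have hq2 : (2 : ℝ) ≤ q := by exact_mod_cast hq.two_le
    have hq13 : q ≤ 13 := by
      have : q ≠ 14 := by rintro rfl; revert hq; decide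
      have : q ≠ 15 := by rintro rfl; revert hq; decide
      have : q ≠ 16 := by rintro rfl; revert hq; decide
      omega
    have hq13' : (q : ℝ) ≤ 13 := by exact_mod_cast hq13
    have hlog : Real.log q ≤ Real.log 13 := Real.log_le_log (by linarith) hq13'
    have hlog0 : 0 < Real.log q := Real.log_pos (by linarith)
    have h13 : Real.log 13 < Real.exp 1 := by
      have he : (2.7182818283 : ℝ) < Real.exp 1 := Real.exp_one_gt_d9
      have : Real.log 13 < 2.7 := by
        rw [Real.log_lt_iff_lt_exp (by norm_num)]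
        have h2 : Real.exp 2.7 = (Real.exp 0.9) ^ 3 := by
          rw [← Real.exp_nat_mul]; norm_num
        have h3 : (2.45 : ℝ) ≤ Real.exp 0.9 := by
          have := Real.sum_le_exp_of_nonneg (show (0 : ℝ) ≤ 0.9 by norm_num) 6
          simp only [Finset.sum_range_succ, Finset.sum_range_zero, Nat.factorial] at this
          norm_num at this
          linarith
        rw [h2]
        calc (13 : ℝ) < 2.45 ^ 3 := by norm_num
          _ ≤ (Real.exp 0.9) ^ 3 := by gcongr
      linarith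
    calc Real.log (Real.log q) < Real.log (Real.exp 1) :=
          Real.log_lt_log hlog0 (lt_of_le_of_lt hlog h13)
      _ = 1 := Real.log_exp 1
  omega

/-- number of `v ≤ t` in `SS k` with largest prime `q₀ > t^(1/100)` which have a proper suffix in `D`. -/
theorem prefix_suffix : ∃ C : ℝ, 0 < C ∧ ∀ (k : ℕ) (t : ℝ) (D : Set ℕ), 1 ≤ k → 16 ≤ t →
    (((Icc 1 ⌊t⌋₊).filter (fun v : ℕ => v ∈ SS k ∧ ∃ (q₀ : ℕ) (l₁ l₂ : List ℕ),
        can k v = q₀ :: (l₁ ++ l₂) ∧ t < (q₀ : ℝ) ^ 100 ∧ pm l₂ * rest k v ∈ D)).card : ℝ) ≤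
      C * (t / Real.log t) *
        (∑ a ∈ (Icc 1 ⌊t⌋₊).filter (fun a : ℕ => a ∈ SS k), (1 : ℝ) / a) *
        (∑ d ∈ (Icc 1 ⌊t⌋₊).filter (fun d : ℕ => d ∈ D), (1 : ℝ) / d) := by
  obtain ⟨C0, hC0, hpi⟩ := pi_upper
  refine ⟨200 * C0, by positivity, ?_⟩
  intro k t D hk ht
  have ht0 : 0 < t := by linarith
  have hlogt : 0 < Real.log t := Real.log_pos (by linarith)
  set SA := (Icc 1 ⌊t⌋₊).filter (fun a : ℕ => a ∈ SS k) with hSA
  set SD := (Icc 1 ⌊t⌋₊).filter (fun d : ℕ => d ∈ D) with hSD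
  -- the primes for given `(a, d)`
  let Qs : ℕ → ℕ → Finset ℕ := fun a d => (Nat.primesLE (⌊t⌋₊ + 1)).filter
    (fun q => 17 ≤ q ∧ t < (q : ℝ) ^ 100 ∧ (((q - 1) * a * d : ℕ) : ℝ) ≤ t)
  have hQs : ∀ a ∈ SA, ∀ d ∈ SD, ((Qs a d).card : ℝ) ≤
      200 * C0 * (t / Real.log t) * ((1 / a) * (1 / d)) := by
    intro a ha d hd
    rw [hSA, Finset.mem_filter, Finset.mem_Icc] at ha
    rw [hSD, Finset.mem_filter, Finset.mem_Icc] at hd
    have ha0 : (0 : ℝ) < a := by exact_mod_cast ha.1.1
    have hd0 : (0 : ℝ) < d := by exact_mod_cast hd.1.1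
    rcases (Qs a d).eq_empty_or_nonempty with he | ⟨q1, hq1⟩
    · rw [he, Finset.card_empty]
      push_cast
      positivity
    · set y : ℝ := t / (a * d) with hy
      have hy0 : 0 < y := by positivity
      have hqy : ∀ q ∈ Qs a d, ((q : ℝ) - 1) ≤ y := by
        intro q hq
        simp only [Qs, Finset.mem_filter] at hq
        rw [hy, le_div_iff₀ (by positivity)]
        have h1 := hq.2.2.2
        have h2 : 1 ≤ q := by omega
        push_cast [Nat.cast_sub h2] at h1
        linarith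
      have hq1' := hq1
      simp only [Qs, Finset.mem_filter] at hq1'
      have hq17 : (17 : ℝ) ≤ q1 := by exact_mod_cast hq1'.2.1
      have hy16 : 16 ≤ y := by
        have := hqy q1 hq1
        linarith
      have hcard : ((Qs a d).card : ℝ) ≤ (Nat.primeCounting ⌊y + 1⌋₊ : ℝ) := by
        have hsub : Qs a d ⊆ Nat.primesLE ⌊y + 1⌋₊ := by
          intro q hq
          have h1 := hqy q hq
          simp only [Qs, Finset.mem_filter, Nat.mem_primesLE] at hq
          rw [Nat.mem_primesLE]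
          refine ⟨Nat.le_floor (by linarith), hq.1.2⟩
        have h2 := Finset.card_le_card hsub
        have h3 : (Nat.primesLE ⌊y + 1⌋₊).card = Nat.primeCounting ⌊y + 1⌋₊ := by
          rw [Nat.primesLE_card_eq_primeCounting]
        rw [h3] at h2
        exact_mod_cast h2
      refine hcard.trans ((hpi (y + 1) (by linarith)).trans ?_)
      -- `log (y+1) ≥ log t / 100`
      have hlogy : Real.log t / 100 ≤ Real.log (y + 1) := by
        have h1 : t < (q1 : ℝ) ^ 100 := hq1'.2.2.1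
        have h2 : Real.log t ≤ 100 * Real.log q1 := by
          have := Real.log_le_log ht0 h1.le
          rwa [Real.log_pow] at this
        have h3 : Real.log q1 ≤ Real.log (y + 1) := by
          apply Real.log_le_log (by linarith)
          linarith [hqy q1 hq1]
        linarith
      have h4 : C0 * (y + 1) / Real.log (y + 1) ≤ C0 * (2 * y) / (Real.log t / 100) := by
        have : 0 < Real.log t / 100 := by positivity
        gcongr
        linarith
      refine h4.trans (le_of_eq ?_)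
      rw [hy]
      field_simp
      ring
  -- covering
  have hcov : (((Icc 1 ⌊t⌋₊).filter (fun v : ℕ => v ∈ SS k ∧ ∃ (q₀ : ℕ) (l₁ l₂ : List ℕ),
        can k v = q₀ :: (l₁ ++ l₂) ∧ t < (q₀ : ℝ) ^ 100 ∧ pm l₂ * rest k v ∈ D)).card : ℝ) ≤
      ∑ a ∈ SA, ∑ d ∈ SD, ((Qs a d).card : ℝ) := by
    have h1 : ((Icc 1 ⌊t⌋₊).filter (fun v : ℕ => v ∈ SS k ∧ ∃ (q₀ : ℕ) (l₁ l₂ : List ℕ),
        can k v = q₀ :: (l₁ ++ l₂) ∧ t < (q₀ : ℝ) ^ 100 ∧ pm l₂ * rest k v ∈ D)) ⊆
        SA.biUnion fun a => SD.biUnion fun d => (Qs a d).image fun q => (q - 1) * a * d := by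
      intro v hv
      rw [Finset.mem_filter, Finset.mem_Icc] at hv
      obtain ⟨⟨hv1, hvt⟩, hvS, q₀, l₁, l₂, hcan, hq0, hD⟩ := hv
      have hcan' : can k v = (q₀ :: l₁) ++ l₂ := hcan
      obtain ⟨e1, e2, -, -⟩ := can_split hk (q₀ :: l₁) hvS hcan'
      set d := pm l₂ * rest k v with hd
      rw [pm_cons] at e1
      have hmem : ∀ q ∈ can k v, q.Prime ∧ k ≤ lv q := fun q hq => mem_can hk hvS hq
      have hq0p := hmem q₀ (by rw [hcan]; exact List.mem_cons_self)
      have hl1 : ∀ q ∈ l₁, q.Prime ∧ k ≤ lv q := fun q hq => hmem q (by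
        rw [hcan]
        exact List.mem_cons_of_mem _ (List.mem_append_left _ hq))
      have hasS : pm l₁ ∈ SS k := by
        have := mem_SS_pm hl1 (one_mem_SS k)
        rwa [mul_one] at this
      have ha0 := SS_pos hasS
      have hd0 := SS_pos e2
      have hq17 : 17 ≤ q₀ := ps_seventeen hq0p.1 (hk.trans hq0p.2)
      have hqm : 0 < q₀ - 1 := by omega
      have hva : pm l₁ ≤ v := by
        rw [e1]
        calc pm l₁ = 1 * pm l₁ * 1 := by ring
          _ ≤ (q₀ - 1) * pm l₁ * d := by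
            apply Nat.mul_le_mul _ hd0
            exact Nat.mul_le_mul hqm le_rfl
      have hvd : d ≤ v := by
        rw [e1]
        calc d = 1 * 1 * d := by ring
          _ ≤ (q₀ - 1) * pm l₁ * d := by
            apply Nat.mul_le_mul _ le_rfl
            exact Nat.mul_le_mul hqm ha0
      have hvq : q₀ - 1 ≤ v := by
        rw [e1]
        calc q₀ - 1 = (q₀ - 1) * 1 * 1 := by ring
          _ ≤ (q₀ - 1) * pm l₁ * d := by
            apply Nat.mul_le_mul _ hd0
            exact Nat.mul_le_mul le_rfl ha0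
      rw [Finset.mem_biUnion]
      refine ⟨pm l₁, ?_, ?_⟩
      · rw [hSA, Finset.mem_filter, Finset.mem_Icc]
        exact ⟨⟨ha0, hva.trans hvt⟩, hasS⟩
      rw [Finset.mem_biUnion]
      refine ⟨d, ?_, ?_⟩
      · rw [hSD, Finset.mem_filter, Finset.mem_Icc]
        exact ⟨⟨hd0, hvd.trans hvt⟩, hD⟩
      rw [Finset.mem_image]
      refine ⟨q₀, ?_, e1.symm⟩
      simp only [Qs, Finset.mem_filter, Nat.mem_primesLE]
      refine ⟨⟨by omega, hq0p.1⟩, hq17, hq0, ?_⟩
      rw [← e1]
      exact (Nat.cast_le.mpr hvt).trans (Nat.floor_le ht0.le)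
    have h2 := Finset.card_le_card h1
    have h3 : (SA.biUnion fun a => SD.biUnion fun d =>
        (Qs a d).image fun q => (q - 1) * a * d).card ≤ ∑ a ∈ SA, ∑ d ∈ SD, (Qs a d).card := by
      refine Finset.card_biUnion_le.trans (Finset.sum_le_sum fun a _ => ?_)
      refine Finset.card_biUnion_le.trans (Finset.sum_le_sum fun d _ => ?_)
      exact Finset.card_image_le
    exact_mod_cast h2.trans h3
  refine hcov.trans ?_
  calc ∑ a ∈ SA, ∑ d ∈ SD, ((Qs a d).card : ℝ)
      ≤ ∑ a ∈ SA, ∑ d ∈ SD, 200 * C0 * (t / Real.log t) * ((1 / a) * (1 / d)) :=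
        Finset.sum_le_sum fun a ha => Finset.sum_le_sum fun d hd => hQs a ha d hd
    _ = 200 * C0 * (t / Real.log t) * (∑ a ∈ SA, (1 : ℝ) / a) * (∑ d ∈ SD, (1 : ℝ) / d) := by
        simp only [← Finset.mul_sum, ← Finset.sum_mul]
        ring

end P031
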