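import Vale.Agent.P031.RgmDefs
import Vale.Agent.P031.PSum
import Vale.Agent.P031.CollGen
import Vale.Agent.P031.OmTools

/-! P031, [EXC], part A: tools. -/

namespace P031

open Finset Filter Topology
open scoped Classical

/-- number of `v = (q₀-1) d ≤ t` with `q₀ > t^(1/100)` prime and `d ∈ D`. -/
theorem top_suffix_count : ∃ C : ℝ, 0 < C ∧ ∀ (t : ℝ) (D : Set ℕ), 16 ≤ t → (∀ d ∈ D, 0 < d) →
    (((Icc 1 ⌊t⌋₊).filter (fun v : ℕ => ∃ (q₀ d : ℕ),
        q₀.Prime ∧ 17 ≤ q₀ ∧ t < (q₀ : ℝ) ^ 100 ∧ d ∈ D ∧ v = (q₀ - 1) * d)).card : ℝ) ≤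
      C * (t / Real.log t) *
        (∑ d ∈ (Icc 1 ⌊t⌋₊).filter (fun d : ℕ => d ∈ D), (1 : ℝ) / d) := by
  obtain ⟨C0, hC0, hpi⟩ := pi_upper
  refine ⟨200 * C0, by positivity, ?_⟩
  intro t D ht hDpos
  have ht0 : 0 < t := by linarith
  have hlogt : 0 < Real.log t := Real.log_pos (by linarith)
  set SD := (Icc 1 ⌊t⌋₊).filter (fun d : ℕ => d ∈ D) with hSD
  let Qs : ℕ → Finset ℕ := fun d => (Nat.primesLE (⌊t⌋₊ + 1)).filter
    (fun q => 17 ≤ q ∧ t < (q : ℝ) ^ 100 ∧ (((q - 1) * d : ℕ) : ℝ) ≤ t)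
  have hQs : ∀ d ∈ SD, ((Qs d).card : ℝ) ≤ 200 * C0 * (t / Real.log t) * (1 / d) := by
    intro d hd
    rw [hSD, Finset.mem_filter, Finset.mem_Icc] at hd
    have hd0 : (0 : ℝ) < d := by exact_mod_cast hd.1.1
    rcases (Qs d).eq_empty_or_nonempty with he | ⟨q1, hq1⟩
    · rw [he, Finset.card_empty]
      push_cast
      positivity
    · set y : ℝ := t / d with hy
      have hy0 : 0 < y := by positivity
      have hqy : ∀ q ∈ Qs d, ((q : ℝ) - 1) ≤ y := by
        intro q hq
        simp only [Qs, Finset.mem_filter] at hq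
        rw [hy, le_div_iff₀ (by positivity)]
        have h1 := hq.2.2.2
        have h2 : 1 ≤ q := by omega
        push_cast [Nat.cast_sub h2] at h1
        linarith
      have hq1' := hq1
      simp only [Qs, Finset.mem_filter] at hq1'
      have hq17 : (17 : ℝ) ≤ q1 := by exact_mod_cast hq1'.2.1
      have hy16 : 16 ≤ y := by
        have := hqy q1 hq1
        linarith
      have hcard : ((Qs d).card : ℝ) ≤ (Nat.primeCounting ⌊y + 1⌋₊ : ℝ) := by
        have hsub : Qs d ⊆ Nat.primesLE ⌊y + 1⌋₊ := by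
          intro q hq
          have h1 := hqy q hq
          simp only [Qs, Finset.mem_filter, Nat.mem_primesLE] at hq
          rw [Nat.mem_primesLE]
          refine ⟨Nat.le_floor (by linarith), hq.1.2⟩
        have h2 := Finset.card_le_card hsub
        have h3 : (Nat.primesLE ⌊y + 1⌋₊).card = Nat.primeCounting ⌊y + 1⌋₊ := by
          rw [Nat.primesLE_card_eq_primeCounting]
        rw [h3] at h2
        exact_mod_cast h2
      refine hcard.trans ((hpi (y + 1) (by linarith)).trans ?_)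
      have hlogy : Real.log t / 100 ≤ Real.log (y + 1) := by
        have h1 : t < (q1 : ℝ) ^ 100 := hq1'.2.2.1
        have h2 : Real.log t ≤ 100 * Real.log q1 := by
          have := Real.log_le_log ht0 h1.le
          rwa [Real.log_pow] at this
        have h3 : Real.log q1 ≤ Real.log (y + 1) := by
          apply Real.log_le_log (by linarith)
          linarith [hqy q1 hq1]
        linarith
      have h4 : C0 * (y + 1) / Real.log (y + 1) ≤ C0 * (2 * y) / (Real.log t / 100) := by
        have : 0 < Real.log t / 100 := by positivity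
        gcongr
        linarith
      refine h4.trans (le_of_eq ?_)
      rw [hy]
      field_simp
      ring
  have hcov : (((Icc 1 ⌊t⌋₊).filter (fun v : ℕ => ∃ (q₀ d : ℕ),
        q₀.Prime ∧ 17 ≤ q₀ ∧ t < (q₀ : ℝ) ^ 100 ∧ d ∈ D ∧ v = (q₀ - 1) * d)).card : ℝ) ≤
      ∑ d ∈ SD, ((Qs d).card : ℝ) := by
    have h1 : ((Icc 1 ⌊t⌋₊).filter (fun v : ℕ => ∃ (q₀ d : ℕ),
        q₀.Prime ∧ 17 ≤ q₀ ∧ t < (q₀ : ℝ) ^ 100 ∧ d ∈ D ∧ v = (q₀ - 1) * d)) ⊆
        SD.biUnion fun d => (Qs d).image fun q => (q - 1) * d := by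
      intro v hv
      rw [Finset.mem_filter, Finset.mem_Icc] at hv
      obtain ⟨⟨hv1, hvt⟩, q₀, d, hq0p, hq17, hq0, hD, hve⟩ := hv
      have hd0 := hDpos d hD
      have hqm : 0 < q₀ - 1 := by omega
      have hvd : d ≤ v := by
        rw [hve]
        exact Nat.le_mul_of_pos_left _ hqm
      have hvq : q₀ - 1 ≤ v := by
        rw [hve]
        exact Nat.le_mul_of_pos_right _ hd0
      rw [Finset.mem_biUnion]
      refine ⟨d, ?_, ?_⟩
      · rw [hSD, Finset.mem_filter, Finset.mem_Icc]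
        exact ⟨⟨hd0, hvd.trans hvt⟩, hD⟩
      rw [Finset.mem_image]
      refine ⟨q₀, ?_, hve.symm⟩
      simp only [Qs, Finset.mem_filter, Nat.mem_primesLE]
      refine ⟨⟨by omega, hq0p⟩, hq17, hq0, ?_⟩
      rw [← hve]
      exact (Nat.cast_le.2 hvt).trans (Nat.floor_le ht0.le)
    have h2 := Finset.card_le_card h1
    have h3 : (SD.biUnion fun d => (Qs d).image fun q => (q - 1) * d).card ≤
        ∑ d ∈ SD, (Qs d).card :=
      Finset.card_biUnion_le.trans (Finset.sum_le_sum fun d _ => Finset.card_image_le)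
    exact_mod_cast h2.trans h3
  refine hcov.trans ?_
  rw [Finset.mul_sum]
  exact Finset.sum_le_sum hQs

/-- sum over products. -/
theorem sum_inv_le_prod (S P Q : Finset ℕ) (f : ℕ → ℕ)
    (h : ∀ d ∈ S, ∃ q ∈ P, ∃ w ∈ Q, d = f q * w ∧ 0 < f q ∧ 0 < w) :
    ∑ d ∈ S, (1 : ℝ) / d ≤ (∑ q ∈ P, (1 : ℝ) / (f q)) * ∑ w ∈ Q, (1 : ℝ) / w := by
  have hch : ∀ d : ℕ, ∃ p : ℕ × ℕ, d ∈ S → p.1 ∈ P ∧ p.2 ∈ Q ∧ d = f p.1 * p.2 ∧
      0 < f p.1 ∧ 0 < p.2 := by
    intro d
    by_cases hd : d ∈ S
    · obtain ⟨q, hq, w, hw, h1, h2, h3⟩ := h d hd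
      exact ⟨(q, w), fun _ => ⟨hq, hw, h1, h2, h3⟩⟩
    · exact ⟨(0, 0), fun h => absurd h hd⟩
  choose g hg using hch
  have hinj : Set.InjOn g (S : Set ℕ) := by
    intro a ha b hb hab
    have h1 := (hg a ha).2.2.1
    have h2 := (hg b hb).2.2.1
    rw [h1, h2, hab]
  calc ∑ d ∈ S, (1 : ℝ) / d = ∑ d ∈ S, (1 : ℝ) / (f (g d).1) * (1 / ((g d).2 : ℝ)) := by
        apply Finset.sum_congr rfl
        intro d hd
        have h1 := (hg d hd).2.2.1
        conv_lhs => rw [h1]
        push_cast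
        rw [one_div_mul_one_div]
    _ = ∑ p ∈ S.image g, (1 : ℝ) / (f p.1) * (1 / (p.2 : ℝ)) := by
        rw [Finset.sum_image hinj]
    _ ≤ ∑ p ∈ P ×ˢ Q, (1 : ℝ) / (f p.1) * (1 / (p.2 : ℝ)) := by
        apply Finset.sum_le_sum_of_subset_of_nonneg
        · intro p hp
          rw [Finset.mem_image] at hp
          obtain ⟨d, hd, rfl⟩ := hp
          rw [Finset.mem_product]
          exact ⟨(hg d hd).1, (hg d hd).2.1⟩
        · intro p _ _
          positivity
    _ = (∑ q ∈ P, (1 : ℝ) / (f q)) * ∑ w ∈ Q, (1 : ℝ) / w := by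
        rw [Finset.sum_mul_sum, Finset.sum_product]

/-- a sorted list splits into the high and the low levels. -/
theorem sorted_split (y : ℕ) : ∀ (l : List ℕ), l.Pairwise (· ≥ ·) →
    l = l.filter (fun q => decide (y ≤ lv q)) ++ l.filter (fun q => decide (lv q < y)) := by
  intro l
  induction l with
  | nil => intro _; simp
  | cons a l ih =>
    intro h
    rw [List.pairwise_cons] at h
    have ih' := ih h.2
    by_cases ha : y ≤ lv a
    · have h' : ¬ lv a < y := by omega
      rw [List.filter_cons_of_pos (by simpa using ha), List.filter_cons_of_neg (by simpa using ha),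
        List.cons_append, ← ih']
    · have h' : lv a < y := by omega
      have hall : ∀ b ∈ l, lv b < y := by
        intro b hb
        have := lv_mono (h.1 b hb)
        omega
      rw [List.filter_cons_of_neg (by simpa using h'), List.filter_cons_of_pos (by simpa using h')]
      have e1 : l.filter (fun q => decide (y ≤ lv q)) = [] := by
        rw [List.filter_eq_nil_iff]
        intro b hb
        have := hall b hb
        simp only [decide_eq_true_eq]
        omega
      rw [e1, List.nil_append]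
      congr 1
      symm
      rw [List.filter_eq_self]
      intro b hb
      simpa using hall b hb

theorem pm_dvd_of_sublist {l l' : List ℕ} (h : l.Sublist l') : pm l ∣ pm l' := by
  induction h with
  | slnil => exact dvd_refl _
  | cons a _ ih => rw [pm_cons]; exact Dvd.dvd.mul_left ih _
  | cons_cons a _ ih => rw [pm_cons, pm_cons]; exact Nat.mul_dvd_mul_left _ ih

theorem pm_coe (l : List ℕ) : ((l : Multiset ℕ).map (fun q => q - 1)).prod = pm l := by
  simp [pm]

/-- low part of the canonical decomposition lies in `SSl`. -/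
theorem lowp_mem_SSl {k y v : ℕ} (hk : 1 ≤ k) (hv : v ∈ SS k) : lowp k y v ∈ SSl k y := by
  obtain ⟨m, hm, hs, he⟩ := exists_totient_of_no_top (rest_mem hk hv) (rest_no_top hk hv)
  refine ⟨((can k v).filter (fun q => decide (lv q < y)) : List ℕ), m, hm, ?_, hs, ?_⟩
  · intro q hq
    rw [Multiset.mem_coe, List.mem_filter] at hq
    have := mem_can hk hv hq.1
    exact ⟨this.1, this.2, by simpa using hq.2⟩
  · unfold lowp
    rw [he, pm_coe]

/-- a prime with `t < q^100`, `exp exp Y ≤ t`, has level `≥ Y - 6`. -/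
theorem lv_top_ge {q : ℕ} {t Y : ℝ} (hY : Real.exp (Real.exp Y) ≤ t) (hq : t < (q : ℝ) ^ 100) :
    Y - 6 ≤ lv q := by
  have ht0 : 0 < t := lt_of_lt_of_le (Real.exp_pos _) hY
  have hq0 : (0 : ℝ) < q := by
    rcases Nat.eq_zero_or_pos q with h | h
    · subst h
      norm_num at hq
      linarith
    · exact_mod_cast h
  have h1 : Real.exp Y ≤ 100 * Real.log q := by
    have h2 := Real.log_le_log ht0 hq.le
    rw [Real.log_pow] at h2
    have h3 := Real.log_le_log (Real.exp_pos _) hY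
    rw [Real.log_exp] at h3
    push_cast at h2
    linarith
  have h2 : Real.exp (Y - 5) ≤ Real.log q := by
    have h3 : Real.exp (Y - 5) = Real.exp Y / Real.exp 5 := by rw [Real.exp_sub]
    have h4 : (100 : ℝ) ≤ Real.exp 5 := by
      have h5 : Real.exp 5 = Real.exp 1 ^ 5 := by rw [← Real.exp_nat_mul]; norm_num
      have h6 := Real.exp_one_gt_d9
      have h7 : (2.7 : ℝ) ^ 5 ≤ Real.exp 1 ^ 5 := by
        apply pow_le_pow_left₀ (by norm_num); linarith
      rw [h5]
      have h8 : (100 : ℝ) ≤ 2.7 ^ 5 := by norm_num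
      linarith
    rw [h3, div_le_iff₀ (Real.exp_pos _)]
    have h5 : 0 < Real.log q := by
      have := Real.exp_pos Y
      linarith
    nlinarith
  have h3 : Y - 5 ≤ Real.log (Real.log q) := by
    rw [← Real.log_exp (Y - 5)]
    exact Real.log_le_log (Real.exp_pos _) h2
  have h4 : Real.log (Real.log q) < (lv q : ℝ) + 1 := Nat.lt_floor_add_one _
  linarith

/-- a number `≤ t+1` has level `≤ Y+1`. -/
theorem lv_le_of_le_t {q : ℕ} {t Y : ℝ} (hY0 : 0 ≤ Y) (hY : Real.log (Real.log (t + 1)) ≤ Y + 1)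
    (hq : (q : ℝ) ≤ t + 1) : (lv q : ℝ) ≤ Y + 1 := by
  by_cases h3 : q < 3
  · rw [lv_of_lt_three h3]; push_cast; linarith
  · push Not at h3
    have hq3 : (3 : ℝ) ≤ q := by exact_mod_cast h3
    have hl : 0 < Real.log q := Real.log_pos (by linarith)
    unfold lv
    by_cases h0 : 0 ≤ Real.log (Real.log q)
    · have h1 := Nat.floor_le h0
      have h2 : Real.log (Real.log q) ≤ Real.log (Real.log (t + 1)) :=
        Real.log_le_log hl (Real.log_le_log (by linarith) hq)
      linarith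
    · rw [Nat.floor_of_nonpos (by linarith)]
      push_cast; linarith

end P031
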