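import Vale.Agent.P031.ExcA

/-! P031, [EXC], part B: the covering of the irregular values. -/

namespace P031

open Finset Filter Topology
open scoped Classical

def DA (k m : ℕ) : Set ℕ :=
  {d | ∃ q w : ℕ, q.Prime ∧ m ^ 10 ≤ lv q ∧ ¬ Good m q ∧ w ∈ SS k ∧ d = (q - 1) * w}

def DB (k m : ℕ) (Y : ℝ) : Set ℕ :=
  {d | ∃ y : ℕ, m ^ 10 ≤ y ∧ (y : ℝ) ≤ Y / 2 ∧ d ∈ SSl k y ∧ ∃ L : Multiset ℕ, L.card = 24 ∧
    (∀ q ∈ L, q.Prime ∧ (y : ℝ) / 2 ≤ lv q) ∧ (L.map (fun q => q - 1)).prod ∣ d}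

def DD (k m : ℕ) : Set ℕ :=
  {d | d ∈ SSl k (m ^ 10) ∧ Real.exp (Real.exp (2 * (m : ℝ) ^ 10)) < d}

def DE (M : ℕ) (Y : ℝ) : Set ℕ :=
  {d | ∃ c : ℕ, M ≤ c ∧ (c : ℝ) ≤ Y + 1 ∧ Over (Nf c) c d}

def PS (k : ℕ) (t : ℝ) (D : Set ℕ) (v : ℕ) : Prop :=
  v ∈ SS k ∧ ∃ (q₀ : ℕ) (l₁ l₂ : List ℕ),
    can k v = q₀ :: (l₁ ++ l₂) ∧ t < (q₀ : ℝ) ^ 100 ∧ pm l₂ * rest k v ∈ D

def EC (t : ℝ) (v : ℕ) : Prop :=
  ∃ L : Multiset ℕ, L.card = 24 ∧
    (∀ q ∈ L, q.Prime ∧ (45 / 100 : ℝ) * Real.log (Real.log t) ≤ (lv q : ℝ) + 1) ∧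
    (L.map (fun q => q - 1)).prod ∣ v

def EF (N : ℕ) (t : ℝ) (v : ℕ) : Prop :=
  ∃ l : List ℕ, l.length ≤ N + 1 ∧ l.Pairwise (· ≥ ·) ∧
    (∀ q ∈ l, Normal N q) ∧ (l.map (fun q => q - 1)).prod ∣ v ∧
    Real.log (Real.log t) + (N : ℝ) ^ 90 / 2 ≤ al 1 (l.tail.map lv)

def EG (k M : ℕ) (t : ℝ) (v : ℕ) : Prop :=
  ∃ q₀ d : ℕ, q₀.Prime ∧ 17 ≤ q₀ ∧ t < (q₀ : ℝ) ^ 100 ∧ d ∈ SSl k M ∧ v = (q₀ - 1) * d

def EH (k N : ℕ) (t : ℝ) (v : ℕ) : Prop :=
  ∃ q₀ w : ℕ, q₀.Prime ∧ N ^ 10 ≤ lv q₀ ∧ ¬ Normal N q₀ ∧ t < (q₀ : ℝ) ^ 100 ∧ w ∈ SS k ∧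
    v = (q₀ - 1) * w

theorem exists_card24 (l : List ℕ) (P : ℕ → Prop) [DecidablePred P] (h : 24 ≤ (l.filter (fun q => decide (P q))).length) :
    ∃ L : Multiset ℕ, L.card = 24 ∧ (∀ q ∈ L, q ∈ l ∧ P q) ∧
      (L.map (fun q => q - 1)).prod ∣ pm l := by
  refine ⟨(((l.filter (fun q => decide (P q))).take 24 : List ℕ) : Multiset ℕ), ?_, ?_, ?_⟩
  · rw [Multiset.coe_card, List.length_take]
    omega
  · intro q hq
    rw [Multiset.mem_coe] at hq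
    have h1 := List.mem_of_mem_take hq
    rw [List.mem_filter] at h1
    exact ⟨h1.1, by simpa using h1.2⟩
  · rw [pm_coe]
    exact pm_dvd_of_sublist ((List.take_sublist _ _).trans List.filter_sublist)

theorem exc_cover {M k v : ℕ} {Y t : ℝ} (hk : 1 ≤ k)
    (hY : Real.exp (Real.exp Y) ≤ t) (hY1 : Real.log (Real.log (t + 1)) ≤ Y + 1) (hY20 : 20 ≤ Y)
    (hmY : 2 * (Nf M : ℝ) ^ 10 ≤ Y) (hmN : Nf M ≤ Nf ⌊Y⌋₊)
    (hN : ⌊Y⌋₊ + 4 ≤ 2 * Nf ⌊Y⌋₊ ^ 100)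
    (hcnt : ∀ (L : List ℕ),
      (∀ y : ℕ, Nf M ^ 10 ≤ y → (y : ℝ) ≤ Y / 2 →
        (L.filter (fun q => decide (y ≤ 2 * lv q ∧ lv q < y))).length ≤ 23) →
      (L.filter (fun q => decide (45 / 100 * (Y + 1) ≤ (lv q : ℝ) + 1))).length ≤ 23 →
      16 * (L.filter (fun q => decide (Nf M ^ 10 ≤ lv q ∧ lv q ≤ 3 * Nf ⌊Y⌋₊ ^ 100))).length ≤
        Nf ⌊Y⌋₊)
    (hvt : (v : ℝ) ≤ t) (hv : v ∈ SS k) (hn : ¬ RegV M k Y t v) :
    (∀ q, IsTop k v q → (q : ℝ) ^ 100 ≤ t) ∨ PS k t (DA k (Nf M)) v ∨ PS k t (DB k (Nf M) Y) v ∨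
    PS k t (DD k (Nf M)) v ∨ PS k t (DE M Y) v ∨ EC t v ∨ EF (Nf ⌊Y⌋₊) t v ∨ EG k M t v ∨
    EH k (Nf ⌊Y⌋₊) t v := by
  have hv0 := SS_pos hv
  by_cases htop : ∃ q, IsTop k v q
  swap
  · left
    intro q hq
    exact absurd ⟨q, hq⟩ htop
  have hq0 := topq_spec hv0 htop
  have hcan := can_eq_cons hk hv0 htop
  set q₀ := topq k v with hq0def
  set L := can k (v / (q₀ - 1)) with hL
  by_cases hbig : (q₀ : ℝ) ^ 100 ≤ t
  · left
    intro q hq
    have h1 := le_topq hv0 hq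
    have h2 : (q : ℝ) ≤ q₀ := by exact_mod_cast h1
    exact (pow_le_pow_left₀ (Nat.cast_nonneg q) h2 100).trans hbig
  push Not at hbig
  right
  have hsort := can_sorted hk hv
  have hmem : ∀ q ∈ can k v, q.Prime ∧ k ≤ lv q := fun q hq => mem_can hk hv hq
  have hlev : Y - 6 ≤ lv q₀ := lv_top_ge hY hbig
  have h17 : 17 ≤ q₀ := ps_seventeen hq0.1 (hk.trans hq0.2.1)
  have ht0 : 0 < t := lt_of_lt_of_le (Real.exp_pos _) hY
  have hlevt : ∀ q ∈ can k v, (lv q : ℝ) ≤ Y + 1 := by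
    intro q hq
    apply lv_le_of_le_t (by linarith) hY1
    have h1 := (isTop_of_mem_can hk hv hq).2.2.1
    have h2 := Nat.le_of_dvd hv0 h1
    have h3 : q ≤ v + 1 := by omega
    have h4 : (q : ℝ) ≤ (v : ℝ) + 1 := by exact_mod_cast h3
    linarith
  have hlogt : Real.log (Real.log t) ≤ Y + 1 := by
    refine le_trans ?_ hY1
    have h1 : 1 < t := by
      have h2 := Real.add_one_le_exp (Real.exp Y)
      have h3 := Real.exp_pos Y
      linarith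
    exact Real.log_le_log (Real.log_pos h1) (Real.log_le_log ht0 (by linarith))
  -- (a)
  by_cases ha : ∀ q ∈ L, (Nf M) ^ 10 ≤ lv q → Good (Nf M) q
  swap
  · left
    push Not at ha
    obtain ⟨q, hqL, hq1, hq2⟩ := ha
    obtain ⟨l₁, l₂, hl⟩ := List.append_of_mem hqL
    refine ⟨hv, q₀, l₁, q :: l₂, by rw [hcan, hl], hbig, q, pm l₂ * rest k v, ?_, hq1, hq2, ?_, ?_⟩
    · exact (hmem q (by rw [hcan]; exact List.mem_cons_of_mem _ hqL)).1
    · have h1 : can k v = (q₀ :: l₁ ++ [q]) ++ l₂ := by rw [hcan, hl]; simp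
      exact (can_split hk _ hv h1).2.1
    · rw [pm_cons, mul_assoc]
  right
  -- (b)
  by_cases hb : ∀ y : ℕ, (Nf M) ^ 10 ≤ y → (y : ℝ) ≤ Y / 2 →
      ((can k v).filter (fun q => decide (y ≤ 2 * lv q ∧ lv q < y))).length ≤ 23
  swap
  · left
    push Not at hb
    obtain ⟨y, hy1, hy2, hy3⟩ := hb
    have hLs : L.Pairwise (· ≥ ·) := by
      rw [hcan, List.pairwise_cons] at hsort
      exact hsort.2
    have hsp := sorted_split y L hLs
    set l₁ := L.filter (fun q => decide (y ≤ lv q)) with hl1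
    set l₂ := L.filter (fun q => decide (lv q < y)) with hl2
    have hyq : y ≤ lv q₀ := by
      have : (y : ℝ) ≤ lv q₀ := by linarith
      exact_mod_cast this
    have hlow : lowp k y v = pm l₂ * rest k v := by
      unfold lowp
      rw [hcan, List.filter_cons_of_neg (by simpa using hyq)]
    have e : can k v = q₀ :: (l₁ ++ l₂) := by
      rw [hcan]
      exact congrArg (List.cons q₀) hsp
    refine ⟨hv, q₀, l₁, l₂, e, hbig, y, hy1, hy2, ?_, ?_⟩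
    · rw [← hlow]
      exact lowp_mem_SSl hk hv
    · have h1 : 24 ≤ (l₂.filter (fun q => decide (y ≤ 2 * lv q))).length := by
        have h2 : (can k v).filter (fun q => decide (y ≤ 2 * lv q ∧ lv q < y)) =
            l₂.filter (fun q => decide (y ≤ 2 * lv q)) := by
          rw [hcan, List.filter_cons_of_neg, hl2, List.filter_filter]
          · apply List.filter_congr
            intro q _
            simp only [Bool.decide_and]
          · simp only [decide_eq_true_eq]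
            omega
        rw [h2] at hy3
        omega
      obtain ⟨L', hL1, hL2, hL3⟩ := exists_card24 l₂ (fun q => y ≤ 2 * lv q) h1
      refine ⟨L', hL1, ?_, hL3.trans (Nat.dvd_mul_right _ _)⟩
      intro q hq
      obtain ⟨h4, h5⟩ := hL2 q hq
      rw [hl2, List.mem_filter] at h4
      refine ⟨(hmem q (by rw [hcan]; exact List.mem_cons_of_mem _ h4.1)).1, ?_⟩
      have : (y : ℝ) ≤ 2 * lv q := by exact_mod_cast h5
      linarith
  right
  -- (d)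
  by_cases hd : (lowp k ((Nf M) ^ 10) v : ℝ) ≤ Real.exp (Real.exp (2 * (Nf M : ℝ) ^ 10))
  swap
  · left
    push Not at hd
    have hLs : L.Pairwise (· ≥ ·) := by
      rw [hcan, List.pairwise_cons] at hsort
      exact hsort.2
    have hsp := sorted_split (Nf M ^ 10) L hLs
    have hyq : Nf M ^ 10 ≤ lv q₀ := by
      have : ((Nf M ^ 10 : ℕ) : ℝ) ≤ lv q₀ := by push_cast; linarith
      exact_mod_cast this
    have hlow : lowp k (Nf M ^ 10) v =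
        pm (L.filter (fun q => decide (lv q < Nf M ^ 10))) * rest k v := by
      unfold lowp
      rw [hcan, List.filter_cons_of_neg (by simpa using hyq)]
    refine ⟨hv, q₀, L.filter (fun q => decide (Nf M ^ 10 ≤ lv q)),
      L.filter (fun q => decide (lv q < Nf M ^ 10)), ?_, hbig, ?_⟩
    · rw [hcan]
      exact congrArg (List.cons q₀) hsp
    · rw [← hlow]
      exact ⟨lowp_mem_SSl hk hv, hd⟩
  right
  -- (e)
  by_cases he : ∀ (l₁ l₂ : List ℕ) (q : ℕ), L = l₁ ++ q :: l₂ → M ≤ lv q →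
      ¬ Over (Nf (lv q)) (lv q) (pm (q :: l₂) * rest k v)
  swap
  · left
    push Not at he
    obtain ⟨l₁, l₂, q, hl, hMq, hov⟩ := he
    refine ⟨hv, q₀, l₁, q :: l₂, by rw [hcan, hl], hbig, lv q, hMq, ?_, hov⟩
    apply hlevt
    rw [hcan, hl]
    simp
  right
  -- (c)
  by_cases hc : ((can k v).filter (fun q => decide (45 / 100 * (Y + 1) ≤ (lv q : ℝ) + 1))).length ≤ 23
  swap
  · left
    have h1 : 24 ≤ ((can k v).filter (fun q => decide (45 / 100 * (Y + 1) ≤ (lv q : ℝ) + 1))).length := by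
      omega
    obtain ⟨L', hL1, hL2, hL3⟩ := exists_card24 (can k v)
      (fun q => 45 / 100 * (Y + 1) ≤ (lv q : ℝ) + 1) h1
    refine ⟨L', hL1, ?_, ?_⟩
    · intro q hq
      obtain ⟨h4, h5⟩ := hL2 q hq
      refine ⟨(hmem q h4).1, ?_⟩
      have : 45 / 100 * Real.log (Real.log t) ≤ 45 / 100 * (Y + 1) := by linarith
      exact this.trans h5
    · refine hL3.trans ?_
      have := pm_can_mul_rest hk hv
      exact ⟨rest k v, this.symm⟩
  right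
  -- (h)
  have hNY : Nf ⌊Y⌋₊ ^ 100 ≤ ⌊Y⌋₊ := Nf_pow_le _
  have hN10 : Nf ⌊Y⌋₊ ^ 10 ≤ lv q₀ := by
    have hfl : (⌊Y⌋₊ : ℝ) ≤ Y := Nat.floor_le (by linarith)
    by_cases h2 : 2 ≤ Nf ⌊Y⌋₊
    · have h3 : Nf ⌊Y⌋₊ ^ 10 * 2 ≤ Nf ⌊Y⌋₊ ^ 100 := by
        calc Nf ⌊Y⌋₊ ^ 10 * 2 ≤ Nf ⌊Y⌋₊ ^ 10 * Nf ⌊Y⌋₊ ^ 1 := by
              rw [pow_one]; exact Nat.mul_le_mul_left _ h2
          _ = Nf ⌊Y⌋₊ ^ 11 := by ring
          _ ≤ Nf ⌊Y⌋₊ ^ 100 := Nat.pow_le_pow_right (by omega) (by norm_num)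
      have h4 : ((Nf ⌊Y⌋₊ ^ 10 * 2 : ℕ) : ℝ) ≤ Y := by
        have : ((Nf ⌊Y⌋₊ ^ 10 * 2 : ℕ) : ℝ) ≤ (⌊Y⌋₊ : ℝ) := by exact_mod_cast h3.trans hNY
        linarith
      have h5 : ((Nf ⌊Y⌋₊ ^ 10 : ℕ) : ℝ) ≤ lv q₀ := by
        push_cast at h4 ⊢
        linarith
      exact_mod_cast h5
    · have h3 : Nf ⌊Y⌋₊ ^ 10 ≤ 1 := by
        calc Nf ⌊Y⌋₊ ^ 10 ≤ 1 ^ 10 := Nat.pow_le_pow_left (by omega) 10
          _ = 1 := by norm_num
      have h4 : (1 : ℝ) ≤ lv q₀ := by linarith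
      have h5 : 1 ≤ lv q₀ := by exact_mod_cast h4
      omega
  have hveq : v = (q₀ - 1) * (v / (q₀ - 1)) := (Nat.mul_div_cancel' hq0.2.2.1).symm
  by_cases hh : Normal (Nf ⌊Y⌋₊) q₀
  swap
  · right; right
    exact ⟨q₀, v / (q₀ - 1), hq0.1, hN10, hh, hbig, hq0.2.2.2, hveq⟩
  -- (f)
  by_cases hf : al 1 ((L.filter (fun q => decide ((Nf ⌊Y⌋₊) ^ 10 ≤ lv q))).map lv) <
      Y + 1 + (Nf ⌊Y⌋₊ : ℝ) ^ 90 / 2
  swap
  · left
    push Not at hf
    refine ⟨q₀ :: L.filter (fun q => decide ((Nf ⌊Y⌋₊) ^ 10 ≤ lv q)), ?_, ?_, ?_, ?_, ?_⟩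
    · rw [List.length_cons]
      have h1 := hcnt (can k v) hb hc
      have h2 : (L.filter (fun q => decide ((Nf ⌊Y⌋₊) ^ 10 ≤ lv q))).length ≤
          ((can k v).filter (fun q => decide (Nf M ^ 10 ≤ lv q ∧
            lv q ≤ 3 * Nf ⌊Y⌋₊ ^ 100))).length := by
        have h3 : (L.filter (fun q => decide ((Nf ⌊Y⌋₊) ^ 10 ≤ lv q))).Sublist
            ((can k v).filter (fun q => decide ((Nf ⌊Y⌋₊) ^ 10 ≤ lv q))) := by
          apply List.Sublist.filter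
          rw [hcan]
          exact List.sublist_cons_self _ _
        refine h3.length_le.trans ?_
        have h4 : (can k v).filter (fun q => decide ((Nf ⌊Y⌋₊) ^ 10 ≤ lv q)) =
            ((can k v).filter (fun q => decide (Nf M ^ 10 ≤ lv q ∧
            lv q ≤ 3 * Nf ⌊Y⌋₊ ^ 100))).filter (fun q => decide ((Nf ⌊Y⌋₊) ^ 10 ≤ lv q)) := by
          rw [List.filter_filter]
          apply List.filter_congr
          intro q hq
          have h5 : lv q ≤ 3 * Nf ⌊Y⌋₊ ^ 100 := by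
            have h6 := hlevt q hq
            have h7 : Y < ⌊Y⌋₊ + 1 := Nat.lt_floor_add_one Y
            have h8 : (lv q : ℝ) < ((⌊Y⌋₊ + 2 : ℕ) : ℝ) := by push_cast; linarith
            have h9 : lv q < ⌊Y⌋₊ + 2 := by exact_mod_cast h8
            omega
          have h6 : Nf M ^ 10 ≤ Nf ⌊Y⌋₊ ^ 10 := Nat.pow_le_pow_left hmN 10
          by_cases h7 : (Nf ⌊Y⌋₊) ^ 10 ≤ lv q
          · simp [h7, h5, h6.trans h7]
          · simp [h7]
        rw [h4]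
        exact List.length_filter_le _ _
      omega
    · rw [hcan] at hsort
      refine List.Pairwise.sublist ?_ hsort
      exact List.Sublist.cons_cons _ List.filter_sublist
    · intro q hq
      rw [List.mem_cons] at hq
      rcases hq with rfl | hq
      · exact hh
      · rw [List.mem_filter] at hq
        have h1 : Nf ⌊Y⌋₊ ^ 10 ≤ lv q := by simpa using hq.2
        have h2 := ha q hq.1 ((Nat.pow_le_pow_left hmN 10).trans h1)
        apply h2.2 _ hmN h1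
        have h6 := hlevt q (by rw [hcan]; exact List.mem_cons_of_mem _ hq.1)
        have h7 : Y < ⌊Y⌋₊ + 1 := Nat.lt_floor_add_one Y
        have h8 : (lv q : ℝ) < ((⌊Y⌋₊ + 2 : ℕ) : ℝ) := by push_cast; linarith
        have h9 : lv q < ⌊Y⌋₊ + 2 := by exact_mod_cast h8
        omega
    · have h1 : (q₀ :: L.filter (fun q => decide ((Nf ⌊Y⌋₊) ^ 10 ≤ lv q))).Sublist (can k v) := by
        rw [hcan]
        exact List.Sublist.cons_cons _ List.filter_sublist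
      have h2 := pm_dvd_of_sublist h1
      refine h2.trans ?_
      have := pm_can_mul_rest hk hv
      exact ⟨rest k v, this.symm⟩
    · rw [List.tail_cons]
      linarith
  right
  left
  -- (g)
  have hg : ¬ ∃ q ∈ L, M ≤ lv q := by
    intro hg
    exact hn ⟨hv, q₀, L, hcan, hbig, ha, hb, hc, hd, he, hf, hg⟩
  push Not at hg
  refine ⟨q₀, v / (q₀ - 1), hq0.1, h17, hbig, ?_, hveq⟩
  have hw := hq0.2.2.2
  have h1 : lowp k M (v / (q₀ - 1)) = v / (q₀ - 1) := by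
    unfold lowp
    rw [← hL]
    have : L.filter (fun q => decide (lv q < M)) = L := by
      rw [List.filter_eq_self]
      intro q hq
      simpa using hg q hq
    rw [this, hL]
    exact pm_can_mul_rest hk hw
  rw [← h1]
  exact lowp_mem_SSl hk hw

end P031
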