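import Vale.Agent.P031.Num
import Vale.Agent.P031.Normal

/-! P031: [GPM] mass of the good primes of a cell, and of all bad primes. -/

namespace P031

open Finset Filter Topology
open scoped Classical

namespace GpmAux

theorem sum_exp_le (S : Finset ℕ) : ∑ N ∈ S, Real.exp (-(N : ℝ)) ≤ 8 / 5 := by
  have h0 : ∀ N : ℕ, Real.exp (-(N : ℝ)) = (Real.exp (-1)) ^ N := by
    intro N
    rw [← Real.exp_nat_mul]
    congr 1
    ring
  have h1 : Real.exp (-1) ≤ 3 / 8 := by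
    rw [Real.exp_neg, inv_le_comm₀ (Real.exp_pos _) (by norm_num)]
    have := Real.exp_one_gt_d9
    linarith
  have h2 : 0 ≤ Real.exp (-1) := (Real.exp_pos _).le
  have hs : Summable fun N : ℕ => (Real.exp (-1)) ^ N :=
    summable_geometric_of_lt_one h2 (by linarith)
  simp only [h0]
  calc ∑ N ∈ S, (Real.exp (-1)) ^ N ≤ ∑' N : ℕ, (Real.exp (-1)) ^ N :=
        hs.sum_le_tsum S (fun N _ => by positivity)
    _ = (1 - Real.exp (-1))⁻¹ := tsum_geometric_of_lt_one h2 (by linarith)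
    _ ≤ 8 / 5 := by
        rw [inv_le_comm₀ (by linarith) (by norm_num)]
        linarith

theorem pow15 {m N : ℕ} (hm : 2 ≤ m) (hN : m ≤ N) :
    (m : ℝ) ^ 14 + 1 + 2 * N ≤ (N : ℝ) ^ 15 := by
  have h1 : (2 : ℝ) ≤ m := by exact_mod_cast hm
  have h2 : (m : ℝ) ≤ N := by exact_mod_cast hN
  have h3 : (2 : ℝ) ≤ N := h1.trans h2
  have h4 : (m : ℝ) ^ 14 ≤ (N : ℝ) ^ 14 := pow_le_pow_left₀ (by linarith) h2 14
  have h5 : 4 * (N : ℝ) ≤ (N : ℝ) ^ 14 := by
    have h6 : (2 : ℝ) ^ 13 ≤ (N : ℝ) ^ 13 := pow_le_pow_left₀ (by norm_num) h3 13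
    have h7 : (N : ℝ) ^ 14 = (N : ℝ) ^ 13 * N := pow_succ _ _
    rw [h7]
    have h8 : (4 : ℝ) ≤ (N : ℝ) ^ 13 := le_trans (by norm_num) h6
    exact mul_le_mul_of_nonneg_right h8 (by linarith)
  have h6 : 2 * (N : ℝ) ^ 14 ≤ (N : ℝ) ^ 15 := by
    have h7 : (N : ℝ) ^ 15 = N * (N : ℝ) ^ 14 := by rw [← pow_succ']
    rw [h7]
    exact mul_le_mul_of_nonneg_right h3 (by positivity)
  linarith

theorem exp15 {m N : ℕ} (hm : 2 ≤ m) (hN : m ≤ N) :
    Real.exp (-(N : ℝ) ^ 15) * Real.exp N ≤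
      Real.exp (-(m : ℝ) ^ 14 - 1) * Real.exp (-(N : ℝ)) := by
  rw [← Real.exp_add, ← Real.exp_add]
  apply Real.exp_le_exp.mpr
  have := pow15 hm hN
  linarith

theorem exp1 : Real.exp (-1) ≤ 3 / 8 := by
  rw [Real.exp_neg, inv_le_comm₀ (Real.exp_pos _) (by norm_num)]
  have := Real.exp_one_gt_d9
  linarith

theorem sum15 {m : ℕ} (hm : 2 ≤ m) (S : Finset ℕ) (hS : ∀ N ∈ S, m ≤ N) :
    ∑ N ∈ S, Real.exp (-(N : ℝ) ^ 15) * Real.exp N ≤ 3 / 5 * Real.exp (-(m : ℝ) ^ 14) := by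
  calc ∑ N ∈ S, Real.exp (-(N : ℝ) ^ 15) * Real.exp N
      ≤ ∑ N ∈ S, Real.exp (-(m : ℝ) ^ 14 - 1) * Real.exp (-(N : ℝ)) :=
        Finset.sum_le_sum fun N hN => exp15 hm (hS N hN)
    _ = Real.exp (-(m : ℝ) ^ 14 - 1) * ∑ N ∈ S, Real.exp (-(N : ℝ)) := by rw [Finset.mul_sum]
    _ ≤ Real.exp (-(m : ℝ) ^ 14 - 1) * (8 / 5) :=
        mul_le_mul_of_nonneg_left (sum_exp_le S) (Real.exp_pos _).le
    _ = Real.exp (-(m : ℝ) ^ 14) * (Real.exp (-1) * (8 / 5)) := by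
        rw [sub_eq_add_neg, Real.exp_add]; ring
    _ ≤ Real.exp (-(m : ℝ) ^ 14) * (3 / 5) := by
        apply mul_le_mul_of_nonneg_left _ (Real.exp_pos _).le
        have := exp1
        linarith
    _ = _ := by ring

theorem sub_one_nonneg {q : ℕ} (hq : q.Prime) : (0 : ℝ) ≤ 1 / ((q : ℝ) - 1) := by
  have : (2 : ℝ) ≤ q := by exact_mod_cast hq.two_le
  apply div_nonneg zero_le_one
  linarith

theorem lv_le (q : ℕ) : lv q ≤ q := by
  rcases Nat.eq_zero_or_pos q with h | h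
  · subst h; simp [lv]
  have hq : (0 : ℝ) < q := by exact_mod_cast h
  unfold lv
  apply Nat.floor_le_of_le
  have h1 : Real.log q ≤ q := (Real.log_le_sub_one_of_pos hq).trans (by linarith)
  rcases le_or_gt (Real.log q) 0 with h2 | h2
  · have h3 : Real.log q = 0 := by
      apply le_antisymm h2
      apply Real.log_nonneg
      exact_mod_cast h
    rw [h3, Real.log_zero]
    exact hq.le
  · exact (Real.log_le_sub_one_of_pos h2).trans (by linarith)

theorem sum_bU_le {α : Type*} [DecidableEq α] (S : Finset ℕ) (t : ℕ → Finset α) (f : α → ℝ)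
    (hf : ∀ i ∈ S, ∀ q ∈ t i, 0 ≤ f q) :
    ∑ q ∈ S.biUnion t, f q ≤ ∑ i ∈ S, ∑ q ∈ t i, f q := by
  induction S using Finset.induction_on with
  | empty => simp
  | insert a S ha ih =>
    rw [Finset.biUnion_insert, Finset.sum_insert ha]
    have h1 := ih (fun i hi => hf i (Finset.mem_insert_of_mem hi))
    have h2 := Finset.sum_union_inter (s₁ := t a) (s₂ := S.biUnion t) (f := f)
    have h3 : 0 ≤ ∑ q ∈ t a ∩ S.biUnion t, f q := by
      apply Finset.sum_nonneg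
      intro q hq
      exact hf a (Finset.mem_insert_self _ _) q (Finset.mem_inter.1 hq).1
    linarith

end GpmAux

open GpmAux

theorem gp_mass : ∃ M₀ : ℕ, ∀ M ≥ M₀, ∀ c ≥ M,
    |∑ q ∈ GP (Nf M) c, (1 : ℝ) / ((q : ℝ) - 1) - 1| ≤ Real.exp (-(Nf M : ℝ) ^ 14) := by
  obtain ⟨C, hC0, hC⟩ := cell_mass
  obtain ⟨N₀, hN₀⟩ := nonnormal_sum
  obtain ⟨M₀, hM₀⟩ := Nf_tendsto (max (max N₀ 2) (⌈5 * C⌉₊ + 2))
  refine ⟨M₀, fun M hM c hc => ?_⟩
  have hm := hM₀ M hM
  have hmN : N₀ ≤ Nf M := le_trans (le_trans (le_max_left _ _) (le_max_left _ _)) hm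
  have hm2 : 2 ≤ Nf M := le_trans (le_trans (le_max_right _ _) (le_max_left _ _)) hm
  have hmC : (5 * C : ℝ) + 2 ≤ Nf M := by
    have h1 : ⌈5 * C⌉₊ + 2 ≤ Nf M := le_trans (le_max_right _ _) hm
    have h2 : ((⌈5 * C⌉₊ : ℕ) : ℝ) + 2 ≤ Nf M := by exact_mod_cast h1
    have := Nat.le_ceil (5 * C)
    linarith
  have hcell := hC c
  have hMc : (Nf M) ^ 100 ≤ c := (Nf_pow_le M).trans hc
  -- cell error
  have h1 : C * Real.exp (-(c : ℝ)) ≤ 2 / 5 * Real.exp (-(Nf M : ℝ) ^ 14) := by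
    have h2 : (Nf M : ℝ) ^ 14 + Nf M ≤ c := by
      have h3 : (Nf M : ℝ) ^ 14 + Nf M ≤ (Nf M : ℝ) ^ 100 := by
        have := pow15 hm2 (le_refl (Nf M))
        have h4 : (Nf M : ℝ) ^ 15 ≤ (Nf M : ℝ) ^ 100 :=
          pow_le_pow_right₀ (by exact_mod_cast (by omega : 1 ≤ Nf M)) (by norm_num)
        have h5 : (0 : ℝ) ≤ Nf M := Nat.cast_nonneg _
        generalize (Nf M : ℝ) ^ 100 = P at h4 ⊢
        linarith
      have h4 : (Nf M : ℝ) ^ 100 ≤ c := by
        have := Nat.cast_le (α := ℝ).mpr hMc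
        rwa [Nat.cast_pow] at this
      exact h3.trans h4
    have h3 : C * Real.exp (-(Nf M : ℝ)) ≤ 2 / 5 := by
      have h4 : (Nf M : ℝ) ≤ Real.exp (Nf M : ℝ) := by
        have := Real.add_one_le_exp (Nf M : ℝ); linarith
      rw [Real.exp_neg, ← div_eq_mul_inv, div_le_iff₀ (Real.exp_pos _)]
      linarith
    calc C * Real.exp (-(c : ℝ)) ≤ C * Real.exp (-(Nf M : ℝ) ^ 14 + -(Nf M : ℝ)) := by
          apply mul_le_mul_of_nonneg_left _ hC0.le
          apply Real.exp_le_exp.mpr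
          linarith
      _ = (C * Real.exp (-(Nf M : ℝ))) * Real.exp (-(Nf M : ℝ) ^ 14) := by
          rw [Real.exp_add]; ring
      _ ≤ _ := mul_le_mul_of_nonneg_right h3 (Real.exp_pos _).le
  -- bad primes
  have hsplit : ∑ q ∈ GP (Nf M) c, (1 : ℝ) / ((q : ℝ) - 1) +
      ∑ q ∈ (PL c (c + 1)).filter (fun q => ¬ Good (Nf M) q), (1 : ℝ) / ((q : ℝ) - 1) =
      ∑ q ∈ PL c (c + 1), (1 : ℝ) / ((q : ℝ) - 1) := by
    unfold GP
    exact Finset.sum_filter_add_sum_filter_not _ _ _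
  have hbad0 : 0 ≤ ∑ q ∈ (PL c (c + 1)).filter (fun q => ¬ Good (Nf M) q),
      (1 : ℝ) / ((q : ℝ) - 1) := by
    apply Finset.sum_nonneg
    intro q hq
    exact sub_one_nonneg (prime_of_mem_PL (mem_filter.1 hq).1)
  have hbad : ∑ q ∈ (PL c (c + 1)).filter (fun q => ¬ Good (Nf M) q),
      (1 : ℝ) / ((q : ℝ) - 1) ≤ 3 / 5 * Real.exp (-(Nf M : ℝ) ^ 14) := by
    set S := (Icc (Nf M) c).filter (fun N => N ^ 10 ≤ c ∧ c + 2 ≤ 3 * N ^ 100) with hS
    have hsub : (PL c (c + 1)).filter (fun q => ¬ Good (Nf M) q) ⊆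
        S.biUnion (fun N => (PL c (c + 1)).filter (fun q => ¬ Normal N q)) := by
      intro q hq
      rw [mem_filter] at hq
      obtain ⟨hq1, hq2⟩ := hq
      have hp := prime_of_mem_PL hq1
      have hl := lv_of_mem_PL hq1
      unfold Good at hq2
      push Not at hq2
      obtain ⟨N, hN1, hN2, hN3, hN4⟩ := hq2 hp
      rw [hl] at hN2 hN3
      rw [mem_biUnion]
      refine ⟨N, ?_, mem_filter.2 ⟨hq1, hN4⟩⟩
      rw [hS, mem_filter, mem_Icc]
      exact ⟨⟨hN1, (Nat.le_self_pow (by norm_num) N).trans hN2⟩, hN2, hN3⟩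
    calc ∑ q ∈ (PL c (c + 1)).filter (fun q => ¬ Good (Nf M) q), (1 : ℝ) / ((q : ℝ) - 1)
        ≤ ∑ q ∈ S.biUnion (fun N => (PL c (c + 1)).filter (fun q => ¬ Normal N q)),
          (1 : ℝ) / ((q : ℝ) - 1) := by
          apply Finset.sum_le_sum_of_subset_of_nonneg hsub
          intro q hq _
          rw [mem_biUnion] at hq
          obtain ⟨N, _, hq⟩ := hq
          exact sub_one_nonneg (prime_of_mem_PL (mem_filter.1 hq).1)
      _ ≤ ∑ N ∈ S, ∑ q ∈ (PL c (c + 1)).filter (fun q => ¬ Normal N q),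
          (1 : ℝ) / ((q : ℝ) - 1) := by
          apply sum_bU_le
          intro N _ q hq
          exact sub_one_nonneg (prime_of_mem_PL (mem_filter.1 hq).1)
      _ ≤ ∑ N ∈ S, Real.exp (-(N : ℝ) ^ 15) * Real.exp N := by
          apply Finset.sum_le_sum
          intro N hN
          rw [hS, mem_filter, mem_Icc] at hN
          have h2 := hN₀ N (hmN.trans hN.1.1) c hN.2.1 hN.2.2
          refine h2.trans ?_
          have h3 : (1 : ℝ) ≤ Real.exp N := Real.one_le_exp (Nat.cast_nonneg _)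
          have h4 := Real.exp_pos (-(N : ℝ) ^ 15)
          nlinarith
      _ ≤ _ := sum15 hm2 S (fun N hN => by
          rw [hS, mem_filter, mem_Icc] at hN
          exact hN.1.1)
  rw [abs_le] at hcell ⊢
  constructor <;> linarith [hcell.1, hcell.2]

/-- total mass of the primes of level `≥ (Nf M)^10` which are not `Good`. -/
theorem bad_mass : ∃ M₀ : ℕ, ∀ M ≥ M₀, ∀ T : ℕ,
    ∑ q ∈ (Nat.primesLE T).filter (fun q => (Nf M) ^ 10 ≤ lv q ∧ ¬ Good (Nf M) q),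
      (1 : ℝ) / ((q : ℝ) - 1) ≤ Real.exp (-(Nf M : ℝ) ^ 14) := by
  obtain ⟨N₀, hN₀⟩ := nonnormal_sum
  obtain ⟨N₁, hN₁⟩ : ∃ N₁ : ℕ, ∀ N ≥ N₁, 3 * (N : ℝ) ^ 100 ≤ Real.exp N := by
    have h := (Real.tendsto_pow_mul_exp_neg_atTop_nhds_zero 100).comp
      (tendsto_natCast_atTop_atTop (R := ℝ))
    have h2 := (h.eventually (gt_mem_nhds (show (0 : ℝ) < 1 / 3 by norm_num))).exists_forall_of_atTop
    obtain ⟨N₁, hN₁⟩ := h2
    refine ⟨N₁, fun N hN => ?_⟩
    have h3 := hN₁ N hN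
    simp only [Function.comp] at h3
    rw [Real.exp_neg, ← div_eq_mul_inv, div_lt_iff₀ (Real.exp_pos _)] at h3
    generalize (N : ℝ) ^ 100 = P at h3 ⊢
    linarith
  obtain ⟨M₀, hM₀⟩ := Nf_tendsto (max (max N₀ 2) N₁)
  refine ⟨M₀, fun M hM T => ?_⟩
  have hm := hM₀ M hM
  have hmN : N₀ ≤ Nf M := le_trans (le_trans (le_max_left _ _) (le_max_left _ _)) hm
  have hm2 : 2 ≤ Nf M := le_trans (le_trans (le_max_right _ _) (le_max_left _ _)) hm
  have hm1 : N₁ ≤ Nf M := le_trans (le_max_right _ _) hm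
  set S := Icc (Nf M) T with hS
  have hsub : (Nat.primesLE T).filter (fun q => (Nf M) ^ 10 ≤ lv q ∧ ¬ Good (Nf M) q) ⊆
      S.biUnion (fun N => ((range (3 * N ^ 100)).filter
        (fun c => N ^ 10 ≤ c ∧ c + 2 ≤ 3 * N ^ 100)).biUnion
        (fun c => (PL c (c + 1)).filter (fun q => ¬ Normal N q))) := by
    intro q hq
    rw [mem_filter, Nat.mem_primesLE] at hq
    obtain ⟨⟨hqT, hp⟩, hq1, hq2⟩ := hq
    unfold Good at hq2
    push Not at hq2
    obtain ⟨N, hN1, hN2, hN3, hN4⟩ := hq2 hp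
    rw [mem_biUnion]
    refine ⟨N, ?_, ?_⟩
    · rw [hS, mem_Icc]
      exact ⟨hN1, ((Nat.le_self_pow (by norm_num) N).trans hN2).trans ((lv_le q).trans hqT)⟩
    · rw [mem_biUnion]
      refine ⟨lv q, ?_, ?_⟩
      · rw [mem_filter, mem_range]
        exact ⟨by omega, hN2, hN3⟩
      · rw [mem_filter, mem_PL_iff]
        exact ⟨⟨hp, le_rfl, by omega⟩, hN4⟩
  calc ∑ q ∈ (Nat.primesLE T).filter (fun q => (Nf M) ^ 10 ≤ lv q ∧ ¬ Good (Nf M) q),
        (1 : ℝ) / ((q : ℝ) - 1)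
      ≤ ∑ q ∈ S.biUnion (fun N => ((range (3 * N ^ 100)).filter
        (fun c => N ^ 10 ≤ c ∧ c + 2 ≤ 3 * N ^ 100)).biUnion
        (fun c => (PL c (c + 1)).filter (fun q => ¬ Normal N q))), (1 : ℝ) / ((q : ℝ) - 1) := by
        apply Finset.sum_le_sum_of_subset_of_nonneg hsub
        intro q hq _
        rw [mem_biUnion] at hq
        obtain ⟨N, _, hq⟩ := hq
        rw [mem_biUnion] at hq
        obtain ⟨c, _, hq⟩ := hq
        exact sub_one_nonneg (prime_of_mem_PL (mem_filter.1 hq).1)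
    _ ≤ ∑ N ∈ S, ∑ q ∈ ((range (3 * N ^ 100)).filter
        (fun c => N ^ 10 ≤ c ∧ c + 2 ≤ 3 * N ^ 100)).biUnion
        (fun c => (PL c (c + 1)).filter (fun q => ¬ Normal N q)), (1 : ℝ) / ((q : ℝ) - 1) := by
        apply sum_bU_le
        intro N _ q hq
        rw [mem_biUnion] at hq
        obtain ⟨c, _, hq⟩ := hq
        exact sub_one_nonneg (prime_of_mem_PL (mem_filter.1 hq).1)
    _ ≤ ∑ N ∈ S, Real.exp (-(N : ℝ) ^ 15) * Real.exp N := by
        apply Finset.sum_le_sum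
        intro N hN
        rw [hS, mem_Icc] at hN
        calc ∑ q ∈ ((range (3 * N ^ 100)).filter
                (fun c => N ^ 10 ≤ c ∧ c + 2 ≤ 3 * N ^ 100)).biUnion
                (fun c => (PL c (c + 1)).filter (fun q => ¬ Normal N q)), (1 : ℝ) / ((q : ℝ) - 1)
            ≤ ∑ c ∈ (range (3 * N ^ 100)).filter (fun c => N ^ 10 ≤ c ∧ c + 2 ≤ 3 * N ^ 100),
              ∑ q ∈ (PL c (c + 1)).filter (fun q => ¬ Normal N q), (1 : ℝ) / ((q : ℝ) - 1) := by
              apply sum_bU_le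
              intro c _ q hq
              exact sub_one_nonneg (prime_of_mem_PL (mem_filter.1 hq).1)
          _ ≤ ∑ c ∈ (range (3 * N ^ 100)).filter (fun c => N ^ 10 ≤ c ∧ c + 2 ≤ 3 * N ^ 100),
              Real.exp (-(N : ℝ) ^ 15) := by
              apply Finset.sum_le_sum
              intro c hc
              rw [mem_filter] at hc
              exact hN₀ N (hmN.trans hN.1) c hc.2.1 hc.2.2
          _ ≤ (3 * (N : ℝ) ^ 100) * Real.exp (-(N : ℝ) ^ 15) := by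
              rw [Finset.sum_const, nsmul_eq_mul]
              apply mul_le_mul_of_nonneg_right _ (Real.exp_pos _).le
              have h1 : ((range (3 * N ^ 100)).filter
                (fun c => N ^ 10 ≤ c ∧ c + 2 ≤ 3 * N ^ 100)).card ≤ 3 * N ^ 100 :=
                (Finset.card_filter_le _ _).trans (by rw [card_range])
              have h2 := Nat.cast_le (α := ℝ).mpr h1
              rw [Nat.cast_mul, Nat.cast_pow] at h2
              exact h2
          _ ≤ Real.exp N * Real.exp (-(N : ℝ) ^ 15) :=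
              mul_le_mul_of_nonneg_right (hN₁ N (hm1.trans hN.1)) (Real.exp_pos _).le
          _ = _ := mul_comm _ _
    _ ≤ 3 / 5 * Real.exp (-(Nf M : ℝ) ^ 14) := sum15 hm2 S (fun N hN => by
        rw [hS, mem_Icc] at hN
        exact hN.1)
    _ ≤ Real.exp (-(Nf M : ℝ) ^ 14) := by
        have := Real.exp_pos (-(Nf M : ℝ) ^ 14)
        linarith

end P031
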