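import Vale.Agent.P031.RgmDefs

/-! P031: [NUM] numerical facts about the regime. -/

namespace P031

open Finset Filter Topology
open scoped Classical

theorem Nf_tendsto (n : ℕ) : ∃ M₀ : ℕ, ∀ M ≥ M₀, n ≤ Nf M :=
  ⟨n ^ 100, fun _ hM => le_Nf hM⟩

namespace NumAux

theorem log_sq_small (a b : ℝ) (B : ℝ) : ∃ m₀ : ℕ, ∀ m ≥ m₀,
    a * (2 + b * Real.log ((m : ℝ) + 1)) ^ 2 - m ≤ B := by
  have h1 : (fun x : ℝ => Real.log x ^ 2) =o[atTop] (id : ℝ → ℝ) :=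
    Real.isLittleO_pow_log_id_atTop
  have h2 : (fun x : ℝ => Real.log x ^ 1) =o[atTop] (id : ℝ → ℝ) :=
    Real.isLittleO_pow_log_id_atTop
  have hc : (0 : ℝ) < 1 / (4 * (|a| * b ^ 2 + 1)) := by positivity
  have hd : (0 : ℝ) < 1 / (4 * (4 * |a| * |b| + 1)) := by positivity
  have e1 := h1.def hc
  have e2 := h2.def hd
  have e3 : ∀ᶠ x : ℝ in atTop, 4 * |a| + 1 + |B| + 1 ≤ x / 4 := by
    filter_upwards [eventually_ge_atTop (4 * (4 * |a| + 1 + |B| + 1))] with x hx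
    linarith
  have e4 := (tendsto_natCast_atTop_atTop (R := ℝ)).comp (tendsto_add_atTop_nat 1)
  obtain ⟨m₀, hm₀⟩ := (e4.eventually ((e1.and e2).and (e3.and (eventually_ge_atTop 1)))).exists_forall_of_atTop
  refine ⟨m₀, fun m hm => ?_⟩
  obtain ⟨⟨f1, f2⟩, f3, f4⟩ := hm₀ m hm
  simp only [Function.comp, Nat.cast_add, Nat.cast_one, id, pow_one] at f1 f2 f3 f4
  set x : ℝ := (m : ℝ) + 1 with hx
  have hx1 : 1 ≤ x := f4
  have hL : 0 ≤ Real.log x := Real.log_nonneg hx1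
  rw [Real.norm_of_nonneg (by positivity), Real.norm_of_nonneg (by linarith)] at f1
  rw [Real.norm_of_nonneg hL, Real.norm_of_nonneg (by linarith)] at f2
  set L := Real.log x with hLdef
  have g1 : |a| * b ^ 2 * L ^ 2 ≤ x / 4 := by
    have : (|a| * b ^ 2 + 1) * L ^ 2 ≤ (|a| * b ^ 2 + 1) * (1 / (4 * (|a| * b ^ 2 + 1)) * x) :=
      mul_le_mul_of_nonneg_left f1 (by positivity)
    have e : (|a| * b ^ 2 + 1) * (1 / (4 * (|a| * b ^ 2 + 1)) * x) = x / 4 := by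
      field_simp
    nlinarith [sq_nonneg L]
  have g2 : 4 * |a| * |b| * L ≤ x / 4 := by
    have : (4 * |a| * |b| + 1) * L ≤ (4 * |a| * |b| + 1) * (1 / (4 * (4 * |a| * |b| + 1)) * x) :=
      mul_le_mul_of_nonneg_left f2 (by positivity)
    have e : (4 * |a| * |b| + 1) * (1 / (4 * (4 * |a| * |b| + 1)) * x) = x / 4 := by
      field_simp
    nlinarith
  have g3 : a * (2 + b * L) ^ 2 ≤ |a| * (4 + 4 * |b| * L + b ^ 2 * L ^ 2) := by
    have h5 : a * (2 + b * L) ^ 2 ≤ |a| * (2 + b * L) ^ 2 :=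
      mul_le_mul_of_nonneg_right (le_abs_self a) (sq_nonneg _)
    refine h5.trans (mul_le_mul_of_nonneg_left ?_ (abs_nonneg a))
    have h6 : b * L ≤ |b| * L := mul_le_mul_of_nonneg_right (le_abs_self b) hL
    nlinarith
  have hB : -|B| ≤ B := neg_abs_le B
  have : (m : ℝ) = x - 1 := by rw [hx]; ring
  rw [this]
  nlinarith

end NumAux

/-- powers of logs are negligible against `exp(-m)`. -/
theorem num_small (K : ℕ) (A ε : ℝ) (hε : 0 < ε) : ∃ M₀ : ℕ, ∀ M ≥ M₀, ∀ Y : ℝ, Rgm K M Y →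
    Real.exp (A * (Real.log (Y + 3)) ^ 2) * Real.exp (-(Nf M : ℝ)) ≤ ε := by
  obtain ⟨m₀, hm₀⟩ := NumAux.log_sq_small |A| (100 * K) (Real.log ε)
  obtain ⟨M₀, hM₀⟩ := Nf_tendsto m₀
  refine ⟨M₀, fun M hM Y hY => ?_⟩
  have h1 := hm₀ (Nf M) (hM₀ M hM)
  have hY0 : 0 ≤ Y := le_trans (by positivity) hY.1
  have h2 : Real.log (Y + 3) ≤ 2 + 100 * K * Real.log ((Nf M : ℝ) + 1) := by
    have h3 : (M : ℝ) + 1 ≤ ((Nf M : ℝ) + 1) ^ 100 := by
      have h3' : (((M + 1 : ℕ) : ℝ)) ≤ (((Nf M + 1) ^ 100 : ℕ) : ℝ) := Nat.cast_le.mpr (lt_Nf_succ M)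
      rw [Nat.cast_pow, Nat.cast_add, Nat.cast_add, Nat.cast_one] at h3'
      exact h3'
    have h4 : Y + 3 ≤ 4 * (((Nf M : ℝ) + 1) ^ 100) ^ K := by
      have h5 : ((M : ℝ) + 1) ^ K ≤ (((Nf M : ℝ) + 1) ^ 100) ^ K :=
        pow_le_pow_left₀ (by positivity) h3 K
      have h6 : (1 : ℝ) ≤ (((Nf M : ℝ) + 1) ^ 100) ^ K := by
        apply one_le_pow₀
        apply one_le_pow₀
        have : (0 : ℝ) ≤ Nf M := Nat.cast_nonneg _
        linarith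
      have := hY.2
      linarith
    have h7 : Real.log (Y + 3) ≤ Real.log (4 * (((Nf M : ℝ) + 1) ^ 100) ^ K) :=
      Real.log_le_log (by linarith) h4
    rw [Real.log_mul (by norm_num) (by positivity), Real.log_pow, Real.log_pow] at h7
    have h8 : Real.log 4 ≤ 2 := by
      have : Real.log 4 ≤ Real.log (Real.exp 2) := by
        apply Real.log_le_log (by norm_num)
        have := Real.add_one_le_exp (1 : ℝ)
        have e : Real.exp 2 = Real.exp 1 * Real.exp 1 := by rw [← Real.exp_add]; norm_num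
        rw [e]; nlinarith
      rwa [Real.log_exp] at this
    push_cast at h7
    nlinarith
  have h3 : 0 ≤ Real.log (Y + 3) := Real.log_nonneg (by linarith)
  have h4 : A * (Real.log (Y + 3)) ^ 2 ≤ |A| * (2 + 100 * K * Real.log ((Nf M : ℝ) + 1)) ^ 2 := by
    have h5 : A * (Real.log (Y + 3)) ^ 2 ≤ |A| * (Real.log (Y + 3)) ^ 2 :=
      mul_le_mul_of_nonneg_right (le_abs_self A) (sq_nonneg _)
    exact h5.trans (mul_le_mul_of_nonneg_left (pow_le_pow_left₀ h3 h2 2) (abs_nonneg A))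
  rw [← Real.exp_add, ← Real.exp_log hε]
  apply Real.exp_le_exp.mpr
  linarith

namespace NumAux

theorem M_le (M : ℕ) : (M : ℝ) + 1 ≤ ((Nf M : ℝ) + 1) ^ 100 := by
  have h3' : (((M + 1 : ℕ) : ℝ)) ≤ (((Nf M + 1) ^ 100 : ℕ) : ℝ) := Nat.cast_le.mpr (lt_Nf_succ M)
  rw [Nat.cast_pow, Nat.cast_add, Nat.cast_add, Nat.cast_one] at h3'
  exact h3'

theorem exp_half : Real.exp (1 / 2) ≤ 33 / 20 := by
  have h6 : Real.exp (1 / 2) ^ 2 = Real.exp 1 := by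
    rw [← Real.exp_nat_mul]; norm_num
  have h7 := Real.exp_one_lt_d9
  have h8 : 0 ≤ Real.exp (1 / 2) := (Real.exp_pos _).le
  nlinarith

theorem pow_ratio (m : ℝ) (hm : 200 ≤ m) : (m + 1) ^ 100 ≤ (33 / 20 : ℝ) * m ^ 100 := by
  have h4 : (m + 1) = m * (1 + 1 / m) := by field_simp
  rw [h4, mul_pow, mul_comm]
  apply mul_le_mul_of_nonneg_right _ (by positivity)
  have h5 : (1 + 1 / m) ≤ Real.exp (1 / m) := by
    have := Real.add_one_le_exp (1 / m); linarith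
  calc (1 + 1 / m) ^ 100 ≤ (Real.exp (1 / m)) ^ 100 :=
        pow_le_pow_left₀ (by positivity) h5 100
    _ = Real.exp (100 * (1 / m)) := by rw [← Real.exp_nat_mul]; norm_num
    _ ≤ Real.exp (1 / 2) := by
        apply Real.exp_le_exp.mpr
        rw [mul_one_div, div_le_iff₀ (by linarith)]
        linarith
    _ ≤ 33 / 20 := exp_half

theorem comb (c P Q : ℝ) (h1 : c + 1 ≤ P) (h2 : P ≤ (33 / 20 : ℝ) * Q) (h3 : 20 ≤ Q) :
    c + 4 ≤ 2 * Q := by linarith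

theorem Nf_pos_of (M : ℕ) (h : 1 ≤ Nf M) : 0 < M := by
  rcases Nat.eq_zero_or_pos M with h' | h'
  · have h7 := Nf_pow_le M
    have h8 : 1 ≤ Nf M ^ 100 := Nat.one_le_pow _ _ h
    have h9 := h8.trans h7
    rw [h'] at h9
    exact absurd h9 (by norm_num)
  · exact h'

theorem pow_ten (m : ℝ) (hm : 15 ≤ m) : (m + 1) ^ 10 ≤ 2 * m ^ 10 := by
  have h8 : (m + 1) = m * (1 + 1 / m) := by field_simp
  rw [h8, mul_pow, mul_comm]
  apply mul_le_mul_of_nonneg_right _ (by positivity)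
  have h9 : 1 + 1 / m ≤ 16 / 15 := by
    have : 1 / m ≤ 1 / 15 := one_div_le_one_div_of_le (by norm_num) hm
    linarith
  calc (1 + 1 / m) ^ 10 ≤ (16 / 15 : ℝ) ^ 10 := pow_le_pow_left₀ (by positivity) h9 10
    _ ≤ 2 := by norm_num

end NumAux

open NumAux in
theorem two_Nf_pow : ∃ M₀ : ℕ, ∀ c ≥ M₀, c + 4 ≤ 2 * (Nf c) ^ 100 := by
  obtain ⟨M₀, hM₀⟩ := Nf_tendsto 200
  refine ⟨M₀, fun c hc => ?_⟩
  have hmR : (200 : ℝ) ≤ Nf c := by exact_mod_cast hM₀ c hc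
  have h4 : (20 : ℝ) ≤ (Nf c : ℝ) ^ 100 := by
    calc (20 : ℝ) ≤ (Nf c : ℝ) ^ 1 := by rw [pow_one]; linarith
      _ ≤ (Nf c : ℝ) ^ 100 := pow_le_pow_right₀ (by linarith) (by norm_num)
  have h6 := comb _ _ _ (M_le c) (pow_ratio _ hmR) h4
  have h7 : (((c + 4 : ℕ) : ℝ)) ≤ ((2 * Nf c ^ 100 : ℕ) : ℝ) := by
    rw [Nat.cast_mul, Nat.cast_pow, Nat.cast_add, Nat.cast_ofNat, Nat.cast_ofNat]
    exact h6
  exact Nat.cast_le.mp h7

open NumAux in
theorem th_small (ε : ℝ) (hε : 0 < ε) : ∃ M₀ : ℕ, ∀ M ≥ M₀, 0 < th M ∧ th M ≤ ε ∧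
    th M ≤ 8 * (M : ℝ) ^ (-(1 / 10) : ℝ) := by
  obtain ⟨M₁, hM₁⟩ := Nf_tendsto 15
  obtain ⟨M₂, hM₂⟩ := Nf_tendsto (⌈4 / ε⌉₊ + 1)
  refine ⟨max M₁ M₂, fun M hM => ?_⟩
  have h1 := hM₁ M (le_trans (le_max_left _ _) hM)
  have h2 := hM₂ M (le_trans (le_max_right _ _) hM)
  have hM1 : 0 < M := Nf_pos_of M (by omega)
  have hMle := M_le M
  generalize hm : Nf M = m at h1 h2 hMle
  have hmR : (15 : ℝ) ≤ m := by exact_mod_cast h1
  have hm2 : 4 / ε ≤ m := by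
    have := Nat.le_ceil (4 / ε)
    have h2' : ((⌈4 / ε⌉₊ : ℕ) : ℝ) + 1 ≤ m := by exact_mod_cast h2
    exact le_trans this (le_trans (by linarith) h2')
  have hmp : (m : ℝ) ≤ (m : ℝ) ^ 10 := by
    calc (m : ℝ) = (m : ℝ) ^ 1 := (pow_one _).symm
      _ ≤ (m : ℝ) ^ 10 := pow_le_pow_right₀ (le_trans (by norm_num) hmR) (by norm_num)
  have hth : th M = 4 / (m : ℝ) ^ 10 := by unfold th; rw [hm]
  have hm0 : (0 : ℝ) < m := lt_of_lt_of_le (by norm_num) hmR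
  rw [hth]
  refine ⟨by positivity, ?_, ?_⟩
  · rw [div_le_iff₀ (by positivity)]
    rw [div_le_iff₀ hε] at hm2
    calc (4 : ℝ) ≤ m * ε := hm2
      _ ≤ (m : ℝ) ^ 10 * ε := mul_le_mul_of_nonneg_right hmp hε.le
      _ = _ := mul_comm _ _
  · have hMR : (0 : ℝ) < M := by exact_mod_cast hM1
    have h4 : (M : ℝ) ^ (1 / 10 : ℝ) ≤ 2 * (m : ℝ) ^ 10 := by
      have h5 : (M : ℝ) ≤ ((m : ℝ) + 1) ^ 100 := le_trans (le_add_of_nonneg_right zero_le_one) hMle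
      have h6 : (M : ℝ) ^ (1 / 10 : ℝ) ≤ (((m : ℝ) + 1) ^ 100) ^ (1 / 10 : ℝ) :=
        Real.rpow_le_rpow hMR.le h5 (by norm_num)
      have h7 : (((m : ℝ) + 1) ^ 100) ^ (1 / 10 : ℝ) = ((m : ℝ) + 1) ^ 10 := by
        rw [← Real.rpow_natCast, ← Real.rpow_mul (by positivity), ← Real.rpow_natCast]
        norm_num
      rw [h7] at h6
      exact h6.trans (pow_ten _ hmR)
    have h5 : (0 : ℝ) < (M : ℝ) ^ (1 / 10 : ℝ) := Real.rpow_pos_of_pos hMR _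
    rw [Real.rpow_neg hMR.le, ← div_eq_mul_inv, div_le_div_iff₀ (by positivity) h5]
    calc 4 * (M : ℝ) ^ (1 / 10 : ℝ) ≤ 4 * (2 * (m : ℝ) ^ 10) :=
          mul_le_mul_of_nonneg_left h4 (by norm_num)
      _ = 8 * (m : ℝ) ^ 10 := by ring

/-- the error factor of `t_bound`, `a_bound` for `k = kk M`. -/
theorem kk_exp (C : ℝ) : ∃ A : ℝ, 0 < A ∧ ∀ K : ℕ, 1 ≤ K → ∃ M₀ : ℕ, ∀ M ≥ M₀, ∀ Y : ℝ,
    Rgm K M Y → ∀ t : ℝ, 16 ≤ t → Real.log (Real.log t) ≤ Y + 1 →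
    Real.exp (C * ((kk M : ℝ) + 1 + (Real.log (Real.log (Real.log t) + 2)) ^ 2)) ≤
      Real.exp (A * (Real.log (Y + 3)) ^ 2) := by
  refine ⟨4 * |C| + 1, by positivity, fun K hK => ⟨1, fun M hM Y hY t ht hty => ?_⟩⟩
  apply Real.exp_le_exp.mpr
  have hM1 : (1 : ℝ) ≤ M := by exact_mod_cast hM
  have hMY : (M : ℝ) ≤ Y := by
    calc (M : ℝ) = (M : ℝ) ^ 1 := (pow_one _).symm
      _ ≤ (M : ℝ) ^ K := pow_le_pow_right₀ hM1 hK
      _ ≤ Y := hY.1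
  set L := Real.log (Y + 3) with hL
  have hL1 : 1 ≤ L := by
    rw [hL, Real.le_log_iff_exp_le (by linarith)]
    have := Real.exp_one_lt_d9
    linarith
  have h1 : (kk M : ℝ) ≤ 2 * L := by
    have h2 : (2 : ℝ) ^ (kk M) ≤ M := by
      exact_mod_cast Nat.pow_log_le_self 2 (by omega)
    have h3 : Real.log ((2 : ℝ) ^ (kk M)) ≤ L := by
      rw [hL]
      exact Real.log_le_log (by positivity) (by linarith)
    rw [Real.log_pow] at h3
    have h4 := Real.log_two_gt_d9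
    have h5 : (0 : ℝ) ≤ kk M := Nat.cast_nonneg _
    nlinarith
  have hlog : 0 < Real.log t := Real.log_pos (by linarith)
  have h2 : 0 ≤ Real.log (Real.log t) := by
    apply Real.log_nonneg
    rw [Real.le_log_iff_exp_le (by linarith)]
    have := Real.exp_one_lt_d9
    linarith
  have h3 : 0 ≤ Real.log (Real.log (Real.log t) + 2) := Real.log_nonneg (by linarith)
  have h4 : Real.log (Real.log (Real.log t) + 2) ≤ L :=
    Real.log_le_log (by linarith) (by linarith)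
  have h5 : (Real.log (Real.log (Real.log t) + 2)) ^ 2 ≤ L ^ 2 := pow_le_pow_left₀ h3 h4 2
  have h6 : (kk M : ℝ) + 1 + (Real.log (Real.log (Real.log t) + 2)) ^ 2 ≤ 4 * L ^ 2 := by
    nlinarith
  have h7 : 0 ≤ (kk M : ℝ) + 1 + (Real.log (Real.log (Real.log t) + 2)) ^ 2 := by positivity
  calc C * ((kk M : ℝ) + 1 + (Real.log (Real.log (Real.log t) + 2)) ^ 2)
      ≤ |C| * ((kk M : ℝ) + 1 + (Real.log (Real.log (Real.log t) + 2)) ^ 2) :=
        mul_le_mul_of_nonneg_right (le_abs_self C) h7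
    _ ≤ |C| * (4 * L ^ 2) := mul_le_mul_of_nonneg_left h6 (abs_nonneg C)
    _ ≤ (4 * |C| + 1) * L ^ 2 := by nlinarith [sq_nonneg L]

end P031
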