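import Vale.Agent.P031.TRecB

/-! P031, [TREC]: totient-type sums (Pomerance recursion). -/

namespace P031

open Finset Filter Topology
open scoped Classical

namespace TR

theorem log512 : Real.log 512 ≤ 6.24 := by
  have h2 : Real.log 512 = 9 * Real.log 2 := by
    rw [show (512 : ℝ) = 2 ^ 9 by norm_num, Real.log_pow]
    norm_num
  have h4 := Real.log_two_lt_d9
  rw [h2]
  linarith

theorem log_nine {y : ℝ} (hy : 0 < y) : Real.log (9 * y) ≤ 5.24 + 9 / 512 * y := by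
  have h1 : Real.log (9 * y) = Real.log 512 + Real.log (9 * y / 512) := by
    rw [← Real.log_mul (by norm_num) (by positivity)]
    congr 1
    field_simp
  have h2 := Real.log_le_sub_one_of_pos (show 0 < 9 * y / 512 by positivity)
  have h3 := log512
  linarith

/-- the recursion step in exponential form -/
theorem step_calc {C1 K k y b : ℝ} (hC1 : 1 ≤ C1) (hK : 100 + 3 * C1 ≤ K) (hk : 0 ≤ k)
    (hy : 40 ≤ y) (hb0 : 1 ≤ b) (hb : b ≤ 6 / 10 * y) :
    C1 * (y + 1) ^ 24 * Real.exp (K * (k + 1 + Real.log (b + 2) ^ 2)) + C1 * Real.exp (3 * k) ≤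
      Real.exp (K * (k + 1 + Real.log (y + 2) ^ 2)) := by
  obtain ⟨a, ha⟩ : ∃ a, a = Real.log (y + 2) := ⟨_, rfl⟩
  obtain ⟨c, hc⟩ : ∃ c, c = Real.log (b + 2) := ⟨_, rfl⟩
  rw [← ha, ← hc]
  have ha1 : 1 ≤ a := by
    rw [ha, Real.le_log_iff_exp_le (by linarith)]
    have := Real.exp_one_lt_d9
    linarith
  have hc0 : 0 ≤ c := by
    rw [hc]
    exact Real.log_nonneg (by linarith)
  have hca : c ≤ a - 35 / 100 := by
    have h1 : b + 2 ≤ 65 / 100 * (y + 2) := by linarith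
    have h2 : c ≤ Real.log (65 / 100 * (y + 2)) := by
      rw [hc]
      exact Real.log_le_log (by linarith) h1
    rw [Real.log_mul (by norm_num) (by linarith), ← ha] at h2
    have h3 := Real.log_le_sub_one_of_pos (show (0 : ℝ) < 65 / 100 by norm_num)
    linarith
  have hsq : c ^ 2 ≤ a ^ 2 - 35 / 100 * a := by nlinarith
  have hpow : (y + 1) ^ 24 ≤ Real.exp (24 * a) := by
    have h1 : Real.exp (24 * a) = (y + 2) ^ 24 := by
      rw [ha, show (24 : ℝ) = ((24 : ℕ) : ℝ) by norm_num, Real.exp_nat_mul,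
        Real.exp_log (by linarith)]
    rw [h1]
    exact pow_le_pow_left₀ (by linarith) (by linarith) 24
  have hCe : C1 ≤ Real.exp (C1 - 1) := by
    have := Real.add_one_le_exp (C1 - 1)
    linarith
  have hhalf : Real.exp (-1 : ℝ) ≤ 1 / 2 := by
    have h1 := Real.exp_one_gt_d9
    rw [Real.exp_neg, inv_le_comm₀ (Real.exp_pos _) (by norm_num)]
    norm_num
    linarith
  have hK0 : 0 ≤ K := by linarith
  have h1 : C1 * (y + 1) ^ 24 * Real.exp (K * (k + 1 + c ^ 2)) ≤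
      1 / 2 * Real.exp (K * (k + 1 + a ^ 2)) := by
    calc C1 * (y + 1) ^ 24 * Real.exp (K * (k + 1 + c ^ 2))
        ≤ Real.exp (C1 - 1) * Real.exp (24 * a) * Real.exp (K * (k + 1 + c ^ 2)) := by
          refine mul_le_mul_of_nonneg_right ?_ (Real.exp_pos _).le
          exact mul_le_mul hCe hpow (by positivity) (Real.exp_pos _).le
      _ = Real.exp (C1 - 1 + 24 * a + K * (k + 1 + c ^ 2)) := by
          rw [← Real.exp_add, ← Real.exp_add]
      _ ≤ Real.exp (-1 + K * (k + 1 + a ^ 2)) := by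
          refine Real.exp_le_exp.2 ?_
          have h2 : K * c ^ 2 ≤ K * (a ^ 2 - 35 / 100 * a) := mul_le_mul_of_nonneg_left hsq hK0
          have h3 : (100 + 3 * C1) * a ≤ K * a := mul_le_mul_of_nonneg_right hK (by linarith)
          nlinarith
      _ = Real.exp (-1) * Real.exp (K * (k + 1 + a ^ 2)) := Real.exp_add _ _
      _ ≤ 1 / 2 * Real.exp (K * (k + 1 + a ^ 2)) :=
          mul_le_mul_of_nonneg_right hhalf (Real.exp_pos _).le
  have h2 : C1 * Real.exp (3 * k) ≤ 1 / 2 * Real.exp (K * (k + 1 + a ^ 2)) := by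
    calc C1 * Real.exp (3 * k) ≤ Real.exp (C1 - 1) * Real.exp (3 * k) :=
          mul_le_mul_of_nonneg_right hCe (Real.exp_pos _).le
      _ = Real.exp (C1 - 1 + 3 * k) := by rw [← Real.exp_add]
      _ ≤ Real.exp (-1 + K * (k + 1 + a ^ 2)) := by
          refine Real.exp_le_exp.2 ?_
          have h3 : 0 ≤ K * a ^ 2 := by positivity
          have h4 : (100 + 3 * C1) * (k + 1) ≤ K * (k + 1) :=
            mul_le_mul_of_nonneg_right hK (by linarith)
          nlinarith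
      _ = Real.exp (-1) * Real.exp (K * (k + 1 + a ^ 2)) := Real.exp_add _ _
      _ ≤ 1 / 2 * Real.exp (K * (k + 1 + a ^ 2)) :=
          mul_le_mul_of_nonneg_right hhalf (Real.exp_pos _).le
  linarith

/-- trivial range -/
theorem triv_calc {Ct K k y : ℝ} (hCt : 0 < Ct) (hK : 400 + 3 * Ct ≤ K) (hk : 0 ≤ k)
    (_hy0 : 0 ≤ y) (hy : y ≤ 40 ∨ y ≤ 2 * k) :
    Ct * Real.exp (8 * y) ≤ Real.exp (K * (k + 1 + Real.log (y + 2) ^ 2)) := by
  have hCe : Ct ≤ Real.exp Ct := by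
    have := Real.add_one_le_exp Ct
    linarith
  have hK0 : 0 ≤ K := by linarith
  calc Ct * Real.exp (8 * y) ≤ Real.exp Ct * Real.exp (8 * y) :=
        mul_le_mul_of_nonneg_right hCe (Real.exp_pos _).le
    _ = Real.exp (Ct + 8 * y) := by rw [← Real.exp_add]
    _ ≤ Real.exp (K * (k + 1 + Real.log (y + 2) ^ 2)) := by
        refine Real.exp_le_exp.2 ?_
        have h3 : 0 ≤ K * Real.log (y + 2) ^ 2 := by positivity
        have h4 : (400 + 3 * Ct) * (k + 1) ≤ K * (k + 1) :=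
          mul_le_mul_of_nonneg_right hK (by linarith)
        have h5 : 0 ≤ Ct * k := by positivity
        rcases hy with h | h <;> nlinarith

end TR

open TR

theorem h_bound : ∃ C : ℝ, 0 < C ∧ ∀ (k y T : ℕ), 1 ≤ y → k ≤ y →
    ∑ u ∈ (Icc 1 T).filter (fun u : ℕ => u ∈ SSl k y), (1 : ℝ) / u ≤
      Real.exp (C * ((k : ℝ) + 1 + (Real.log (y + 2)) ^ 2)) := by
  obtain ⟨C1, hC1, hrec⟩ := h_rec
  obtain ⟨Ct, hCt, htriv⟩ := ss_trivial
  obtain ⟨K, hK⟩ : ∃ K : ℝ, K = 400 + 3 * C1 + 3 * Ct := ⟨_, rfl⟩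
  have hKp : 0 < K := by rw [hK]; linarith
  refine ⟨K, hKp, fun k y => ?_⟩
  induction y using Nat.strong_induction_on with
  | _ y ih =>
    intro T hy hky
    have hkR : (0 : ℝ) ≤ k := by positivity
    have hy0 : (0 : ℝ) ≤ y := by positivity
    by_cases hcase : y ≤ 40 ∨ y ≤ 2 * k
    · refine (htriv k y T hy hky).trans (triv_calc hCt (by rw [hK]; linarith) hkR hy0 ?_)
      rcases hcase with h | h
      · left; exact_mod_cast h
      · right; exact_mod_cast h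
    · push Not at hcase
      obtain ⟨h40, h2k⟩ := hcase
      obtain ⟨b, hb⟩ : ∃ b : ℕ, b = 6 * y / 10 := ⟨_, rfl⟩
      have hb1 : 1 ≤ b := by omega
      have hkb : k ≤ b := by omega
      have hby : b < y := by omega
      have hbR : (b : ℝ) ≤ 6 / 10 * y := by
        have : 10 * b ≤ 6 * y := by omega
        have : (10 : ℝ) * b ≤ 6 * y := by exact_mod_cast this
        linarith
      have hbR2 : 6 / 10 * (y : ℝ) - 9 / 10 ≤ b := by
        have : 6 * y ≤ 10 * b + 9 := by omega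
        have : (6 : ℝ) * y ≤ 10 * b + 9 := by exact_mod_cast this
        linarith
      have hyR : (40 : ℝ) ≤ y := by exact_mod_cast h40.le
      have hlog := log_nine (show (0 : ℝ) < y by linarith)
      have hcond : 45 / 100 * (Real.log (9 * (y : ℝ)) + y + 1) + 1 ≤ (b : ℝ) := by
        have : 45 / 100 * (Real.log (9 * (y : ℝ)) + y + 1) + 1 ≤
            45 / 100 * (5.24 + 9 / 512 * y + y + 1) + 1 := by linarith
        refine this.trans ?_
        norm_num
        linarith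
      have hH : 1 ≤ Real.exp (K * ((k : ℝ) + 1 + (Real.log (b + 2)) ^ 2)) :=
        Real.one_le_exp (by positivity)
      have h1 := hrec k y b _ hy hky hcond hH (fun T => ih b hby T hb1 hkb) T
      refine h1.trans ?_
      exact step_calc hC1 (by rw [hK]; linarith) hkR hyR (by exact_mod_cast hb1) hbR

theorem a_bound : ∃ C : ℝ, 0 < C ∧ ∀ (k : ℕ) (t : ℝ), 16 ≤ t →
    (((Icc 1 ⌊t⌋₊).filter (fun u : ℕ => u ∈ SS k)).card : ℝ) ≤ t / Real.log t *
      Real.exp (C * ((k : ℝ) + 1 + (Real.log (Real.log (Real.log t) + 2)) ^ 2)) := by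
  obtain ⟨K, hK, hH⟩ := h_bound
  obtain ⟨Ca, hCa, hA⟩ := a_pre
  refine ⟨Ca + 23 + 4 * K + 3, by positivity, fun k t ht => ?_⟩
  have ht0 : 0 < t := by linarith
  have hlog1 := one_lt_log ht
  obtain ⟨τ, hτ⟩ : ∃ τ, τ = Real.log (Real.log t) := ⟨_, rfl⟩
  have hτ0 : 0 < τ := by rw [hτ]; exact Real.log_pos hlog1
  rw [← hτ]
  obtain ⟨a, ha⟩ : ∃ a, a = Real.log (τ + 2) := ⟨_, rfl⟩
  rw [← ha]
  have hkR : (0 : ℝ) ≤ k := by positivity
  obtain ⟨b, hb⟩ : ∃ b : ℕ, b = ⌈(45 / 100 : ℝ) * τ⌉₊ := ⟨_, rfl⟩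
  have hb1 : (45 / 100 : ℝ) * τ ≤ b := by rw [hb]; exact Nat.le_ceil _
  have hb2 : (b : ℝ) < 45 / 100 * τ + 1 := by
    rw [hb]; exact Nat.ceil_lt_add_one (by positivity)
  have hb0 : 1 ≤ b := Nat.one_le_iff_ne_zero.2 (by
    intro h0
    rw [h0, Nat.cast_zero] at hb1
    linarith)
  have htl : 0 < t / Real.log t := div_pos ht0 (by linarith)
  rcases le_or_gt k b with hkb | hkb
  · have h1 := hA k b t (Real.exp (K * ((k : ℝ) + 1 + (Real.log (b + 2)) ^ 2))) ht hkb hb0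
      (by rw [← hτ]; exact hb1) (by rw [← hτ]; exact hb2.le) (Real.one_le_exp (by positivity))
      (fun T => hH k b T hb0 hkb)
    refine h1.trans ?_
    have hl2 : l2 t ≤ τ + 2 := by
      unfold l2
      have h2 : Real.log (t + 16) ≤ 2 * Real.log t := by
        rw [show (2 : ℝ) * Real.log t = ((2 : ℕ) : ℝ) * Real.log t by norm_num, ← Real.log_pow]
        exact Real.log_le_log (by linarith) (by nlinarith)
      have h3 : Real.log (Real.log (t + 16)) ≤ Real.log (2 * Real.log t) :=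
        Real.log_le_log (lt_of_lt_of_le (Real.exp_pos 1) (exp_one_le_log ht0.le)) h2
      rw [Real.log_mul (by norm_num) (by linarith), ← hτ] at h3
      have h4 := Real.log_two_lt_d9
      linarith
    have ha1 : Real.log 2 ≤ a := by
      rw [ha]
      exact Real.log_le_log (by norm_num) (by linarith)
    have hlog2 := Real.log_two_gt_d9
    have hl1 : 1 ≤ l2 t := one_le_l2 ht0.le
    have hpow : l2 t ^ 23 ≤ Real.exp (23 * a) := by
      have h1 : Real.exp (23 * a) = (τ + 2) ^ 23 := by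
        rw [ha, show (23 : ℝ) = ((23 : ℕ) : ℝ) by norm_num, Real.exp_nat_mul,
          Real.exp_log (by linarith)]
      rw [h1]
      exact pow_le_pow_left₀ (by linarith) hl2 23
    have hc : Real.log ((b : ℝ) + 2) ≤ 2 * a := by
      have h2 : (b : ℝ) + 2 ≤ (τ + 2) ^ 2 := by nlinarith
      have h3 := Real.log_le_log (show (0 : ℝ) < (b : ℝ) + 2 by positivity) h2
      rw [Real.log_pow, ← ha] at h3
      exact_mod_cast h3
    have hc0 : 0 ≤ Real.log ((b : ℝ) + 2) := Real.log_nonneg (by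
      have : (0 : ℝ) ≤ b := by positivity
      linarith)
    have hc2 : Real.log ((b : ℝ) + 2) ^ 2 ≤ 4 * a ^ 2 := by nlinarith
    have hCe : Ca ≤ Real.exp Ca := by
      have := Real.add_one_le_exp Ca
      linarith
    calc Ca * (t / Real.log t) * l2 t ^ 23 *
          Real.exp (K * ((k : ℝ) + 1 + (Real.log (b + 2)) ^ 2))
        = t / Real.log t * (Ca * l2 t ^ 23 *
          Real.exp (K * ((k : ℝ) + 1 + (Real.log (b + 2)) ^ 2))) := by ring
      _ ≤ t / Real.log t * (Real.exp Ca * Real.exp (23 * a) *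
          Real.exp (K * ((k : ℝ) + 1 + (Real.log (b + 2)) ^ 2))) := by
          refine mul_le_mul_of_nonneg_left ?_ htl.le
          refine mul_le_mul_of_nonneg_right ?_ (Real.exp_pos _).le
          exact mul_le_mul hCe hpow (by positivity) (Real.exp_pos _).le
      _ = t / Real.log t * Real.exp (Ca + 23 * a +
          K * ((k : ℝ) + 1 + (Real.log (b + 2)) ^ 2)) := by
          rw [← Real.exp_add, ← Real.exp_add]
      _ ≤ t / Real.log t * Real.exp ((Ca + 23 + 4 * K + 3) * ((k : ℝ) + 1 + a ^ 2)) := by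
          refine mul_le_mul_of_nonneg_left (Real.exp_le_exp.2 ?_) htl.le
          have h2 : K * Real.log ((b : ℝ) + 2) ^ 2 ≤ K * (4 * a ^ 2) :=
            mul_le_mul_of_nonneg_left hc2 hK.le
          have h3 : a ≤ 1 + a ^ 2 := by nlinarith [sq_nonneg (a - 1)]
          have h4 : 0 ≤ Ca * k := by positivity
          have h5 : 0 ≤ Ca * a ^ 2 := by positivity
          have h6 : 0 ≤ K * k := by positivity
          have h7 : 0 ≤ a ^ 2 := by positivity
          nlinarith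
  · have h1 : (b : ℝ) < k := by exact_mod_cast hkb
    have h2 : τ ≤ 3 * k := by linarith
    have h3 : Real.log t ≤ Real.exp (3 * k) := by
      rw [← Real.exp_log (show 0 < Real.log t by linarith), ← hτ]
      exact Real.exp_le_exp.2 h2
    have h4 : (((Icc 1 ⌊t⌋₊).filter (fun u : ℕ => u ∈ SS k)).card : ℝ) ≤ t := by
      have h := Finset.card_filter_le (Icc 1 ⌊t⌋₊) (fun u => u ∈ SS k)
      rw [Nat.card_Icc, Nat.add_sub_cancel] at h
      have h' : (((Icc 1 ⌊t⌋₊).filter (fun u : ℕ => u ∈ SS k)).card : ℝ) ≤ (⌊t⌋₊ : ℝ) := by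
        exact_mod_cast h
      exact h'.trans (Nat.floor_le ht0.le)
    refine h4.trans ?_
    have h5 : Real.exp (3 * k) ≤
        Real.exp ((Ca + 23 + 4 * K + 3) * ((k : ℝ) + 1 + a ^ 2)) := by
      refine Real.exp_le_exp.2 ?_
      have h6 : 0 ≤ (Ca + 23 + 4 * K) * ((k : ℝ) + 1 + a ^ 2) := by positivity
      have h7 : 0 ≤ a ^ 2 := by positivity
      nlinarith
    calc t = t / Real.log t * Real.log t := by
          rw [div_mul_cancel₀ _ (by linarith)]
      _ ≤ t / Real.log t * Real.exp ((Ca + 23 + 4 * K + 3) * ((k : ℝ) + 1 + a ^ 2)) :=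
          mul_le_mul_of_nonneg_left (h3.trans h5) htl.le

namespace TR

theorem SS_to_SSl {k y u : ℕ} {t : ℝ} (_ht : 1 ≤ t) (hu : u ∈ SS k) (hu0 : 0 < u)
    (hut : (u : ℝ) ≤ t) (hy : ⌊Real.log (Real.log (t + 1))⌋₊ < y) : u ∈ SSl k y := by
  obtain ⟨L, m, hm, hL, hm2, rfl⟩ := hu
  refine ⟨L, m, hm, fun q hq => ⟨(hL q hq).1, (hL q hq).2, ?_⟩, hm2, rfl⟩
  refine lt_of_le_of_lt ?_ hy
  have hp := (hL q hq).1
  have hd : q - 1 ∣ (L.map (fun q => q - 1)).prod * Nat.totient m :=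
    (Multiset.dvd_prod (Multiset.mem_map_of_mem _ hq)).mul_right _
  have h1 := Nat.le_of_dvd hu0 hd
  have h2 : q ≤ (L.map (fun q => q - 1)).prod * Nat.totient m + 1 := by omega
  have h3 : (q : ℝ) ≤ t + 1 := by
    have : (q : ℝ) ≤ (((L.map (fun q => q - 1)).prod * Nat.totient m : ℕ) : ℝ) + 1 := by
      exact_mod_cast h2
    linarith
  have hq2 : (2 : ℝ) ≤ q := by exact_mod_cast hp.two_le
  unfold lv
  refine Nat.floor_le_floor ?_
  refine Real.log_le_log (Real.log_pos (by linarith)) ?_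
  exact Real.log_le_log (by linarith) h3

theorem log_sq_le {x : ℝ} (hx : 1 ≤ x) : Real.log x ^ 2 ≤ 4 * x := by
  have hs : 0 < √x := Real.sqrt_pos.2 (by linarith)
  have h1 := Real.log_le_sub_one_of_pos hs
  rw [Real.log_sqrt (by linarith)] at h1
  have h2 : 0 ≤ Real.log x := Real.log_nonneg hx
  have h3 := Real.sq_sqrt (show 0 ≤ x by linarith)
  nlinarith

end TR

theorem t_bound : ∃ C : ℝ, 0 < C ∧ ∀ (k : ℕ) (t : ℝ), 16 ≤ t →
    ∑ u ∈ (Icc 1 ⌊t⌋₊).filter (fun u : ℕ => u ∈ SS k), (1 : ℝ) / u ≤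
      Real.exp (C * ((k : ℝ) + 1 + (Real.log (Real.log (Real.log t) + 2)) ^ 2)) := by
  obtain ⟨K, hK, hH⟩ := h_bound
  refine ⟨25 * K, by positivity, fun k t ht => ?_⟩
  have ht0 : 0 < t := by linarith
  have hlog1 := one_lt_log ht
  obtain ⟨τ, hτ⟩ : ∃ τ, τ = Real.log (Real.log t) := ⟨_, rfl⟩
  have hτ0 : 0 < τ := by rw [hτ]; exact Real.log_pos hlog1
  rw [← hτ]
  obtain ⟨a, ha⟩ : ∃ a, a = Real.log (τ + 2) := ⟨_, rfl⟩
  rw [← ha]
  have ha0 : 0 ≤ a := by rw [ha]; exact Real.log_nonneg (by linarith)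
  have hkR : (0 : ℝ) ≤ k := by positivity
  obtain ⟨x, hx⟩ : ∃ x : ℕ, x = ⌊Real.log (Real.log (t + 1))⌋₊ := ⟨_, rfl⟩
  obtain ⟨y, hy⟩ : ∃ y : ℕ, y = max (max k 1) (x + 1) := ⟨_, rfl⟩
  have hy1 : 1 ≤ y := by rw [hy]; exact (le_max_right k 1).trans (le_max_left _ _)
  have hky : k ≤ y := by rw [hy]; exact (le_max_left k 1).trans (le_max_left _ _)
  have hxy : x < y := by
    have : x + 1 ≤ y := by rw [hy]; exact le_max_right _ _
    omega
  have hxR : (x : ℝ) ≤ τ + 1 := by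
    have h2 : Real.log (t + 1) ≤ 2 * Real.log t := by
      rw [show (2 : ℝ) * Real.log t = ((2 : ℕ) : ℝ) * Real.log t by norm_num, ← Real.log_pow]
      exact Real.log_le_log (by linarith) (by nlinarith)
    have h0 : 1 < Real.log (t + 1) := hlog1.trans_le (Real.log_le_log ht0 (by linarith))
    have h3 : Real.log (Real.log (t + 1)) ≤ Real.log (2 * Real.log t) :=
      Real.log_le_log (by linarith) h2
    rw [Real.log_mul (by norm_num) (by linarith), ← hτ] at h3
    have h4 := Real.log_two_lt_d9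
    have h5 : (x : ℝ) ≤ Real.log (Real.log (t + 1)) := by
      rw [hx]
      exact Nat.floor_le (Real.log_nonneg h0.le)
    linarith
  have hyR : (y : ℝ) ≤ k + 1 + (τ + 1) := by
    have h1 : y ≤ k + 1 + x := by rw [hy]; omega
    have h2 : (y : ℝ) ≤ k + 1 + x := by exact_mod_cast h1
    linarith
  have hsub : (Icc 1 ⌊t⌋₊).filter (fun u : ℕ => u ∈ SS k) ⊆
      (Icc 1 ⌊t⌋₊).filter (fun u : ℕ => u ∈ SSl k y) := by
    intro u hu
    rw [Finset.mem_filter, Finset.mem_Icc] at hu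
    rw [Finset.mem_filter, Finset.mem_Icc]
    refine ⟨hu.1, SS_to_SSl (t := t) (by linarith) hu.2 hu.1.1
      ((Nat.le_floor_iff ht0.le).1 hu.1.2) ?_⟩
    rw [← hx]
    exact hxy
  refine (Finset.sum_le_sum_of_subset_of_nonneg hsub fun _ _ _ => by positivity).trans ?_
  refine (hH k y ⌊t⌋₊ hy1 hky).trans (Real.exp_le_exp.2 ?_)
  have h1 : (y : ℝ) + 2 ≤ (k + 3) * (τ + 2) := by
    have : 0 ≤ (k : ℝ) * τ := by positivity
    nlinarith
  have hy0 : (0 : ℝ) ≤ y := by positivity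
  have h2 : Real.log ((y : ℝ) + 2) ≤ Real.log ((k : ℝ) + 3) + a := by
    rw [ha, ← Real.log_mul (by positivity) (by positivity)]
    exact Real.log_le_log (by linarith) h1
  have h3 : 0 ≤ Real.log ((y : ℝ) + 2) := Real.log_nonneg (by linarith)
  have h4 := log_sq_le (show (1 : ℝ) ≤ (k : ℝ) + 3 by linarith)
  have h5 : 0 ≤ Real.log ((k : ℝ) + 3) := Real.log_nonneg (by linarith)
  have h6 : Real.log ((y : ℝ) + 2) ^ 2 ≤ 2 * Real.log ((k : ℝ) + 3) ^ 2 + 2 * a ^ 2 := by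
    have h7 : Real.log ((y : ℝ) + 2) ^ 2 ≤ (Real.log ((k : ℝ) + 3) + a) ^ 2 :=
      pow_le_pow_left₀ h3 h2 2
    nlinarith [sq_nonneg (Real.log ((k : ℝ) + 3) - a)]
  have h8 : Real.log ((y : ℝ) + 2) ^ 2 ≤ 24 * ((k : ℝ) + 1) + 2 * a ^ 2 := by linarith
  have h9 : K * ((k : ℝ) + 1 + Real.log ((y : ℝ) + 2) ^ 2) ≤
      K * ((k : ℝ) + 1 + (24 * ((k : ℝ) + 1) + 2 * a ^ 2)) :=
    mul_le_mul_of_nonneg_left (by linarith) hK.le
  have h10 : 0 ≤ K * a ^ 2 := by positivity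
  nlinarith

namespace TR

/-- integers divisible by the shifts of `24` primes of level at least `y/2` -/
def RS (y : ℕ) : Set ℕ := {u | ∃ L : Multiset ℕ, L.card = 24 ∧
      (∀ q ∈ L, q.Prime ∧ (y : ℝ) / 2 ≤ lv q) ∧ (L.map (fun q => q - 1)).prod ∣ u}

/-- elements of `RS y` are large -/
theorem RS_large {y u : ℕ} (hy : 100 ≤ y) (hu : u ∈ RS y) (hu0 : 0 < u) :
    Real.exp ((y : ℝ) / 2) ≤ Real.log u := by
  obtain ⟨L, hc, hL, hd⟩ := hu
  obtain ⟨q1, hq1⟩ := Multiset.card_pos_iff_exists_mem.1 (show 0 < L.card by omega)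
  obtain ⟨L1, rfl⟩ := Multiset.exists_cons_of_mem hq1
  rw [Multiset.card_cons] at hc
  obtain ⟨q2, hq2⟩ := Multiset.card_pos_iff_exists_mem.1 (show 0 < L1.card by omega)
  obtain ⟨L2, rfl⟩ := Multiset.exists_cons_of_mem hq2
  have key : ∀ q : ℕ, q.Prime → (y : ℝ) / 2 ≤ lv q →
      Real.exp (Real.exp ((y : ℝ) / 2)) ≤ q := by
    intro q hq hl
    have hyR : (100 : ℝ) ≤ y := by exact_mod_cast hy
    have hq2 : (2 : ℝ) ≤ q := by exact_mod_cast hq.two_le
    have h1 : (0 : ℝ) < Real.log (Real.log q) := by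
      by_contra hcon
      push Not at hcon
      have : lv q = 0 := Nat.floor_of_nonpos hcon
      rw [this] at hl
      push_cast at hl
      linarith
    have h2 : (lv q : ℝ) ≤ Real.log (Real.log q) := Nat.floor_le h1.le
    have h3 : Real.exp ((y : ℝ) / 2) ≤ Real.log q := by
      rw [← Real.exp_log (Real.log_pos (by linarith : (1 : ℝ) < q))]
      exact Real.exp_le_exp.2 (hl.trans h2)
    rw [← Real.exp_log (show (0 : ℝ) < q by linarith)]
    exact Real.exp_le_exp.2 h3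
  have k1 := key q1 (hL q1 (Multiset.mem_cons_self _ _)).1 (hL q1 (Multiset.mem_cons_self _ _)).2
  have hm2 : q2 ∈ q1 ::ₘ q2 ::ₘ L2 := Multiset.mem_cons_of_mem (Multiset.mem_cons_self _ _)
  have k2 := key q2 (hL q2 hm2).1 (hL q2 hm2).2
  obtain ⟨Q, hQ⟩ : ∃ Q, Q = Real.exp (Real.exp ((y : ℝ) / 2)) := ⟨_, rfl⟩
  rw [← hQ] at k1 k2
  have hQ3 : 3 ≤ Q := by
    have h1 := Real.add_one_le_exp ((y : ℝ) / 2)
    have h2 := Real.add_one_le_exp (Real.exp ((y : ℝ) / 2))
    have hyR : (100 : ℝ) ≤ y := by exact_mod_cast hy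
    rw [hQ]
    linarith
  have hdvd : (q1 - 1) * (q2 - 1) ∣ u := by
    rw [Multiset.map_cons, Multiset.map_cons, Multiset.prod_cons, Multiset.prod_cons,
      ← mul_assoc] at hd
    exact (Dvd.intro _ rfl).trans hd
  have hle := Nat.le_of_dvd hu0 hdvd
  have hp1 := (hL q1 (Multiset.mem_cons_self _ _)).1.two_le
  have hp2 := (hL q2 hm2).1.two_le
  have hleR : ((q1 : ℝ) - 1) * ((q2 : ℝ) - 1) ≤ u := by
    have : (((q1 - 1) * (q2 - 1) : ℕ) : ℝ) ≤ u := by exact_mod_cast hle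
    rw [Nat.cast_mul, Nat.cast_sub (by omega), Nat.cast_sub (by omega), Nat.cast_one] at this
    exact this
  have hQu : Q ≤ u := by
    have h1 : (Q - 1) * (Q - 1) ≤ ((q1 : ℝ) - 1) * ((q2 : ℝ) - 1) :=
      mul_le_mul (by linarith) (by linarith) (by linarith) (by linarith)
    nlinarith
  have h5 := Real.log_le_log (by linarith) hQu
  rw [hQ, Real.log_exp] at h5
  exact h5

theorem log_128 {y : ℝ} (hy : 0 < y) : Real.log y ≤ 3.853 + y / 128 := by
  have h1 : Real.log y = Real.log 128 + Real.log (y / 128) := by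
    rw [← Real.log_mul (by norm_num) (by positivity)]
    congr 1
    field_simp
  have h2 := Real.log_le_sub_one_of_pos (show 0 < y / 128 by positivity)
  have h3 : Real.log 128 = 7 * Real.log 2 := by
    rw [show (128 : ℝ) = 2 ^ 7 by norm_num, Real.log_pow]
    norm_num
  have h4 := Real.log_two_lt_d9
  linarith

/-- one block for `k_bound` -/
theorem k_block {CP : ℝ} (hCP : 0 < CP) (hP : ∀ t : ℝ, 16 ≤ t →
    (((Icc 1 ⌊t⌋₊).filter (fun v : ℕ => ∃ L : Multiset ℕ, L.card = 24 ∧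
      (∀ q ∈ L, q.Prime ∧ (45 / 100 : ℝ) * Real.log (Real.log t) ≤ (lv q : ℝ) + 1) ∧
      (L.map (fun q => q - 1)).prod ∣ v)).card : ℝ) ≤
      CP * t * Real.exp (-(105 / 100) * Real.log (Real.log t))) {y i : ℕ} (hy : 100 ≤ y)
    (ht2 : (2 : ℝ) ^ i ≤ 2 * Real.exp ((y : ℝ) ^ 2 * Real.exp y)) :
    2 / 2 ^ i * (((Icc 1 (2 ^ i)).filter (fun u => u ∈ RS y)).card : ℝ) ≤
      2 * CP * Real.exp (-(y : ℝ) / 40) / Real.log 2 * (1 / i) := by
  have hlog2 : 0 < Real.log 2 := Real.log_pos (by norm_num)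
  rcases ((Icc 1 (2 ^ i)).filter (fun u => u ∈ RS y)).eq_empty_or_nonempty with he | ⟨v, hv⟩
  · rw [he, Finset.card_empty, Nat.cast_zero, mul_zero]
    positivity
  rw [Finset.mem_filter, Finset.mem_Icc] at hv
  have hv0 : (0 : ℝ) < v := by exact_mod_cast hv.1.1
  have hvi : (v : ℝ) ≤ 2 ^ i := by exact_mod_cast hv.1.2
  have h1 := RS_large hy hv.2 hv.1.1
  have hyR : (100 : ℝ) ≤ y := by exact_mod_cast hy
  obtain ⟨t, ht⟩ : ∃ t : ℝ, t = 2 ^ i := ⟨_, rfl⟩
  rw [← ht] at hvi ht2 ⊢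
  have hlogt : Real.exp ((y : ℝ) / 2) ≤ Real.log t := h1.trans (Real.log_le_log hv0 hvi)
  have hexp50 : 51 ≤ Real.exp ((y : ℝ) / 2) := by
    have := Real.add_one_le_exp ((y : ℝ) / 2)
    linarith
  have ht0 : 0 < t := by rw [ht]; positivity
  have ht16 : 16 ≤ t := by
    have h2 := Real.log_le_sub_one_of_pos ht0
    linarith
  have hτ : (y : ℝ) / 2 ≤ Real.log (Real.log t) := by
    rw [Real.le_log_iff_exp_le (by linarith)]
    exact hlogt
  have hτ2 : (45 / 100 : ℝ) * Real.log (Real.log t) ≤ (y : ℝ) / 2 + 1 := by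
    have h2 : Real.log t ≤ 2 * ((y : ℝ) ^ 2 * Real.exp y) := by
      have h3 := Real.log_le_log ht0 ht2
      rw [Real.log_mul (by norm_num) (Real.exp_pos _).ne', Real.log_exp] at h3
      have h4 := Real.log_two_lt_d9
      have h5 : 1 ≤ Real.exp (y : ℝ) := Real.one_le_exp (by linarith)
      have h6 : 1 ≤ (y : ℝ) ^ 2 * Real.exp y := by nlinarith
      linarith
    have h3 := Real.log_le_log (by linarith) h2
    rw [Real.log_mul (by norm_num) (by positivity), Real.log_mul (by positivity)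
      (Real.exp_pos _).ne', Real.log_exp, Real.log_pow] at h3
    push_cast at h3
    have h4 := log_128 (show (0 : ℝ) < y by linarith)
    have h5 := Real.log_two_lt_d9
    linarith
  have h2 := hP t ht16
  have hfl : ⌊t⌋₊ = 2 ^ i := by
    have : t = ((2 ^ i : ℕ) : ℝ) := by rw [ht]; push_cast; rfl
    rw [this, Nat.floor_natCast]
  rw [hfl] at h2
  have hsub : (Icc 1 (2 ^ i)).filter (fun u => u ∈ RS y) ⊆
      (Icc 1 (2 ^ i)).filter (fun v : ℕ => ∃ L : Multiset ℕ, L.card = 24 ∧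
      (∀ q ∈ L, q.Prime ∧ (45 / 100 : ℝ) * Real.log (Real.log t) ≤ (lv q : ℝ) + 1) ∧
      (L.map (fun q => q - 1)).prod ∣ v) := by
    intro u hu
    rw [Finset.mem_filter] at hu ⊢
    obtain ⟨hu1, L, hL1, hL2, hL3⟩ := hu
    exact ⟨hu1, L, hL1, fun q hq => ⟨(hL2 q hq).1, by have := (hL2 q hq).2; linarith⟩, hL3⟩
  have h3 : (((Icc 1 (2 ^ i)).filter (fun u => u ∈ RS y)).card : ℝ) ≤
      CP * t * Real.exp (-(105 / 100) * Real.log (Real.log t)) := by
    refine le_trans ?_ h2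
    exact_mod_cast Finset.card_le_card hsub
  have h4 : Real.exp (-(105 / 100) * Real.log (Real.log t)) ≤
      Real.exp (-(y : ℝ) / 40) / Real.log t := by
    have h40 : Real.exp (-(y : ℝ) / 40) / Real.log t =
        Real.exp (-(y : ℝ) / 40 - Real.log (Real.log t)) := by
      rw [Real.exp_sub, Real.exp_log (by linarith)]
    rw [h40]
    exact Real.exp_le_exp.2 (by linarith)
  have hlt : Real.log t = i * Real.log 2 := by rw [ht, Real.log_pow]
  have hlt0 : 0 < Real.log t := by linarith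
  have hi0 : (0 : ℝ) < i := by
    rw [hlt] at hlt0
    exact (pos_iff_pos_of_mul_pos hlt0).2 hlog2
  calc 2 / t * (((Icc 1 (2 ^ i)).filter (fun u => u ∈ RS y)).card : ℝ)
      ≤ 2 / t * (CP * t * (Real.exp (-(y : ℝ) / 40) / Real.log t)) := by
        refine mul_le_mul_of_nonneg_left (h3.trans ?_) (by positivity)
        exact mul_le_mul_of_nonneg_left h4 (by positivity)
    _ = 2 * CP * Real.exp (-(y : ℝ) / 40) / Real.log t := by field_simp
    _ = 2 * CP * Real.exp (-(y : ℝ) / 40) / Real.log 2 * (1 / i) := by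
        rw [hlt]
        field_simp

/-- the number of dyadic blocks -/
theorem blocks' {Z y : ℝ} (hy : 100 ≤ y) (hZ : Z = Real.exp (y ^ 2 * Real.exp y)) :
    1 ≤ Z ∧ (2 : ℝ) ^ Nat.clog 2 ⌊Z⌋₊ ≤ 2 * Z ∧
      1 + Real.log (Nat.clog 2 ⌊Z⌋₊) ≤ 4 * y := by
  have hE : 1 ≤ Real.exp y := Real.one_le_exp (by linarith)
  have hyE : 1 ≤ y ^ 2 * Real.exp y := by nlinarith
  have hZ10 : 10 ≤ Z := by
    have := Real.add_one_le_exp (y ^ 2 * Real.exp y)
    rw [hZ]
    nlinarith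
  have hlogZ : Real.log Z = y ^ 2 * Real.exp y := by rw [hZ, Real.log_exp]
  obtain ⟨n, hn⟩ : ∃ n : ℕ, n = ⌊Z⌋₊ := ⟨_, rfl⟩
  rw [← hn]
  obtain ⟨I, hI⟩ : ∃ I : ℕ, I = Nat.clog 2 n := ⟨_, rfl⟩
  rw [← hI]
  have hn1 : 1 < n := by
    have : 2 ≤ n := by
      rw [hn]
      exact Nat.le_floor (by push_cast; linarith)
    omega
  have hnZ : (n : ℝ) ≤ Z := by rw [hn]; exact Nat.floor_le (by linarith)
  have hI0 : 0 < I := by rw [hI]; exact Nat.clog_pos (by norm_num) hn1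
  have h2I : (2 : ℝ) ^ I ≤ 2 * Z := by
    have h3 := Nat.pow_pred_clog_lt_self (b := 2) (by norm_num) hn1
    rw [← hI] at h3
    have h5 : 2 ^ I = 2 * 2 ^ (I - 1) := by
      rw [← pow_succ', Nat.sub_add_cancel hI0]
    have h6 : 2 ^ (I - 1) < n := h3
    have h7 : 2 ^ I ≤ 2 * n := by omega
    have h8 : (2 : ℝ) ^ I ≤ 2 * n := by exact_mod_cast h7
    linarith
  refine ⟨by linarith, h2I, ?_⟩
  have h4 : (I : ℝ) * Real.log 2 ≤ Real.log 2 + y ^ 2 * Real.exp y := by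
    rw [← hlogZ, ← Real.log_mul (by norm_num) (by linarith), ← Real.log_pow]
    exact Real.log_le_log (by positivity) h2I
  have h5 : (I : ℝ) ≤ 4 * (y ^ 2 * Real.exp y) := by
    have h6 := Real.log_two_gt_d9
    have h7 := Real.log_two_lt_d9
    have h8 : (0 : ℝ) ≤ I := by positivity
    nlinarith
  have hI0' : (0 : ℝ) < I := by exact_mod_cast hI0
  have h6 : Real.log I ≤ Real.log (4 * (y ^ 2 * Real.exp y)) := Real.log_le_log hI0' h5
  rw [Real.log_mul (by norm_num) (by positivity), Real.log_mul (by positivity)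
    (Real.exp_pos _).ne', Real.log_exp, Real.log_pow] at h6
  push_cast at h6
  have h7 := log_128 (show (0 : ℝ) < y by linarith)
  have h8 : Real.log 4 ≤ 2 := by
    have h9 : Real.log 4 = 2 * Real.log 2 := by
      rw [show (4 : ℝ) = 2 ^ 2 by norm_num, Real.log_pow]
      norm_num
    have := Real.log_two_lt_d9
    linarith
  linarith

end TR

/-- at least 24 primes of level in `[y/2, y)` is a rare event. -/
theorem k_bound : ∃ C : ℝ, 0 < C ∧ ∀ (k y T : ℕ), 1 ≤ y → k ≤ y →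
    ∑ u ∈ (Icc 1 T).filter (fun u : ℕ => u ∈ SSl k y ∧ ∃ L : Multiset ℕ, L.card = 24 ∧
      (∀ q ∈ L, q.Prime ∧ (y : ℝ) / 2 ≤ lv q) ∧ (L.map (fun q => q - 1)).prod ∣ u),
      (1 : ℝ) / u ≤ C * Real.exp (-((y : ℝ) / 100)) := by
  obtain ⟨CT, hCT, hT⟩ := ss_tail
  obtain ⟨CP, hCP, hP⟩ := p0_bound
  obtain ⟨Ct, hCt, htriv⟩ := ss_trivial
  have hlog2 : 0 < Real.log 2 := Real.log_pos (by norm_num)
  obtain ⟨K0, hK0⟩ : ∃ K0 : ℝ, K0 = 600 * CP / Real.log 2 := ⟨_, rfl⟩
  have hK0n : 0 < K0 := by rw [hK0]; positivity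
  refine ⟨CT + K0 + Ct * Real.exp 801, by positivity, fun k y T hy hky => ?_⟩
  have hEy := Real.exp_pos (-((y : ℝ) / 100))
  rcases Nat.lt_or_ge y 100 with hlt | hge
  · have h1 : ∑ u ∈ (Icc 1 T).filter (fun u : ℕ => u ∈ SSl k y ∧ ∃ L : Multiset ℕ, L.card = 24 ∧
      (∀ q ∈ L, q.Prime ∧ (y : ℝ) / 2 ≤ lv q) ∧ (L.map (fun q => q - 1)).prod ∣ u),
      (1 : ℝ) / u ≤ Ct * Real.exp (8 * y) := by
      refine le_trans (Finset.sum_le_sum_of_subset_of_nonneg ?_ fun _ _ _ => by positivity)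
        (htriv k y T hy hky)
      intro u hu
      rw [Finset.mem_filter] at hu ⊢
      exact ⟨hu.1, hu.2.1⟩
    have hyR : (y : ℝ) ≤ 100 := by exact_mod_cast hlt.le
    have h2 : Real.exp (8 * (y : ℝ)) ≤ Real.exp 801 * Real.exp (-((y : ℝ) / 100)) := by
      rw [← Real.exp_add]
      exact Real.exp_le_exp.2 (by linarith)
    have h3 : Ct * Real.exp (8 * y) ≤ Ct * (Real.exp 801 * Real.exp (-((y : ℝ) / 100))) :=
      mul_le_mul_of_nonneg_left h2 hCt.le
    have h4 : 0 ≤ (CT + K0) * Real.exp (-((y : ℝ) / 100)) := by positivity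
    nlinarith
  · have hyR : (100 : ℝ) ≤ y := by exact_mod_cast hge
    obtain ⟨Z, hZ⟩ : ∃ Z, Z = Real.exp ((y : ℝ) ^ 2 * Real.exp y) := ⟨_, rfl⟩
    obtain ⟨hZ1, h2I, hlI⟩ := blocks' hyR hZ
    have hlogZ : Real.log Z = (y : ℝ) ^ 2 * Real.exp y := by rw [hZ, Real.log_exp]
    have hlarge : ∑ u ∈ (Icc 1 T).filter (fun u : ℕ => u ∈ SSl k y ∧ Z < u), (1 : ℝ) / u ≤
        CT * Real.exp (-((y : ℝ) / 100)) := by
      refine (hT k y T Z hy hky hZ1).trans ?_
      rw [hlogZ, mul_assoc, ← Real.exp_add]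
      refine mul_le_mul_of_nonneg_left (Real.exp_le_exp.2 ?_) hCT.le
      rw [mul_div_assoc, div_self (Real.exp_pos _).ne']
      nlinarith
    have hsmall : ∑ u ∈ (Icc 1 ⌊Z⌋₊).filter (fun u => u ∈ RS y), (1 : ℝ) / u ≤
        K0 * Real.exp (-((y : ℝ) / 100)) := by
      refine (dyadic (RS y) ⌊Z⌋₊).trans ?_
      obtain ⟨I, hI⟩ : ∃ I : ℕ, I = Nat.clog 2 ⌊Z⌋₊ := ⟨_, rfl⟩
      rw [← hI] at h2I hlI ⊢
      have hterm : ∀ i ∈ Finset.range (I + 1),
          2 / 2 ^ i * (((Icc 1 (2 ^ i)).filter (fun u => u ∈ RS y)).card : ℝ) ≤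
            2 * CP * Real.exp (-(y : ℝ) / 40) / Real.log 2 * (1 / i) := by
        intro i hi
        rw [Finset.mem_range] at hi
        refine k_block hCP hP hge ?_
        rw [← hZ]
        exact le_trans (pow_le_pow_right₀ (by norm_num) (by omega)) h2I
      refine (Finset.sum_le_sum hterm).trans ?_
      rw [← Finset.mul_sum]
      have h2 := (sum_range_inv I).trans hlI
      have h3 : (y : ℝ) * Real.exp (-(y : ℝ) / 40) ≤ 75 * Real.exp (-((y : ℝ) / 100)) := by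
        have e1 : Real.exp (-((y : ℝ) / 100)) =
            Real.exp (-(y : ℝ) / 40) * Real.exp (15 / 1000 * y) := by
          rw [← Real.exp_add]
          congr 1
          ring
        rw [e1]
        have h4 := Real.add_one_le_exp (15 / 1000 * (y : ℝ))
        have h5 := Real.exp_pos (-(y : ℝ) / 40)
        nlinarith
      calc 2 * CP * Real.exp (-(y : ℝ) / 40) / Real.log 2 *
            ∑ i ∈ Finset.range (I + 1), (1 : ℝ) / i
          ≤ 2 * CP * Real.exp (-(y : ℝ) / 40) / Real.log 2 * (4 * y) :=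
            mul_le_mul_of_nonneg_left h2 (by positivity)
        _ = 8 * CP / Real.log 2 * (y * Real.exp (-(y : ℝ) / 40)) := by ring
        _ ≤ 8 * CP / Real.log 2 * (75 * Real.exp (-((y : ℝ) / 100))) :=
            mul_le_mul_of_nonneg_left h3 (by positivity)
        _ = K0 * Real.exp (-((y : ℝ) / 100)) := by rw [hK0]; ring
    have hsub : (Icc 1 T).filter (fun u : ℕ => u ∈ SSl k y ∧ ∃ L : Multiset ℕ, L.card = 24 ∧
        (∀ q ∈ L, q.Prime ∧ (y : ℝ) / 2 ≤ lv q) ∧ (L.map (fun q => q - 1)).prod ∣ u) ⊆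
        (Icc 1 ⌊Z⌋₊).filter (fun u => u ∈ RS y) ∪
          (Icc 1 T).filter (fun u : ℕ => u ∈ SSl k y ∧ Z < u) := by
      intro u hu
      rw [Finset.mem_filter, Finset.mem_Icc] at hu
      rw [Finset.mem_union, Finset.mem_filter, Finset.mem_filter, Finset.mem_Icc, Finset.mem_Icc]
      rcases le_or_gt (u : ℝ) Z with h | h
      · left
        exact ⟨⟨hu.1.1, Nat.le_floor h⟩, hu.2.2⟩
      · right
        exact ⟨hu.1, hu.2.1, h⟩
    refine (Finset.sum_le_sum_of_subset_of_nonneg hsub fun _ _ _ => by positivity).trans ?_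
    have h1 := Finset.sum_union_inter (s₁ := (Icc 1 ⌊Z⌋₊).filter (fun u => u ∈ RS y))
      (s₂ := (Icc 1 T).filter (fun u : ℕ => u ∈ SSl k y ∧ Z < u)) (f := fun u : ℕ => (1 : ℝ) / u)
    have h0 : 0 ≤ ∑ u ∈ (Icc 1 ⌊Z⌋₊).filter (fun u => u ∈ RS y) ∩
        (Icc 1 T).filter (fun u : ℕ => u ∈ SSl k y ∧ Z < u), (1 : ℝ) / u :=
      Finset.sum_nonneg fun _ _ => by positivity
    have h4 : 0 ≤ Ct * Real.exp 801 * Real.exp (-((y : ℝ) / 100)) := by positivity
    nlinarith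

end P031
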