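import Vale.Agent.P031.ExcB
import Vale.Agent.P031.Num
import Vale.Agent.P031.TRec
import Vale.Agent.P031.Tail
import Vale.Agent.P031.PZero
import Vale.Agent.P031.Gpm
import Vale.Agent.P031.Over
import Vale.Agent.P031.Normal

/-! P031, [EXC], part C: the bounds of the exceptional sets. -/

namespace P031

open Finset Filter Topology
open scoped Classical

theorem sum_biUnion_le' (S : Finset ℕ) (F : ℕ → Finset ℕ) (f : ℕ → ℝ) (hf : ∀ n, 0 ≤ f n) :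
    ∑ n ∈ S.biUnion F, f n ≤ ∑ s ∈ S, ∑ n ∈ F s, f n := by
  induction S using Finset.induction_on with
  | empty => simp
  | insert a S ha ih =>
    rw [Finset.biUnion_insert, Finset.sum_insert ha]
    have h1 := Finset.sum_union_inter (s₁ := F a) (s₂ := S.biUnion F) (f := f)
    have h2 : 0 ≤ ∑ n ∈ F a ∩ S.biUnion F, f n := Finset.sum_nonneg fun n _ => hf n
    linarith

/-- the standing assumptions. -/
def Reg0 (K M : ℕ) (Y t : ℝ) : Prop :=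
  Rgm K M Y ∧ Real.exp (Real.exp Y) ≤ t ∧ Real.log (Real.log (t + 1)) ≤ Y + 1

theorem kk_le (M : ℕ) (h : 2 ≤ Nf M) : kk M ≤ Nf M ^ 10 := by
  have h1 := lt_Nf_succ M
  have h2 : Nf M + 1 ≤ 2 ^ Nf M := Nat.lt_two_pow_self
  have h3 : M < 2 ^ (Nf M * 100) := by
    calc M < (Nf M + 1) ^ 100 := h1
      _ ≤ (2 ^ Nf M) ^ 100 := Nat.pow_le_pow_left h2 100
      _ = 2 ^ (Nf M * 100) := by rw [← pow_mul]
  have h0 : M ≠ 0 := by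
    rintro rfl
    have h5 := Nf_pow_le 0
    have h6 : 0 < Nf 0 ^ 100 := Nat.pow_pos (by omega)
    omega
  have h4 : kk M < Nf M * 100 := by
    unfold kk
    exact Nat.log_lt_of_lt_pow h0 h3
  have h5 : Nf M * 100 ≤ Nf M ^ 10 := by
    have h6 : 100 ≤ Nf M ^ 9 := by
      calc 100 ≤ 2 ^ 9 := by norm_num
        _ ≤ Nf M ^ 9 := Nat.pow_le_pow_left h 9
    calc Nf M * 100 ≤ Nf M * Nf M ^ 9 := Nat.mul_le_mul_left _ h6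
      _ = Nf M ^ 10 := by ring
  omega

theorem rg_facts (K : ℕ) (hK : 2 ≤ K) (n : ℕ) : ∃ M₀ : ℕ, ∀ M ≥ M₀, ∀ Y t : ℝ, Reg0 K M Y t →
    (1 ≤ kk M ∧ kk M ≤ Nf M ^ 10 ∧ (kk M : ℝ) ≤ Y / 4) ∧
    (16 ≤ t ∧ Y ≤ Real.log (Real.log t) ∧ Real.log (Real.log t) ≤ Y + 1) ∧
    (2 * (Nf M : ℝ) ^ 10 ≤ Y ∧ 20 ≤ Y ∧ 20 * (Nf M : ℝ) ≤ Y) ∧
    (Nf M ≤ Nf ⌊Y⌋₊ ∧ ⌊Y⌋₊ + 4 ≤ 2 * Nf ⌊Y⌋₊ ^ 100) ∧
    (n ≤ Nf M ∧ Nf M ^ 10 ≤ M ∧ (M : ℝ) ≤ Y) := by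
  obtain ⟨M1, hM1⟩ := Nf_tendsto (max n 20)
  obtain ⟨M2, hM2⟩ := two_Nf_pow
  refine ⟨max (max M1 M2) 20, fun M hM Y t hR => ?_⟩
  obtain ⟨⟨hY1, hY2⟩, ht, htY⟩ := hR
  have hm := hM1 M (by omega)
  have hm20 : 20 ≤ Nf M := by omega
  have hM20 : 20 ≤ M := by omega
  have hMr : (20 : ℝ) ≤ M := by exact_mod_cast hM20
  have hmr : (20 : ℝ) ≤ Nf M := by exact_mod_cast hm20
  have hMM : (M : ℝ) * M ≤ Y := by
    calc (M : ℝ) * M = (M : ℝ) ^ 2 := by ring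
      _ ≤ (M : ℝ) ^ K := pow_le_pow_right₀ (by linarith) hK
      _ ≤ Y := hY1
  have hMY : (M : ℝ) ≤ Y := by nlinarith
  have hm10 : Nf M ^ 10 ≤ M := by
    calc Nf M ^ 10 ≤ Nf M ^ 100 := Nat.pow_le_pow_right (by omega) (by norm_num)
      _ ≤ M := Nf_pow_le M
  have hm10r : (Nf M : ℝ) ^ 10 ≤ M := by exact_mod_cast hm10
  have hm1r : (Nf M : ℝ) ≤ M := by
    have : Nf M ≤ Nf M ^ 10 := Nat.le_self_pow (by norm_num) _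
    exact_mod_cast this.trans hm10
  have hkM : kk M ≤ M := (Nat.log_le_self 2 M)
  have hkMr : (kk M : ℝ) ≤ M := by exact_mod_cast hkM
  have hMfl : M ≤ ⌊Y⌋₊ := Nat.le_floor hMY
  have hexp : Y + 1 ≤ Real.exp Y := Real.add_one_le_exp Y
  have hexp2 : Real.exp Y + 1 ≤ Real.exp (Real.exp Y) := Real.add_one_le_exp _
  have ht16 : 16 ≤ t := by nlinarith
  have hlt : Real.exp Y ≤ Real.log t := by
    rw [← Real.log_exp (Real.exp Y)]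
    exact Real.log_le_log (Real.exp_pos _) ht
  have hYll : Y ≤ Real.log (Real.log t) := by
    rw [← Real.log_exp Y]
    exact Real.log_le_log (Real.exp_pos _) hlt
  refine ⟨⟨?_, kk_le M (by omega), ?_⟩, ⟨ht16, hYll, ?_⟩, ⟨?_, ?_, ?_⟩, ⟨Nf_mono hMfl, ?_⟩,
    by omega, hm10, hMY⟩
  · unfold kk
    exact Nat.log_pos (by norm_num) (by omega)
  · nlinarith
  · refine le_trans ?_ htY
    exact Real.log_le_log (Real.log_pos (by linarith))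
      (Real.log_le_log (by linarith) (by linarith))
  · nlinarith
  · nlinarith
  · nlinarith
  · exact hM2 _ (by omega)

/-- constants are absorbed by `exp (C log^2 (Y+3))`. -/
theorem const_le {C Y : ℝ} (hC : 0 ≤ C) (hY : 0 ≤ Y) :
    C ≤ Real.exp (C * (Real.log (Y + 3)) ^ 2) := by
  have h1 : 1 ≤ Real.log (Y + 3) := by
    rw [Real.le_log_iff_exp_le (by linarith)]
    have := Real.exp_one_lt_d9
    linarith
  have h2 : 1 ≤ (Real.log (Y + 3)) ^ 2 := one_le_pow₀ h1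
  have h3 : C * 1 ≤ C * (Real.log (Y + 3)) ^ 2 := mul_le_mul_of_nonneg_left h2 hC
  have := Real.add_one_le_exp (C * (Real.log (Y + 3)) ^ 2)
  linarith

theorem Y_le {Y : ℝ} (hY : 0 ≤ Y) : Y + 3 ≤ Real.exp (1 * (Real.log (Y + 3)) ^ 2) := by
  have h1 : 1 ≤ Real.log (Y + 3) := by
    rw [Real.le_log_iff_exp_le (by linarith)]
    have := Real.exp_one_lt_d9
    linarith
  calc Y + 3 = Real.exp (Real.log (Y + 3)) := (Real.exp_log (by linarith)).symm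
    _ ≤ _ := by
      apply Real.exp_le_exp.2
      nlinarith

/-- the mass of `SS k` up to `t`. -/
theorem mass_bound : ∃ A : ℝ, 0 < A ∧ ∀ K : ℕ, 2 ≤ K → ∃ M₀ : ℕ, ∀ M ≥ M₀, ∀ Y t : ℝ,
    Reg0 K M Y t → ∑ a ∈ (Icc 1 ⌊t⌋₊).filter (fun a : ℕ => a ∈ SS (kk M)), (1 : ℝ) / a ≤
      Real.exp (A * (Real.log (Y + 3)) ^ 2) := by
  obtain ⟨C, hC, ht⟩ := t_bound
  obtain ⟨A, hA, hk⟩ := kk_exp C
  refine ⟨A, hA, fun K hK => ?_⟩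
  obtain ⟨M1, hM1⟩ := hk K (by omega)
  obtain ⟨M2, hM2⟩ := rg_facts K hK 1
  refine ⟨max M1 M2, fun M hM Y t hR => ?_⟩
  obtain ⟨-, ⟨h16, -, hll⟩, -⟩ := hM2 M (by omega) Y t hR
  exact (ht (kk M) t h16).trans (hM1 M (by omega) Y hR.1 t h16 hll)

/-- the general prefix-suffix bound. -/
theorem ps_bound (K : ℕ) (hK : 2 ≤ K) (B ε : ℝ) (hε : 0 < ε) : ∃ M₀ : ℕ, ∀ M ≥ M₀,
    ∀ Y t : ℝ, Reg0 K M Y t → ∀ D : Set ℕ,
    ∑ d ∈ (Icc 1 ⌊t⌋₊).filter (fun d : ℕ => d ∈ D), (1 : ℝ) / d ≤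
      Real.exp (B * (Real.log (Y + 3)) ^ 2) * Real.exp (-(Nf M : ℝ)) →
    (((Icc 1 ⌊t⌋₊).filter (fun v => PS (kk M) t D v)).card : ℝ) ≤ t / Real.log t * ε := by
  obtain ⟨Cps, hCps, hps⟩ := prefix_suffix
  obtain ⟨A, hA, hmass⟩ := mass_bound
  obtain ⟨M1, hM1⟩ := hmass K hK
  obtain ⟨M2, hM2⟩ := rg_facts K hK 1
  obtain ⟨M3, hM3⟩ := num_small K (Cps + A + B) ε hε
  refine ⟨max (max M1 M2) M3, fun M hM Y t hR D hD => ?_⟩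
  obtain ⟨⟨hk1, -, -⟩, ⟨h16, -, -⟩, ⟨-, hY20, -⟩, -, -⟩ := hM2 M (by omega) Y t hR
  have h1 := hps (kk M) t D hk1 h16
  have h2 := hM1 M (by omega) Y t hR
  have h3 := hM3 M (by omega) Y hR.1
  have hlt : 0 < Real.log t := Real.log_pos (by linarith)
  have hc := const_le hCps.le (show (0 : ℝ) ≤ Y by linarith)
  have hD0 : 0 ≤ ∑ d ∈ (Icc 1 ⌊t⌋₊).filter (fun d : ℕ => d ∈ D), (1 : ℝ) / d :=
    Finset.sum_nonneg fun _ _ => by positivity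
  have hA0 : 0 ≤ ∑ a ∈ (Icc 1 ⌊t⌋₊).filter (fun a : ℕ => a ∈ SS (kk M)), (1 : ℝ) / a :=
    Finset.sum_nonneg fun _ _ => by positivity
  have hset : (((Icc 1 ⌊t⌋₊).filter (fun v => PS (kk M) t D v)).card : ℝ) ≤
      Cps * (t / Real.log t) *
        (∑ a ∈ (Icc 1 ⌊t⌋₊).filter (fun a : ℕ => a ∈ SS (kk M)), (1 : ℝ) / a) *
        (∑ d ∈ (Icc 1 ⌊t⌋₊).filter (fun d : ℕ => d ∈ D), (1 : ℝ) / d) := by
    convert h1
    exact Iff.rfl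
  refine hset.trans ?_
  have h4 : Cps * (t / Real.log t) *
        (∑ a ∈ (Icc 1 ⌊t⌋₊).filter (fun a : ℕ => a ∈ SS (kk M)), (1 : ℝ) / a) *
        (∑ d ∈ (Icc 1 ⌊t⌋₊).filter (fun d : ℕ => d ∈ D), (1 : ℝ) / d) ≤
      Real.exp (Cps * (Real.log (Y + 3)) ^ 2) * (t / Real.log t) *
        Real.exp (A * (Real.log (Y + 3)) ^ 2) *
        (Real.exp (B * (Real.log (Y + 3)) ^ 2) * Real.exp (-(Nf M : ℝ))) := by
    have htl : 0 ≤ t / Real.log t := by positivity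
    gcongr
  refine h4.trans ?_
  have h5 : Real.exp (Cps * (Real.log (Y + 3)) ^ 2) * (t / Real.log t) *
        Real.exp (A * (Real.log (Y + 3)) ^ 2) *
        (Real.exp (B * (Real.log (Y + 3)) ^ 2) * Real.exp (-(Nf M : ℝ))) =
      t / Real.log t * (Real.exp ((Cps + A + B) * (Real.log (Y + 3)) ^ 2) *
        Real.exp (-(Nf M : ℝ))) := by
    rw [show (Cps + A + B) * (Real.log (Y + 3)) ^ 2 = Cps * (Real.log (Y + 3)) ^ 2 +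
      A * (Real.log (Y + 3)) ^ 2 + B * (Real.log (Y + 3)) ^ 2 by ring, Real.exp_add,
      Real.exp_add]
    ring
  rw [h5]
  exact mul_le_mul_of_nonneg_left h3 (by positivity)

/-- [a] -/
theorem sum_DA : ∃ A : ℝ, 0 < A ∧ ∀ K : ℕ, 2 ≤ K → ∃ M₀ : ℕ, ∀ M ≥ M₀, ∀ Y t : ℝ,
    Reg0 K M Y t →
    ∑ d ∈ (Icc 1 ⌊t⌋₊).filter (fun d : ℕ => d ∈ DA (kk M) (Nf M)), (1 : ℝ) / d ≤
      Real.exp (A * (Real.log (Y + 3)) ^ 2) * Real.exp (-(Nf M : ℝ)) := by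
  obtain ⟨A, hA, hmass⟩ := mass_bound
  refine ⟨A, hA, fun K hK => ?_⟩
  obtain ⟨M1, hM1⟩ := hmass K hK
  obtain ⟨M2, hM2⟩ := rg_facts K hK 1
  obtain ⟨M3, hM3⟩ := bad_mass
  refine ⟨max (max M1 M2) M3, fun M hM Y t hR => ?_⟩
  obtain ⟨⟨hk1, -, -⟩, ⟨h16, -, -⟩, -, -, hm1, -, -⟩ := hM2 M (by omega) Y t hR
  have h2 := hM1 M (by omega) Y t hR
  have h3 := hM3 M (by omega) (⌊t⌋₊ + 1)
  have h4 := sum_inv_le_prod ((Icc 1 ⌊t⌋₊).filter (fun d : ℕ => d ∈ DA (kk M) (Nf M)))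
    ((Nat.primesLE (⌊t⌋₊ + 1)).filter (fun q => (Nf M) ^ 10 ≤ lv q ∧ ¬ Good (Nf M) q))
    ((Icc 1 ⌊t⌋₊).filter (fun a : ℕ => a ∈ SS (kk M))) (fun q => q - 1) (by
      intro d hd
      rw [Finset.mem_filter, Finset.mem_Icc] at hd
      obtain ⟨⟨hd1, hdt⟩, q, w, hq, hq1, hq2, hw, hdw⟩ := hd
      have hw0 := SS_pos hw
      have hq0 : 0 < q - 1 := by have := hq.two_le; omega
      have h5 : q - 1 ≤ d := by rw [hdw]; exact Nat.le_mul_of_pos_right _ hw0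
      have h6 : w ≤ d := by rw [hdw]; exact Nat.le_mul_of_pos_left _ hq0
      refine ⟨q, ?_, w, ?_, hdw, hq0, hw0⟩
      · rw [Finset.mem_filter, Nat.mem_primesLE]
        exact ⟨⟨by omega, hq⟩, hq1, hq2⟩
      · rw [Finset.mem_filter, Finset.mem_Icc]
        exact ⟨⟨hw0, by omega⟩, hw⟩)
  refine h4.trans ?_
  have h5 : ∑ q ∈ (Nat.primesLE (⌊t⌋₊ + 1)).filter
      (fun q => (Nf M) ^ 10 ≤ lv q ∧ ¬ Good (Nf M) q), (1 : ℝ) / ((q - 1 : ℕ) : ℝ) ≤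
      Real.exp (-(Nf M : ℝ)) := by
    have h6 : ∑ q ∈ (Nat.primesLE (⌊t⌋₊ + 1)).filter
      (fun q => (Nf M) ^ 10 ≤ lv q ∧ ¬ Good (Nf M) q), (1 : ℝ) / ((q - 1 : ℕ) : ℝ) =
      ∑ q ∈ (Nat.primesLE (⌊t⌋₊ + 1)).filter
      (fun q => (Nf M) ^ 10 ≤ lv q ∧ ¬ Good (Nf M) q), (1 : ℝ) / ((q : ℝ) - 1) := by
      apply Finset.sum_congr rfl
      intro q hq
      rw [Finset.mem_filter, Nat.mem_primesLE] at hq
      rw [Nat.cast_sub hq.1.2.one_lt.le]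
      push_cast
      rfl
    rw [h6]
    refine h3.trans ?_
    apply Real.exp_le_exp.2
    have : (1 : ℝ) ≤ Nf M := by exact_mod_cast hm1
    have h7 : (Nf M : ℝ) ≤ (Nf M : ℝ) ^ 14 := le_self_pow₀ this (by norm_num)
    linarith
  have h8 : 0 ≤ ∑ a ∈ (Icc 1 ⌊t⌋₊).filter (fun a : ℕ => a ∈ SS (kk M)), (1 : ℝ) / a :=
    Finset.sum_nonneg fun _ _ => by positivity
  calc _ ≤ Real.exp (-(Nf M : ℝ)) * Real.exp (A * (Real.log (Y + 3)) ^ 2) :=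
        mul_le_mul h5 h2 h8 (Real.exp_pos _).le
    _ = _ := mul_comm _ _

/-- [b] -/
theorem sum_DB : ∃ A : ℝ, 0 < A ∧ ∀ K : ℕ, 2 ≤ K → ∃ M₀ : ℕ, ∀ M ≥ M₀, ∀ Y t : ℝ,
    Reg0 K M Y t →
    ∑ d ∈ (Icc 1 ⌊t⌋₊).filter (fun d : ℕ => d ∈ DB (kk M) (Nf M) Y), (1 : ℝ) / d ≤
      Real.exp (A * (Real.log (Y + 3)) ^ 2) * Real.exp (-(Nf M : ℝ)) := by
  obtain ⟨C, hC, hk⟩ := k_bound
  refine ⟨C + 1, by linarith, fun K hK => ?_⟩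
  obtain ⟨M2, hM2⟩ := rg_facts K hK 2
  refine ⟨M2, fun M hM Y t hR => ?_⟩
  obtain ⟨⟨hk1, hkm, -⟩, ⟨h16, -, -⟩, ⟨-, hY20, -⟩, -, hm1, -, -⟩ := hM2 M (by omega) Y t hR
  have hm2 : (2 : ℝ) ≤ Nf M := by exact_mod_cast hm1
  have hsub : (Icc 1 ⌊t⌋₊).filter (fun d : ℕ => d ∈ DB (kk M) (Nf M) Y) ⊆
      (Icc (Nf M ^ 10) ⌊Y⌋₊).biUnion fun y =>
        (Icc 1 ⌊t⌋₊).filter (fun u : ℕ => u ∈ SSl (kk M) y ∧ ∃ L : Multiset ℕ, L.card = 24 ∧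
        (∀ q ∈ L, q.Prime ∧ (y : ℝ) / 2 ≤ lv q) ∧ (L.map (fun q => q - 1)).prod ∣ u) := by
    intro d hd
    rw [Finset.mem_filter] at hd
    obtain ⟨hd1, y, hy1, hy2, hy3⟩ := hd
    rw [Finset.mem_biUnion]
    refine ⟨y, ?_, ?_⟩
    · rw [Finset.mem_Icc]
      exact ⟨hy1, Nat.le_floor (by linarith)⟩
    · rw [Finset.mem_filter]
      exact ⟨hd1, hy3⟩
  have h1 : ∑ d ∈ (Icc 1 ⌊t⌋₊).filter (fun d : ℕ => d ∈ DB (kk M) (Nf M) Y), (1 : ℝ) / d ≤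
      ∑ y ∈ Icc (Nf M ^ 10) ⌊Y⌋₊, ∑ u ∈ (Icc 1 ⌊t⌋₊).filter (fun u : ℕ => u ∈ SSl (kk M) y ∧
        ∃ L : Multiset ℕ, L.card = 24 ∧
        (∀ q ∈ L, q.Prime ∧ (y : ℝ) / 2 ≤ lv q) ∧ (L.map (fun q => q - 1)).prod ∣ u),
        (1 : ℝ) / u := by
    refine (Finset.sum_le_sum_of_subset_of_nonneg hsub (fun _ _ _ => by positivity)).trans ?_
    exact sum_biUnion_le' _ _ _ (fun _ => by positivity)
  refine h1.trans ?_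
  have h2 : ∀ y ∈ Icc (Nf M ^ 10) ⌊Y⌋₊,
      ∑ u ∈ (Icc 1 ⌊t⌋₊).filter (fun u : ℕ => u ∈ SSl (kk M) y ∧
        ∃ L : Multiset ℕ, L.card = 24 ∧
        (∀ q ∈ L, q.Prime ∧ (y : ℝ) / 2 ≤ lv q) ∧ (L.map (fun q => q - 1)).prod ∣ u),
        (1 : ℝ) / u ≤ C * Real.exp (-(Nf M : ℝ)) := by
    intro y hy
    rw [Finset.mem_Icc] at hy
    have h3 : 1 ≤ Nf M ^ 10 := Nat.one_le_pow _ _ (by omega)
    refine (hk (kk M) y ⌊t⌋₊ (by omega) (by omega)).trans ?_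
    apply mul_le_mul_of_nonneg_left _ hC.le
    apply Real.exp_le_exp.2
    have h4 : ((Nf M ^ 10 : ℕ) : ℝ) ≤ y := by exact_mod_cast hy.1
    push_cast at h4
    have h5 : (100 : ℝ) * Nf M ≤ (Nf M : ℝ) ^ 10 := by
      have h6 : (2 : ℝ) ^ 9 ≤ (Nf M : ℝ) ^ 9 := pow_le_pow_left₀ (by norm_num) hm2 9
      have h7 : (Nf M : ℝ) ^ 10 = (Nf M : ℝ) ^ 9 * Nf M := by ring
      rw [h7]
      have h8 : (100 : ℝ) ≤ (Nf M : ℝ) ^ 9 := by norm_num at h6; linarith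
      exact mul_le_mul_of_nonneg_right h8 (by linarith)
    linarith
  refine (Finset.sum_le_sum h2).trans ?_
  rw [Finset.sum_const, nsmul_eq_mul]
  have h3 : (((Icc (Nf M ^ 10) ⌊Y⌋₊).card : ℕ) : ℝ) ≤ Y + 3 := by
    rw [Nat.card_Icc]
    have h4 : ⌊Y⌋₊ + 1 - Nf M ^ 10 ≤ ⌊Y⌋₊ + 1 := Nat.sub_le _ _
    have h5 : ((⌊Y⌋₊ + 1 - Nf M ^ 10 : ℕ) : ℝ) ≤ ((⌊Y⌋₊ + 1 : ℕ) : ℝ) := by exact_mod_cast h4
    have h6 := Nat.floor_le (show (0 : ℝ) ≤ Y by linarith)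
    push_cast at h5
    linarith
  have h4 := Y_le (show (0 : ℝ) ≤ Y by linarith)
  have h5 := const_le hC.le (show (0 : ℝ) ≤ Y by linarith)
  calc (((Icc (Nf M ^ 10) ⌊Y⌋₊).card : ℕ) : ℝ) * (C * Real.exp (-(Nf M : ℝ))) ≤
      Real.exp (1 * (Real.log (Y + 3)) ^ 2) *
        (Real.exp (C * (Real.log (Y + 3)) ^ 2) * Real.exp (-(Nf M : ℝ))) := by
        apply mul_le_mul (h3.trans h4) _ (by positivity) (Real.exp_pos _).le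
        exact mul_le_mul_of_nonneg_right h5 (Real.exp_pos _).le
    _ = Real.exp ((C + 1) * (Real.log (Y + 3)) ^ 2) * Real.exp (-(Nf M : ℝ)) := by
        rw [show (C + 1) * (Real.log (Y + 3)) ^ 2 = 1 * (Real.log (Y + 3)) ^ 2 +
          C * (Real.log (Y + 3)) ^ 2 by ring, Real.exp_add]
        ring

/-- [d] -/
theorem sum_DD : ∃ A : ℝ, 0 < A ∧ ∀ K : ℕ, 2 ≤ K → ∃ M₀ : ℕ, ∀ M ≥ M₀, ∀ Y t : ℝ,
    Reg0 K M Y t →
    ∑ d ∈ (Icc 1 ⌊t⌋₊).filter (fun d : ℕ => d ∈ DD (kk M) (Nf M)), (1 : ℝ) / d ≤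
      Real.exp (A * (Real.log (Y + 3)) ^ 2) * Real.exp (-(Nf M : ℝ)) := by
  obtain ⟨C, hC, hk⟩ := ss_tail
  refine ⟨C, hC, fun K hK => ?_⟩
  obtain ⟨M2, hM2⟩ := rg_facts K hK 20
  refine ⟨M2, fun M hM Y t hR => ?_⟩
  obtain ⟨⟨hk1, hkm, -⟩, ⟨h16, -, -⟩, ⟨-, hY20, -⟩, -, hm1, -, -⟩ := hM2 M (by omega) Y t hR
  have hm2 : (20 : ℝ) ≤ Nf M := by exact_mod_cast hm1
  have h3 : 1 ≤ Nf M ^ 10 := Nat.one_le_pow _ _ (by omega)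
  have h4 := hk (kk M) (Nf M ^ 10) ⌊t⌋₊ (Real.exp (Real.exp (2 * (Nf M : ℝ) ^ 10))) h3 hkm
    (Real.one_le_exp (Real.exp_pos _).le)
  have hset : ∑ d ∈ (Icc 1 ⌊t⌋₊).filter (fun d : ℕ => d ∈ DD (kk M) (Nf M)), (1 : ℝ) / d ≤
      C * Real.exp (8 * ((Nf M ^ 10 : ℕ) : ℝ)) *
        Real.exp (-(Real.log (Real.exp (Real.exp (2 * (Nf M : ℝ) ^ 10))) /
          Real.exp ((Nf M ^ 10 : ℕ) : ℝ))) := by
    convert h4
    exact Iff.rfl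
  refine hset.trans ?_
  rw [Real.log_exp]
  push_cast
  set x : ℝ := (Nf M : ℝ) ^ 10 with hx
  have hmx : (Nf M : ℝ) ≤ x := le_self_pow₀ (by linarith) (by norm_num)
  have e1 : Real.exp (2 * x) / Real.exp x = Real.exp x := by
    rw [← Real.exp_sub]
    congr 1
    ring
  rw [e1]
  have h5 := const_le hC.le (show (0 : ℝ) ≤ Y by linarith)
  rw [mul_assoc, ← Real.exp_add]
  apply mul_le_mul h5 _ (Real.exp_pos _).le (Real.exp_pos _).le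
  apply Real.exp_le_exp.2
  have h6 := Real.quadratic_le_exp_of_nonneg (show (0 : ℝ) ≤ x by linarith)
  nlinarith

/-- [e] -/
theorem sum_DE : ∃ A : ℝ, 0 < A ∧ ∀ K : ℕ, 2 ≤ K → ∃ M₀ : ℕ, ∀ M ≥ M₀, ∀ Y t : ℝ,
    Reg0 K M Y t →
    ∑ d ∈ (Icc 1 ⌊t⌋₊).filter (fun d : ℕ => d ∈ DE M Y), (1 : ℝ) / d ≤
      Real.exp (A * (Real.log (Y + 3)) ^ 2) * Real.exp (-(Nf M : ℝ)) := by
  obtain ⟨N0, hN0⟩ := overfull_sum
  obtain ⟨M3, hM3⟩ := two_Nf_pow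
  refine ⟨1, one_pos, fun K hK => ?_⟩
  obtain ⟨M2, hM2⟩ := rg_facts K hK (max N0 2)
  refine ⟨max M2 M3, fun M hM Y t hR => ?_⟩
  obtain ⟨⟨hk1, hkm, -⟩, ⟨h16, -, -⟩, ⟨-, hY20, -⟩, -, hm1, -, -⟩ := hM2 M (by omega) Y t hR
  have hsub : (Icc 1 ⌊t⌋₊).filter (fun d : ℕ => d ∈ DE M Y) ⊆
      (Icc M (⌊Y⌋₊ + 1)).biUnion fun c =>
        (Icc 1 ⌊t⌋₊).filter (fun u : ℕ => Over (Nf c) c u) := by
    intro d hd
    rw [Finset.mem_filter] at hd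
    obtain ⟨hd1, c, hc1, hc2, hc3⟩ := hd
    rw [Finset.mem_biUnion]
    refine ⟨c, ?_, ?_⟩
    · rw [Finset.mem_Icc]
      refine ⟨hc1, ?_⟩
      have h1 : c ≤ ⌊Y + 1⌋₊ := Nat.le_floor hc2
      rwa [Nat.floor_add_one (by linarith)] at h1
    · rw [Finset.mem_filter]
      exact ⟨hd1, hc3⟩
  have h1 : ∑ d ∈ (Icc 1 ⌊t⌋₊).filter (fun d : ℕ => d ∈ DE M Y), (1 : ℝ) / d ≤
      ∑ c ∈ Icc M (⌊Y⌋₊ + 1), ∑ u ∈ (Icc 1 ⌊t⌋₊).filter (fun u : ℕ => Over (Nf c) c u),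
        (1 : ℝ) / u := by
    refine (Finset.sum_le_sum_of_subset_of_nonneg hsub (fun _ _ _ => by positivity)).trans ?_
    exact sum_biUnion_le' _ _ _ (fun _ => by positivity)
  refine h1.trans ?_
  have h2 : ∀ c ∈ Icc M (⌊Y⌋₊ + 1),
      ∑ u ∈ (Icc 1 ⌊t⌋₊).filter (fun u : ℕ => Over (Nf c) c u), (1 : ℝ) / u ≤
        Real.exp (-(Nf M : ℝ)) := by
    intro c hc
    rw [Finset.mem_Icc] at hc
    have hmc : Nf M ≤ Nf c := Nf_mono hc.1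
    have h3 := hM3 c (by omega)
    refine (hN0 (Nf c) (by omega) c (Nf_pow_le c) (by omega) ⌊t⌋₊).trans ?_
    apply Real.exp_le_exp.2
    have h4 : (Nf M : ℝ) ≤ Nf c := by exact_mod_cast hmc
    have h5 : (1 : ℝ) ≤ Nf c := by
      have : 1 ≤ Nf c := by omega
      exact_mod_cast this
    have h6 : (Nf c : ℝ) ≤ (Nf c : ℝ) ^ 88 := le_self_pow₀ h5 (by norm_num)
    linarith
  refine (Finset.sum_le_sum h2).trans ?_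
  rw [Finset.sum_const, nsmul_eq_mul]
  apply mul_le_mul_of_nonneg_right _ (Real.exp_pos _).le
  refine le_trans ?_ (Y_le (show (0 : ℝ) ≤ Y by linarith))
  rw [Nat.card_Icc]
  have h4 : ⌊Y⌋₊ + 1 + 1 - M ≤ ⌊Y⌋₊ + 2 := by omega
  have h5 : ((⌊Y⌋₊ + 1 + 1 - M : ℕ) : ℝ) ≤ ((⌊Y⌋₊ + 2 : ℕ) : ℝ) := by exact_mod_cast h4
  have h6 := Nat.floor_le (show (0 : ℝ) ≤ Y by linarith)
  push_cast at h5
  linarith

end P031
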