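import Vale.Agent.P031.Defs

/-!
P031, final step: from the approximation `V x' = (1+o(1)) ∑_{u ∈ U} π(x'/u)` (same `U` for
`x' = x` and `x' = c x`, all `u ≤ √x`) and `π(cx)/π(x) → c` we get `V(cx)/V(x) → c`.
-/

namespace P031

open Filter Topology

/-- prime counting at real argument -/
noncomputable def piR (x : ℝ) : ℝ := (Nat.primeCounting ⌊x⌋₊ : ℝ)

theorem final_of_main
    (pnt : ∀ c : ℝ, 0 < c → Tendsto (fun x : ℝ => piR (c * x) / piR x) atTop (𝓝 c))
    (main : ∀ c : ℝ, 1 < c → ∀ ε : ℝ, 0 < ε → ∀ᶠ x : ℝ in atTop, ∃ (U : Finset (List ℕ × ℕ))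
      (f : List ℕ × ℕ → ℕ), U.Nonempty ∧ (∀ u ∈ U, 1 ≤ f u ∧ (f u : ℝ) ^ 2 ≤ x) ∧
      |(V x : ℝ) - ∑ u ∈ U, piR (x / f u)| ≤ ε * ∑ u ∈ U, piR (x / f u) ∧
      |(V (c * x) : ℝ) - ∑ u ∈ U, piR (c * x / f u)| ≤ ε * ∑ u ∈ U, piR (c * x / f u))
    (c : ℝ) (hc : 1 < c) :
    Tendsto (fun x : ℝ => (V (c * x) : ℝ) / (V x : ℝ)) atTop (𝓝 c) := by
  have hc0 : 0 < c := by linarith
  rw [Metric.tendsto_atTop]
  intro η hη
  -- choose ε
  obtain ⟨ε, hε0, hε1, hup, hlo⟩ : ∃ ε : ℝ, 0 < ε ∧ ε < 1/2 ∧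
      (c + ε) * (1 + ε) / (1 - ε) < c + η ∧ c - η < (c - ε) * (1 - ε) / (1 + ε) := by
    have h1 : Tendsto (fun ε : ℝ => (c + ε) * (1 + ε) / (1 - ε)) (𝓝 0) (𝓝 ((c + 0) * (1 + 0) / (1 - 0))) := by
      apply Tendsto.div
      · apply Tendsto.mul
        · exact tendsto_const_nhds.add tendsto_id
        · exact tendsto_const_nhds.add tendsto_id
      · exact tendsto_const_nhds.sub tendsto_id
      · norm_num
    have h2 : Tendsto (fun ε : ℝ => (c - ε) * (1 - ε) / (1 + ε)) (𝓝 0) (𝓝 ((c - 0) * (1 - 0) / (1 + 0))) := by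
      apply Tendsto.div
      · apply Tendsto.mul
        · exact tendsto_const_nhds.sub tendsto_id
        · exact tendsto_const_nhds.sub tendsto_id
      · exact tendsto_const_nhds.add tendsto_id
      · norm_num
    have h1' : ∀ᶠ ε : ℝ in 𝓝 0, (c + ε) * (1 + ε) / (1 - ε) < c + η := by
      apply h1.eventually_lt_const
      simp; exact hη
    have h2' : ∀ᶠ ε : ℝ in 𝓝 0, c - η < (c - ε) * (1 - ε) / (1 + ε) := by
      apply h2.eventually_const_lt
      simp; exact hη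
    have h3 : ∀ᶠ ε : ℝ in 𝓝[>] 0, 0 < ε := self_mem_nhdsWithin
    have h4 : ∀ᶠ ε : ℝ in 𝓝 (0:ℝ), ε < 1/2 := by
      apply Iio_mem_nhds; norm_num
    have := (h3.and ((h4.filter_mono nhdsWithin_le_nhds).and
      ((h1'.filter_mono nhdsWithin_le_nhds).and (h2'.filter_mono nhdsWithin_le_nhds)))).exists
    obtain ⟨ε, a, b, d, e⟩ := this
    exact ⟨ε, a, b, d, e⟩
  have hpnt := pnt c hc0
  rw [Metric.tendsto_atTop] at hpnt
  obtain ⟨X0, hX0⟩ := hpnt ε hε0
  have hmain := main c hc ε hε0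
  obtain ⟨X1, hX1⟩ := (eventually_atTop.1 hmain)
  refine ⟨max X1 (max 16 ((max X0 1) ^ 2)), fun x hx => ?_⟩
  have hxX1 : X1 ≤ x := le_trans (le_max_left _ _) hx
  have hx16 : 16 ≤ x := le_trans (le_trans (le_max_left _ _) (le_max_right _ _)) hx
  have hxX0 : (max X0 1) ^ 2 ≤ x := le_trans (le_trans (le_max_right _ _) (le_max_right _ _)) hx
  obtain ⟨U, f, hUne, hU, hVx, hVcx⟩ := hX1 x hxX1
  have hx0 : 0 < x := by linarith
  -- each u: x/u ≥ sqrt x
  have hsq : ∀ u ∈ U, max X0 1 ≤ x / f u ∧ 4 ≤ x / f u := by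
    intro u hu
    obtain ⟨h1, h2⟩ := hU u hu
    have hu0 : (0:ℝ) < f u := by exact_mod_cast h1
    have h3 : (f u:ℝ) ≤ Real.sqrt x := Real.le_sqrt_of_sq_le h2
    have h4 : Real.sqrt x * Real.sqrt x = x := Real.mul_self_sqrt hx0.le
    have h5 : Real.sqrt x ≤ x / f u := by
      rw [le_div_iff₀ hu0]
      calc Real.sqrt x * f u ≤ Real.sqrt x * Real.sqrt x := by
            exact mul_le_mul_of_nonneg_left h3 (Real.sqrt_nonneg _)
        _ = x := h4
    refine ⟨le_trans ?_ h5, le_trans ?_ h5⟩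
    · exact Real.le_sqrt_of_sq_le hxX0
    · apply Real.le_sqrt_of_sq_le; linarith
  have hpos : ∀ u ∈ U, 0 < piR (x / f u) := by
    intro u hu
    have h := (hsq u hu).2
    unfold piR
    have h2 : 4 ≤ ⌊x / f u⌋₊ := Nat.le_floor (by exact_mod_cast h)
    have h3 : Nat.primeCounting 4 ≤ Nat.primeCounting ⌊x / f u⌋₊ := Nat.monotone_primeCounting h2
    have h4 : 0 < Nat.primeCounting 4 := by decide
    exact_mod_cast lt_of_lt_of_le h4 h3
  set A := ∑ u ∈ U, piR (x / f u) with hA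
  set B := ∑ u ∈ U, piR (c * x / f u) with hB
  have hApos : 0 < A := Finset.sum_pos hpos hUne
  have hratio : ∀ u ∈ U, (c - ε) * piR (x / f u) ≤ piR (c * x / f u) ∧ piR (c * x / f u) ≤ (c + ε) * piR (x / f u) := by
    intro u hu
    have h1 := (hsq u hu).1
    have h2 := hX0 (x / f u) (le_trans (le_max_left _ _) h1)
    have h3 := hpos u hu
    rw [Real.dist_eq, abs_lt] at h2
    have h4 : c * (x / f u) = c * x / f u := by ring
    rw [h4] at h2
    constructor
    · have := h2.1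
      have h5 : c - ε < piR (c * x / f u) / piR (x / f u) := by linarith
      rw [lt_div_iff₀ h3] at h5
      exact h5.le
    · have h5 : piR (c * x / f u) / piR (x / f u) < c + ε := by linarith [h2.2]
      rw [div_lt_iff₀ h3] at h5
      exact h5.le
  have hBlo : (c - ε) * A ≤ B := by
    rw [hA, hB, Finset.mul_sum]
    exact Finset.sum_le_sum fun u hu => (hratio u hu).1
  have hBup : B ≤ (c + ε) * A := by
    rw [hA, hB, Finset.mul_sum]
    exact Finset.sum_le_sum fun u hu => (hratio u hu).2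
  rw [abs_le] at hVx hVcx
  have hV1 : (1 - ε) * A ≤ V x := by nlinarith [hVx.1]
  have hV2 : (V x : ℝ) ≤ (1 + ε) * A := by nlinarith [hVx.2]
  have hV3 : (1 - ε) * B ≤ V (c * x) := by nlinarith [hVcx.1]
  have hV4 : (V (c * x) : ℝ) ≤ (1 + ε) * B := by nlinarith [hVcx.2]
  have h1ε : 0 < 1 - ε := by linarith
  have hVpos : (0:ℝ) < V x := lt_of_lt_of_le (by positivity) hV1
  have hcε : 0 < c - ε := by linarith
  rw [Real.dist_eq, abs_lt]
  constructor
  · have h6 : (c - ε) * (1 - ε) / (1 + ε) ≤ (V (c * x) : ℝ) / V x := by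
      rw [div_le_div_iff₀ (by linarith) hVpos]
      calc (c - ε) * (1 - ε) * (V x : ℝ) ≤ (c - ε) * (1 - ε) * ((1 + ε) * A) := by
            apply mul_le_mul_of_nonneg_left hV2; positivity
        _ = (1 - ε) * ((c - ε) * A) * (1 + ε) := by ring
        _ ≤ (1 - ε) * B * (1 + ε) := by
            apply mul_le_mul_of_nonneg_right _ (by linarith)
            apply mul_le_mul_of_nonneg_left hBlo h1ε.le
        _ ≤ (V (c * x) : ℝ) * (1 + ε) := by
            apply mul_le_mul_of_nonneg_right hV3 (by linarith)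
    linarith
  · have h6 : (V (c * x) : ℝ) / V x ≤ (c + ε) * (1 + ε) / (1 - ε) := by
      rw [div_le_div_iff₀ hVpos h1ε]
      calc (V (c * x) : ℝ) * (1 - ε) ≤ ((1 + ε) * B) * (1 - ε) := by
            apply mul_le_mul_of_nonneg_right hV4 h1ε.le
        _ ≤ ((1 + ε) * ((c + ε) * A)) * (1 - ε) := by
            apply mul_le_mul_of_nonneg_right _ h1ε.le
            apply mul_le_mul_of_nonneg_left hBup; linarith
        _ = (c + ε) * (1 + ε) * ((1 - ε) * A) := by ring
        _ ≤ (c + ε) * (1 + ε) * (V x : ℝ) := by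
            apply mul_le_mul_of_nonneg_left hV1; positivity
    linarith

end P031
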