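import Vale.Agent.P031.GeomCore

/-! P031 [GEOM]: the geometry module. -/

namespace P031

open Finset Filter

namespace Gm

theorem exp_par {L K C1 e : ℝ} (hL : 3 ≤ L) (he : 0 < e) (hK : C1 + 12 ≤ (K - 2) / 44)
    (hL1 : 4 * K + 1 ≤ L) (hL2 : -Real.log (e / 72) ≤ L) {j : ℝ} (hj0 : 0 ≤ j)
    (hj : (K - 2) * L ≤ (j + 2) * 1.1) :
    9 * Real.exp (4 * K * L) * Real.exp (C1 * L ^ 2) * (Real.exp (10 * L ^ 2) *
      Real.exp (-(j * (L / 40)))) ≤ e / 8 ∧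
    Real.exp (C1 * L ^ 2) ≤ e / 2 * Real.exp (j * L) := by
  have hLsq : L ≤ L ^ 2 := by nlinarith
  have h1 : (C1 + 12) * L ^ 2 ≤ (K - 2) / 44 * L ^ 2 :=
    mul_le_mul_of_nonneg_right hK (by positivity)
  have h2 : (K - 2) * L * L ≤ (j + 2) * 1.1 * L := mul_le_mul_of_nonneg_right hj (by linarith)
  have h3 : (C1 + 12) * L ^ 2 ≤ j * (L / 40) + L / 20 := by nlinarith
  have h4 : (4 * K + 1) * L ≤ L ^ 2 := by nlinarith
  constructor
  · have e1 : 9 * Real.exp (4 * K * L) * Real.exp (C1 * L ^ 2) * (Real.exp (10 * L ^ 2) *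
      Real.exp (-(j * (L / 40)))) =
        9 * Real.exp (4 * K * L + C1 * L ^ 2 + 10 * L ^ 2 + -(j * (L / 40))) := by
      rw [Real.exp_add, Real.exp_add, Real.exp_add]
      ring
    rw [e1]
    have h5 : 4 * K * L + C1 * L ^ 2 + 10 * L ^ 2 + -(j * (L / 40)) ≤ Real.log (e / 72) := by
      linarith
    have h6 := Real.exp_le_exp.mpr h5
    rw [Real.exp_log (by positivity)] at h6
    linarith
  · have h5 : C1 * L ^ 2 - j * L ≤ Real.log (e / 72) := by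
      have h6 : j * (L / 40) ≤ j * L := by nlinarith
      have h7 : 0 ≤ j * L := by positivity
      nlinarith
    have h6 := Real.exp_le_exp.mpr h5
    rw [Real.exp_log (by positivity), Real.exp_sub, div_le_iff₀ (Real.exp_pos _)] at h6
    have := Real.exp_pos (j * L)
    nlinarith

theorem hexp_par {R Y L K' C1 e : ℝ} {K M : ℕ} (hRM : R ^ 40 = (M : ℝ)) (hR : 1000 ≤ R)
    (hLM : Real.log M = L) (hL : 3 ≤ L) (he : 0 < e) (hKK : (K : ℝ) = K')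
    (hK : C1 + 12 ≤ (K' - 2) / 44) (hL1 : 4 * K' + 1 ≤ L) (hL2 : -Real.log (e / 72) ≤ L)
    (hY1 : (M : ℝ) ^ K ≤ Y) (hY2 : Y < ((M : ℝ) + 1) ^ K) (hYR : R ^ 80 ≤ Y) (J0 : ℕ)
    (hJ : Y < gg (J0 + 2) * (R ^ 40) ^ 2) :
      (Y + 1) * ((Y + 2) * Real.exp (C1 * L ^ 2)) * (Real.exp (10 * L ^ 2) * (1 / R) ^ J0) ≤
        e / 8 ∧
      Real.exp (C1 * L ^ 2) ≤ e / 2 * (R ^ 40) ^ J0 := by
  have hR0 : 0 < R := by linarith
  have hR1 : 1 ≤ R := by linarith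
  have hM0 : (0 : ℝ) < M := by
    rw [← hRM]
    positivity
  have hM1 : (1000 : ℝ) ≤ M := by
    rw [← hRM]
    calc (1000 : ℝ) ≤ R := hR
      _ = R ^ 1 := (pow_one R).symm
      _ ≤ R ^ 40 := pow_le_pow_right₀ hR1 (by norm_num)
  have hY0 : 0 < Y := lt_of_lt_of_le (by positivity) hYR
  have hY3 : 3 ≤ Y := by
    calc (3 : ℝ) ≤ R := by linarith
      _ = R ^ 1 := (pow_one R).symm
      _ ≤ R ^ 80 := pow_le_pow_right₀ hR1 (by norm_num)
      _ ≤ Y := hYR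
  have hexpL : Real.exp L = M := by
    rw [← hLM, Real.exp_log hM0]
  have hRexp : R = Real.exp (L / 40) := by
    have h1 : Real.exp (L / 40) ^ 40 = R ^ 40 := by
      rw [← Real.exp_nat_mul, hRM, ← hexpL]
      congr 1
      push_cast
      ring
    exact ((pow_left_inj₀ (Real.exp_pos _).le hR0.le (by norm_num)).mp h1).symm
  have hj : (K' - 2) * L ≤ ((J0 : ℝ) + 2) * 1.1 := by
    have h1 : (M : ℝ) ^ K < 3 ^ (J0 + 2) * (M : ℝ) ^ 2 := by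
      have h2 := gg_upper (J0 + 2)
      rw [hRM] at hJ
      have h3 : gg (J0 + 2) * (M : ℝ) ^ 2 ≤ 3 ^ (J0 + 2) * (M : ℝ) ^ 2 :=
        mul_le_mul_of_nonneg_right h2 (by positivity)
      linarith
    have h2 := Real.log_lt_log (by positivity) h1
    rw [Real.log_mul (by positivity) (by positivity), Real.log_pow, Real.log_pow, Real.log_pow,
      hLM, hKK] at h2
    push_cast at h2
    have h3 := log_3
    have h4 : (0 : ℝ) ≤ (J0 : ℝ) + 2 := by positivity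
    have h5 : ((J0 : ℝ) + 2) * Real.log 3 ≤ ((J0 : ℝ) + 2) * 1.1 :=
      mul_le_mul_of_nonneg_left h3 h4
    linarith
  have h := exp_par (j := (J0 : ℝ)) hL he hK hL1 hL2 (Nat.cast_nonneg _) hj
  have hlogY : Real.log Y ≤ 2 * K' * L := by
    have h1 : Y ≤ ((M : ℝ) ^ 2) ^ K := by
      refine hY2.le.trans ?_
      apply pow_le_pow_left₀ (by linarith)
      nlinarith
    have h2 := Real.log_le_log hY0 h1
    rw [Real.log_pow, Real.log_pow, hLM, hKK] at h2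
    push_cast at h2
    linarith
  have hYY : (Y + 1) * (Y + 2) ≤ 9 * Real.exp (4 * K' * L) := by
    have h1 : Y ≤ Real.exp (2 * K' * L) := by
      calc Y = Real.exp (Real.log Y) := (Real.exp_log hY0).symm
        _ ≤ _ := Real.exp_le_exp.mpr hlogY
    have h2 : Real.exp (4 * K' * L) = Real.exp (2 * K' * L) * Real.exp (2 * K' * L) := by
      rw [← Real.exp_add]
      congr 1
      ring
    rw [h2]
    have h3 : Y * Y ≤ Real.exp (2 * K' * L) * Real.exp (2 * K' * L) :=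
      mul_le_mul h1 h1 hY0.le (Real.exp_pos _).le
    nlinarith
  have hRpow : (1 / R) ^ J0 = Real.exp (-((J0 : ℝ) * (L / 40))) := by
    rw [Real.exp_neg, Real.exp_nat_mul, ← hRexp, one_div, inv_pow]
  have hRpow2 : (R ^ 40) ^ J0 = Real.exp ((J0 : ℝ) * L) := by
    rw [hRM, Real.exp_nat_mul, hexpL]
  rw [hRpow, hRpow2]
  refine ⟨?_, h.2⟩
  refine le_trans ?_ h.1
  have e1 : (Y + 1) * ((Y + 2) * Real.exp (C1 * L ^ 2)) * (Real.exp (10 * L ^ 2) *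
      Real.exp (-((J0 : ℝ) * (L / 40)))) = ((Y + 1) * (Y + 2)) * (Real.exp (C1 * L ^ 2) *
      (Real.exp (10 * L ^ 2) * Real.exp (-((J0 : ℝ) * (L / 40))))) := by ring
  have e2 : 9 * Real.exp (4 * K' * L) * Real.exp (C1 * L ^ 2) * (Real.exp (10 * L ^ 2) *
      Real.exp (-((J0 : ℝ) * (L / 40)))) = (9 * Real.exp (4 * K' * L)) *
      (Real.exp (C1 * L ^ 2) * (Real.exp (10 * L ^ 2) *
      Real.exp (-((J0 : ℝ) * (L / 40))))) := by ring
  rw [e1, e2]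
  exact mul_le_mul_of_nonneg_right hYY (by positivity)

end Gm

open Gm in
/-- [GEOM] The weighted number of lattice points in `R+`, `R-` agree asymptotically, and
the sum over `R-` is large. -/
theorem geom (C1 : ℝ) : ∃ K0 : ℕ, ∀ K : ℕ, K0 ≤ K → ∀ C ε : ℝ, 0 < ε →
    ∃ M0 : ℕ, ∀ M : ℕ, M0 ≤ M → ∀ Y : ℝ, (M : ℝ) ^ K ≤ Y → Y < ((M : ℝ) + 1) ^ K →
    ∀ θ : ℝ, 0 ≤ θ → θ ≤ C * (M : ℝ) ^ (-(1 / 10) : ℝ) →
    ∀ (T : Finset (List ℕ)) (W : List ℕ → ℝ), (∀ t ∈ T, 0 ≤ W t) → (∀ t ∈ T, M ≤ t.headI) →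
    (∀ c : ℕ, ∑ t ∈ T with t.headI = c, W t ≤ Real.exp (C1 * (Real.log M) ^ 2)) →
    [M] ∈ T → 1 / 2 ≤ W [M] →
    (∑ J ∈ range (⌊Y⌋₊ + 1), ∑ t ∈ T, W t * (RP θ Y J t).ncard ≤
      (1 + ε) * ∑ J ∈ range (⌊Y⌋₊ + 1), ∑ t ∈ T, W t * (RM θ Y J t).ncard) ∧
    Real.exp (C1 * (Real.log M) ^ 2) ≤
      ε * ∑ J ∈ range (⌊Y⌋₊ + 1), ∑ t ∈ T, W t * (RM θ Y J t).ncard := by
  refine ⟨⌈44 * (|C1| + 12)⌉₊ + 2, ?_⟩
  intro K hK C ε hε
  set C' : ℝ := max C 1 with hC'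
  set e : ℝ := min ε 1 with he'
  have hC1 : 1 ≤ C' := le_max_right _ _
  have he0 : 0 < e := lt_min hε one_pos
  have he1 : e ≤ 1 := min_le_right _ _
  have hee : e ≤ ε := min_le_left _ _
  have hK2 : 2 ≤ K := by omega
  have hKr : C1 + 12 ≤ ((K : ℝ) - 2) / 44 := by
    have h1 := Nat.le_ceil (44 * (|C1| + 12))
    have h2 : ((⌈44 * (|C1| + 12)⌉₊ + 2 : ℕ) : ℝ) ≤ K := by exact_mod_cast hK
    push_cast at h2
    have h3 := le_abs_self C1
    linarith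
  -- eventual facts
  set c0 : ℝ := e / (400 * (10 * K + 1) * C') with hc0
  have hc0pos : 0 < c0 := by positivity
  have ev1 : ∀ᶠ x : ℝ in atTop, Real.log x ≤ c0 * x ^ ((1 : ℝ) / 40) := by
    have h1 := (isLittleO_log_rpow_atTop (r := (1 : ℝ) / 40) (by norm_num)).bound hc0pos
    filter_upwards [h1, eventually_ge_atTop 1] with x hx hx1
    rw [Real.norm_of_nonneg (Real.log_nonneg hx1),
      Real.norm_of_nonneg (Real.rpow_nonneg (by linarith) _)] at hx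
    exact hx
  have ev2 : ∀ᶠ x : ℝ in atTop, (1000 : ℝ) ≤ x ^ ((1 : ℝ) / 40) :=
    (tendsto_rpow_atTop (by norm_num)).eventually_ge_atTop _
  have ev3 : ∀ᶠ x : ℝ in atTop, 3 + (4 * (K : ℝ) + 1) + |Real.log (e / 72)| ≤ Real.log x :=
    Real.tendsto_log_atTop.eventually_ge_atTop _
  have ev := (ev1.and (ev2.and ev3))
  obtain ⟨B, hB⟩ := eventually_atTop.mp ev
  refine ⟨⌈B⌉₊, ?_⟩
  intro M hM Y hY1 hY2 θ hθ0 hθ T W hW hT hTW hMT hWM
  have hMB : B ≤ (M : ℝ) := (Nat.le_ceil B).trans (by exact_mod_cast hM)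
  obtain ⟨f1, f2, f3⟩ := hB M hMB
  set R : ℝ := (M : ℝ) ^ ((1 : ℝ) / 40) with hR
  set L : ℝ := Real.log M with hL
  have hR0 : 0 < R := by linarith
  have hR1 : 1 ≤ R := by linarith
  have hM0 : (0 : ℝ) ≤ M := Nat.cast_nonneg _
  have hRM : R ^ 40 = (M : ℝ) := by
    rw [hR, ← Real.rpow_natCast, ← Real.rpow_mul hM0]
    norm_num
  have hRM4 : (M : ℝ) ^ (-(1 / 10) : ℝ) = 1 / R ^ 4 := by
    rw [Real.rpow_neg hM0, one_div, hR, ← Real.rpow_natCast, ← Real.rpow_mul hM0]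
    norm_num
  have habs := abs_nonneg (Real.log (e / 72))
  have hKc : (0 : ℝ) ≤ K := Nat.cast_nonneg _
  have hL3 : 3 ≤ L := by linarith
  have hL1 : 4 * (K : ℝ) + 1 ≤ L := by linarith
  have hL2 : -Real.log (e / 72) ≤ L := by
    have := neg_abs_le (Real.log (e / 72))
    linarith
  have hM1 : (1 : ℝ) ≤ M := by
    rw [← hRM]
    exact one_le_pow₀ hR1
  have hYR : R ^ 80 ≤ Y := by
    have : R ^ 80 = (M : ℝ) ^ 2 := by
      rw [← hRM]
      ring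
    rw [this]
    exact (pow_le_pow_right₀ hM1 hK2).trans hY1
  have hY0 : 0 < Y := lt_of_lt_of_le (by positivity) hYR
  have hM2 : (2 : ℝ) ≤ M := by
    rw [← hRM]
    calc (2 : ℝ) ≤ R := by linarith
      _ = R ^ 1 := (pow_one R).symm
      _ ≤ R ^ 40 := pow_le_pow_right₀ hR1 (by norm_num)
  have hlogY : Real.log Y ≤ 2 * (K : ℝ) * L := by
    have h1 : Y ≤ ((M : ℝ) ^ 2) ^ K := by
      refine hY2.le.trans ?_
      apply pow_le_pow_left₀ (by linarith)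
      nlinarith
    have h2 := Real.log_le_log hY0 h1
    rw [Real.log_pow, Real.log_pow] at h2
    push_cast at h2
    linarith
  have hUJ : 5 * Real.log Y + 1 ≤ (10 * (K : ℝ) + 1) * L := by nlinarith
  have hUR : 400 * ((10 * (K : ℝ) + 1) * L) * C' ≤ R * e := by
    have h1 : L ≤ c0 * R := f1
    have h2 : 0 < 400 * (10 * (K : ℝ) + 1) * C' := by positivity
    have h3 : 400 * (10 * (K : ℝ) + 1) * C' * L ≤ 400 * (10 * (K : ℝ) + 1) * C' * (c0 * R) :=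
      mul_le_mul_of_nonneg_left h1 h2.le
    have h4 : 400 * (10 * (K : ℝ) + 1) * C' * (c0 * R) = R * e := by
      rw [hc0]
      field_simp
    rw [h4] at h3
    linarith
  have hcore := geom_core (M := M) (Y := Y) (C := C') (L := L) (C1 := C1) (ε := e)
    (U := (10 * (K : ℝ) + 1) * L) hRM f2 hC1 rfl hL3 hYR he0 he1 hUJ hUR
    (fun J0 hJ => hexp_par hRM f2 rfl hL3 he0 rfl hKr hL1 hL2 hY1 hY2 hYR J0 hJ)
    T W hW hT hTW hMT hWM
  have hθ' : θ ≤ C' / R ^ 4 := by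
    refine hθ.trans ?_
    rw [hRM4, mul_one_div]
    exact div_le_div_of_nonneg_right (le_max_left _ _) (by positivity)
  have hθ'0 : 0 ≤ C' / R ^ 4 := by positivity
  have hP : ∀ J, ∀ t ∈ T, W t * ((RP θ Y J t).ncard : ℝ) ≤
      W t * ((RP (C' / R ^ 4) Y J t).ncard : ℝ) := by
    intro J t ht
    apply mul_le_mul_of_nonneg_left _ (hW t ht)
    exact_mod_cast Set.ncard_le_ncard (RP_mono hθ' hY0.le J t) (Gm.RP_finite _ Y J t)
  have hQ : ∀ J, ∀ t ∈ T, W t * ((RM (C' / R ^ 4) Y J t).ncard : ℝ) ≤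
      W t * ((RM θ Y J t).ncard : ℝ) := by
    intro J t ht
    apply mul_le_mul_of_nonneg_left _ (hW t ht)
    exact_mod_cast Set.ncard_le_ncard (RM_anti hθ' hY0.le J t)
      ((Gm.RP_finite θ Y J t).subset (RM_sub_RP θ Y hθ0 hY0.le J t))
  have hPs := Finset.sum_le_sum (fun J (_ : J ∈ range (⌊Y⌋₊ + 1)) =>
    Finset.sum_le_sum (hP J))
  have hQs := Finset.sum_le_sum (fun J (_ : J ∈ range (⌊Y⌋₊ + 1)) =>
    Finset.sum_le_sum (hQ J))
  have hS0 : 0 ≤ ∑ J ∈ range (⌊Y⌋₊ + 1), ∑ t ∈ T, W t * ((RM θ Y J t).ncard : ℝ) :=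
    Finset.sum_nonneg (fun J _ => Finset.sum_nonneg (fun t ht =>
      mul_nonneg (hW t ht) (Nat.cast_nonneg _)))
  obtain ⟨g1, g2⟩ := hcore
  constructor
  · calc _ ≤ _ := hPs
      _ ≤ _ := g1
      _ ≤ (1 + e) * ∑ J ∈ range (⌊Y⌋₊ + 1), ∑ t ∈ T, W t * ((RM θ Y J t).ncard : ℝ) :=
          mul_le_mul_of_nonneg_left hQs (by linarith)
      _ ≤ _ := mul_le_mul_of_nonneg_right (by linarith) hS0
  · calc _ ≤ _ := g2
      _ ≤ e * ∑ J ∈ range (⌊Y⌋₊ + 1), ∑ t ∈ T, W t * ((RM θ Y J t).ncard : ℝ) :=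
          mul_le_mul_of_nonneg_left hQs he0.le
      _ ≤ _ := mul_le_mul_of_nonneg_right hee hS0

/-- the number of head entries is `O(log Y)`. -/
theorem geom_length : ∃ M0 : ℕ, ∀ M : ℕ, M0 ≤ M → ∀ Y θ : ℝ, (M : ℝ) ≤ Y → 0 ≤ θ →
    θ ≤ 1 / 20 → ∀ (J : ℕ) (t : List ℕ), M ≤ t.headI → (RP θ Y J t).Nonempty →
    (J : ℝ) ≤ 5 * Real.log Y := by
  refine ⟨5, ?_⟩
  intro M hM Y θ hMY hθ hθ1 J t ht hne
  exact Gm.length_le (M := (M : ℝ)) (by exact_mod_cast hM) hMY hθ hθ1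
    (by exact_mod_cast ht) hne

theorem RP_finite (θ Y : ℝ) (J : ℕ) (t : List ℕ) : (RP θ Y J t).Finite :=
  Gm.RP_finite θ Y J t

theorem RM_subset_RP (θ Y : ℝ) (hθ : 0 ≤ θ) (hY : 0 ≤ Y) (J : ℕ) (t : List ℕ) :
    RM θ Y J t ⊆ RP θ Y J t := Gm.RM_sub_RP θ Y hθ hY J t

end P031
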