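import Vale.Agent.P031.GeomMin

/-! P031 [GEOM]: bad fibres. -/

namespace P031.Gm

open Finset

theorem aa_ge_log {n : ℕ} (h : 1 ≤ n) : Real.log n ≤ aa n := by
  have hn : (0 : ℝ) < n := by exact_mod_cast h
  have h1 : 1 / ((n : ℝ) + 1) ≤ Real.log ((n : ℝ) + 1) - Real.log n := by
    have := Real.log_le_sub_one_of_pos (x := (n : ℝ) / ((n : ℝ) + 1)) (by positivity)
    rw [Real.log_div (by positivity) (by positivity)] at this
    have e : (n : ℝ) / ((n : ℝ) + 1) - 1 = -(1 / ((n : ℝ) + 1)) := by field_simp; ring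
    linarith
  have h2 : 1 ≤ ((n : ℝ) + 1) * (Real.log ((n : ℝ) + 1) - Real.log n) := by
    calc (1 : ℝ) = ((n : ℝ) + 1) * (1 / ((n : ℝ) + 1)) := by field_simp
      _ ≤ _ := by apply mul_le_mul_of_nonneg_left h1 (by positivity)
  unfold aa
  nlinarith

theorem aa_le_log {n : ℕ} (h : 1 ≤ n) : aa n ≤ Real.log ((n : ℝ) + 1) := by
  have hn : (0 : ℝ) < n := by exact_mod_cast h
  have h1 : Real.log ((n : ℝ) + 1) - Real.log n ≤ 1 / n := by
    rw [← Real.log_div (by positivity) (by positivity)]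
    have := Real.log_le_sub_one_of_pos (x := ((n : ℝ) + 1) / n) (by positivity)
    have e : ((n : ℝ) + 1) / n - 1 = 1 / n := by field_simp; ring
    linarith
  have h2 : (n : ℝ) * (Real.log ((n : ℝ) + 1) - Real.log n) ≤ 1 := by
    calc (n : ℝ) * (Real.log ((n : ℝ) + 1) - Real.log n) ≤ n * (1 / n) := by
          apply mul_le_mul_of_nonneg_left h1 hn.le
      _ = 1 := by field_simp
  unfold aa
  nlinarith

theorem aa_succ_le {n : ℕ} (h : 1 ≤ n) : aa (n + 1) ≤ 4 * aa n := by
  have hn : (1 : ℝ) ≤ n := by exact_mod_cast h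
  have h1 := aa_le_log (n := n + 1) (by omega)
  have h2 := aa_ge_log h
  have h3 : Real.log (((n + 1 : ℕ) : ℝ) + 1) ≤ Real.log 3 + Real.log n := by
    rw [← Real.log_mul (by norm_num) (by positivity)]
    apply Real.log_le_log (by positivity)
    push_cast
    linarith
  have h4 : Real.log 3 ≤ 1.11 := by
    have a1 := Real.log_two_lt_d9
    have a2 : (5 : ℝ) * Real.log 3 ≤ 8 * Real.log 2 := by
      have e1 : (5 : ℝ) * Real.log 3 = Real.log ((3 : ℝ) ^ 5) := by
        rw [Real.log_pow]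
        norm_num
      have e2 : (8 : ℝ) * Real.log 2 = Real.log ((2 : ℝ) ^ 8) := by
        rw [Real.log_pow]
        norm_num
      rw [e1, e2]
      apply Real.log_le_log (by norm_num) (by norm_num)
    linarith
  have h5 := aa_mono h
  have h6 := aa_one_ge
  linarith

theorem gg_succ_le (n : ℕ) : gg (n + 1) ≤ 5 * gg n := by
  rcases n with _ | n
  · rw [gg_one, gg_zero]
    have := aa_one_le
    linarith
  · rw [gg_succ (n + 1), Finset.sum_range_succ]
    have e : n + 1 + 1 - (n + 1) = 1 := by omega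
    rw [e]
    have h1 : ∑ i ∈ range (n + 1), aa (n + 1 + 1 - i) * gg i ≤ 4 * gg (n + 1) := by
      rw [gg_succ n, Finset.mul_sum]
      apply Finset.sum_le_sum
      intro i hi
      rw [Finset.mem_range] at hi
      have e2 : n + 1 + 1 - i = (n + 1 - i) + 1 := by omega
      rw [e2, ← mul_assoc]
      exact mul_le_mul_of_nonneg_right (aa_succ_le (by omega)) (gg_pos i).le
    have h2 := aa_one_le
    have h3 := gg_pos (n + 1)
    nlinarith

/-- Bad fibres contain few points. -/
theorem bad_fibre (t : List ℕ) (J : ℕ) (Y θ η : ℝ) (hθ : 0 ≤ θ) (hη : 0 < η) (hY : 0 ≤ Y)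
    (hbad : Y - η < mm t J) (m1 : (1 + θ) ^ (J + 1) * Y ≤ Y + η)
    (m2 : ∀ k, 1 ≤ k → k ≤ J → gg k ≤ η) :
    ((RP θ Y J t).ncard : ℝ) ≤ ∏ i ∈ range J, (3 * η / gg (i + 1)) := by
  set A : ℕ → ℝ := fun i => mm t i / (1 + θ) ^ (i + 1) with hA
  set B : ℕ → ℝ := fun i => (mm t i + 2 * η / gg (J - i)) / (1 + θ) ^ (i + 1) with hB
  have hbox := (ncard_le_box (RP θ Y J t) J (fun i => Finset.Icc ⌈A i⌉₊ ⌊B i⌋₊)
    (fun h hh => hh.1) (by
      intro h hh i
      have hJ : 1 ≤ J := by
        have := i.2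
        omega
      have h1 := RP_ext hh
      have h0 := dist_le t (fun i => if i < J then (co h i : ℝ) else Y) J θ hθ (by
        intro i _
        split_ifs
        · exact Nat.cast_nonneg _
        · exact hY) (by
          rw [if_pos (by omega)]
          rw [mem_RP_iff] at hh
          exact (hh.2.1 0 (by omega)).2) h1 i.1 i.2.le
      rw [if_pos i.2, if_neg (lt_irrefl J)] at h0
      obtain ⟨h2, h3⟩ := h0
      have hp : 0 < (1 + θ) ^ (i.1 + 1) := by positivity
      rw [Finset.mem_Icc]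
      constructor
      · apply Nat.ceil_le.mpr
        rw [hA]
        simp only
        rw [div_le_iff₀ hp]
        linarith
      · apply Nat.le_floor
        rw [hB]
        simp only
        rw [le_div_iff₀ hp]
        have h4 : gg (J - i.1) * ((1 + θ) ^ (i.1 + 1) * (co h i.1 : ℝ) - mm t i.1) ≤ 2 * η := by
          linarith
        have h5 : (1 + θ) ^ (i.1 + 1) * (co h i.1 : ℝ) - mm t i.1 ≤ 2 * η / gg (J - i.1) := by
          rw [le_div_iff₀ (gg_pos _)]
          linarith
        linarith)).2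
  have hcard : ∀ i : Fin J, (((Finset.Icc ⌈A i⌉₊ ⌊B i⌋₊).card : ℕ) : ℝ) ≤
      3 * η / gg (J - i.1) := by
    intro i
    have hp : (1 : ℝ) ≤ (1 + θ) ^ (i.1 + 1) := one_le_pow₀ (by linarith)
    have hg := gg_pos (J - i.1)
    have hA0 : 0 ≤ A i := by
      rw [hA]
      simp only
      have := mm_nonneg t i.1
      positivity
    have hBA : B i = A i + 2 * η / gg (J - i.1) / (1 + θ) ^ (i.1 + 1) := by
      rw [hA, hB]
      simp only
      rw [add_div]
    have hq : 0 ≤ 2 * η / gg (J - i.1) := by positivity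
    have hBA1 : B i ≤ A i + 2 * η / gg (J - i.1) := by
      rw [hBA]
      have : 2 * η / gg (J - i.1) / (1 + θ) ^ (i.1 + 1) ≤ 2 * η / gg (J - i.1) :=
        div_le_self hq hp
      linarith
    have hBA2 : A i ≤ B i := by
      rw [hBA]
      have : 0 ≤ 2 * η / gg (J - i.1) / (1 + θ) ^ (i.1 + 1) := by positivity
      linarith
    rw [Nat.card_Icc]
    have h1 : (1 : ℝ) ≤ η / gg (J - i.1) := by
      rw [le_div_iff₀ hg, one_mul]
      have := i.2
      exact m2 _ (by omega) (by omega)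
    have h2 : ((⌊B i⌋₊ + 1 - ⌈A i⌉₊ : ℕ) : ℝ) ≤ B i + 1 - A i := by
      have hf : (⌊B i⌋₊ : ℝ) ≤ B i := Nat.floor_le (by linarith)
      have hc : A i ≤ (⌈A i⌉₊ : ℝ) := Nat.le_ceil _
      rcases Nat.lt_or_ge (⌊B i⌋₊ + 1) ⌈A i⌉₊ with hlt | hge
      · rw [Nat.sub_eq_zero_of_le hlt.le]
        push_cast
        linarith
      · rw [Nat.cast_sub hge]
        push_cast
        linarith
    have h3 : 3 * η / gg (J - i.1) = 2 * η / gg (J - i.1) + η / gg (J - i.1) := by ring
    rw [h3]
    linarith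
  calc ((RP θ Y J t).ncard : ℝ) ≤ ((∏ i : Fin J, (Finset.Icc ⌈A i⌉₊ ⌊B i⌋₊).card : ℕ) : ℝ) := by
        exact_mod_cast hbox
    _ = ∏ i : Fin J, (((Finset.Icc ⌈A i⌉₊ ⌊B i⌋₊).card : ℕ) : ℝ) := by push_cast; rfl
    _ ≤ ∏ i : Fin J, (3 * η / gg (J - i.1)) := by
        apply Finset.prod_le_prod
        · intro i _
          positivity
        · intro i _
          exact hcard i
    _ = ∏ i ∈ range J, (3 * η / gg (J - i)) := by
        rw [Finset.prod_range (fun i => 3 * η / gg (J - i))]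
    _ = ∏ i ∈ range J, (3 * η / gg (i + 1)) := by
        rw [← Finset.prod_range_reflect]
        apply Finset.prod_congr rfl
        intro i hi
        rw [Finset.mem_range] at hi
        have : J - (J - 1 - i) = i + 1 := by omega
        rw [this]

end P031.Gm
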