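import Vale.Agent.P031.GeomProd

/-! P031 [GEOM]: the core inequality with explicit parameters. -/

namespace P031.Gm

open Finset

/-- total weight of the tails with bounded head -/
theorem weight_le (T : Finset (List ℕ)) (W : List ℕ → ℝ) (hW : ∀ t ∈ T, 0 ≤ W t) (B Y : ℝ)
    (hY : 0 ≤ Y) (hB : 0 ≤ B)
    (h : ∀ c : ℕ, ∑ t ∈ T with t.headI = c, W t ≤ B) :
    ∑ t ∈ T with (t.headI : ℝ) ≤ Y + 1, W t ≤ (Y + 2) * B := by
  classical
  have h1 : ∑ t ∈ T with (t.headI : ℝ) ≤ Y + 1, W t ≤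
      ∑ c ∈ range (⌊Y + 1⌋₊ + 1), ∑ t ∈ T with t.headI = c, W t := by
    have h2 : ∑ c ∈ range (⌊Y + 1⌋₊ + 1), ∑ t ∈ T with t.headI = c, W t =
        ∑ t ∈ (range (⌊Y + 1⌋₊ + 1)).biUnion (fun c => T.filter (fun t => t.headI = c)), W t := by
      rw [Finset.sum_biUnion]
      intro a _ b _ hab
      rw [Function.onFun, Finset.disjoint_left]
      intro t ht1 ht2
      rw [Finset.mem_filter] at ht1 ht2
      exact hab (ht1.2.symm.trans ht2.2)
    rw [h2]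
    apply Finset.sum_le_sum_of_subset_of_nonneg
    · intro t ht
      rw [Finset.mem_filter] at ht
      rw [Finset.mem_biUnion]
      refine ⟨t.headI, ?_, by rw [Finset.mem_filter]; exact ⟨ht.1, rfl⟩⟩
      rw [Finset.mem_range]
      have := Nat.le_floor ht.2
      omega
    · intro t ht _
      rw [Finset.mem_biUnion] at ht
      obtain ⟨c, _, hc⟩ := ht
      rw [Finset.mem_filter] at hc
      exact hW t hc.1
  refine h1.trans ((Finset.sum_le_sum (fun c _ => h c)).trans ?_)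
  rw [Finset.sum_const, Finset.card_range, nsmul_eq_mul]
  apply mul_le_mul_of_nonneg_right _ hB
  push_cast
  have := Nat.floor_le (a := Y + 1) (by linarith)
  linarith

theorem term_bound {R Y C ε U Q w : ℝ} (hR : 1000 ≤ R)
    (hC : 1 ≤ C) (hY40 : R ^ 40 ≤ Y) (hε : 0 < ε)
    (hε1 : ε ≤ 1) (hUJ : 5 * Real.log Y + 1 ≤ U) (hUR : 400 * U * C ≤ R * ε) (hQ0 : 0 ≤ Q)
    {J : ℕ} {t : List ℕ} (htM : R ^ 40 ≤ (t.headI : ℝ)) (hw : 0 ≤ w)
    (hprod : gg J * R ^ 40 ≤ 2 * Y → ∏ i ∈ range J, (3 * (Y / R ^ 2) / gg (i + 1)) ≤ Q) :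
    w * ((RP (C / R ^ 4) Y J t).ncard : ℝ) ≤
        (1 + ε / 2) * (w * ((RM (C / R ^ 4) Y J t).ncard : ℝ)) +
          (if (t.headI : ℝ) ≤ Y + 1 then w else 0) * Q := by
  have hR0 : 0 < R := by linarith
  have hR1 : 1 ≤ R := by linarith
  have hRk : ∀ k : ℕ, 0 < R ^ k := fun k => by positivity
  have hM1 : R ≤ R ^ 40 := by
    calc R = R ^ 1 := (pow_one R).symm
      _ ≤ R ^ 40 := pow_le_pow_right₀ hR1 (by norm_num)
  have hYR : R ≤ Y := hM1.trans hY40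
  have hY0 : 0 < Y := by linarith
  have hlogY : 0 ≤ Real.log Y := Real.log_nonneg (by linarith)
  have hU0 : 1 ≤ U := by linarith
  have hUC : 0 ≤ U * (C - 1) := mul_nonneg (by linarith) (by linarith)
  have hUC0 : 0 ≤ U * C := mul_nonneg (by linarith) (by linarith)
  have hUR' : 400 * U * C ≤ R := by nlinarith
  have hUR3 : 400 * U ≤ R * ε := by nlinarith
  set θ : ℝ := C / R ^ 4 with hθdef
  have hθ0 : 0 ≤ θ := by positivity
  have hp4 : R ≤ R ^ 4 := by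
    calc R = R ^ 1 := (pow_one R).symm
      _ ≤ R ^ 4 := pow_le_pow_right₀ hR1 (by norm_num)
  have hθU : 400 * (θ * U) ≤ 1 := by
    have : 400 * (θ * U) = (400 * U * C) / R ^ 4 := by
      rw [hθdef]
      ring
    rw [this, div_le_one (hRk 4)]
    linarith
  have hθ20 : θ ≤ 1 / 20 := by nlinarith
  have hm0 : 0 ≤ w * ((RM θ Y J t).ncard : ℝ) := mul_nonneg hw (Nat.cast_nonneg _)
  have hm1 : 0 ≤ (1 + ε / 2) * (w * ((RM θ Y J t).ncard : ℝ)) :=
    mul_nonneg (by linarith) hm0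
  have hi0 : 0 ≤ (if (t.headI : ℝ) ≤ Y + 1 then w else 0) * Q := by
    apply mul_nonneg _ hQ0
    split_ifs
    · exact hw
    · exact le_rfl
  rcases Set.eq_empty_or_nonempty (RP θ Y J t) with he | hne
  · rw [he, Set.ncard_empty, Nat.cast_zero, mul_zero]
    linarith
  have hlen := length_le (M := R ^ 40) (Y := Y) (θ := θ) (by linarith) hY40 hθ0 hθ20 htM hne
  have hhead : (t.headI : ℝ) ≤ Y + 1 := by
    obtain ⟨h, hh⟩ := hne
    rw [mem_RP_iff] at hh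
    have := pv_chain t (fun i => (co h i : ℝ)) J (fun n hn => (hh.2.1 n hn).2) 0 (by omega)
    have h2 := this.2
    have e : pv t (fun i => (co h i : ℝ)) 0 = (t.headI : ℝ) := rfl
    rw [e] at h2
    linarith [hh.2.2.1]
  have hJU : (J : ℝ) + 1 ≤ U := by linarith
  have h40 : 40 * ((J : ℝ) + 1) * C ≤ R := by
    have h1 : 40 * ((J : ℝ) + 1) * C ≤ 40 * U * C := by
      apply mul_le_mul_of_nonneg_right _ (by linarith)
      linarith
    linarith
  rcases le_or_gt (mm t J) (Y - Y / R ^ 2) with hgood | hbad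
  · have h1 := good_par hR hC hY40 htM h40 hne hgood
    have h2 : 1 - (J : ℝ) / R ≤ (1 - 1 / R) ^ J := by
      have h3 := one_add_mul_le_pow (a := -(1 / R)) (by
        have : 1 / R ≤ 1 := by
          rw [div_le_one hR0]
          exact hR1
        linarith) J
      have e1 : 1 + (J : ℝ) * -(1 / R) = 1 - (J : ℝ) / R := by ring
      have e2 : 1 + -(1 / R) = 1 - 1 / R := by ring
      rw [e1, e2] at h3
      exact h3
    have h4 : (J : ℝ) / R ≤ ε / 400 := by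
      rw [div_le_iff₀ hR0]
      linarith
    have h5 : (0 : ℝ) ≤ ((RP θ Y J t).ncard : ℝ) := Nat.cast_nonneg _
    have h6 : (1 - ε / 400) * ((RP θ Y J t).ncard : ℝ) ≤ ((RM θ Y J t).ncard : ℝ) := by
      refine le_trans ?_ h1
      apply mul_le_mul_of_nonneg_right _ h5
      linarith
    have h7 : ((RP θ Y J t).ncard : ℝ) ≤ (1 + ε / 2) * ((RM θ Y J t).ncard : ℝ) := by
      have h8 : (1 : ℝ) ≤ (1 + ε / 2) * (1 - ε / 400) := by nlinarith
      calc ((RP θ Y J t).ncard : ℝ) = 1 * ((RP θ Y J t).ncard : ℝ) := (one_mul _).symm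
        _ ≤ ((1 + ε / 2) * (1 - ε / 400)) * ((RP θ Y J t).ncard : ℝ) :=
            mul_le_mul_of_nonneg_right h8 h5
        _ = (1 + ε / 2) * ((1 - ε / 400) * ((RP θ Y J t).ncard : ℝ)) := by ring
        _ ≤ _ := mul_le_mul_of_nonneg_left h6 (by linarith)
    have h9 : w * ((RP θ Y J t).ncard : ℝ) ≤
        w * ((1 + ε / 2) * ((RM θ Y J t).ncard : ℝ)) :=
      mul_le_mul_of_nonneg_left h7 hw
    have e : w * ((1 + ε / 2) * ((RM θ Y J t).ncard : ℝ)) =
      (1 + ε / 2) * (w * ((RM θ Y J t).ncard : ℝ)) := by ring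
    linarith
  · obtain ⟨h1, h2⟩ := bad_par hR hC hY40 htM h40 hne hbad
    have h3 := hprod h2
    rw [if_pos hhead]
    have h4 : w * ((RP θ Y J t).ncard : ℝ) ≤ w * Q :=
      mul_le_mul_of_nonneg_left (h1.trans h3) hw
    linarith

theorem sum_bound {Y B ε Q θ : ℝ} {T : Finset (List ℕ)} {W : List ℕ → ℝ} (hY0 : 0 ≤ Y)
    (hQ0 : 0 ≤ Q) (hW : ∀ t ∈ T, 0 ≤ W t)
    (hTW : ∀ c : ℕ, ∑ t ∈ T with t.headI = c, W t ≤ Real.exp B)
    (hterm : ∀ J, ∀ t ∈ T, W t * ((RP θ Y J t).ncard : ℝ) ≤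
        (1 + ε / 2) * (W t * ((RM θ Y J t).ncard : ℝ)) +
          (if (t.headI : ℝ) ≤ Y + 1 then W t else 0) * Q) :
    ∑ J ∈ range (⌊Y⌋₊ + 1), ∑ t ∈ T, W t * ((RP θ Y J t).ncard : ℝ) ≤
        (1 + ε / 2) * (∑ J ∈ range (⌊Y⌋₊ + 1), ∑ t ∈ T, W t * ((RM θ Y J t).ncard : ℝ)) +
          (Y + 1) * ((Y + 2) * Real.exp B) * Q := by
  have h1 : ∑ J ∈ range (⌊Y⌋₊ + 1), ∑ t ∈ T, W t * ((RP θ Y J t).ncard : ℝ) ≤
      ∑ J ∈ range (⌊Y⌋₊ + 1), ((1 + ε / 2) * (∑ t ∈ T, W t * ((RM θ Y J t).ncard : ℝ)) +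
        (Y + 2) * Real.exp B * Q) := by
    apply Finset.sum_le_sum
    intro J _
    refine (Finset.sum_le_sum (hterm J)).trans ?_
    rw [Finset.sum_add_distrib, ← Finset.mul_sum, ← Finset.sum_mul, ← Finset.sum_filter]
    have := weight_le T W hW (Real.exp B) Y hY0 (Real.exp_pos _).le hTW
    have := mul_le_mul_of_nonneg_right this hQ0
    linarith
  refine h1.trans ?_
  rw [Finset.sum_add_distrib, ← Finset.mul_sum, Finset.sum_const, Finset.card_range,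
    nsmul_eq_mul]
  have h2 : (((⌊Y⌋₊ + 1 : ℕ)) : ℝ) ≤ Y + 1 := by
    push_cast
    have := Nat.floor_le hY0
    linarith
  have h3 : 0 ≤ (Y + 2) * Real.exp B * Q := by positivity
  have h4 := mul_le_mul_of_nonneg_right h2 h3
  have e : (Y + 1) * ((Y + 2) * Real.exp B) * Q =
    (Y + 1) * ((Y + 2) * Real.exp B * Q) := by ring
  rw [e]
  linarith

theorem geom_core {R Y C L C1 ε U : ℝ} {M : ℕ} (hRM : R ^ 40 = (M : ℝ)) (hR : 1000 ≤ R)
    (hC : 1 ≤ C) (hL : Real.log M = L) (hL3 : 3 ≤ L) (hY : R ^ 80 ≤ Y) (hε : 0 < ε)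
    (hε1 : ε ≤ 1) (hUJ : 5 * Real.log Y + 1 ≤ U) (hUR : 400 * U * C ≤ R * ε)
    (hexp : ∀ J0 : ℕ, Y < gg (J0 + 2) * (R ^ 40) ^ 2 →
      (Y + 1) * ((Y + 2) * Real.exp (C1 * L ^ 2)) * (Real.exp (10 * L ^ 2) * (1 / R) ^ J0) ≤
        ε / 8 ∧
      Real.exp (C1 * L ^ 2) ≤ ε / 2 * (R ^ 40) ^ J0)
    (T : Finset (List ℕ)) (W : List ℕ → ℝ) (hW : ∀ t ∈ T, 0 ≤ W t) (hT : ∀ t ∈ T, M ≤ t.headI)
    (hTW : ∀ c : ℕ, ∑ t ∈ T with t.headI = c, W t ≤ Real.exp (C1 * L ^ 2))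
    (hMT : [M] ∈ T) (hWM : 1 / 2 ≤ W [M]) :
    (∑ J ∈ range (⌊Y⌋₊ + 1), ∑ t ∈ T, W t * (RP (C / R ^ 4) Y J t).ncard ≤
      (1 + ε) * ∑ J ∈ range (⌊Y⌋₊ + 1), ∑ t ∈ T, W t * (RM (C / R ^ 4) Y J t).ncard) ∧
    Real.exp (C1 * L ^ 2) ≤
      ε * ∑ J ∈ range (⌊Y⌋₊ + 1), ∑ t ∈ T, W t * (RM (C / R ^ 4) Y J t).ncard := by
  classical
  have hR0 : 0 < R := by linarith
  have hR1 : 1 ≤ R := by linarith
  have hRk : ∀ k : ℕ, 0 < R ^ k := fun k => by positivity
  have hY40 : R ^ 40 ≤ Y := le_trans (pow_le_pow_right₀ hR1 (by norm_num)) hY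
  have hM1 : R ≤ R ^ 40 := by
    calc R = R ^ 1 := (pow_one R).symm
      _ ≤ R ^ 40 := pow_le_pow_right₀ hR1 (by norm_num)
  have hYR : R ≤ Y := hM1.trans hY40
  have hY0 : 0 < Y := by linarith
  have hlogY : 0 ≤ Real.log Y := Real.log_nonneg (by linarith)
  have hU0 : 1 ≤ U := by linarith
  have hUR' : 400 * U * C ≤ R := by nlinarith
  have hUR2 : 400 * U ≤ R := by
    have : 0 ≤ U * (C - 1) := mul_nonneg (by linarith) (by linarith)
    nlinarith
  have hUR3 : 400 * U ≤ R * ε := by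
    have : 0 ≤ U * (C - 1) := mul_nonneg (by linarith) (by linarith)
    nlinarith
  set θ : ℝ := C / R ^ 4 with hθdef
  have hθ0 : 0 ≤ θ := by positivity
  have hp4 : R ≤ R ^ 4 := by
    calc R = R ^ 1 := (pow_one R).symm
      _ ≤ R ^ 4 := pow_le_pow_right₀ hR1 (by norm_num)
  have hθU : 400 * (θ * U) ≤ 1 := by
    have : 400 * (θ * U) = (400 * U * C) / R ^ 4 := by
      rw [hθdef]
      ring
    rw [this, div_le_one (hRk 4)]
    linarith
  have hθ20 : θ ≤ 1 / 20 := by nlinarith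
  -- critical length
  obtain ⟨J0, hJ1, hJ2⟩ := exists_J0 (M := R ^ 40) (Y := Y) (by linarith)
    (by
      have : (R ^ 40) ^ 2 = R ^ 80 := by ring
      rw [this]; exact hY)
  set S : ℕ → ℕ := fun i => ⌊Y / (64 * ((J0 : ℝ) + 1) * gg (J0 - i))⌋₊ with hSdef
  have hJ0U : (J0 : ℝ) + 1 ≤ U := by
    have h1 := gg_lower (J0 + 1)
    have h2 : (1.3 : ℝ) ^ (J0 + 1) ≤ Y := by
      have h3 : (1.3 : ℝ) ^ (J0 + 1) ≤ 1.38 ^ (J0 + 1) :=
        pow_le_pow_left₀ (by norm_num) (by norm_num) _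
      have h4 : gg (J0 + 1) * 4 ≤ gg (J0 + 1) * (R ^ 40) ^ 2 := by
        apply mul_le_mul_of_nonneg_left _ (gg_pos _).le
        nlinarith
      linarith
    have h5 : Real.log ((1.3 : ℝ) ^ (J0 + 1)) ≤ Real.log Y := Real.log_le_log (by positivity) h2
    rw [Real.log_pow] at h5
    have h6 := log_13
    push_cast at h5
    have h7 : (0 : ℝ) ≤ J0 := Nat.cast_nonneg _
    nlinarith
  have hlogM : Real.log (R ^ 40) = L := by rw [hRM, hL]
  have hU400 : 400 * ((J0 : ℝ) + 1) ≤ R := by linarith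
  have hprod := fun (J : ℕ) (hJ : gg J * R ^ 40 ≤ 2 * Y) =>
    prod_bound hR hlogM hL3 hY J0 J S hJ1 hJ2 hU400 (fun i _ => rfl) hJ
  -- lower bound
  have hprod0 := (hprod 0 (by
    rw [gg_zero]
    linarith)).1
  have hSM : ∀ i, i < J0 → M ≤ S i := by
    intro i hi
    have := hprod0 i hi
    rw [hRM] at this
    exact_mod_cast this
  have hM10 : 10 ≤ M := by
    have : (10 : ℝ) ≤ (M : ℝ) := by
      rw [← hRM]
      linarith
    exact_mod_cast this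
  have hlow := low_fibre M J0 Y θ S hθ0 (by nlinarith) hY0 hM10 (fun i _ => rfl) (by
    rw [← hRM]
    have h4 : gg (J0 + 1) * R ^ 40 * 16 ≤ gg (J0 + 1) * (R ^ 40) ^ 2 := by
      have : gg (J0 + 1) * (R ^ 40) ^ 2 = gg (J0 + 1) * R ^ 40 * R ^ 40 := by ring
      rw [this]
      apply mul_le_mul_of_nonneg_left (by linarith)
      have := gg_pos (J0 + 1)
      positivity
    linarith) hSM
  set P : ℝ := ∏ i ∈ range J0, (S i : ℝ) with hPdef
  set Sm : ℝ := ∑ J ∈ range (⌊Y⌋₊ + 1), ∑ t ∈ T, W t * (RM θ Y J t).ncard with hSm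
  have hterm0 : ∀ J, ∀ t ∈ T, 0 ≤ W t * ((RM θ Y J t).ncard : ℝ) :=
    fun J t ht => mul_nonneg (hW t ht) (Nat.cast_nonneg _)
  have hP0 : 0 ≤ P := by
    rw [hPdef]
    positivity
  have hSmLow : P / 2 ≤ Sm := by
    have h1 : W [M] * ((RM θ Y J0 [M]).ncard : ℝ) ≤ ∑ t ∈ T, W t * (RM θ Y J0 t).ncard :=
      Finset.single_le_sum (f := fun t => W t * ((RM θ Y J0 t).ncard : ℝ)) (hterm0 J0) hMT
    have h2 : ∑ t ∈ T, W t * ((RM θ Y J0 t).ncard : ℝ) ≤ Sm := by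
      apply Finset.single_le_sum
        (f := fun J => ∑ t ∈ T, W t * ((RM θ Y J t).ncard : ℝ))
      · intro J _
        exact Finset.sum_nonneg (hterm0 J)
      · rw [Finset.mem_range]
        have : J0 ≤ ⌊Y⌋₊ := by
          apply Nat.le_floor
          linarith
        omega
    have h3 : P / 2 ≤ W [M] * ((RM θ Y J0 [M]).ncard : ℝ) := by
      have h4 : 1 / 2 * P ≤ W [M] * ((RM θ Y J0 [M]).ncard : ℝ) :=
        mul_le_mul hWM hlow hP0 (by linarith)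
      linarith
    linarith
  obtain ⟨hexp1, hexp2⟩ := hexp J0 hJ2
  have hPpow : (R ^ 40) ^ J0 ≤ P := by
    rw [hPdef]
    calc (R ^ 40) ^ J0 = ∏ _i ∈ range J0, (R ^ 40) := by
          rw [Finset.prod_const, Finset.card_range]
      _ ≤ _ := by
          apply Finset.prod_le_prod
          · intro i _
            exact (hRk 40).le
          · intro i hi
            rw [Finset.mem_range] at hi
            exact hprod0 i hi
  refine ⟨?_, ?_⟩
  · set Q : ℝ := Real.exp (10 * L ^ 2) * ((1 / R) ^ J0 * P) with hQ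
    have hQ0 : 0 ≤ Q := by positivity
    have hterm : ∀ J, ∀ t ∈ T, W t * ((RP θ Y J t).ncard : ℝ) ≤
        (1 + ε / 2) * (W t * ((RM θ Y J t).ncard : ℝ)) +
          (if (t.headI : ℝ) ≤ Y + 1 then W t else 0) * Q := by
      intro J t ht
      exact term_bound hR hC hY40 hε hε1 hUJ hUR hQ0 (by
        rw [hRM]
        exact_mod_cast hT t ht) (hW t ht) (fun hJ => (hprod J hJ).2)
    have hsum := sum_bound hY0.le hQ0 hW hTW hterm
    have hfin : (Y + 1) * ((Y + 2) * Real.exp (C1 * L ^ 2)) * Q ≤ ε / 8 * P := by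
      have e : (Y + 1) * ((Y + 2) * Real.exp (C1 * L ^ 2)) * Q =
        ((Y + 1) * ((Y + 2) * Real.exp (C1 * L ^ 2)) *
          (Real.exp (10 * L ^ 2) * (1 / R) ^ J0)) * P := by
        rw [hQ]
        ring
      rw [e]
      exact mul_le_mul_of_nonneg_right hexp1 hP0
    have hSm0 : 0 ≤ Sm := by linarith
    have hfin2 : ε / 8 * P ≤ ε / 4 * Sm := by
      have := mul_le_mul_of_nonneg_left hSmLow (show 0 ≤ ε / 4 by linarith)
      linarith
    have : (1 + ε) * Sm = (1 + ε / 2) * Sm + ε / 2 * Sm := by ring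
    have h5 : 0 ≤ ε * Sm := by positivity
    linarith
  · have h1 : ε / 2 * (R ^ 40) ^ J0 ≤ ε / 2 * P :=
      mul_le_mul_of_nonneg_left hPpow (by linarith)
    have h2 : ε / 2 * P ≤ ε * Sm := by
      have := mul_le_mul_of_nonneg_left hSmLow hε.le
      linarith
    linarith

end P031.Gm
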