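import Vale.Agent.P031.GeomVol

/-! P031 [GEOM]: good fibres. -/

namespace P031.Gm

open Finset MeasureTheory

noncomputable def sj (η : ℝ) (J j : ℕ) : ℝ := η / (4 * ((J : ℝ) + 1) * gg (J - j))

noncomputable def ww (η : ℝ) (J n : ℕ) : ℝ := ∑ j ∈ range (n + 1), gg (n - j) * sj η J j

noncomputable def zz (t : List ℕ) (η : ℝ) (J n : ℕ) : ℝ := mm t n + ww η J n

theorem sj_nonneg {η : ℝ} (hη : 0 ≤ η) (J j : ℕ) : 0 ≤ sj η J j := by
  unfold sj
  have := gg_pos (J - j)
  positivity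

theorem ww_nonneg {η : ℝ} (hη : 0 ≤ η) (J n : ℕ) : 0 ≤ ww η J n := by
  unfold ww
  apply Finset.sum_nonneg
  intro i _
  exact mul_nonneg (gg_pos _).le (sj_nonneg hη J i)

theorem ww_renewal (η : ℝ) (J n : ℕ) :
    ww η J n = ∑ i ∈ range n, aa (n - i) * ww η J i + sj η J n := by
  have h1 : ∑ i ∈ range n, aa (n - i) * ww η J i = ∑ j ∈ range n, gg (n - j) * sj η J j := by
    have h2 : ∑ i ∈ range n, aa (n - i) * ww η J i =
        ∑ i ∈ Finset.Ico 0 n, ∑ j ∈ Finset.Ico 0 (i + 1), aa (n - i) * (gg (i - j) * sj η J j) := by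
      rw [Finset.range_eq_Ico]
      apply Finset.sum_congr rfl
      intro i _
      unfold ww
      rw [Finset.mul_sum, Finset.range_eq_Ico]
    rw [h2, ← Finset.sum_Ico_Ico_comm, Finset.range_eq_Ico]
    apply Finset.sum_congr rfl
    intro j hj
    rw [Finset.mem_Ico] at hj
    rw [Finset.sum_Ico_eq_sum_range]
    obtain ⟨m, hm⟩ : ∃ m, n - j = m + 1 := ⟨n - j - 1, by omega⟩
    rw [hm, gg_succ, Finset.sum_mul]
    apply Finset.sum_congr rfl
    intro i hi
    rw [Finset.mem_range] at hi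
    have e1 : n - (j + i) = m + 1 - i := by omega
    have e2 : j + i - j = i := by omega
    rw [e1, e2]
    ring
  rw [h1]
  unfold ww
  rw [Finset.sum_range_succ, Nat.sub_self, gg_zero]
  ring

theorem ww_le {η : ℝ} (hη : 0 ≤ η) {J n : ℕ} (hn : n ≤ J) : gg (J - n) * ww η J n ≤ η / 4 := by
  unfold ww
  rw [Finset.mul_sum]
  have h1 : ∀ j ∈ range (n + 1), gg (J - n) * (gg (n - j) * sj η J j) ≤
      η / (4 * ((J : ℝ) + 1)) := by
    intro j hj
    rw [Finset.mem_range] at hj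
    have h2 := gg_super (J - n) (n - j)
    have e : J - n + (n - j) = J - j := by omega
    rw [e] at h2
    have h3 := sj_nonneg hη J j
    have h4 : gg (J - n) * (gg (n - j) * sj η J j) ≤ gg (J - j) * sj η J j := by
      rw [← mul_assoc]
      exact mul_le_mul_of_nonneg_right h2 h3
    refine le_trans h4 ?_
    unfold sj
    have := gg_pos (J - j)
    apply le_of_eq
    field_simp
  have h2 := Finset.sum_le_sum h1
  refine le_trans h2 ?_
  rw [Finset.sum_const, Finset.card_range, nsmul_eq_mul]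
  have h3 : ((n + 1 : ℕ) : ℝ) ≤ (J : ℝ) + 1 := by
    push_cast
    have : (n : ℝ) ≤ J := by exact_mod_cast hn
    linarith
  calc ((n + 1 : ℕ) : ℝ) * (η / (4 * ((J : ℝ) + 1)))
      ≤ ((J : ℝ) + 1) * (η / (4 * ((J : ℝ) + 1))) := by
        apply mul_le_mul_of_nonneg_right h3
        positivity
    _ = η / 4 := by field_simp

theorem ww_mono {η : ℝ} (hη : 0 ≤ η) {J n : ℕ} (hn : n + 1 < J) :
    ww η J n ≤ ww η J (n + 1) := by
  have h1 := ww_renewal η J n
  have h2 := ww_renewal η J (n + 1)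
  rw [Finset.sum_range_succ] at h2
  have e : n + 1 - n = 1 := by omega
  rw [e] at h2
  have h3 : ∑ i ∈ range n, aa (n - i) * ww η J i ≤ ∑ i ∈ range n, aa (n + 1 - i) * ww η J i := by
    apply Finset.sum_le_sum
    intro i hi
    rw [Finset.mem_range] at hi
    exact mul_le_mul_of_nonneg_right (aa_mono (by omega)) (ww_nonneg hη J i)
  have h4 : 0 ≤ aa 1 * ww η J n := mul_nonneg (aa_nonneg (by omega)) (ww_nonneg hη J n)
  have h5 : sj η J n ≤ sj η J (n + 1) := by
    unfold sj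
    apply div_le_div_of_nonneg_left hη
    · have := gg_pos (J - (n + 1))
      positivity
    · apply mul_le_mul_of_nonneg_left _ (by positivity)
      apply gg_mono (by omega) (by omega)
  linarith

theorem headI_le_mm (t : List ℕ) (n : ℕ) : (t.headI : ℝ) ≤ mm t n := by
  induction n with
  | zero => rw [mm_zero]; exact le_max_right _ _
  | succ n ih =>
    have := mm_growth t n
    have := mm_nonneg t n
    linarith

theorem cv_zz {η : ℝ} (t : List ℕ) (J n : ℕ) :
    cv t (zz t η J) n ≤ zz t η J n - sj η J n := by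
  have h1 := cv_le_mm t n
  have h2 := ww_renewal η J n
  unfold cv at h1 ⊢
  unfold zz
  have h3 : ∑ i ∈ range n, aa (n - i) * (mm t i + ww η J i) =
      ∑ i ∈ range n, aa (n - i) * mm t i + ∑ i ∈ range n, aa (n - i) * ww η J i := by
    rw [← Finset.sum_add_distrib]
    apply Finset.sum_congr rfl
    intro i _
    ring
  rw [h3]
  linarith

theorem cv_affine (t : List ℕ) (z w : ℕ → ℝ) (s : ℝ) (n : ℕ) :
    cv t (fun i => (1 - s) * z i + s * w i) n = (1 - s) * cv t z n + s * cv t w n := by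
  unfold cv
  have h3 : ∑ i ∈ range n, aa (n - i) * ((1 - s) * z i + s * w i) =
      (1 - s) * ∑ i ∈ range n, aa (n - i) * z i + s * ∑ i ∈ range n, aa (n - i) * w i := by
    rw [Finset.mul_sum, Finset.mul_sum, ← Finset.sum_add_distrib]
    apply Finset.sum_congr rfl
    intro i _
    ring
  rw [h3]
  ring

theorem cv_add_one (t : List ℕ) (z w : ℕ → ℝ) (n J : ℕ) (hn : n ≤ J)
    (h : ∀ i, i < n → z i ≤ w i + 1) : cv t z n ≤ cv t w n + ((J : ℝ) + 1) ^ 2 := by
  unfold cv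
  have h1 : ∑ i ∈ range n, aa (n - i) * z i ≤ ∑ i ∈ range n, (aa (n - i) * w i + (J : ℝ)) := by
    apply Finset.sum_le_sum
    intro i hi
    rw [Finset.mem_range] at hi
    have h2 : aa (n - i) * z i ≤ aa (n - i) * (w i + 1) :=
      mul_le_mul_of_nonneg_left (h i hi) (aa_nonneg (by omega))
    have h3 : aa (n - i) ≤ ((n - i : ℕ) : ℝ) := aa_le (by omega)
    have h4 : ((n - i : ℕ) : ℝ) ≤ J := by
      exact_mod_cast (show n - i ≤ J by omega)
    linarith
  rw [Finset.sum_add_distrib, Finset.sum_const, Finset.card_range, nsmul_eq_mul] at h1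
  have h5 : (n : ℝ) ≤ J := by exact_mod_cast hn
  have h6 : (0 : ℝ) ≤ J := Nat.cast_nonneg _
  nlinarith

/-- extension of a vector by zero -/
noncomputable def ex {J : ℕ} (x : Fin J → ℝ) (i : ℕ) : ℝ := if h : i < J then x ⟨i, h⟩ else 0

theorem ex_lt {J : ℕ} (x : Fin J → ℝ) {i : ℕ} (h : i < J) : ex x i = x ⟨i, h⟩ := by
  unfold ex
  rw [dif_pos h]

def AA (t : List ℕ) (J : ℕ) (Y θ : ℝ) : Set (Fin J → ℝ) :=
  {x | (∀ n, n < J → cv t (ex x) n ≤ (1 + 2 * θ) * ex x n ∧ pv t (ex x) n - 1 ≤ ex x n ∧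
      (t.headI : ℝ) ≤ ex x n) ∧ pv t (ex x) J ≤ Y + 2 ∧ cv t (ex x) J ≤ (1 + 2 * θ) * Y}

def BB (t : List ℕ) (J : ℕ) (Y θ : ℝ) : Set (Fin J → ℝ) :=
  {x | (∀ n, n < J → cv t (ex x) n ≤ (1 - 2 * θ) * ex x n ∧ pv t (ex x) n + 4 ≤ ex x n) ∧
      pv t (ex x) J ≤ (1 - θ) * Y ∧ cv t (ex x) J ≤ (1 - θ) * Y}

theorem cube_sub_AA (t : List ℕ) (J : ℕ) (Y θ M : ℝ) (hθ : 0 ≤ θ) (hM : M ≤ t.headI)
    (hMY : M ≤ Y) (n2 : ((J : ℝ) + 1) ^ 2 ≤ θ * M) (h : List ℕ) (hh : h ∈ RP θ Y J t) :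
    cube (fun i : Fin J => co h i) ⊆ AA t J Y θ := by
  intro x hx
  rw [mem_RP_iff] at hh
  obtain ⟨h1, h2, h3, h4⟩ := hh
  have hx1 : ∀ i, i < J → (co h i : ℝ) ≤ ex x i ∧ ex x i < (co h i : ℝ) + 1 := by
    intro i hi
    rw [ex_lt x hi]
    exact hx ⟨i, hi⟩ (Set.mem_univ _)
  have hchain := pv_chain t (fun i => (co h i : ℝ)) J (fun n hn => (h2 n hn).2)
  have hge : ∀ n, n < J → (t.headI : ℝ) ≤ (co h n : ℝ) := by
    intro n hn
    have := (hchain n hn.le).1
    have := (h2 n hn).2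
    linarith
  have hpv : ∀ n, n ≤ J → pv t (ex x) n ≤ pv t (fun i => (co h i : ℝ)) n + 1 := by
    intro n hn
    rcases n with _ | n
    · simp only [pv]
      linarith
    · simp only [pv]
      exact (hx1 n (by omega)).2.le
  have hcv : ∀ n, n ≤ J → cv t (ex x) n ≤ cv t (fun i => (co h i : ℝ)) n + θ * M := by
    intro n hn
    have := cv_add_one t (ex x) (fun i => (co h i : ℝ)) n J hn
      (fun i hi => (hx1 i (by omega)).2.le)
    linarith
  refine ⟨?_, ?_, ?_⟩
  · intro n hn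
    have e1 := hcv n hn.le
    have e2 := (h2 n hn).1
    have e3 := (hx1 n hn).1
    have e4 := hge n hn
    refine ⟨?_, ?_, by linarith⟩
    · have : θ * M ≤ θ * (co h n : ℝ) := mul_le_mul_of_nonneg_left (by linarith) hθ
      nlinarith
    · have := hpv n hn.le
      have := (h2 n hn).2
      linarith
  · have := hpv J le_rfl
    linarith
  · have e1 := hcv J le_rfl
    have : θ * M ≤ θ * Y := mul_le_mul_of_nonneg_left hMY hθ
    linarith

theorem exists_list {J : ℕ} (f : Fin J → ℕ) :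
    ∃ h : List ℕ, h.length = J ∧ ∀ i : Fin J, co h i = f i := by
  refine ⟨(List.ofFn f).reverse, by simp, ?_⟩
  intro i
  unfold co
  rw [List.reverse_reverse, List.getD_eq_getElem?_getD]
  simp

theorem BB_sub_cubes (t : List ℕ) (J : ℕ) (Y θ M : ℝ) (hθ : 0 ≤ θ) (hθ2 : 2 * θ ≤ 1)
    (hM : M ≤ t.headI)
    (n3 : 1 ≤ θ * M) (x : Fin J → ℝ) (hx : x ∈ BB t J Y θ) :
    ∃ h ∈ RM θ Y J t, x ∈ cube (fun i : Fin J => co h i) := by
  obtain ⟨h2, h3, h4⟩ := hx
  have hchain := pv_chain t (ex x) J (fun n hn => by have := (h2 n hn).2; linarith)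
  have hge : ∀ n, n < J → (t.headI : ℝ) + 4 ≤ ex x n := by
    intro n hn
    have := (hchain n hn.le).1
    have := (h2 n hn).2
    linarith
  have ht0 : (0 : ℝ) ≤ (t.headI : ℝ) := Nat.cast_nonneg _
  obtain ⟨h, hlen, hco⟩ := exists_list (fun i : Fin J => ⌊x i⌋₊)
  have hx1 : ∀ i, i < J → (co h i : ℝ) ≤ ex x i ∧ ex x i < (co h i : ℝ) + 1 := by
    intro i hi
    have e1 := hco ⟨i, hi⟩
    simp only at e1
    rw [e1, ex_lt x hi]
    have e2 := hge i hi
    rw [ex_lt x hi] at e2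
    exact ⟨Nat.floor_le (by linarith), Nat.lt_floor_add_one _⟩
  refine ⟨h, ?_, ?_⟩
  · rw [mem_RM_iff]
    have hcv : ∀ n, n ≤ J → cv t (fun i => (co h i : ℝ)) n ≤ cv t (ex x) n := by
      intro n hn
      apply cv_mono
      intro i hi
      exact (hx1 i (by omega)).1
    have hpv : ∀ n, n ≤ J → pv t (fun i => (co h i : ℝ)) n ≤ pv t (ex x) n := by
      intro n hn
      rcases n with _ | n
      · simp only [pv]
        exact le_rfl
      · simp only [pv]
        exact (hx1 n (by omega)).1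
    refine ⟨hlen, ?_, ?_, ?_⟩
    · intro n hn
      have e1 := hcv n hn.le
      have e2 := (h2 n hn)
      have e3 := hx1 n hn
      have e4 := hge n hn
      have e5 := hpv n hn.le
      refine ⟨?_, by linarith⟩
      have e6 : (1 - 2 * θ) * ex x n ≤ (1 - 2 * θ) * ((co h n : ℝ) + 1) :=
        mul_le_mul_of_nonneg_left e3.2.le (by linarith)
      have e7 : θ * M ≤ θ * (co h n : ℝ) := mul_le_mul_of_nonneg_left (by linarith) hθ
      nlinarith
    · have := hpv J le_rfl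
      linarith
    · have := hcv J le_rfl
      linarith
  · intro i _
    have := hx1 i.1 i.2
    rw [ex_lt x i.2] at this
    exact this

end P031.Gm
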