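import Vale.Agent.P031.GeomGood

/-! P031 [GEOM]: good fibres, main inequality. -/

namespace P031.Gm

open Finset MeasureTheory

theorem zz_top {t : List ℕ} {J : ℕ} {Y η : ℝ} (hη : 0 ≤ η) (hgood : mm t J ≤ Y - η) :
    zz t η J J ≤ Y - 3 / 4 * η := by
  have h := ww_le hη (le_refl J)
  rw [Nat.sub_self, gg_zero] at h
  unfold zz
  linarith

theorem zz_coord {t : List ℕ} {J : ℕ} {Y η : ℝ} (hη : 0 ≤ η) (hgood : mm t J ≤ Y - η)
    {n : ℕ} (hn : n ≤ J) : gg (J - n) * zz t η J n ≤ Y := by
  have h := super_le (zz t η J) n J (fun i _ => add_nonneg (mm_nonneg t i) (ww_nonneg hη J i))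
    (by
      intro k hk hkJ
      have h1 := cv_zz (η := η) t J k
      have h2 := sj_nonneg hη J k
      unfold cv at h1
      have := al_nonneg t (k + 1) (by omega)
      linarith) (J - n) (by omega)
  have e : n + (J - n) = J := by omega
  rw [e] at h
  have := zz_top hη hgood
  linarith

theorem AA_coord {t : List ℕ} {J : ℕ} {Y θ : ℝ} (hθ : 0 ≤ θ) (hY : 0 ≤ Y)
    (n1 : (1 + 2 * θ) ^ (J + 1) ≤ 2) {x : Fin J → ℝ} (hx : x ∈ AA t J Y θ)
    {n : ℕ} (hn : n < J) : gg (J - n) * ex x n ≤ 2 * Y := by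
  obtain ⟨h2, h3, h4⟩ := hx
  have ht0 : (0 : ℝ) ≤ (t.headI : ℝ) := Nat.cast_nonneg _
  have h := coord_le t (fun i => if i < J then ex x i else Y) J (2 * θ) (by linarith) (by
    intro i _
    split_ifs with hi
    · have := (h2 i hi).2.2
      linarith
    · exact hY) (by
    intro k hk
    have e : cv t (fun i => if i < J then ex x i else Y) k = cv t (ex x) k := by
      apply cv_congr
      intro i hi
      rw [if_pos (by omega)]
    rw [e]
    split_ifs with hkJ
    · exact (h2 k hkJ).1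
    · rw [show k = J by omega]
      exact h4) n hn.le
  rw [if_pos hn, if_neg (lt_irrefl J)] at h
  refine le_trans h ?_
  exact mul_le_mul_of_nonneg_right n1 hY

-- the hypothesis n6 is used through nlinarith
theorem hmap_main {t : List ℕ} {J : ℕ} {Y θ η s M : ℝ} (hθ : 0 ≤ θ) (hη : 0 ≤ η)
    (hs0 : 0 ≤ s) (hs1 : s ≤ 1) (hM : M ≤ t.headI) (hY : 0 ≤ Y)
    (hgood : mm t J ≤ Y - η)
    (n1 : (1 + 2 * θ) ^ (J + 1) ≤ 2)
    (n4 : 40 * ((J : ℝ) + 1) * θ * Y ≤ s * η)
    (n5 : 20 * ((J : ℝ) + 1) * gg J ≤ s * η)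
    (n5b : 5 ≤ s * (0.28 * M))
    (n6 : η ≤ 0.01 * Y)
    (n7 : 2 + θ * Y ≤ 0.2 * s * Y)
    (x : Fin J → ℝ) (hx : x ∈ AA t J Y θ) :
    (fun i : Fin J => (1 - s) * x i + s * zz t η J i) ∈ BB t J Y θ := by
  have hJ0 : (0 : ℝ) ≤ J := Nat.cast_nonneg _
  have hxA := hx
  obtain ⟨h2, h3, h4⟩ := hx
  set y : Fin J → ℝ := fun i : Fin J => (1 - s) * x i + s * zz t η J i with hy
  have hexy : ∀ i, i < J → ex y i = (1 - s) * ex x i + s * zz t η J i := by
    intro i hi
    rw [ex_lt y hi, ex_lt x hi]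
  have hcvy : ∀ n, n ≤ J → cv t (ex y) n = (1 - s) * cv t (ex x) n + s * cv t (zz t η J) n := by
    intro n hn
    rw [← cv_affine]
    apply cv_congr
    intro i hi
    exact hexy i (by omega)
  have hpvy : ∀ n, n ≤ J → pv t (ex y) n = (1 - s) * pv t (ex x) n + s * pv t (zz t η J) n := by
    intro n hn
    rcases n with _ | n
    · simp only [pv]
      ring
    · simp only [pv]
      exact hexy n (by omega)
  have hθY : 40 * (θ * Y) ≤ s * η := by
    have h5 : 0 ≤ J * (θ * Y) := by positivity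
    nlinarith
  refine ⟨?_, ?_, ?_⟩
  · intro n hn
    rw [hcvy n hn.le, hpvy n hn.le, hexy n hn]
    constructor
    · have a1 := (h2 n hn).1
      have a2 := cv_zz (η := η) t J n
      have G0 := gg_pos (J - n)
      have a3 := AA_coord hθ hY n1 hxA hn
      have a4 := zz_coord (t := t) (n := n) hη hgood hn.le
      have a5 : gg (J - n) * sj η J n = η / (4 * ((J : ℝ) + 1)) := by
        unfold sj
        field_simp
      have a6 : 4 * θ * (1 - s) * ex x n + 2 * θ * s * zz t η J n ≤ s * sj η J n := by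
        have b1 : gg (J - n) * (4 * θ * (1 - s) * ex x n + 2 * θ * s * zz t η J n) ≤
            gg (J - n) * (s * sj η J n) := by
          have c1 : 4 * θ * (1 - s) * (gg (J - n) * ex x n) ≤ 4 * θ * (1 - s) * (2 * Y) :=
            mul_le_mul_of_nonneg_left a3 (by
              have : 0 ≤ 1 - s := by linarith
              positivity)
          have c2 : 2 * θ * s * (gg (J - n) * zz t η J n) ≤ 2 * θ * s * Y :=
            mul_le_mul_of_nonneg_left a4 (by positivity)
          have c3 : gg (J - n) * (s * sj η J n) = s * η / (4 * ((J : ℝ) + 1)) := by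
            have : gg (J - n) * (s * sj η J n) = s * (gg (J - n) * sj η J n) := by ring
            rw [this, a5]
            ring
          have c4 : 10 * (θ * Y) ≤ s * η / (4 * ((J : ℝ) + 1)) := by
            rw [le_div_iff₀ (by positivity)]
            nlinarith
          have c5 : 0 ≤ θ * Y := by positivity
          have c6 : 0 ≤ s * (θ * Y) := by positivity
          rw [c3]
          have c7 : gg (J - n) * (4 * θ * (1 - s) * ex x n + 2 * θ * s * zz t η J n) =
            4 * θ * (1 - s) * (gg (J - n) * ex x n) +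
            2 * θ * s * (gg (J - n) * zz t η J n) := by ring
          rw [c7]
          have c8 : 4 * θ * (1 - s) * (2 * Y) + 2 * θ * s * Y ≤ 10 * (θ * Y) := by
            nlinarith
          linarith
        exact le_of_mul_le_mul_left b1 G0
      have a7 : (1 - s) * cv t (ex x) n ≤ (1 - s) * ((1 + 2 * θ) * ex x n) :=
        mul_le_mul_of_nonneg_left a1 (by linarith)
      have a8 : s * cv t (zz t η J) n ≤ s * (zz t η J n - sj η J n) :=
        mul_le_mul_of_nonneg_left a2 hs0
      nlinarith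
    · rcases n with _ | n
      · have a1 := (h2 0 hn).2.2
        have a2 : (t.headI : ℝ) + sj η J 0 ≤ zz t η J 0 := by
          unfold zz ww
          rw [Finset.sum_range_one, Nat.sub_zero, gg_zero, one_mul]
          have := headI_le_mm t 0
          linarith
        have a3 : 5 ≤ s * sj η J 0 := by
          unfold sj
          rw [Nat.sub_zero]
          have := gg_pos J
          rw [← mul_div_assoc, le_div_iff₀ (by positivity)]
          nlinarith
        simp only [pv]
        have a4 : (1 - s) * (t.headI : ℝ) ≤ (1 - s) * ex x 0 :=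
          mul_le_mul_of_nonneg_left a1 (by linarith)
        have a5 : s * ((t.headI : ℝ) + sj η J 0) ≤ s * zz t η J 0 :=
          mul_le_mul_of_nonneg_left a2 hs0
        nlinarith
      · have a1 := (h2 (n + 1) hn).2.1
        simp only [pv] at a1 ⊢
        have a2 := mm_growth t n
        have a3 := headI_le_mm t n
        have a4 := ww_mono hη hn
        have a5 : 0.28 * M ≤ zz t η J (n + 1) - zz t η J n := by
          unfold zz
          linarith
        have a6 : s * (0.28 * M) ≤ s * (zz t η J (n + 1) - zz t η J n) :=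
          mul_le_mul_of_nonneg_left a5 hs0
        have a7 : (1 - s) * (ex x n - 1) ≤ (1 - s) * ex x (n + 1) :=
          mul_le_mul_of_nonneg_left a1 (by linarith)
        nlinarith
  · rw [hpvy J le_rfl]
    rcases J with _ | m
    · simp only [pv]
      have a1 := headI_le_mm t 0
      have a2 : s * η ≤ η := by nlinarith
      have a3 : 0 ≤ θ * Y := by positivity
      nlinarith
    · simp only [pv] at h3 ⊢
      have a1 := mm_growth t m
      have a2 := ww_le (J := m + 1) (n := m) hη (by omega)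
      have e : m + 1 - m = 1 := by omega
      rw [e, gg_one] at a2
      have a3 := aa_one_ge
      have a4 := ww_nonneg hη (m + 1) m
      have a5 : zz t η (m + 1) m ≤ 0.8 * Y := by
        unfold zz
        nlinarith
      have a6 : s * zz t η (m + 1) m ≤ s * (0.8 * Y) := mul_le_mul_of_nonneg_left a5 hs0
      have a7 : (1 - s) * ex x m ≤ (1 - s) * (Y + 2) :=
        mul_le_mul_of_nonneg_left h3 (by linarith)
      nlinarith
  · rw [hcvy J le_rfl]
    have a1 := cv_zz (η := η) t J J
    have a2 := zz_top (t := t) hη hgood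
    have a3 := sj_nonneg hη J J
    have a4 : s * cv t (zz t η J) J ≤ s * (Y - 3 / 4 * η) :=
      mul_le_mul_of_nonneg_left (by linarith) hs0
    have a5 : (1 - s) * cv t (ex x) J ≤ (1 - s) * ((1 + 2 * θ) * Y) :=
      mul_le_mul_of_nonneg_left h4 (by linarith)
    have a6 : 0 ≤ s * (θ * Y) := by positivity
    have e1 : (1 - s) * ((1 + 2 * θ) * Y) = Y + 2 * (θ * Y) - s * Y - 2 * (s * (θ * Y)) := by
      ring
    have e2 : s * (Y - 3 / 4 * η) = s * Y - 3 / 4 * (s * η) := by ring
    have e3 : (1 - θ) * Y = Y - θ * Y := by ring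
    have e4 : 0 ≤ θ * Y := by positivity
    rw [e1] at a5
    rw [e2] at a4
    rw [e3]
    linarith

/-- Good fibres: the numbers of lattice points of `R+` and `R-` are close. -/
theorem good_fibre (t : List ℕ) (J : ℕ) (Y θ η s M : ℝ) (hθ : 0 ≤ θ) (hθ2 : 2 * θ ≤ 1)
    (hη : 0 ≤ η) (hs0 : 0 ≤ s) (hs1 : s ≤ 1) (hM : M ≤ t.headI) (hY : 0 ≤ Y) (hMY : M ≤ Y)
    (hgood : mm t J ≤ Y - η)
    (n1 : (1 + 2 * θ) ^ (J + 1) ≤ 2)
    (n2 : ((J : ℝ) + 1) ^ 2 ≤ θ * M)
    (n4 : 40 * ((J : ℝ) + 1) * θ * Y ≤ s * η)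
    (n5 : 20 * ((J : ℝ) + 1) * gg J ≤ s * η)
    (n5b : 5 ≤ s * (0.28 * M))
    (n6 : η ≤ 0.01 * Y)
    (n7 : 2 + θ * Y ≤ 0.2 * s * Y) :
    (1 - s) ^ J * ((RP θ Y J t).ncard : ℝ) ≤ ((RM θ Y J t).ncard : ℝ) := by
  have n3 : 1 ≤ θ * M := by
    have : (0 : ℝ) ≤ J := Nat.cast_nonneg _
    nlinarith
  apply homothety_count J (RP θ Y J t) (RM θ Y J t) (fun h hh => hh.1) (RP_finite θ Y J t)
    ((RP_finite θ Y J t).subset (RM_sub_RP θ Y hθ hY J t)) (AA t J Y θ) (BB t J Y θ)
    (fun h hh => cube_sub_AA t J Y θ M hθ hM hMY n2 h hh)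
    (fun x hx => BB_sub_cubes t J Y θ M hθ hθ2 hM n3 x hx)
    (fun i => zz t η J i) s hs1
    (fun x hx => hmap_main hθ hη hs0 hs1 hM hY hgood n1 n4 n5 n5b n6 n7 x hx)

end P031.Gm
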