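import Vale.Agent.P031.GeomMin

/-! P031 [GEOM]: the lower bound for `R-` over the tail `[M]`. -/

namespace P031.Gm

open Finset

/-- renewal sums with arbitrary weights -/
noncomputable def wg (s : ℕ → ℝ) (n : ℕ) : ℝ := ∑ j ∈ range (n + 1), gg (n - j) * s j

theorem wg_renewal (s : ℕ → ℝ) (n : ℕ) :
    wg s n = ∑ i ∈ range n, aa (n - i) * wg s i + s n := by
  have h1 : ∑ i ∈ range n, aa (n - i) * wg s i = ∑ j ∈ range n, gg (n - j) * s j := by
    have h2 : ∑ i ∈ range n, aa (n - i) * wg s i =
        ∑ i ∈ Finset.Ico 0 n, ∑ j ∈ Finset.Ico 0 (i + 1), aa (n - i) * (gg (i - j) * s j) := by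
      rw [Finset.range_eq_Ico]
      apply Finset.sum_congr rfl
      intro i _
      unfold wg
      rw [Finset.mul_sum, Finset.range_eq_Ico]
    rw [h2, ← Finset.sum_Ico_Ico_comm, Finset.range_eq_Ico]
    apply Finset.sum_congr rfl
    intro j hj
    rw [Finset.mem_Ico] at hj
    rw [Finset.sum_Ico_eq_sum_range]
    obtain ⟨m, hm⟩ : ∃ m, n - j = m + 1 := ⟨n - j - 1, by omega⟩
    rw [hm, gg_succ, Finset.sum_mul]
    apply Finset.sum_congr rfl
    intro i hi
    rw [Finset.mem_range] at hi
    have e1 : n - (j + i) = m + 1 - i := by omega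
    have e2 : j + i - j = i := by omega
    rw [e1, e2]
    ring
  rw [h1]
  unfold wg
  rw [Finset.sum_range_succ, Nat.sub_self, gg_zero]
  ring

/-- the family of head lists built step by step -/
noncomputable def LL (t : List ℕ) (S : ℕ → ℕ) : ℕ → Finset (List ℕ)
  | 0 => {[]}
  | n + 1 => (LL t S n ×ˢ Finset.Ico (2 * S n) (3 * S n)).image
      (fun p => (⌈al 1 (p.1 ++ t)⌉₊ + p.2) :: p.1)

theorem LL_card (t : List ℕ) (S : ℕ → ℕ) (n : ℕ) : (LL t S n).card = ∏ i ∈ range n, S i := by
  induction n with
  | zero => simp [LL]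
  | succ n ih =>
    rw [LL, Finset.card_image_of_injOn, Finset.card_product, ih, Nat.card_Ico,
      Finset.prod_range_succ]
    · congr 1
      omega
    · intro p _ q _ hpq
      simp only [List.cons.injEq] at hpq
      obtain ⟨h1, h2⟩ := hpq
      apply Prod.ext h2
      rw [h2] at h1
      omega

theorem LL_prop (t : List ℕ) (S : ℕ → ℕ) (n : ℕ) (h : List ℕ) (hh : h ∈ LL t S n) :
    h.length = n ∧ ∀ i, i < n →
      cv t (fun i => (co h i : ℝ)) i + 2 * (S i : ℝ) ≤ (co h i : ℝ) ∧
      (co h i : ℝ) ≤ cv t (fun i => (co h i : ℝ)) i + (3 * (S i : ℝ) + 1) := by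
  induction n generalizing h with
  | zero =>
    rw [LL, Finset.mem_singleton] at hh
    subst hh
    simp
  | succ n ih =>
    rw [LL, Finset.mem_image] at hh
    obtain ⟨⟨l, σ⟩, hp, rfl⟩ := hh
    rw [Finset.mem_product, Finset.mem_Ico] at hp
    simp only at hp ⊢
    obtain ⟨hl, hσ1, hσ2⟩ := hp
    obtain ⟨h1, h2⟩ := ih l hl
    set c := ⌈al 1 (l ++ t)⌉₊ + σ with hc
    refine ⟨by rw [List.length_cons, h1], ?_⟩
    intro i hi
    have hcv : ∀ k, k ≤ n → cv t (fun i => (co (c :: l) i : ℝ)) k =
        cv t (fun i => (co l i : ℝ)) k := by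
      intro k hk
      apply cv_congr
      intro i hi
      rw [co_cons_lt c l (by omega)]
    rw [hcv i (by omega)]
    rcases Nat.lt_or_ge i n with hin | hin
    · rw [co_cons_lt c l (by omega)]
      exact h2 i hin
    · have hin' : i = n := by omega
      subst hin'
      have e1 : co (c :: l) i = c := by
        rw [← h1]
        exact co_cons_len c l
      rw [e1]
      have e2 := al_one_append l t
      rw [h1] at e2
      rw [← e2, hc]
      push_cast
      have h3 : 0 ≤ al 1 (l ++ t) := al_nonneg _ 1 le_rfl
      have h4 := Nat.le_ceil (al 1 (l ++ t))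
      have h5 := Nat.ceil_lt_add_one h3
      have h6 : (2 * (S i : ℝ)) ≤ σ := by exact_mod_cast hσ1
      have h7 : (σ : ℝ) ≤ 3 * (S i : ℝ) := by exact_mod_cast hσ2.le
      constructor <;> linarith

theorem gg_split (n : ℕ) :
    gg (n + 1) = ∑ j ∈ range n, aa (n - j) * gg (j + 1) + aa (n + 1) := by
  rw [gg_succ, Finset.sum_range_succ']
  rw [gg_zero, Nat.sub_zero, mul_one]
  congr 1
  apply Finset.sum_congr rfl
  intro i hi
  have : n + 1 - (i + 1) = n - i := by omega
  rw [this]

/-- upper bounds for solutions with bounded excess, over the tail `[M]` -/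
theorem le_of_excess (M : ℕ) (z r : ℕ → ℝ) (J : ℕ)
    (h : ∀ n, n < J → z n ≤ cv [M] z n + r n) :
    ∀ n, n < J → z n ≤ gg (n + 1) * M + wg r n := by
  intro n
  induction n using Nat.strong_induction_on with
  | _ n ih =>
    intro hn
    refine le_trans (h n hn) ?_
    have h1 : cv [M] z n ≤ cv [M] (fun i => gg (i + 1) * M + wg r i) n := by
      apply cv_mono
      intro i hi
      exact ih i hi (by omega)
    have h2 : cv [M] (fun i => gg (i + 1) * M + wg r i) n + r n = gg (n + 1) * M + wg r n := by
      unfold cv
      rw [wg_renewal r n, gg_split n]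
      simp only [al]
      have h3 : ∑ i ∈ range n, aa (n - i) * (gg (i + 1) * M + wg r i) =
          (∑ i ∈ range n, aa (n - i) * gg (i + 1)) * M + ∑ i ∈ range n, aa (n - i) * wg r i := by
        rw [Finset.sum_mul, ← Finset.sum_add_distrib]
        apply Finset.sum_congr rfl
        intro i _
        ring
      rw [h3]
      ring
    linarith

theorem cv_le_of_excess (M : ℕ) (z r : ℕ → ℝ) (J : ℕ)
    (h : ∀ n, n < J → z n ≤ cv [M] z n + r n) :
    cv [M] z J ≤ gg (J + 1) * M + (wg r J - r J) := by
  have h0 := le_of_excess M z r J h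
  have h1 : cv [M] z J ≤ cv [M] (fun i => gg (i + 1) * M + wg r i) J := by
    apply cv_mono
    intro i hi
    exact h0 i hi
  have h2 : cv [M] (fun i => gg (i + 1) * M + wg r i) J = gg (J + 1) * M + (wg r J - r J) := by
    unfold cv
    rw [wg_renewal r J, gg_split J]
    simp only [al]
    have h3 : ∑ i ∈ range J, aa (J - i) * (gg (i + 1) * M + wg r i) =
        (∑ i ∈ range J, aa (J - i) * gg (i + 1)) * M + ∑ i ∈ range J, aa (J - i) * wg r i := by
      rw [Finset.sum_mul, ← Finset.sum_add_distrib]
      apply Finset.sum_congr rfl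
      intro i _
      ring
    rw [h3]
    ring
  linarith

theorem low_fibre (M J : ℕ) (Y θ : ℝ) (S : ℕ → ℕ) (hθ : 0 ≤ θ) (hθ1 : 8 * θ * ((J : ℝ) + 1) ≤ 1)
    (hY : 0 < Y) (hM : 10 ≤ M)
    (hS : ∀ i, i < J → S i = ⌊Y / (64 * ((J : ℝ) + 1) * gg (J - i))⌋₊)
    (l1 : gg (J + 1) * M ≤ Y / 16) (l2 : ∀ i, i < J → M ≤ S i) :
    (∏ i ∈ range J, (S i : ℝ)) ≤ ((RM θ Y J [M]).ncard : ℝ) := by
  have hJ0 : (0 : ℝ) ≤ J := Nat.cast_nonneg _
  have hθ2 : θ ≤ 1 / 8 := by nlinarith
  have hM' : (10 : ℝ) ≤ M := by exact_mod_cast hM
  have hsub : (↑(LL [M] S J) : Set (List ℕ)) ⊆ RM θ Y J [M] := by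
    intro h hh
    rw [Finset.mem_coe] at hh
    obtain ⟨hlen, hprop⟩ := LL_prop [M] S J h hh
    set z : ℕ → ℝ := fun i => (co h i : ℝ) with hz
    have hz0 : ∀ i, 0 ≤ z i := fun i => Nat.cast_nonneg _
    set r : ℕ → ℝ := fun j => if j < J then 3 * (S j : ℝ) + 1 else 0 with hr
    have hexc : ∀ n, n < J → z n ≤ cv [M] z n + r n := by
      intro n hn
      rw [hr]
      simp only
      rw [if_pos hn]
      exact (hprop n hn).2
    -- bounds for the excess
    have hSr : ∀ j, j < J → (S j : ℝ) * (64 * ((J : ℝ) + 1) * gg (J - j)) ≤ Y := by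
      intro j hj
      have hg := gg_pos (J - j)
      rw [hS j hj]
      have := Nat.floor_le (a := Y / (64 * ((J : ℝ) + 1) * gg (J - j))) (by positivity)
      rw [le_div_iff₀ (by positivity)] at this
      exact this
    have hrj : ∀ j, gg (J - j) * r j ≤ Y / (16 * ((J : ℝ) + 1)) := by
      intro j
      rw [hr]
      simp only
      have hg := gg_pos (J - j)
      split_ifs with hj
      · have h1 := hSr j hj
        have h2 : (10 : ℝ) ≤ S j := by
          have : (M : ℝ) ≤ S j := by exact_mod_cast l2 j hj
          linarith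
        rw [le_div_iff₀ (by positivity)]
        have h3 : 0 ≤ ((J : ℝ) + 1) * gg (J - j) := by positivity
        nlinarith
      · rw [mul_zero]
        positivity
    have hwg : ∀ n, n ≤ J → gg (J - n) * wg r n ≤ Y / 16 := by
      intro n hn
      unfold wg
      rw [Finset.mul_sum]
      have h1 : ∀ j ∈ range (n + 1), gg (J - n) * (gg (n - j) * r j) ≤
          Y / (16 * ((J : ℝ) + 1)) := by
        intro j hj
        rw [Finset.mem_range] at hj
        have h2 := gg_super (J - n) (n - j)
        have e : J - n + (n - j) = J - j := by omega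
        rw [e] at h2
        have h3 : 0 ≤ r j := by
          rw [hr]
          simp only
          split_ifs
          · positivity
          · exact le_rfl
        refine le_trans ?_ (hrj j)
        rw [← mul_assoc]
        exact mul_le_mul_of_nonneg_right h2 h3
      refine le_trans (Finset.sum_le_sum h1) ?_
      rw [Finset.sum_const, Finset.card_range, nsmul_eq_mul]
      have h3 : ((n + 1 : ℕ) : ℝ) ≤ (J : ℝ) + 1 := by
        push_cast
        have : (n : ℝ) ≤ J := by exact_mod_cast hn
        linarith
      calc ((n + 1 : ℕ) : ℝ) * (Y / (16 * ((J : ℝ) + 1)))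
          ≤ ((J : ℝ) + 1) * (Y / (16 * ((J : ℝ) + 1))) := by
            apply mul_le_mul_of_nonneg_right h3
            positivity
        _ = Y / 16 := by field_simp
    have hzn : ∀ n, n < J → gg (J - n) * z n ≤ Y / 8 := by
      intro n hn
      have h1 := le_of_excess M z r J hexc n hn
      have h2 := hwg n hn.le
      have h3 : gg (J - n) * gg (n + 1) ≤ gg (J + 1) := by
        have := gg_super (J - n) (n + 1)
        have e : J - n + (n + 1) = J + 1 := by omega
        rwa [e] at this
      have hg := gg_pos (J - n)
      have h4 : gg (J - n) * z n ≤ gg (J - n) * (gg (n + 1) * M + wg r n) :=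
        mul_le_mul_of_nonneg_left h1 hg.le
      have h5 : gg (J - n) * gg (n + 1) * M ≤ gg (J + 1) * M :=
        mul_le_mul_of_nonneg_right h3 (by positivity)
      nlinarith
    have hcvJ : cv [M] z J ≤ Y / 8 := by
      have h1 := cv_le_of_excess M z r J hexc
      have h2 := hwg J le_rfl
      rw [Nat.sub_self, gg_zero, one_mul] at h2
      have h3 : r J = 0 := by
        rw [hr]
        simp
      rw [h3] at h1
      linarith
    rw [mem_RM_iff]
    refine ⟨hlen, ?_, ?_, ?_⟩
    · intro n hn
      have hp := hprop n hn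
      constructor
      · -- theta condition
        have h1 := hzn n hn
        have hg := gg_pos (J - n)
        have h2 : θ * z n ≤ 2 * (S n : ℝ) := by
          have h3 : Y / (64 * ((J : ℝ) + 1) * gg (J - n)) ≤ 2 * (S n : ℝ) := by
            have h4 := Nat.lt_floor_add_one (Y / (64 * ((J : ℝ) + 1) * gg (J - n)))
            rw [← hS n hn] at h4
            have : (M : ℝ) ≤ S n := by exact_mod_cast l2 n hn
            linarith
          refine le_trans ?_ h3
          rw [le_div_iff₀ (by positivity)]
          have h5 : θ * z n * (64 * ((J : ℝ) + 1) * gg (J - n)) =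
              (8 * θ * ((J : ℝ) + 1)) * (8 * (gg (J - n) * z n)) := by ring
          rw [h5]
          have h6 : 8 * (gg (J - n) * z n) ≤ Y := by linarith
          have h7 : 0 ≤ 8 * (gg (J - n) * z n) := by
            have := hz0 n
            positivity
          nlinarith
        have := hp.1
        linarith
      · rcases n with _ | n
        · simp only [pv, List.headI_cons]
          have h1 : cv [M] z 0 = aa 1 * M := by
            unfold cv
            simp [al]
          have h2 := hp.1
          rw [h1] at h2
          have h3 := aa_one_ge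
          have h4 : (M : ℝ) ≤ S 0 := by exact_mod_cast l2 0 hn
          nlinarith
        · simp only [pv]
          have hp' := hprop n (by omega)
          have h1 := cv_succ_ge [M] z n (fun i _ => hz0 i)
          have h2 := aa_one_ge
          have h3 : (10 : ℝ) ≤ S n := by
            have : (M : ℝ) ≤ S n := by exact_mod_cast l2 n (by omega)
            linarith
          -- S (n+1) ≥ 1.386 S n - 1
          have h4 : 1.386 * (S n : ℝ) - 1 ≤ S (n + 1) := by
            have hg1 := gg_pos (J - (n + 1))
            have hg2 := gg_growth (n := J - (n + 1)) (by omega)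
            have e : J - (n + 1) + 1 = J - n := by omega
            rw [e] at hg2
            have h5 := Nat.lt_floor_add_one (Y / (64 * ((J : ℝ) + 1) * gg (J - (n + 1))))
            rw [← hS (n + 1) hn] at h5
            have h6 := hSr n (by omega)
            have h7 : 1.386 * (S n : ℝ) ≤ Y / (64 * ((J : ℝ) + 1) * gg (J - (n + 1))) := by
              rw [le_div_iff₀ (by positivity)]
              have h8 : 0 ≤ (S n : ℝ) * (64 * ((J : ℝ) + 1)) := by positivity
              have h9 := mul_le_mul_of_nonneg_left hg2 h8
              nlinarith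
            linarith
          have h5 := hp.1
          have h6 := hp'.2
          have h7 := hp'.1
          have h8 : 2 * (S n : ℝ) ≤ z n := by
            have : 0 ≤ cv [M] z n := by
              unfold cv
              apply add_nonneg
              · apply Finset.sum_nonneg
                intro i hi
                rw [Finset.mem_range] at hi
                exact mul_nonneg (aa_nonneg (by omega)) (hz0 i)
              · exact al_nonneg _ _ (by omega)
            linarith
          have h9 : 0.772 * (S n : ℝ) ≤ aa 1 * z n := by nlinarith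
          linarith
    · rcases J with _ | m
      · simp only [pv, List.headI_cons]
        rw [gg_one] at l1
        have := aa_one_ge
        nlinarith
      · simp only [pv]
        have h1 := hzn m (by omega)
        have e : m + 1 - m = 1 := by omega
        rw [e, gg_one] at h1
        have h2 := aa_one_ge
        have h3 := hz0 m
        have h4 : z m ≤ Y / 2 := by nlinarith
        have h5 : (1 - θ) * Y ≥ 7 / 8 * Y := by nlinarith
        linarith
    · have h5 : (1 - θ) * Y ≥ 7 / 8 * Y := by nlinarith
      linarith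
  have hfin : (RM θ Y J [M]).Finite :=
    (RP_finite θ Y J [M]).subset (RM_sub_RP θ Y hθ hY.le J [M])
  have h1 := Set.ncard_le_ncard hsub hfin
  rw [Set.ncard_coe_finset, LL_card] at h1
  exact_mod_cast h1

end P031.Gm
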