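import Vale.Agent.P031.GeomGood2
import Vale.Agent.P031.GeomBad
import Vale.Agent.P031.GeomLow

/-! P031 [GEOM]: parameters. -/

namespace P031.Gm

open Finset

theorem one_add_pow_le {x : ℝ} (hx : 0 ≤ x) (n : ℕ) (h : (n : ℝ) * x ≤ 1 / 2) :
    (1 + x) ^ n ≤ 1 + 2 * ((n : ℝ) * x) := by
  induction n with
  | zero => simp
  | succ n ih =>
    push_cast at h ⊢
    have h1 : (n : ℝ) * x ≤ 1 / 2 := by nlinarith
    have h2 := ih h1
    rw [pow_succ]
    have h3 : (1 + x) ^ n * (1 + x) ≤ (1 + 2 * ((n : ℝ) * x)) * (1 + x) :=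
      mul_le_mul_of_nonneg_right h2 (by linarith)
    nlinarith

theorem log_13 : (1 : ℝ) / 5 ≤ Real.log 1.3 := by
  rw [Real.le_log_iff_exp_le (by norm_num)]
  have h1 : (Real.exp (1 / 5)) ^ 5 ≤ (1.3 : ℝ) ^ 5 := by
    rw [← Real.exp_nat_mul]
    have := Real.exp_one_lt_d9
    norm_num at this ⊢
    linarith
  exact le_of_pow_le_pow_left₀ (by norm_num) (by norm_num) h1

theorem log_1386 : (0.3 : ℝ) ≤ Real.log 1.386 := by
  rw [Real.le_log_iff_exp_le (by norm_num)]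
  have h1 : (Real.exp 0.3) ^ 10 ≤ (1.386 : ℝ) ^ 10 := by
    rw [← Real.exp_nat_mul]
    have h2 : ((10 : ℕ) : ℝ) * 0.3 = ((3 : ℕ) : ℝ) * 1 := by norm_num
    rw [h2, Real.exp_nat_mul]
    have := Real.exp_one_lt_d9
    have h3 : Real.exp 1 ^ 3 ≤ (2.7182818286 : ℝ) ^ 3 :=
      pow_le_pow_left₀ (Real.exp_pos 1).le this.le 3
    refine h3.trans ?_
    norm_num
  exact le_of_pow_le_pow_left₀ (by norm_num) (by norm_num) h1

theorem log_3 : Real.log 3 ≤ 1.1 := by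
  rw [Real.log_le_iff_le_exp (by norm_num)]
  have h1 : (3 : ℝ) ^ 10 ≤ (Real.exp 1.1) ^ 10 := by
    rw [← Real.exp_nat_mul]
    have h2 : ((10 : ℕ) : ℝ) * 1.1 = ((11 : ℕ) : ℝ) * 1 := by norm_num
    rw [h2, Real.exp_nat_mul]
    have := Real.exp_one_gt_d9
    have h3 : (2.7182818283 : ℝ) ^ 11 ≤ Real.exp 1 ^ 11 :=
      pow_le_pow_left₀ (by norm_num) this.le 11
    refine le_trans ?_ h3
    norm_num
  exact le_of_pow_le_pow_left₀ (by norm_num) (Real.exp_pos _).le h1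

/-- `J ≤ 5 log Y` -/
theorem length_le {M Y θ : ℝ} (hM : 5 ≤ M) (hMY : M ≤ Y) (hθ : 0 ≤ θ) (hθ1 : θ ≤ 1 / 20)
    {J : ℕ} {t : List ℕ} (ht : M ≤ t.headI) (hne : (RP θ Y J t).Nonempty) :
    (J : ℝ) ≤ 5 * Real.log Y := by
  have hY : 0 < Y := by linarith
  rcases Nat.eq_zero_or_pos J with hJ | hJ
  · subst hJ
    have : 0 ≤ Real.log Y := Real.log_nonneg (by linarith)
    simp only [Nat.cast_zero]
    linarith
  · have h1 := gg_le_of_nonempty hθ hY.le hJ hne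
    have h2 := gg_lower J
    have h3 : (1 + θ) ^ (J + 1) ≤ 1.05 ^ (J + 1) :=
      pow_le_pow_left₀ (by linarith) (by linarith) _
    have hg := gg_pos J
    have h4 : gg J * 5 ≤ 1.05 ^ (J + 1) * Y := by
      calc gg J * 5 ≤ gg J * (t.headI : ℝ) := by
            apply mul_le_mul_of_nonneg_left _ hg.le
            linarith
        _ ≤ (1 + θ) ^ (J + 1) * Y := h1
        _ ≤ _ := mul_le_mul_of_nonneg_right h3 hY.le
    have h5 : (1.38 : ℝ) ^ J ≤ 1.05 ^ J * Y := by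
      have : (1.05 : ℝ) ^ (J + 1) = 1.05 ^ J * 1.05 := pow_succ _ _
      rw [this] at h4
      have h6 : (0 : ℝ) ≤ 1.05 ^ J * Y := by positivity
      nlinarith
    have h6 : (1.3 : ℝ) ^ J * 1.05 ^ J ≤ Y * 1.05 ^ J := by
      rw [← mul_pow]
      refine le_trans (pow_le_pow_left₀ (by norm_num) (by norm_num) J) (h5.trans ?_)
      rw [mul_comm]
    have h7 : (1.3 : ℝ) ^ J ≤ Y := le_of_mul_le_mul_right h6 (by positivity)
    have h8 : Real.log ((1.3 : ℝ) ^ J) ≤ Real.log Y := Real.log_le_log (by positivity) h7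
    rw [Real.log_pow] at h8
    have h9 := log_13
    have h10 : (0 : ℝ) ≤ J := Nat.cast_nonneg _
    nlinarith

/-- `gg J * M ≤ 2 Y` for nonempty fibres -/
theorem gg_M_le {M Y θ : ℝ} (hM0 : 0 ≤ M) (hMY : M ≤ Y) (hθ : 0 ≤ θ)
    {J : ℕ} {t : List ℕ} (ht : M ≤ t.headI) (hne : (RP θ Y J t).Nonempty)
    (n1 : (1 + θ) ^ (J + 1) ≤ 2) : gg J * M ≤ 2 * Y := by
  have hY : 0 ≤ Y := by linarith
  rcases Nat.eq_zero_or_pos J with hJ | hJ
  · subst hJ
    rw [gg_zero]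
    linarith
  · have h1 := gg_le_of_nonempty hθ hY hJ hne
    have hg := gg_pos J
    calc gg J * M ≤ gg J * (t.headI : ℝ) := mul_le_mul_of_nonneg_left ht hg.le
      _ ≤ (1 + θ) ^ (J + 1) * Y := h1
      _ ≤ 2 * Y := mul_le_mul_of_nonneg_right n1 hY

/-- the good fibres with parameters `θ = C/R^4`, `η = Y/R^2`, `s = 1/R`, `M = R^40`. -/
theorem good_par {R Y C : ℝ} (hR : 1000 ≤ R) (hC : 1 ≤ C) (hY : R ^ 40 ≤ Y)
    {J : ℕ} {t : List ℕ} (ht : R ^ 40 ≤ t.headI)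
    (hU : 40 * ((J : ℝ) + 1) * C ≤ R) (hne : (RP (C / R ^ 4) Y J t).Nonempty)
    (hgood : mm t J ≤ Y - Y / R ^ 2) :
    (1 - 1 / R) ^ J * ((RP (C / R ^ 4) Y J t).ncard : ℝ) ≤
      ((RM (C / R ^ 4) Y J t).ncard : ℝ) := by
  have hR0 : 0 < R := by linarith
  have hR1 : 1 ≤ R := by linarith
  have hRk : ∀ k : ℕ, 0 < R ^ k := fun k => by positivity
  have hY0 : 0 < Y := lt_of_lt_of_le (hRk 40) hY
  have hJ0 : (0 : ℝ) ≤ J := Nat.cast_nonneg _
  have hJC : 0 ≤ (J : ℝ) * C := by positivity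
  have hJR : 40 * ((J : ℝ) + 1) ≤ R := by nlinarith
  have hCR : 40 * C ≤ R := by nlinarith
  have hp3 : R ≤ R ^ 3 := by
    calc R = R ^ 1 := (pow_one R).symm
      _ ≤ R ^ 3 := pow_le_pow_right₀ hR1 (by norm_num)
  have hp4 : R ^ 3 ≤ R ^ 4 := pow_le_pow_right₀ hR1 (by norm_num)
  -- (J+1) C / R^4 is small
  have hx : ((J + 1 : ℕ) : ℝ) * (2 * (C / R ^ 4)) ≤ 1 / 20 := by
    push_cast
    have h1 : ((J : ℝ) + 1) * (2 * (C / R ^ 4)) = (40 * ((J : ℝ) + 1) * C) / (20 * R ^ 4) := by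
      field_simp
      ring
    rw [h1, div_le_iff₀ (by positivity)]
    linarith
  have n1 : (1 + 2 * (C / R ^ 4)) ^ (J + 1) ≤ 2 := by
    have := one_add_pow_le (x := 2 * (C / R ^ 4)) (by positivity) (J + 1) (by linarith)
    linarith
  have n1' : (1 + C / R ^ 4) ^ (J + 1) ≤ 2 := by
    refine le_trans (pow_le_pow_left₀ (by positivity) ?_ _) n1
    have : 0 ≤ C / R ^ 4 := by positivity
    linarith
  have hgg := gg_M_le (M := R ^ 40) (hRk 40).le hY (by positivity) ht hne n1'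
  have hθ2 : 2 * (C / R ^ 4) ≤ 1 := by
    rw [← mul_div_assoc, div_le_one (hRk 4)]
    linarith
  apply good_fibre t J Y (C / R ^ 4) (Y / R ^ 2) (1 / R) (R ^ 40) (by positivity) hθ2
    (by positivity) (by positivity) _ ht hY0.le hY hgood n1
  · -- n2
    have h1 : C / R ^ 4 * R ^ 40 = C * R ^ 36 := by
      field_simp
    rw [h1]
    have h2 : R ^ 2 ≤ R ^ 36 := pow_le_pow_right₀ hR1 (by norm_num)
    have h3 : ((J : ℝ) + 1) ^ 2 ≤ R ^ 2 := pow_le_pow_left₀ (by positivity) (by linarith) 2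
    have h4 := hRk 36
    nlinarith
  · -- n4
    have h1 : 40 * ((J : ℝ) + 1) * (C / R ^ 4) * Y = (40 * ((J : ℝ) + 1) * C) * Y / R ^ 4 := by
      field_simp
    have h2 : 1 / R * (Y / R ^ 2) = R * Y / R ^ 4 := by
      field_simp
    rw [h1, h2]
    apply div_le_div_of_nonneg_right _ (hRk 4).le
    exact mul_le_mul_of_nonneg_right hU hY0.le
  · -- n5
    have h2 : 1 / R * (Y / R ^ 2) = Y / R ^ 3 := by
      field_simp
    rw [h2, le_div_iff₀ (hRk 3)]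
    have h3 : R ^ 4 ≤ R ^ 40 := pow_le_pow_right₀ hR1 (by norm_num)
    have hg := gg_pos J
    have h4 : gg J * R ^ 4 ≤ 2 * Y := le_trans (mul_le_mul_of_nonneg_left h3 hg.le) hgg
    have h5 : 20 * ((J : ℝ) + 1) * gg J * R ^ 3 ≤ (R / 2) * gg J * R ^ 3 := by
      have : 0 ≤ gg J * R ^ 3 := by positivity
      nlinarith
    have h6 : (R / 2) * gg J * R ^ 3 = gg J * R ^ 4 / 2 := by ring
    linarith
  · -- n5b
    have h1 : 1 / R * (0.28 * R ^ 40) = 0.28 * R ^ 39 := by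
      field_simp
    rw [h1]
    have h2 : R ^ 1 ≤ R ^ 39 := pow_le_pow_right₀ hR1 (by norm_num)
    rw [pow_one] at h2
    linarith
  · -- n6
    rw [div_le_iff₀ (hRk 2)]
    have : (100 : ℝ) ≤ R ^ 2 := by nlinarith
    nlinarith
  · -- n7
    have h1 : C / R ^ 4 * Y ≤ 0.1 * (1 / R) * Y := by
      apply mul_le_mul_of_nonneg_right _ hY0.le
      have : (0.1 : ℝ) * (1 / R) = 0.1 * R ^ 3 / R ^ 4 := by field_simp
      rw [this]
      apply div_le_div_of_nonneg_right _ (hRk 4).le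
      nlinarith
    have h2 : 2 ≤ 0.1 * (1 / R) * Y := by
      have h3 : R ^ 2 ≤ R ^ 40 := pow_le_pow_right₀ hR1 (by norm_num)
      have h4 : (0.1 : ℝ) * (1 / R) * Y = 0.1 * Y / R := by ring
      rw [h4, le_div_iff₀ hR0]
      nlinarith
    linarith
  · rw [div_le_one hR0]
    exact hR1

theorem bad_par {R Y C : ℝ} (hR : 1000 ≤ R) (hC : 1 ≤ C) (hY : R ^ 40 ≤ Y)
    {J : ℕ} {t : List ℕ} (ht : R ^ 40 ≤ t.headI)
    (hU : 40 * ((J : ℝ) + 1) * C ≤ R) (hne : (RP (C / R ^ 4) Y J t).Nonempty)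
    (hbad : Y - Y / R ^ 2 < mm t J) :
    ((RP (C / R ^ 4) Y J t).ncard : ℝ) ≤ ∏ i ∈ range J, (3 * (Y / R ^ 2) / gg (i + 1)) ∧
      gg J * R ^ 40 ≤ 2 * Y := by
  have hR0 : 0 < R := by linarith
  have hR1 : 1 ≤ R := by linarith
  have hRk : ∀ k : ℕ, 0 < R ^ k := fun k => by positivity
  have hY0 : 0 < Y := lt_of_lt_of_le (hRk 40) hY
  have hJ0 : (0 : ℝ) ≤ J := Nat.cast_nonneg _
  have hJC : 0 ≤ (J : ℝ) * C := by positivity
  have hx : ((J + 1 : ℕ) : ℝ) * (C / R ^ 4) ≤ 1 / (40 * R ^ 3) := by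
    push_cast
    have h1 : ((J : ℝ) + 1) * (C / R ^ 4) = (40 * ((J : ℝ) + 1) * C) / (40 * R ^ 4) := by
      field_simp
    have h2 : 1 / (40 * R ^ 3) = R / (40 * R ^ 4) := by field_simp
    rw [h1, h2]
    apply div_le_div_of_nonneg_right hU (by positivity)
  have hx2 : 1 / (40 * R ^ 3) ≤ 1 / (2 * R ^ 2) := by
    apply div_le_div_of_nonneg_left (by norm_num) (by positivity)
    have : R ^ 2 ≤ R ^ 3 := pow_le_pow_right₀ hR1 (by norm_num)
    have := hRk 2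
    linarith
  have hx3 : 1 / (2 * R ^ 2) ≤ 1 / 2 := by
    apply div_le_div_of_nonneg_left (by norm_num) (by norm_num)
    have : (1 : ℝ) ≤ R ^ 2 := one_le_pow₀ hR1
    linarith
  have hpow := one_add_pow_le (x := C / R ^ 4) (by positivity) (J + 1) (by linarith)
  have hq : 2 * (1 / (2 * R ^ 2)) = 1 / R ^ 2 := by field_simp
  have n1' : (1 + C / R ^ 4) ^ (J + 1) ≤ 1 + 1 / R ^ 2 := by linarith
  have hgg := gg_M_le (M := R ^ 40) (hRk 40).le hY (by positivity) ht hne (by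
    linarith)
  refine ⟨?_, hgg⟩
  apply bad_fibre t J Y (C / R ^ 4) (Y / R ^ 2) (by positivity) (by positivity) hY0.le hbad
  · calc (1 + C / R ^ 4) ^ (J + 1) * Y ≤ (1 + 1 / R ^ 2) * Y :=
          mul_le_mul_of_nonneg_right n1' hY0.le
      _ = Y + Y / R ^ 2 := by ring
  · intro k hk hkJ
    have h1 := gg_mono hk hkJ
    refine h1.trans ?_
    rw [le_div_iff₀ (hRk 2)]
    have h2 : 2 * R ^ 2 ≤ R ^ 40 := by
      calc 2 * R ^ 2 ≤ R ^ 1 * R ^ 2 := by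
            rw [pow_one]
            have := hRk 2
            nlinarith
        _ = R ^ 3 := by ring
        _ ≤ R ^ 40 := pow_le_pow_right₀ hR1 (by norm_num)
    have hg := gg_pos J
    nlinarith

end P031.Gm
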