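import Vale.Agent.P031.GeomPar

/-! P031 [GEOM]: the comparison of the bad product with the lower bound. -/

namespace P031.Gm

open Finset

/-- existence of the critical length -/
theorem exists_J0 {M Y : ℝ} (hM : 5 ≤ M) (hY : M ^ 2 ≤ Y) :
    ∃ J0 : ℕ, gg (J0 + 1) * M ^ 2 ≤ Y ∧ Y < gg (J0 + 2) * M ^ 2 := by
  classical
  have hY0 : 0 < Y := by nlinarith
  have hex : ∃ n : ℕ, Y < gg (n + 2) * M ^ 2 := by
    obtain ⟨n, hn⟩ := pow_unbounded_of_one_lt (4 * Y) (show (1 : ℝ) < 1.38 by norm_num)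
    refine ⟨n, ?_⟩
    have h1 := gg_lower (n + 2)
    have h2 : (1.38 : ℝ) ^ n ≤ 1.38 ^ (n + 2) := pow_le_pow_right₀ (by norm_num) (by omega)
    have h3 : Y < gg (n + 2) := by linarith
    have h4 := gg_pos (n + 2)
    have h5 : 1 ≤ M ^ 2 := by nlinarith
    have h6 : gg (n + 2) * 1 ≤ gg (n + 2) * M ^ 2 := mul_le_mul_of_nonneg_left h5 h4.le
    linarith
  refine ⟨Nat.find hex, ?_, Nat.find_spec hex⟩
  rcases Nat.eq_zero_or_pos (Nat.find hex) with h0 | h0
  · rw [h0, Nat.zero_add, gg_one]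
    have := aa_one_le
    nlinarith
  · have := Nat.find_min hex (m := Nat.find hex - 1) (by omega)
    have e : Nat.find hex - 1 + 2 = Nat.find hex + 1 := by omega
    rw [e] at this
    exact not_lt.mp this

theorem gg_iter {n : ℕ} (hn : 1 ≤ n) (m : ℕ) : 1.386 ^ m * gg n ≤ gg (n + m) := by
  induction m with
  | zero => simp
  | succ m ih =>
    have := gg_growth (n := n + m) (by omega)
    rw [pow_succ]
    have e : n + (m + 1) = n + m + 1 := by omega
    rw [e]
    nlinarith

/-- The product over the bad fibre is small compared with the lower bound. -/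
theorem prod_bound {R Y L : ℝ} (hR : 1000 ≤ R) (hL : Real.log (R ^ 40) = L) (hL3 : 3 ≤ L)
    (hY : R ^ 80 ≤ Y) (J0 J : ℕ) (S : ℕ → ℕ)
    (h1 : gg (J0 + 1) * (R ^ 40) ^ 2 ≤ Y) (h2 : Y < gg (J0 + 2) * (R ^ 40) ^ 2)
    (hU : 400 * ((J0 : ℝ) + 1) ≤ R)
    (hS : ∀ i, i < J0 → S i = ⌊Y / (64 * ((J0 : ℝ) + 1) * gg (J0 - i))⌋₊)
    (hJ : gg J * R ^ 40 ≤ 2 * Y) :
    (∀ i, i < J0 → R ^ 40 ≤ (S i : ℝ)) ∧
    ∏ i ∈ range J, (3 * (Y / R ^ 2) / gg (i + 1)) ≤
      Real.exp (10 * L ^ 2) * ((1 / R) ^ J0 * ∏ i ∈ range J0, (S i : ℝ)) := by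
  have hR0 : 0 < R := by linarith
  have hR1 : 1 ≤ R := by linarith
  have hRk : ∀ k : ℕ, 0 < R ^ k := fun k => by positivity
  have hY0 : 0 < Y := lt_of_lt_of_le (hRk 80) hY
  have hJ0 : (0 : ℝ) ≤ J0 := Nat.cast_nonneg _
  have hM : R ≤ R ^ 40 := by
    calc R = R ^ 1 := (pow_one R).symm
      _ ≤ R ^ 40 := pow_le_pow_right₀ hR1 (by norm_num)
  -- lower bounds for S
  have hx : ∀ k, k ≤ J0 → R ^ 40 ≤ Y / (64 * ((J0 : ℝ) + 1) * gg k) := by
    intro k hk
    have hg := gg_pos k
    rw [le_div_iff₀ (by positivity)]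
    have a1 : gg k ≤ 3 * gg (J0 + 1) := gg_le_three (by omega)
    have a2 : 64 * ((J0 : ℝ) + 1) * gg k ≤ R ^ 40 * gg (J0 + 1) := by
      have a3 := gg_pos (J0 + 1)
      have a4 : 64 * ((J0 : ℝ) + 1) * gg k ≤ 64 * ((J0 : ℝ) + 1) * (3 * gg (J0 + 1)) :=
        mul_le_mul_of_nonneg_left a1 (by positivity)
      have a5 : 64 * ((J0 : ℝ) + 1) * (3 * gg (J0 + 1)) =
        (192 * ((J0 : ℝ) + 1)) * gg (J0 + 1) := by ring
      rw [a5] at a4
      refine a4.trans ?_
      apply mul_le_mul_of_nonneg_right _ a3.le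
      linarith
    calc R ^ 40 * (64 * ((J0 : ℝ) + 1) * gg k) ≤ R ^ 40 * (R ^ 40 * gg (J0 + 1)) :=
          mul_le_mul_of_nonneg_left a2 (hRk 40).le
      _ = gg (J0 + 1) * (R ^ 40) ^ 2 := by ring
      _ ≤ Y := h1
  have hM1 : (2 : ℝ) ≤ R ^ 40 := by linarith
  have hS1 : ∀ i, i < J0 → Y / (64 * ((J0 : ℝ) + 1) * gg (J0 - i)) / 2 ≤ (S i : ℝ) ∧
      R ^ 40 / 2 ≤ (S i : ℝ) := by
    intro i hi
    have a1 := hx (J0 - i) (by omega)
    have a2 := Nat.lt_floor_add_one (Y / (64 * ((J0 : ℝ) + 1) * gg (J0 - i)))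
    rw [← hS i hi] at a2
    constructor <;> linarith
  -- factors below J0
  have hb : ∀ i, i < J0 → 3 * (Y / R ^ 2) / gg (i + 1) ≤ (1 / R) * (S (J0 - 1 - i) : ℝ) ∧
      1 ≤ (1 / R) * (S (J0 - 1 - i) : ℝ) := by
    intro i hi
    have a1 := hS1 (J0 - 1 - i) (by omega)
    have e : J0 - (J0 - 1 - i) = i + 1 := by omega
    rw [e] at a1
    have hg := gg_pos (i + 1)
    constructor
    · calc 3 * (Y / R ^ 2) / gg (i + 1) ≤
          (1 / R) * (Y / (64 * ((J0 : ℝ) + 1) * gg (i + 1)) / 2) := by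
            have e1 : 3 * (Y / R ^ 2) / gg (i + 1) = 3 * Y / (R ^ 2 * gg (i + 1)) := by
              field_simp
            have e2 : (1 / R) * (Y / (64 * ((J0 : ℝ) + 1) * gg (i + 1)) / 2) =
              Y / (R * (128 * ((J0 : ℝ) + 1)) * gg (i + 1)) := by
              field_simp
              norm_num
            rw [e1, e2, div_le_div_iff₀ (by positivity) (by positivity)]
            have a3 : 3 * (R * (128 * ((J0 : ℝ) + 1))) ≤ R ^ 2 := by nlinarith
            have a4 : 0 ≤ Y * gg (i + 1) := by positivity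
            nlinarith
        _ ≤ _ := by
            apply mul_le_mul_of_nonneg_left a1.1
            positivity
    · rw [one_div, inv_mul_eq_div, le_div_iff₀ hR0, one_mul]
      have : R * 2 ≤ R ^ 40 := by
        calc R * 2 ≤ R * R := by nlinarith
          _ = R ^ 2 := by ring
          _ ≤ R ^ 40 := pow_le_pow_right₀ hR1 (by norm_num)
      linarith
  have hprodb : ∏ i ∈ range J0, ((1 / R) * (S (J0 - 1 - i) : ℝ)) =
      (1 / R) ^ J0 * ∏ i ∈ range J0, (S i : ℝ) := by
    rw [Finset.prod_range_reflect (fun i => (1 / R) * (S i : ℝ)) J0, Finset.prod_mul_distrib,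
      Finset.prod_const, Finset.card_range]
  refine ⟨?_, ?_⟩
  · intro i hi
    have a1 := hx (J0 - i) (by omega)
    have a2 : (⌊(R ^ 40 : ℝ)⌋₊ : ℝ) ≤ (S i : ℝ) := by
      rw [hS i hi]
      exact_mod_cast Nat.floor_le_floor a1
    have := hS1 i hi
    -- avoid floors: use strict bound
    have a3 := Nat.lt_floor_add_one (Y / (64 * ((J0 : ℝ) + 1) * gg (J0 - i)))
    rw [← hS i hi] at a3
    -- need R^40 ≤ S i; use a stronger bound on x
    have a4 : 2 * R ^ 40 ≤ Y / (64 * ((J0 : ℝ) + 1) * gg (J0 - i)) := by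
      have hg := gg_pos (J0 - i)
      rw [le_div_iff₀ (by positivity)]
      have b1 : gg (J0 - i) ≤ 3 * gg (J0 + 1) := gg_le_three (by omega)
      have b2 : 128 * ((J0 : ℝ) + 1) * gg (J0 - i) ≤ R ^ 40 * gg (J0 + 1) := by
        have b3 := gg_pos (J0 + 1)
        have b4 : 128 * ((J0 : ℝ) + 1) * gg (J0 - i) ≤ 128 * ((J0 : ℝ) + 1) * (3 * gg (J0 + 1)) :=
          mul_le_mul_of_nonneg_left b1 (by positivity)
        have b5 : 128 * ((J0 : ℝ) + 1) * (3 * gg (J0 + 1)) =
          (384 * ((J0 : ℝ) + 1)) * gg (J0 + 1) := by ring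
        rw [b5] at b4
        refine b4.trans ?_
        apply mul_le_mul_of_nonneg_right _ b3.le
        linarith
      calc 2 * R ^ 40 * (64 * ((J0 : ℝ) + 1) * gg (J0 - i)) =
            R ^ 40 * (128 * ((J0 : ℝ) + 1) * gg (J0 - i)) := by ring
        _ ≤ R ^ 40 * (R ^ 40 * gg (J0 + 1)) :=
            mul_le_mul_of_nonneg_left b2 (hRk 40).le
        _ = gg (J0 + 1) * (R ^ 40) ^ 2 := by ring
        _ ≤ Y := h1
    linarith
  · have hf0 : ∀ i, 0 ≤ 3 * (Y / R ^ 2) / gg (i + 1) := by
      intro i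
      have := gg_pos (i + 1)
      positivity
    have hexp1 : 1 ≤ Real.exp (10 * L ^ 2) := Real.one_le_exp (by positivity)
    have hprod0 : 0 ≤ (1 / R) ^ J0 * ∏ i ∈ range J0, (S i : ℝ) := by positivity
    rcases Nat.lt_or_ge J0 J with hlt | hge
    · obtain ⟨E, rfl⟩ : ∃ E, J = J0 + E := ⟨J - J0, by omega⟩
      rw [Finset.prod_range_add]
      have p1 : ∏ i ∈ range J0, (3 * (Y / R ^ 2) / gg (i + 1)) ≤
          (1 / R) ^ J0 * ∏ i ∈ range J0, (S i : ℝ) := by
        rw [← hprodb]
        apply Finset.prod_le_prod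
        · intro i _
          exact hf0 i
        · intro i hi
          rw [Finset.mem_range] at hi
          exact (hb i hi).1
      have hcrit : Y / R ^ 80 ≤ 5 * gg (J0 + 1) := by
        rw [div_le_iff₀ (hRk 80)]
        have a1 := gg_succ_le (J0 + 1)
        have a2 : (R ^ 40) ^ 2 = R ^ 80 := by ring
        rw [a2] at h2
        have a3 := hRk 80
        nlinarith
      have p2 : ∏ i ∈ range E, (3 * (Y / R ^ 2) / gg (J0 + i + 1)) ≤
          ∏ _i ∈ range E, (R ^ 80) := by
        apply Finset.prod_le_prod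
        · intro i _
          exact hf0 (J0 + i)
        · intro i _
          have hg := gg_pos (J0 + i + 1)
          rw [div_le_iff₀ hg]
          have a1 : gg (J0 + 1) ≤ gg (J0 + i + 1) := gg_mono (by omega) (by omega)
          have a2 : Y ≤ 5 * gg (J0 + i + 1) * R ^ 80 := by
            rw [div_le_iff₀ (hRk 80)] at hcrit
            have := hRk 80
            nlinarith
          have a3 : 3 * (Y / R ^ 2) ≤ Y / 5 := by
            rw [← mul_div_assoc, div_le_div_iff₀ (hRk 2) (by norm_num)]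
            have : (15 : ℝ) ≤ R ^ 2 := by nlinarith
            nlinarith
          linarith
      rw [Finset.prod_const, Finset.card_range] at p2
      -- number of extra factors
      have hE : (E : ℝ) ≤ 5 * L := by
        rcases Nat.lt_or_ge E 2 with hE2 | hE2
        · have : (E : ℝ) ≤ 2 := by exact_mod_cast hE2.le
          linarith
        · obtain ⟨F, rfl⟩ : ∃ F, E = F + 2 := ⟨E - 2, by omega⟩
          have a1 := gg_iter (n := J0 + 2) (by omega) F
          have e : J0 + 2 + F = J0 + (F + 2) := by omega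
          rw [e] at a1
          have a2 : (1.386 : ℝ) ^ F ≤ 2 * R ^ 40 := by
            have a3 := gg_pos (J0 + 2)
            have b1 : (1.386 : ℝ) ^ F * (Y * R ^ 40) ≤ (2 * R ^ 40) * (Y * R ^ 40) := by
              have b2 : (1.386 : ℝ) ^ F * (Y * R ^ 40) ≤
                  (1.386 : ℝ) ^ F * ((gg (J0 + 2) * (R ^ 40) ^ 2) * R ^ 40) := by
                apply mul_le_mul_of_nonneg_left _ (by positivity)
                exact mul_le_mul_of_nonneg_right h2.le (hRk 40).le
              have b3 : (1.386 : ℝ) ^ F * ((gg (J0 + 2) * (R ^ 40) ^ 2) * R ^ 40) =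
                  ((1.386 : ℝ) ^ F * gg (J0 + 2)) * (R ^ 40) * (R ^ 40) ^ 2 := by ring
              have b4 : ((1.386 : ℝ) ^ F * gg (J0 + 2)) * (R ^ 40) * (R ^ 40) ^ 2 ≤
                  gg (J0 + (F + 2)) * (R ^ 40) * (R ^ 40) ^ 2 := by
                apply mul_le_mul_of_nonneg_right _ (by positivity)
                exact mul_le_mul_of_nonneg_right a1 (hRk 40).le
              have b5 : gg (J0 + (F + 2)) * (R ^ 40) * (R ^ 40) ^ 2 ≤
                  (2 * Y) * (R ^ 40) ^ 2 := mul_le_mul_of_nonneg_right hJ (by positivity)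
              have b6 : (2 * Y) * (R ^ 40) ^ 2 = (2 * R ^ 40) * (Y * R ^ 40) := by ring
              linarith
            exact le_of_mul_le_mul_right b1 (by positivity)
          have a4 : Real.log ((1.386 : ℝ) ^ F) ≤ Real.log (2 * R ^ 40) :=
            Real.log_le_log (by positivity) a2
          rw [Real.log_pow, Real.log_mul (by norm_num) (hRk 40).ne', hL] at a4
          have a5 := log_1386
          have a6 := Real.log_two_lt_d9
          have a7 : (0 : ℝ) ≤ F := Nat.cast_nonneg _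
          push_cast
          nlinarith
      have p3 : (R ^ 80) ^ E ≤ Real.exp (10 * L ^ 2) := by
        have a1 : R ^ 80 = Real.exp (2 * L) := by
          have : R ^ 80 = (R ^ 40) ^ 2 := by ring
          rw [this, ← hL, ← Real.log_rpow (hRk 40)]
          rw [Real.exp_log (by positivity)]
          norm_num
        rw [a1, ← Real.exp_nat_mul]
        apply Real.exp_le_exp.mpr
        nlinarith
      calc (∏ i ∈ range J0, (3 * (Y / R ^ 2) / gg (i + 1))) *
            ∏ i ∈ range E, (3 * (Y / R ^ 2) / gg (J0 + i + 1))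
          ≤ ((1 / R) ^ J0 * ∏ i ∈ range J0, (S i : ℝ)) * (R ^ 80) ^ E := by
            apply mul_le_mul p1 p2 _ hprod0
            apply Finset.prod_nonneg
            intro i _
            exact hf0 (J0 + i)
        _ ≤ ((1 / R) ^ J0 * ∏ i ∈ range J0, (S i : ℝ)) * Real.exp (10 * L ^ 2) :=
            mul_le_mul_of_nonneg_left p3 hprod0
        _ = _ := by ring
    · have p1 : ∏ i ∈ range J, (3 * (Y / R ^ 2) / gg (i + 1)) ≤
          ∏ i ∈ range J0, ((1 / R) * (S (J0 - 1 - i) : ℝ)) := by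
        obtain ⟨E, rfl⟩ : ∃ E, J0 = J + E := ⟨J0 - J, by omega⟩
        rw [Finset.prod_range_add (fun i => (1 / R) * (S (J + E - 1 - i) : ℝ)) J E]
        have q1 : ∏ i ∈ range J, (3 * (Y / R ^ 2) / gg (i + 1)) ≤
            ∏ i ∈ range J, ((1 / R) * (S (J + E - 1 - i) : ℝ)) := by
          apply Finset.prod_le_prod
          · intro i _
            exact hf0 i
          · intro i hi
            rw [Finset.mem_range] at hi
            exact (hb i (by omega)).1
        have q2 : 1 ≤ ∏ i ∈ range E, ((1 / R) * (S (J + E - 1 - (J + i)) : ℝ)) := by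
          have q4 : ∏ _i ∈ range E, (1 : ℝ) ≤
              ∏ i ∈ range E, ((1 / R) * (S (J + E - 1 - (J + i)) : ℝ)) := by
            apply Finset.prod_le_prod
            · intro i _
              exact zero_le_one
            · intro i hi
              rw [Finset.mem_range] at hi
              exact (hb (J + i) (by omega)).2
          rw [Finset.prod_const_one] at q4
          exact q4
        have q3 : 0 ≤ ∏ i ∈ range J, ((1 / R) * (S (J + E - 1 - i) : ℝ)) := by positivity
        nlinarith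
      rw [hprodb] at p1
      nlinarith

end P031.Gm
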