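import Vale.Agent.P031.GeomDefs

/-! P031 [GEOM]: the numbers `a_n`, the renewal sequence `g_n`, the minimal solution. -/

namespace P031.Gm

open Finset

theorem aa_one_ge : (0.386 : ℝ) ≤ aa 1 := by
  have h := Real.log_two_gt_d9
  have : aa 1 = 2 * Real.log 2 - 1 := by
    unfold aa
    norm_num
  rw [this]
  linarith

theorem aa_one_le : aa 1 ≤ (0.387 : ℝ) := by
  have h := Real.log_two_lt_d9
  have : aa 1 = 2 * Real.log 2 - 1 := by
    unfold aa
    norm_num
  rw [this]
  linarith

theorem aa_two_ge : (0.9 : ℝ) ≤ aa 2 := by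
  have h1 := Real.log_two_gt_d9
  have h2 := Real.log_two_lt_d9
  have h3 : (19 : ℝ) * Real.log 2 ≤ 12 * Real.log 3 := by
    have e1 : (19 : ℝ) * Real.log 2 = Real.log ((2 : ℝ) ^ 19) := by
      rw [Real.log_pow]
      norm_num
    have e2 : (12 : ℝ) * Real.log 3 = Real.log ((3 : ℝ) ^ 12) := by
      rw [Real.log_pow]
      norm_num
    rw [e1, e2]
    apply Real.log_le_log (by norm_num) (by norm_num)
  have : aa 2 = 3 * Real.log 3 - 2 * Real.log 2 - 1 := by
    unfold aa
    norm_num
  rw [this]
  nlinarith

theorem aa_mono_succ (n : ℕ) : aa n ≤ aa (n + 1) := by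
  have hc := Real.convexOn_mul_log
  have hx : (n : ℝ) ∈ Set.Ici (0 : ℝ) := by simp
  have hy : (n : ℝ) + 2 ∈ Set.Ici (0 : ℝ) := by
    rw [Set.mem_Ici]
    positivity
  have ha : (0 : ℝ) ≤ 1 / 2 := by norm_num
  have hab : (1 : ℝ) / 2 + 1 / 2 = 1 := by norm_num
  have h := hc.2 hx hy ha ha hab
  simp only [smul_eq_mul] at h
  have e : (1 / 2 * (n : ℝ) + 1 / 2 * ((n : ℝ) + 2)) = (n : ℝ) + 1 := by ring
  rw [e] at h
  unfold aa
  push_cast
  have e2 : (n : ℝ) + 1 + 1 = (n : ℝ) + 2 := by ring
  rw [e2]
  linarith

theorem aa_mono {m n : ℕ} (h : m ≤ n) : aa m ≤ aa n :=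
  monotone_nat_of_le_succ aa_mono_succ h

theorem aa_pos {n : ℕ} (h : 1 ≤ n) : 0 < aa n := by
  have := aa_mono h
  have := aa_one_ge
  linarith

theorem aa_nonneg {n : ℕ} (h : 1 ≤ n) : 0 ≤ aa n := (aa_pos h).le

theorem aa_le {n : ℕ} (h : 1 ≤ n) : aa n ≤ n := by
  have hn : (0 : ℝ) < n := by exact_mod_cast h
  have h1 : Real.log ((n : ℝ) + 1) - Real.log n ≤ 1 / n := by
    rw [← Real.log_div (by positivity) (by positivity)]
    have := Real.log_le_sub_one_of_pos (x := ((n : ℝ) + 1) / n) (by positivity)
    have e : ((n : ℝ) + 1) / n - 1 = 1 / n := by field_simp; ring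
    linarith
  have h2 : (n : ℝ) * (Real.log ((n : ℝ) + 1) - Real.log n) ≤ 1 := by
    calc (n : ℝ) * (Real.log ((n : ℝ) + 1) - Real.log n) ≤ n * (1 / n) := by
          apply mul_le_mul_of_nonneg_left h1 hn.le
      _ = 1 := by field_simp
  have h3 : Real.log ((n : ℝ) + 1) ≤ n := by
    have := Real.log_le_sub_one_of_pos (x := (n : ℝ) + 1) (by positivity)
    linarith
  unfold aa
  nlinarith

/-- the renewal sequence -/
noncomputable def gg : ℕ → ℝ
  | 0 => 1
  | n + 1 => ∑ i : Fin (n + 1), aa (n + 1 - i.1) * gg i.1
termination_by n => n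
decreasing_by exact i.2

theorem gg_zero : gg 0 = 1 := by rw [gg]

theorem gg_succ (n : ℕ) : gg (n + 1) = ∑ i ∈ range (n + 1), aa (n + 1 - i) * gg i := by
  rw [gg, Finset.sum_range]

theorem gg_one : gg 1 = aa 1 := by
  rw [gg_succ]
  simp [gg_zero]

theorem gg_pos (n : ℕ) : 0 < gg n := by
  induction n using Nat.strong_induction_on with
  | _ n ih =>
    rcases n with _ | n
    · rw [gg_zero]; norm_num
    · rw [gg_succ]
      apply Finset.sum_pos
      · intro i hi
        rw [Finset.mem_range] at hi
        exact mul_pos (aa_pos (by omega)) (ih i hi)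
      · exact ⟨0, by simp⟩

theorem gg_growth {n : ℕ} (hn : 1 ≤ n) : 1.386 * gg n ≤ gg (n + 1) := by
  obtain ⟨m, rfl⟩ : ∃ m, n = m + 1 := ⟨n - 1, by omega⟩
  rw [gg_succ (m + 1), Finset.sum_range_succ]
  have h1 : m + 1 + 1 - (m + 1) = 1 := by omega
  rw [h1]
  have h2 : gg (m + 1) ≤ ∑ i ∈ range (m + 1), aa (m + 1 + 1 - i) * gg i := by
    rw [gg_succ m]
    apply Finset.sum_le_sum
    intro i hi
    rw [Finset.mem_range] at hi
    apply mul_le_mul_of_nonneg_right _ (gg_pos i).le
    apply aa_mono
    omega
  have h3 := aa_one_ge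
  have h4 := gg_pos (m + 1)
  nlinarith

theorem gg_lower (n : ℕ) : (1.38 : ℝ) ^ n ≤ 4 * gg n := by
  rcases n with _ | n
  · rw [gg_zero]; norm_num
  · induction n with
    | zero =>
      have := aa_one_ge
      rw [gg_one]
      norm_num
      linarith
    | succ n ih =>
      have h := gg_growth (n := n + 1) (by omega)
      have := gg_pos (n + 1)
      rw [pow_succ]
      nlinarith

theorem sum_three (n : ℕ) :
    4 * ∑ i ∈ range n, ((n - i : ℕ) : ℝ) * 3 ^ i = 3 ^ (n + 1) - 2 * n - 3 := by
  induction n with
  | zero => norm_num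
  | succ n ih =>
    rw [Finset.sum_range_succ]
    have h1 : ∑ i ∈ range n, ((n + 1 - i : ℕ) : ℝ) * 3 ^ i =
        ∑ i ∈ range n, ((n - i : ℕ) : ℝ) * 3 ^ i + ∑ i ∈ range n, (3 : ℝ) ^ i := by
      rw [← Finset.sum_add_distrib]
      apply Finset.sum_congr rfl
      intro i hi
      rw [Finset.mem_range] at hi
      have : n + 1 - i = (n - i) + 1 := by omega
      rw [this]
      push_cast
      ring
    have h2 : (∑ i ∈ range n, (3 : ℝ) ^ i) = (3 ^ n - 1) / 2 := by
      rw [geom_sum_eq (by norm_num)]
      norm_num
    rw [h1, h2]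
    have h3 : n + 1 - n = 1 := by omega
    rw [h3]
    push_cast
    have := ih
    ring_nf at this ⊢
    linarith

theorem gg_upper (n : ℕ) : gg n ≤ (3 : ℝ) ^ n := by
  induction n using Nat.strong_induction_on with
  | _ n ih =>
    rcases n with _ | n
    · rw [gg_zero]; norm_num
    · rw [gg_succ]
      calc ∑ i ∈ range (n + 1), aa (n + 1 - i) * gg i
          ≤ ∑ i ∈ range (n + 1), ((n + 1 - i : ℕ) : ℝ) * 3 ^ i := by
            apply Finset.sum_le_sum
            intro i hi
            rw [Finset.mem_range] at hi
            apply mul_le_mul (aa_le (by omega)) (ih i hi) (gg_pos i).le (by positivity)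
        _ ≤ 3 ^ (n + 1) := by
            have := sum_three (n + 1)
            have h3 : (0 : ℝ) < 3 ^ (n + 1) := by positivity
            have h4 : (3 : ℝ) ^ (n + 1 + 1) = 3 * 3 ^ (n + 1) := by ring
            rw [h4] at this
            push_cast at this
            have : (0 : ℝ) ≤ n := by positivity
            nlinarith

/-- superharmonic sequences grow like `gg` -/
theorem super_le (f : ℕ → ℝ) (j N : ℕ) (hf : ∀ i, i ≤ N → 0 ≤ f i)
    (h : ∀ n, j < n → n ≤ N → ∑ i ∈ range n, aa (n - i) * f i ≤ f n) :
    ∀ m, j + m ≤ N → gg m * f j ≤ f (j + m) := by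
  intro m
  induction m using Nat.strong_induction_on with
  | _ m ih =>
    intro hm
    rcases m with _ | m
    · rw [gg_zero]; simp
    · have h1 := h (j + (m + 1)) (by omega) hm
      refine le_trans ?_ h1
      rw [Finset.sum_range_add]
      have h2 : 0 ≤ ∑ x ∈ range j, aa (j + (m + 1) - x) * f x := by
        apply Finset.sum_nonneg
        intro i hi
        rw [Finset.mem_range] at hi
        exact mul_nonneg (aa_nonneg (by omega)) (hf i (by omega))
      have h3 : gg (m + 1) * f j ≤ ∑ x ∈ range (m + 1), aa (j + (m + 1) - (j + x)) * f (j + x) := by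
        rw [gg_succ, Finset.sum_mul]
        apply Finset.sum_le_sum
        intro i hi
        rw [Finset.mem_range] at hi
        have e : j + (m + 1) - (j + i) = m + 1 - i := by omega
        rw [e, mul_assoc]
        apply mul_le_mul_of_nonneg_left _ (aa_nonneg (by omega))
        exact ih i hi (by omega)
      linarith

theorem gg_super (a b : ℕ) : gg a * gg b ≤ gg (a + b) := by
  have h := super_le gg a (a + b) (fun i _ => (gg_pos i).le) (by
    intro n h1 _
    obtain ⟨m, rfl⟩ : ∃ m, n = m + 1 := ⟨n - 1, by omega⟩
    rw [gg_succ]) b le_rfl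
  linarith

theorem gg_mono_succ {n : ℕ} (hn : 1 ≤ n) : gg n ≤ gg (n + 1) := by
  have := gg_growth hn
  have := gg_pos n
  linarith

theorem gg_mono {m n : ℕ} (hm : 1 ≤ m) (h : m ≤ n) : gg m ≤ gg n := by
  induction n, h using Nat.le_induction with
  | base => exact le_rfl
  | succ n hmn ih => exact ih.trans (gg_mono_succ (by omega))

/-- `g_m ≤ 3 g_n` for `m ≤ n`. -/
theorem gg_le_three {m n : ℕ} (h : m ≤ n) : gg m ≤ 3 * gg n := by
  rcases Nat.eq_zero_or_pos m with hm | hm
  · subst hm
    rw [gg_zero]
    rcases Nat.eq_zero_or_pos n with hn | hn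
    · subst hn
      rw [gg_zero]; norm_num
    · have h1 := gg_mono (m := 1) (n := n) le_rfl hn
      rw [gg_one] at h1
      have := aa_one_ge
      linarith
  · have := gg_mono hm h
    have := gg_pos n
    linarith

theorem al_nonneg (t : List ℕ) : ∀ k, 1 ≤ k → 0 ≤ al k t := by
  induction t with
  | nil => intro k _; simp [al]
  | cons c l ih =>
    intro k hk
    rw [al]
    have := ih (k + 1) (by omega)
    have := mul_nonneg (aa_nonneg hk) (Nat.cast_nonneg (α := ℝ) c)
    linarith

theorem al_mono_succ (t : List ℕ) : ∀ k, al k t ≤ al (k + 1) t := by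
  induction t with
  | nil => intro k; simp [al]
  | cons c l ih =>
    intro k
    rw [al, al]
    have h1 := ih (k + 1)
    have h2 := mul_le_mul_of_nonneg_right (aa_mono_succ k) (Nat.cast_nonneg (α := ℝ) c)
    linarith

theorem al_mono (t : List ℕ) {k m : ℕ} (h : k ≤ m) : al k t ≤ al m t :=
  monotone_nat_of_le_succ (al_mono_succ t) h

theorem al_head (t : List ℕ) {k : ℕ} (hk : 1 ≤ k) : aa k * (t.headI : ℝ) ≤ al k t := by
  rcases t with _ | ⟨c, l⟩
  · simp [al]
  · rw [al]
    have := al_nonneg l (k + 1) (by omega)
    simp only [List.headI_cons]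
    linarith

/-- the functional at position `n` (positions counted from the tail) -/
noncomputable def cv (t : List ℕ) (z : ℕ → ℝ) (n : ℕ) : ℝ :=
  ∑ i ∈ range n, aa (n - i) * z i + al (n + 1) t

theorem al_append (l t : List ℕ) : ∀ k, al k (l ++ t) =
    ∑ i ∈ range l.length, aa (k + (l.length - 1 - i)) * (l.reverse.getD i 0 : ℕ) +
      al (k + l.length) t := by
  induction l with
  | nil => intro k; simp
  | cons c l ih =>
    intro k
    rw [List.cons_append, al, ih (k + 1), List.length_cons, Finset.sum_range_succ]
    have h1 : ((c :: l).reverse.getD l.length 0 : ℕ) = c := by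
      rw [List.reverse_cons]
      simp [List.getD_eq_getElem?_getD]
    have h2 : ∀ i ∈ range l.length, aa (k + (l.length + 1 - 1 - i)) *
        (((c :: l).reverse.getD i 0 : ℕ) : ℝ) =
        aa (k + 1 + (l.length - 1 - i)) * ((l.reverse.getD i 0 : ℕ) : ℝ) := by
      intro i hi
      rw [Finset.mem_range] at hi
      have e1 : k + (l.length + 1 - 1 - i) = k + 1 + (l.length - 1 - i) := by omega
      have e2 : (c :: l).reverse.getD i 0 = l.reverse.getD i 0 := by
        rw [List.reverse_cons]
        simp only [List.getD_eq_getElem?_getD]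
        rw [List.getElem?_append_left (by simpa using hi)]
      rw [e1, e2]
    rw [Finset.sum_congr rfl h2, h1]
    have e3 : k + (l.length + 1 - 1 - l.length) = k := by omega
    have e4 : k + (l.length + 1) = k + 1 + l.length := by omega
    rw [e3, e4]
    ring

/-- coordinates counted from the tail -/
def co (h : List ℕ) (i : ℕ) : ℕ := h.reverse.getD i 0

theorem al_one_append (l t : List ℕ) :
    al 1 (l ++ t) = cv t (fun i => (co l i : ℝ)) l.length := by
  rw [al_append, cv]
  congr 1
  · apply Finset.sum_congr rfl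
    intro i hi
    rw [Finset.mem_range] at hi
    have : 1 + (l.length - 1 - i) = l.length - i := by omega
    rw [this]
    rfl
  · congr 1
    omega

theorem cv_congr (t : List ℕ) {z w : ℕ → ℝ} {n : ℕ} (h : ∀ i, i < n → z i = w i) :
    cv t z n = cv t w n := by
  unfold cv
  congr 1
  apply Finset.sum_congr rfl
  intro i hi
  rw [Finset.mem_range] at hi
  rw [h i hi]

theorem co_cons_lt (c : ℕ) (l : List ℕ) {i : ℕ} (hi : i < l.length) : co (c :: l) i = co l i := by
  unfold co
  rw [List.reverse_cons]
  simp only [List.getD_eq_getElem?_getD]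
  rw [List.getElem?_append_left (by simpa using hi)]

theorem co_cons_len (c : ℕ) (l : List ℕ) : co (c :: l) l.length = c := by
  unfold co
  rw [List.reverse_cons]
  simp [List.getD_eq_getElem?_getD]

/-- previous coordinate (with the head of the tail below the first coordinate) -/
def pv (t : List ℕ) (z : ℕ → ℝ) : ℕ → ℝ
  | 0 => t.headI
  | n + 1 => z n

theorem headI_append (h t : List ℕ) :
    ((h ++ t).headI : ℝ) = pv t (fun i => (co h i : ℝ)) h.length := by
  rcases h with _ | ⟨c, l⟩
  · simp [pv]
  · simp only [List.cons_append, List.headI_cons, List.length_cons, pv]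
    rw [co_cons_len]

theorem pv_congr (t : List ℕ) {z w : ℕ → ℝ} {n : ℕ} (h : ∀ i, i < n → z i = w i) :
    pv t z n = pv t w n := by
  rcases n with _ | n
  · rfl
  · exact h n (by omega)

theorem okP_iff (θ : ℝ) (t h : List ℕ) : okP θ t h ↔ ∀ n, n < h.length →
    cv t (fun i => (co h i : ℝ)) n ≤ (1 + θ) * (co h n : ℝ) ∧
    pv t (fun i => (co h i : ℝ)) n ≤ (co h n : ℝ) := by
  induction h with
  | nil => simp [okP]
  | cons c l ih =>
    rw [okP, ih, al_one_append]
    have hh := headI_append l t
    constructor
    · rintro ⟨h1, h2, h3⟩ n hn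
      rw [List.length_cons] at hn
      have hcv : cv t (fun i => (co (c :: l) i : ℝ)) n = cv t (fun i => (co l i : ℝ)) n := by
        apply cv_congr
        intro i hi
        rw [co_cons_lt c l (by omega)]
      have hpv : pv t (fun i => (co (c :: l) i : ℝ)) n = pv t (fun i => (co l i : ℝ)) n := by
        apply pv_congr
        intro i hi
        rw [co_cons_lt c l (by omega)]
      rw [hcv, hpv]
      rcases Nat.lt_or_ge n l.length with hl | hl
      · rw [co_cons_lt c l hl]
        exact h3 n hl
      · have : n = l.length := by omega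
        subst this
        rw [co_cons_len]
        refine ⟨h1, ?_⟩
        rw [← hh]
        exact_mod_cast h2
    · intro h
      have h0 := h l.length (by simp)
      rw [co_cons_len] at h0
      have hcv : cv t (fun i => (co (c :: l) i : ℝ)) l.length =
          cv t (fun i => (co l i : ℝ)) l.length := by
        apply cv_congr
        intro i hi
        rw [co_cons_lt c l (by omega)]
      have hpv : pv t (fun i => (co (c :: l) i : ℝ)) l.length =
          pv t (fun i => (co l i : ℝ)) l.length := by
        apply pv_congr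
        intro i hi
        rw [co_cons_lt c l (by omega)]
      rw [hcv, hpv] at h0
      refine ⟨h0.1, ?_, ?_⟩
      · have := h0.2
        rw [← hh] at this
        exact_mod_cast this
      · intro n hn
        have h1 := h n (by simp; omega)
        have hcv : cv t (fun i => (co (c :: l) i : ℝ)) n = cv t (fun i => (co l i : ℝ)) n := by
          apply cv_congr
          intro i hi
          rw [co_cons_lt c l (by omega)]
        have hpv : pv t (fun i => (co (c :: l) i : ℝ)) n = pv t (fun i => (co l i : ℝ)) n := by
          apply pv_congr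
          intro i hi
          rw [co_cons_lt c l (by omega)]
        rw [hcv, hpv, co_cons_lt c l hn] at h1
        exact h1

theorem okM_iff (θ : ℝ) (t h : List ℕ) : okM θ t h ↔ ∀ n, n < h.length →
    cv t (fun i => (co h i : ℝ)) n ≤ (1 - θ) * (co h n : ℝ) ∧
    pv t (fun i => (co h i : ℝ)) n + 2 ≤ (co h n : ℝ) := by
  induction h with
  | nil => simp [okM]
  | cons c l ih =>
    rw [okM, ih, al_one_append]
    have hh := headI_append l t
    constructor
    · rintro ⟨h1, h2, h3⟩ n hn
      rw [List.length_cons] at hn
      have hcv : cv t (fun i => (co (c :: l) i : ℝ)) n = cv t (fun i => (co l i : ℝ)) n := by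
        apply cv_congr
        intro i hi
        rw [co_cons_lt c l (by omega)]
      have hpv : pv t (fun i => (co (c :: l) i : ℝ)) n = pv t (fun i => (co l i : ℝ)) n := by
        apply pv_congr
        intro i hi
        rw [co_cons_lt c l (by omega)]
      rw [hcv, hpv]
      rcases Nat.lt_or_ge n l.length with hl | hl
      · rw [co_cons_lt c l hl]
        exact h3 n hl
      · have : n = l.length := by omega
        subst this
        rw [co_cons_len]
        refine ⟨h1, ?_⟩
        rw [← hh]
        exact_mod_cast h2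
    · intro h
      have h0 := h l.length (by simp)
      rw [co_cons_len] at h0
      have hcv : cv t (fun i => (co (c :: l) i : ℝ)) l.length =
          cv t (fun i => (co l i : ℝ)) l.length := by
        apply cv_congr
        intro i hi
        rw [co_cons_lt c l (by omega)]
      have hpv : pv t (fun i => (co (c :: l) i : ℝ)) l.length =
          pv t (fun i => (co l i : ℝ)) l.length := by
        apply pv_congr
        intro i hi
        rw [co_cons_lt c l (by omega)]
      rw [hcv, hpv] at h0
      refine ⟨h0.1, ?_, ?_⟩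
      · have := h0.2
        rw [← hh] at this
        exact_mod_cast this
      · intro n hn
        have h1 := h n (by simp; omega)
        have hcv : cv t (fun i => (co (c :: l) i : ℝ)) n = cv t (fun i => (co l i : ℝ)) n := by
          apply cv_congr
          intro i hi
          rw [co_cons_lt c l (by omega)]
        have hpv : pv t (fun i => (co (c :: l) i : ℝ)) n = pv t (fun i => (co l i : ℝ)) n := by
          apply pv_congr
          intro i hi
          rw [co_cons_lt c l (by omega)]
        rw [hcv, hpv, co_cons_lt c l hn] at h1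
        exact h1

end P031.Gm
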