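import Vale.Agent.P031.GeomMin

/-! P031 [GEOM]: comparison of lattice point counts through volumes and a homothety. -/

namespace P031.Gm

open Finset MeasureTheory

/-- unit cube -/
def cube {J : ℕ} (f : Fin J → ℕ) : Set (Fin J → ℝ) :=
  Set.pi Set.univ (fun i => Set.Ico (f i : ℝ) ((f i : ℝ) + 1))

theorem volume_cube {J : ℕ} (f : Fin J → ℕ) : volume (cube f) = 1 := by
  unfold cube
  rw [Real.volume_pi_Ico]
  simp

theorem cube_meas {J : ℕ} (f : Fin J → ℕ) : MeasurableSet (cube f) := by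
  unfold cube
  exact MeasurableSet.univ_pi (fun i => measurableSet_Ico)

theorem mem_cube_floor {J : ℕ} {f : Fin J → ℕ} {x : Fin J → ℝ} (hx : x ∈ cube f) (i : Fin J) :
    ⌊x i⌋₊ = f i := by
  unfold cube at hx
  have h := hx i (Set.mem_univ i)
  rw [Set.mem_Ico] at h
  rw [Nat.floor_eq_iff (le_trans (Nat.cast_nonneg _) h.1)]
  exact h

theorem cube_disjoint {J : ℕ} {f g : Fin J → ℕ} (hfg : f ≠ g) : Disjoint (cube f) (cube g) := by
  rw [Set.disjoint_left]
  intro x hx hy
  apply hfg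
  funext i
  rw [← mem_cube_floor hx i, mem_cube_floor hy i]

theorem ncard_le_volume (S : Set (List ℕ)) (J : ℕ) (h1 : ∀ h ∈ S, h.length = J)
    (hfin : S.Finite) (A : Set (Fin J → ℝ))
    (h2 : ∀ h ∈ S, cube (fun i : Fin J => co h i) ⊆ A) : (S.ncard : ENNReal) ≤ volume A := by
  classical
  have hU : (⋃ h ∈ hfin.toFinset, cube (fun i : Fin J => co h i)) ⊆ A := by
    intro x hx
    rw [Set.mem_iUnion₂] at hx
    obtain ⟨h, hh, hx⟩ := hx
    exact h2 h (by simpa using hh) hx
  refine le_trans ?_ (measure_mono hU)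
  rw [measure_biUnion_finset]
  · rw [Finset.sum_congr rfl (fun h _ => volume_cube _)]
    rw [Finset.sum_const, Set.ncard_eq_toFinset_card S hfin]
    simp
  · intro a ha b hb hab
    apply cube_disjoint
    intro h
    apply hab
    apply co_inj (J := J) (h1 a (by simpa using ha)) (h1 b (by simpa using hb))
    intro i hi
    exact congrFun h ⟨i, hi⟩
  · intro h _
    exact cube_meas _

theorem volume_le_ncard (S : Set (List ℕ)) (J : ℕ) (hfin : S.Finite) (A : Set (Fin J → ℝ))
    (h2 : ∀ x ∈ A, ∃ h ∈ S, x ∈ cube (fun i : Fin J => co h i)) :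
    volume A ≤ (S.ncard : ENNReal) := by
  classical
  have hU : A ⊆ (⋃ h ∈ hfin.toFinset, cube (fun i : Fin J => co h i)) := by
    intro x hx
    obtain ⟨h, hh, hx⟩ := h2 x hx
    rw [Set.mem_iUnion₂]
    exact ⟨h, by simpa using hh, hx⟩
  refine le_trans (measure_mono hU) ?_
  refine le_trans (measure_biUnion_finset_le _ _) ?_
  rw [Finset.sum_congr rfl (fun h _ => volume_cube _)]
  rw [Finset.sum_const, Set.ncard_eq_toFinset_card S hfin]
  simp

theorem homothety_count (J : ℕ) (P M : Set (List ℕ)) (hPlen : ∀ h ∈ P, h.length = J)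
    (hP : P.Finite) (hM : M.Finite) (A B : Set (Fin J → ℝ))
    (h1 : ∀ h ∈ P, cube (fun i : Fin J => co h i) ⊆ A)
    (h2 : ∀ x ∈ B, ∃ h ∈ M, x ∈ cube (fun i : Fin J => co h i))
    (z : Fin J → ℝ) (s : ℝ) (hs : s ≤ 1)
    (hmap : ∀ x ∈ A, (fun i => (1 - s) * x i + s * z i) ∈ B) :
    (1 - s) ^ J * (P.ncard : ℝ) ≤ (M.ncard : ℝ) := by
  have a1 := ncard_le_volume P J hPlen hP A h1
  have a2 := volume_le_ncard M J hM B h2
  have a3 : (AffineMap.homothety z (1 - s)) '' A ⊆ B := by
    rintro _ ⟨x, hx, rfl⟩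
    have := hmap x hx
    have e : (AffineMap.homothety z (1 - s)) x = fun i => (1 - s) * x i + s * z i := by
      rw [AffineMap.homothety_apply]
      funext i
      simp only [vsub_eq_sub, vadd_eq_add, Pi.add_apply, Pi.smul_apply, Pi.sub_apply, smul_eq_mul]
      ring
    rw [e]
    exact this
  have a4 : volume ((AffineMap.homothety z (1 - s)) '' A) =
      ENNReal.ofReal ((1 - s) ^ J) * volume A := by
    have h := Measure.addHaar_image_homothety (volume : Measure (Fin J → ℝ)) z (1 - s) A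
    rw [h, Module.finrank_fin_fun, abs_of_nonneg (by apply pow_nonneg; linarith)]
  have a5 : ENNReal.ofReal ((1 - s) ^ J) * (P.ncard : ENNReal) ≤ (M.ncard : ENNReal) := by
    calc ENNReal.ofReal ((1 - s) ^ J) * (P.ncard : ENNReal)
        ≤ ENNReal.ofReal ((1 - s) ^ J) * volume A := by gcongr
      _ = volume ((AffineMap.homothety z (1 - s)) '' A) := a4.symm
      _ ≤ volume B := measure_mono a3
      _ ≤ _ := a2
  have h0 : (0 : ℝ) ≤ (1 - s) ^ J := by apply pow_nonneg; linarith
  have e1 : (P.ncard : ENNReal) = ENNReal.ofReal (P.ncard : ℝ) := by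
    rw [ENNReal.ofReal_natCast]
  have e2 : (M.ncard : ENNReal) = ENNReal.ofReal (M.ncard : ℝ) := by
    rw [ENNReal.ofReal_natCast]
  rw [e1, e2, ← ENNReal.ofReal_mul h0] at a5
  exact (ENNReal.ofReal_le_ofReal_iff (Nat.cast_nonneg _)).mp a5

end P031.Gm
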