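import Vale.Agent.P031.TSumA
import Vale.Agent.P031.CollGen
import Vale.Agent.P031.Num
import Vale.Agent.P031.Geom

/-! P031 [TMREG]: suffixes of `R-` tuples satisfy the hypotheses of `coll_of_ne`. -/

namespace P031

open Finset
open scoped Classical

namespace TmRegAux

theorem sorted_split (j : ℕ) : ∀ {l : List ℕ}, l.Pairwise (· ≥ ·) →
    l.filter (fun q => decide (j ≤ lv q)) ++ l.filter (fun q => decide (lv q < j)) = l := by
  intro l
  induction l with
  | nil => intro _; simp
  | cons a l ih =>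
    intro hs
    rw [List.pairwise_cons] at hs
    by_cases h : j ≤ lv a
    · rw [List.filter_cons_of_pos (by simpa using h), List.filter_cons_of_neg (by simpa using h),
        List.cons_append, ih hs.2]
    · have h' : lv a < j := by omega
      have h1 : ∀ q ∈ l, lv q < j := fun q hq => lt_of_le_of_lt (lv_mono (hs.1 q hq)) h'
      rw [List.filter_cons_of_neg (by simpa using h'), List.filter_cons_of_pos (by simpa using h')]
      have e1 : l.filter (fun q => decide (j ≤ lv q)) = [] := by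
        rw [List.filter_eq_nil_iff]
        intro q hq
        have := h1 q hq
        simp only [decide_eq_true_eq]
        omega
      have e2 : l.filter (fun q => decide (lv q < j)) = l := by
        rw [List.filter_eq_self]
        intro q hq
        simpa using h1 q hq
      rw [e1, e2, List.nil_append]

theorem al_le_append : ∀ (A B : List ℕ) (k : ℕ), 1 ≤ k → al k A ≤ al k (A ++ B) := by
  intro A
  induction A with
  | nil =>
    intro B k hk
    rw [List.nil_append, al]
    exact Gm.al_nonneg B k hk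
  | cons c l ih =>
    intro B k hk
    rw [List.cons_append, al, al]
    have := ih B (k + 1) (by omega)
    linarith

theorem al_filter_le (j : ℕ) {l : List ℕ} (hs : l.Pairwise (· ≥ ·)) :
    al 1 ((l.filter (fun q => decide (j ≤ lv q))).map lv) ≤ al 1 (l.map lv) := by
  conv_rhs => rw [← sorted_split j hs, List.map_append]
  exact al_le_append _ _ 1 le_rfl

theorem pm_le {B : ℝ} (hB : 0 ≤ B) : ∀ {l : List ℕ}, (∀ q ∈ l, (q : ℝ) ≤ B) →
    (pm l : ℝ) ≤ B ^ l.length := by
  intro l
  induction l with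
  | nil => intro _; simp
  | cons a l ih =>
    intro h
    rw [pm_cons, List.length_cons, pow_succ, mul_comm (B ^ l.length)]
    push_cast
    have h1 : ((a - 1 : ℕ) : ℝ) ≤ B :=
      le_trans (by exact_mod_cast Nat.sub_le a 1) (h a List.mem_cons_self)
    exact mul_le_mul h1 (ih fun q hq => h q (List.mem_cons_of_mem _ hq)) (Nat.cast_nonneg _) hB

theorem log_num : ∃ N₀ : ℕ, ∀ N ≥ N₀, 500 * Real.log ((N : ℝ) + 1) ≤ 3 / 4 * N := by
  refine ⟨2 * 10 ^ 6, ?_⟩
  intro N hN
  have hN' : (2 * 10 ^ 6 : ℝ) ≤ N := by exact_mod_cast hN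
  obtain ⟨s, hs⟩ : ∃ s, s = Real.sqrt ((N : ℝ) + 1) := ⟨_, rfl⟩
  have hs2 : s ^ 2 = (N : ℝ) + 1 := by rw [hs, Real.sq_sqrt (by linarith)]
  have hs0 : 0 < s := by rw [hs]; exact Real.sqrt_pos.2 (by linarith)
  have h1 : Real.log ((N : ℝ) + 1) ≤ 2 * s := by
    rw [← hs2, Real.log_pow]
    have := Real.log_le_sub_one_of_pos hs0
    push_cast
    linarith
  have h2 : 1400 ≤ s := by
    by_contra hc
    push Not at hc
    nlinarith
  nlinarith

theorem exp_num {m N : ℕ} (hm : m + 1 ≤ N) (hN : 2 ≤ N) :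
    (N : ℝ) * Real.exp ((N : ℝ) ^ 10) + Real.exp (2 * (m : ℝ) ^ 10) ≤
      Real.exp (2 * (N : ℝ) ^ 10) := by
  have hN' : (2:ℝ) ≤ N := by exact_mod_cast hN
  have h1 : 2 * (N:ℝ) ≤ Real.exp ((N : ℝ) ^ 10) := by
    have h2 := Real.add_one_le_exp ((N : ℝ) ^ 10)
    have h3 : 2 * (N:ℝ) ≤ (N:ℝ) ^ 10 := by
      calc 2 * (N:ℝ) ≤ N * N := by nlinarith
        _ = (N:ℝ) ^ 2 := by ring
        _ ≤ (N:ℝ) ^ 10 := pow_le_pow_right₀ (by linarith) (by norm_num)
    linarith
  have h2 : (N : ℝ) * Real.exp ((N : ℝ) ^ 10) ≤ Real.exp (2 * (N : ℝ) ^ 10) / 2 := by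
    have e : Real.exp (2 * (N : ℝ) ^ 10) = Real.exp ((N : ℝ) ^ 10) * Real.exp ((N : ℝ) ^ 10) := by
      rw [← Real.exp_add]; congr 1; ring
    rw [e]
    nlinarith [Real.exp_pos ((N : ℝ) ^ 10)]
  have h3 : Real.exp (2 * (m : ℝ) ^ 10) ≤ Real.exp (2 * (N : ℝ) ^ 10) / 2 := by
    have h4 : 2 * (m:ℝ) ^ 10 + 1 ≤ 2 * (N:ℝ) ^ 10 := by
      have h5 : m ^ 10 + 1 ≤ N ^ 10 := by
        have := Nat.pow_lt_pow_left (show m < N by omega) (by norm_num : 10 ≠ 0)
        omega
      have h6 : (m:ℝ) ^ 10 + 1 ≤ (N:ℝ) ^ 10 := by exact_mod_cast h5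
      linarith
    have h5 := Real.exp_le_exp.2 h4
    rw [Real.exp_add] at h5
    have h6 : 2 ≤ Real.exp 1 := by have := Real.exp_one_gt_d9; linarith
    nlinarith [Real.exp_pos (2 * (m : ℝ) ^ 10)]
  linarith

theorem okM_okP {θ : ℝ} (hθ : 0 ≤ θ) {t : List ℕ} : ∀ {h : List ℕ}, okM θ t h → okP θ t h := by
  intro h
  induction h with
  | nil => intro _; trivial
  | cons c l ih =>
    rintro ⟨h1, h2, h3⟩
    refine ⟨?_, by omega, ih h3⟩
    have hc : (0:ℝ) ≤ c := Nat.cast_nonneg c
    nlinarith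

end TmRegAux

open TmRegAux TSumAux

theorem tm_reg : ∃ M₀ : ℕ, ∀ M ≥ M₀, ∀ (ω : ℕ) (l : List ℕ) (c : ℕ), Tail M (kk M) ω →
    (∀ q ∈ l, Good (Nf M) q) → okM (th M) (hl M (kk M) ω) (l.map lv) →
    can (kk M) (pm l * ω) = l ++ can (kk M) ω → M ≤ c →
    (l.map lv ++ hl M (kk M) ω).headI + 2 ≤ c →
    al 1 (l.map lv ++ hl M (kk M) ω) ≤ (1 - th M / 2) * c →
    (∀ r ∈ can (kk M) (pm l * ω), lv r + 2 ≤ c) ∧
    (∀ r ∈ up (kk M) ((Nf c) ^ 10) (pm l * ω), Normal (Nf c) r) ∧
    (up (kk M) ((Nf c) ^ 10) (pm l * ω)).length ≤ Nf c ∧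
    al 1 ((up (kk M) ((Nf c) ^ 10) (pm l * ω)).map lv) + (Nf c : ℝ) ^ 90 ≤ c ∧
    (lowp (kk M) ((Nf c) ^ 10) (pm l * ω) : ℝ) ≤ Real.exp (Real.exp (2 * (Nf c : ℝ) ^ 10)) := by
  obtain ⟨N0, hN0⟩ := log_num
  obtain ⟨M1, hM1⟩ := Nf_tendsto (N0 + 2)
  obtain ⟨M2, hM2⟩ := two_Nf_pow
  obtain ⟨M3, hM3⟩ := th_small (1 / 20) (by norm_num)
  obtain ⟨M4, hM4⟩ := geom_length
  refine ⟨M1 + M2 + M3 + M4 + 2, ?_⟩
  intro M hM ω l c hT hgood hok hcan hMc hhead hal
  have hm2 : N0 + 2 ≤ Nf M := hM1 M (by omega)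
  have hmN : Nf M ≤ Nf c := Nf_mono hMc
  obtain ⟨m, hm⟩ : ∃ m, m = Nf M := ⟨_, rfl⟩
  obtain ⟨N, hN⟩ : ∃ N, N = Nf c := ⟨_, rfl⟩
  obtain ⟨hθ0, hθ1, -⟩ := hM3 M (by omega)
  have hk : 1 ≤ kk M := by
    unfold kk
    exact Nat.log_pos (by norm_num) (by omega)
  have hMm : Nf M ^ 10 ≤ M :=
    le_trans (Nat.pow_le_pow_right (by omega) (by norm_num)) (Nf_pow_le M)
  have hkM : kk M ≤ M := Nat.log_le_self 2 M
  -- entries of `l`
  have hht : M ≤ (hl M (kk M) ω).headI := hl_head hk hMm hT
  have hent' := (okM_ent hht _ hok).2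
  have hent : ∀ q ∈ l, M ≤ lv q := fun q hq => hent' _ (List.mem_map_of_mem hq)
  have hlp : ∀ q ∈ l, q.Prime ∧ kk M ≤ lv q := fun q hq =>
    ⟨(hgood q hq).1, hkM.trans (hent q hq)⟩
  have hw : pm l * ω ∈ SS (kk M) := mem_SS_pm hlp hT.mem
  have hsort : (l ++ can (kk M) ω).Pairwise (· ≥ ·) := by
    rw [← hcan]; exact can_sorted hk hw
  have hsortω := can_sorted hk hT.mem
  -- the list `F` of entries of level at least `m ^ 10`
  obtain ⟨F, hF⟩ : ∃ F, F = l ++ up (kk M) (Nf M ^ 10) ω := ⟨_, rfl⟩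
  have hF2 : (l ++ can (kk M) ω).filter (fun q => decide (Nf M ^ 10 ≤ lv q)) = F := by
    rw [List.filter_append, hF]
    congr 1
    rw [List.filter_eq_self]
    intro q hq
    simpa using hMm.trans (hent q hq)
  have hFsort : F.Pairwise (· ≥ ·) := by rw [← hF2]; exact hsort.filter _
  have hFlv : F.map lv = l.map lv ++ hl M (kk M) ω := by
    rw [hF, List.map_append]; rfl
  have hFgood : ∀ q ∈ F, Good (Nf M) q := by
    intro q hq
    rw [hF, List.mem_append] at hq
    rcases hq with hq | hq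
    · exact hgood q hq
    · exact hT.good q hq
  -- all entries are at most the head
  have hFne : F ≠ [] := by
    intro h0
    rw [h0] at hFlv
    simp only [List.map_nil] at hFlv
    have := List.append_eq_nil_iff.1 hFlv.symm
    rw [this.2] at hht
    simp at hht
    omega
  have hall : ∀ r ∈ can (kk M) (pm l * ω), lv r + 2 ≤ c := by
    intro r hr
    rw [hcan, ← sorted_split (Nf M ^ 10) hsort, hF2] at hr
    rw [← hFlv] at hhead
    rcases hFc : F with _ | ⟨a, F'⟩
    · exact absurd hFc hFne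
    · rw [hFc] at hhead hFsort hr
      simp only [List.map_cons, List.headI_cons] at hhead
      have ha : Nf M ^ 10 ≤ lv a := by
        have : a ∈ (l ++ can (kk M) ω).filter (fun q => decide (Nf M ^ 10 ≤ lv q)) := by
          rw [hF2, hFc]; exact List.mem_cons_self
        simpa using (List.mem_filter.1 this).2
      rw [List.mem_append] at hr
      rcases hr with hr | hr
      · rcases List.mem_cons.1 hr with rfl | hr
        · exact hhead
        · have := lv_mono (List.rel_of_pairwise_cons hFsort hr)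
          omega
      · have : lv r < Nf M ^ 10 := by simpa using (List.mem_filter.1 hr).2
        omega
  have hN10 : Nf M ^ 10 ≤ Nf c ^ 10 := Nat.pow_le_pow_left hmN 10
  have hup : up (kk M) (Nf c ^ 10) (pm l * ω) = F.filter (fun q => decide (Nf c ^ 10 ≤ lv q)) := by
    unfold up
    rw [hcan, ← hF2, List.filter_filter]
    congr 1
    funext q
    by_cases h : Nf c ^ 10 ≤ lv q
    · have h' := hN10.trans h
      simp [h, h']
    · simp [h]
  -- the length
  have hcr : (M:ℝ) ≤ c := by exact_mod_cast hMc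
  have hM2r : (2:ℝ) ≤ M := by exact_mod_cast (by omega : 2 ≤ M)
  have hFlen : F.length ≤ Nf c := by
    have h1 : ((l.map lv).length : ℝ) ≤ 5 * Real.log c := by
      refine hM4 M (by omega) c (th M) hcr hθ0.le hθ1 _ _ hht ⟨l.map lv, rfl, okM_okP hθ0.le hok,
        ?_, ?_⟩
      · have : ((l.map lv ++ hl M (kk M) ω).headI : ℝ) + 2 ≤ c := by exact_mod_cast hhead
        linarith
      · nlinarith
    rw [List.length_map] at h1
    have h2 : (4:ℝ) * (up (kk M) (Nf M ^ 10) ω).length ≤ Nf M := by exact_mod_cast hT.cnt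
    have h3 : Real.log c ≤ 100 * Real.log ((Nf c : ℝ) + 1) := by
      have h4 : (c:ℝ) ≤ ((Nf c : ℝ) + 1) ^ 100 := by exact_mod_cast (lt_Nf_succ c).le
      calc Real.log c ≤ Real.log (((Nf c : ℝ) + 1) ^ 100) := Real.log_le_log (by linarith) h4
        _ = 100 * Real.log ((Nf c : ℝ) + 1) := by rw [Real.log_pow]; norm_num
    have h4 := hN0 (Nf c) (by omega)
    have h5 : (Nf M : ℝ) ≤ Nf c := by exact_mod_cast hmN
    have h6 : (F.length : ℝ) ≤ Nf c := by
      rw [hF, List.length_append]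
      push_cast
      linarith
    exact_mod_cast h6
  refine ⟨hall, ?_, ?_, ?_, ?_⟩
  · intro r hr
    rw [hup, List.mem_filter] at hr
    have hlr : Nf c ^ 10 ≤ lv r := by simpa using hr.2
    refine (hFgood r hr.1).2 (Nf c) hmN hlr ?_
    have h1 : lv r + 2 ≤ c := by
      apply hall
      have : r ∈ (l ++ can (kk M) ω).filter (fun q => decide (Nf M ^ 10 ≤ lv q)) := by
        rw [hF2]; exact hr.1
      rw [hcan]
      exact (List.mem_filter.1 this).1
    have h2 := hM2 c (by omega)
    omega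
  · rw [hup]
    exact (List.length_filter_le _ _).trans hFlen
  · rw [hup]
    have h1 := al_filter_le (Nf c ^ 10) hFsort
    rw [hFlv] at h1
    have h2 : (Nf c : ℝ) ^ 90 ≤ th M / 2 * c := by
      have h3 : (Nf c : ℝ) ^ 100 ≤ c := by exact_mod_cast Nf_pow_le c
      have h4 : (0:ℝ) < (Nf M : ℝ) ^ 10 := by
        have : (0:ℝ) < Nf M := by exact_mod_cast (by omega : 0 < Nf M)
        positivity
      have h5 : (Nf M : ℝ) ^ 10 ≤ (Nf c : ℝ) ^ 10 := by exact_mod_cast hN10
      unfold th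
      rw [div_div, div_mul_eq_mul_div, le_div_iff₀ (by positivity)]
      have h6 : (Nf c : ℝ) ^ 90 * ((Nf M : ℝ) ^ 10 * 2) ≤
          (Nf c : ℝ) ^ 90 * ((Nf c : ℝ) ^ 10 * 2) :=
        mul_le_mul_of_nonneg_left (by linarith) (by positivity)
      have h7 : (Nf c : ℝ) ^ 90 * ((Nf c : ℝ) ^ 10 * 2) = 2 * (Nf c : ℝ) ^ 100 := by ring
      linarith
    linarith
  · -- the low part
    have hrest : rest (kk M) (pm l * ω) = rest (kk M) ω := by
      have h1 := pm_can_mul_rest hk hw
      have h2 := pm_can_mul_rest hk hT.mem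
      rw [hcan, pm_append] at h1
      have h3 : 0 < pm l := pm_pos fun q hq => (hlp q hq).1
      have h4 : 0 < pm (can (kk M) ω) := pm_pos fun q hq => (mem_can hk hT.mem hq).1
      have h5 : pm l * pm (can (kk M) ω) * rest (kk M) (pm l * ω) =
          pm l * pm (can (kk M) ω) * rest (kk M) ω := by
        rw [h1, mul_assoc, h2]
      exact Nat.eq_of_mul_eq_mul_left (Nat.mul_pos h3 h4) h5
    have hlow : lowp (kk M) (Nf c ^ 10) (pm l * ω) =
        pm (F.filter (fun q => decide (lv q < Nf c ^ 10))) * lowp (kk M) (Nf M ^ 10) ω := by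
      unfold lowp
      rw [hcan, hrest, ← mul_assoc]
      congr 1
      have e1 : (l ++ can (kk M) ω).filter (fun q => decide (lv q < Nf c ^ 10)) =
          F.filter (fun q => decide (lv q < Nf c ^ 10)) ++
            (can (kk M) ω).filter (fun q => decide (lv q < Nf M ^ 10)) := by
        conv_lhs => rw [← sorted_split (Nf M ^ 10) hsort, hF2, List.filter_append]
        congr 1
        rw [List.filter_append]
        have e2 : l.filter (fun q => decide (lv q < Nf M ^ 10)) = [] := by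
          rw [List.filter_eq_nil_iff]
          intro q hq
          have := hMm.trans (hent q hq)
          simp only [decide_eq_true_eq]
          omega
        rw [e2, List.nil_append, List.filter_filter]
        congr 1
        funext q
        by_cases h : lv q < Nf M ^ 10
        · have h' := lt_of_lt_of_le h hN10
          simp [h, h']
        · simp [h]
      rw [e1, pm_append]
    rw [hlow]
    push_cast
    have hrst := hT.rst
    rcases Nat.eq_or_lt_of_le hmN with he | hlt
    · -- `N = m`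
      have e1 : F.filter (fun q => decide (lv q < Nf c ^ 10)) = [] := by
        rw [List.filter_eq_nil_iff]
        intro q hq
        rw [← hF2, List.mem_filter] at hq
        have : Nf M ^ 10 ≤ lv q := by simpa using hq.2
        rw [he] at this
        simp only [decide_eq_true_eq]
        omega
      rw [e1, pm_nil, Nat.cast_one, one_mul, ← he]
      exact hrst
    · have h1 : (pm (F.filter (fun q => decide (lv q < Nf c ^ 10))) : ℝ) ≤
          Real.exp ((Nf c : ℝ) * Real.exp ((Nf c : ℝ) ^ 10)) := by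
        refine (pm_le (B := Real.exp (Real.exp ((Nf c : ℝ) ^ 10))) (Real.exp_pos _).le ?_).trans ?_
        · intro q hq
          have hq2 : lv q < Nf c ^ 10 := by simpa using (List.mem_filter.1 hq).2
          have := lt_exp_of_lv_lt hq2
          push_cast at this
          exact this.le
        · rw [← Real.exp_nat_mul]
          apply Real.exp_le_exp.2
          refine mul_le_mul_of_nonneg_right ?_ (Real.exp_pos _).le
          exact_mod_cast (List.length_filter_le _ _).trans hFlen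
      calc (pm (F.filter (fun q => decide (lv q < Nf c ^ 10))) : ℝ) *
            (lowp (kk M) (Nf M ^ 10) ω : ℝ)
          ≤ Real.exp ((Nf c : ℝ) * Real.exp ((Nf c : ℝ) ^ 10)) *
            Real.exp (Real.exp (2 * (Nf M : ℝ) ^ 10)) :=
            mul_le_mul h1 hrst (Nat.cast_nonneg _) (Real.exp_pos _).le
        _ = Real.exp ((Nf c : ℝ) * Real.exp ((Nf c : ℝ) ^ 10) +
            Real.exp (2 * (Nf M : ℝ) ^ 10)) := by rw [Real.exp_add]
        _ ≤ _ := Real.exp_le_exp.2 (exp_num hlt (by omega))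

end P031
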