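import Vale.Agent.P031.TSumA
import Vale.Agent.P031.CollGen
import Vale.Agent.P031.TmReg
import Vale.Agent.P031.Mert
import Vale.Agent.P031.Num
import Vale.Agent.P031.Geom
import Vale.Agent.P031.CollMain

/-! P031 [NC]: non-canonical tuples have small mass. -/

namespace P031

open Finset
open scoped Classical

namespace NcAux

open TSumAux TmRegAux

theorem exists_split {k ω : ℕ} : ∀ L : List ℕ, can k (pm L * ω) ≠ L ++ can k ω →
    ∃ (l1 : List ℕ) (q : ℕ) (l2 : List ℕ), L = l1 ++ q :: l2 ∧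
      can k (pm l2 * ω) = l2 ++ can k ω ∧
      can k ((q - 1) * (pm l2 * ω)) ≠ q :: (l2 ++ can k ω) := by
  intro L
  induction L with
  | nil => intro h; simp at h
  | cons a L ih =>
    intro h
    by_cases h1 : can k (pm L * ω) = L ++ can k ω
    · refine ⟨[], a, L, rfl, h1, ?_⟩
      rw [pm_cons, mul_assoc] at h
      exact h
    · obtain ⟨l1, q, l2, h2, h3, h4⟩ := ih h1
      exact ⟨a :: l1, q, l2, by rw [h2]; rfl, h3, h4⟩

theorem okM_suffix {θ : ℝ} {t : List ℕ} : ∀ (l1 : List ℕ) {l : List ℕ},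
    okM θ t (l1 ++ l) → okM θ t l := by
  intro l1
  induction l1 with
  | nil => intro l h; exact h
  | cons a l1 ih => intro l h; exact ih h.2.2

theorem okM_le_head {θ : ℝ} {t : List ℕ} : ∀ {h : List ℕ}, okM θ t h →
    ∀ c ∈ h, c ≤ (h ++ t).headI := by
  intro h
  induction h with
  | nil => intro _ c hc; exact absurd hc List.not_mem_nil
  | cons a l ih =>
    intro hok c hc
    rw [List.cons_append, List.headI_cons]
    rcases List.mem_cons.1 hc with rfl | hc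
    · exact le_rfl
    · have := ih hok.2.2 c hc
      have := hok.2.1
      omega

theorem mem_PLs_const {P : Finset ℕ} : ∀ {l : List ℕ}, (∀ q ∈ l, q ∈ P) →
    l ∈ PLs (fun _ => P) (List.replicate l.length 0) := by
  intro l
  induction l with
  | nil => intro _; simp [PLs]
  | cons a l ih =>
    intro h
    rw [List.length_cons, List.replicate_succ, PLs]
    refine Finset.mem_image.2 ⟨(a, l), Finset.mem_product.2 ⟨h a List.mem_cons_self, ?_⟩, rfl⟩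
    exact ih fun q hq => h q (List.mem_cons_of_mem _ hq)

theorem mem_of_PLs_const {P : Finset ℕ} : ∀ {j : ℕ} {l : List ℕ},
    l ∈ PLs (fun _ => P) (List.replicate j 0) → ∀ q ∈ l, q ∈ P := by
  intro j
  induction j with
  | zero =>
    intro l h
    simp only [List.replicate_zero, PLs, Finset.mem_singleton] at h
    subst h
    simp
  | succ j ih =>
    intro l h
    rw [List.replicate_succ, PLs] at h
    obtain ⟨⟨a, b⟩, hab, rfl⟩ := Finset.mem_image.1 h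
    obtain ⟨h1, h2⟩ := Finset.mem_product.1 hab
    intro q hq
    rcases List.mem_cons.1 hq with rfl | hq
    · exact h1
    · exact ih h2 q hq

/-- the numerical estimate -/
theorem nc_num (K : ℕ) (C : ℝ) (hC : 0 < C) : ∃ M₀ : ℕ, ∀ M ≥ M₀, ∀ Y : ℝ, Rgm K M Y → 1 ≤ Y →
    (∑ j ∈ range (⌊5 * Real.log Y⌋₊ + 1), (2 * (Y + 1 + C)) ^ j) *
      ((Y + 1) * Real.exp (-(Nf M : ℝ) ^ 88)) ≤ Real.exp (-(Nf M : ℝ) ^ 80) := by
  obtain ⟨c0, hc0⟩ : ∃ c0 : ℝ, c0 = Real.log (2 * (1 + C)) := ⟨_, rfl⟩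
  have hc00 : 0 ≤ c0 := by rw [hc0]; exact Real.log_nonneg (by linarith)
  obtain ⟨M1, hM1⟩ := num_small K (5 * (1 + c0) + 2) (1 / 6) (by norm_num)
  obtain ⟨M2, hM2⟩ := Nf_tendsto 2
  refine ⟨M1 + M2, ?_⟩
  intro M hM Y hY hY1
  have h1 := hM1 M (by omega) Y hY
  have hm := hM2 M (by omega)
  obtain ⟨Λ, hΛ⟩ : ∃ Λ, Λ = Real.log (Y + 3) := ⟨_, rfl⟩
  rw [← hΛ] at h1
  have hΛ1 : 1 ≤ Λ := by
    rw [hΛ, Real.le_log_iff_exp_le (by linarith)]
    have := Real.exp_one_lt_d9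
    linarith
  have hYe : Y + 3 = Real.exp Λ := by rw [hΛ, Real.exp_log (by linarith)]
  have hlogY : Real.log Y ≤ Λ := by rw [hΛ]; exact Real.log_le_log (by linarith) (by linarith)
  have hlogY0 : 0 ≤ Real.log Y := Real.log_nonneg hY1
  -- the base
  have hA1 : 1 ≤ 2 * (Y + 1 + C) := by linarith
  have hA : 2 * (Y + 1 + C) ≤ Real.exp ((1 + c0) * Λ) := by
    have h2 : 2 * (1 + C) ≤ Real.exp (c0 * Λ) := by
      calc 2 * (1 + C) = Real.exp c0 := by rw [hc0, Real.exp_log (by linarith)]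
        _ ≤ Real.exp (c0 * Λ) := Real.exp_le_exp.2 (by nlinarith)
    have e : (1 + c0) * Λ = Λ + c0 * Λ := by ring
    rw [e, Real.exp_add, ← hYe]
    have h3 : 2 * (Y + 1 + C) ≤ (Y + 3) * (2 * (1 + C)) := by nlinarith
    exact h3.trans (mul_le_mul_of_nonneg_left h2 (by linarith))
  have hpow : ∀ j ∈ range (⌊5 * Real.log Y⌋₊ + 1), (2 * (Y + 1 + C)) ^ j ≤
      Real.exp (5 * (1 + c0) * Λ ^ 2) := by
    intro j hj
    have hj2 : (j:ℝ) ≤ 5 * Λ := by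
      have : j ≤ ⌊5 * Real.log Y⌋₊ := by rw [Finset.mem_range] at hj; omega
      have h3 : (j:ℝ) ≤ 5 * Real.log Y :=
        (Nat.cast_le.2 this).trans (Nat.floor_le (by linarith))
      linarith
    calc (2 * (Y + 1 + C)) ^ j ≤ (Real.exp ((1 + c0) * Λ)) ^ j :=
          pow_le_pow_left₀ (by linarith) hA j
      _ = Real.exp (j * ((1 + c0) * Λ)) := by rw [Real.exp_nat_mul]
      _ ≤ Real.exp (5 * (1 + c0) * Λ ^ 2) := by
          apply Real.exp_le_exp.2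
          have h4 : (j:ℝ) * ((1 + c0) * Λ) ≤ 5 * Λ * ((1 + c0) * Λ) :=
            mul_le_mul_of_nonneg_right hj2 (by positivity)
          nlinarith
  have hsum : ∑ j ∈ range (⌊5 * Real.log Y⌋₊ + 1), (2 * (Y + 1 + C)) ^ j ≤
      (6 * Λ) * Real.exp (5 * (1 + c0) * Λ ^ 2) := by
    refine (Finset.sum_le_sum hpow).trans ?_
    rw [Finset.sum_const, Finset.card_range, nsmul_eq_mul]
    refine mul_le_mul_of_nonneg_right ?_ (Real.exp_pos _).le
    push_cast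
    have := Nat.floor_le (show 0 ≤ 5 * Real.log Y by linarith)
    linarith
  have hΛe : Λ ≤ Real.exp (Λ ^ 2) := by
    have := Real.add_one_le_exp (Λ ^ 2)
    nlinarith
  have hYle : Y + 1 ≤ Real.exp (Λ ^ 2) := by
    calc Y + 1 ≤ Real.exp Λ := by rw [← hYe]; linarith
      _ ≤ Real.exp (Λ ^ 2) := Real.exp_le_exp.2 (by nlinarith)
  have hexp88 : Real.exp (-(Nf M : ℝ) ^ 88) ≤
      Real.exp (-(Nf M : ℝ)) * Real.exp (-(Nf M : ℝ) ^ 80) := by
    rw [← Real.exp_add]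
    apply Real.exp_le_exp.2
    have h2 : (2:ℝ) ≤ (Nf M : ℝ) := by exact_mod_cast hm
    have h3 : (Nf M : ℝ) ≤ (Nf M : ℝ) ^ 80 := by
      calc (Nf M : ℝ) = (Nf M : ℝ) ^ 1 := (pow_one _).symm
        _ ≤ _ := pow_le_pow_right₀ (by linarith) (by norm_num)
    have h4 : 2 * (Nf M : ℝ) ^ 80 ≤ (Nf M : ℝ) ^ 88 := by
      have e : (Nf M : ℝ) ^ 88 = (Nf M : ℝ) ^ 8 * (Nf M : ℝ) ^ 80 := by rw [← pow_add]
      rw [e]
      refine mul_le_mul_of_nonneg_right ?_ (by positivity)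
      calc (2:ℝ) ≤ (Nf M : ℝ) ^ 1 := by rw [pow_one]; exact h2
        _ ≤ _ := pow_le_pow_right₀ (by linarith) (by norm_num)
    linarith
  calc (∑ j ∈ range (⌊5 * Real.log Y⌋₊ + 1), (2 * (Y + 1 + C)) ^ j) *
        ((Y + 1) * Real.exp (-(Nf M : ℝ) ^ 88))
      ≤ ((6 * Real.exp (Λ ^ 2)) * Real.exp (5 * (1 + c0) * Λ ^ 2)) *
        (Real.exp (Λ ^ 2) * (Real.exp (-(Nf M : ℝ)) * Real.exp (-(Nf M : ℝ) ^ 80))) := by
        refine mul_le_mul (hsum.trans ?_) (mul_le_mul hYle hexp88 (Real.exp_pos _).le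
          (Real.exp_pos _).le) (by positivity) (by positivity)
        exact mul_le_mul_of_nonneg_right (by linarith) (Real.exp_pos _).le
    _ = 6 * (Real.exp ((5 * (1 + c0) + 2) * Λ ^ 2) * Real.exp (-(Nf M : ℝ))) *
        Real.exp (-(Nf M : ℝ) ^ 80) := by
        have e : (5 * (1 + c0) + 2) * Λ ^ 2 = Λ ^ 2 + 5 * (1 + c0) * Λ ^ 2 + Λ ^ 2 := by ring
        rw [e, Real.exp_add, Real.exp_add]
        ring
    _ ≤ 6 * (1 / 6) * Real.exp (-(Nf M : ℝ) ^ 80) := by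
        refine mul_le_mul_of_nonneg_right ?_ (Real.exp_pos _).le
        linarith
    _ = _ := by ring

theorem kk_le {M : ℕ} (hM : 2 ≤ M) (hm : 200 ≤ Nf M) : kk M ≤ Nf M ^ 10 := by
  have h1 : M < (Nf M + 1) ^ 100 := lt_Nf_succ M
  obtain ⟨n, hn⟩ : ∃ n, n = Nf M := ⟨_, rfl⟩
  rw [← hn] at h1 hm ⊢
  have h2 : (n + 1) ^ 100 ≤ 2 ^ ((n + 1) * 100) := by
    rw [pow_mul]
    exact Nat.pow_le_pow_left (Nat.lt_two_pow_self (n := n + 1)).le 100
  have h3 : Nat.log 2 M < (n + 1) * 100 :=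
    Nat.log_lt_of_lt_pow (by omega) (lt_of_lt_of_le h1 h2)
  have h4 : (n + 1) * 100 ≤ n ^ 10 := by
    calc (n + 1) * 100 ≤ n * n := by nlinarith
      _ = n ^ 2 := by ring
      _ ≤ n ^ 10 := Nat.pow_le_pow_right (by omega) (by norm_num)
  unfold kk
  exact (h3.le).trans h4

end NcAux

open NcAux TSumAux TmRegAux

/-- the properties of the decomposition of a non-canonical tuple -/
structure NcAux.Dec (M : ℕ) (Y : ℝ) (T : List ℕ × ℕ) (l1 : List ℕ) (q : ℕ) (l2 : List ℕ) :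
    Prop where
  eq : T.1 = l1 ++ q :: l2
  can : can (kk M) (pm l2 * T.2) = l2 ++ can (kk M) T.2
  mem1 : ∀ r ∈ l1, r ∈ PL M (⌊Y⌋₊ + 1)
  len : l1.length ≤ ⌊5 * Real.log Y⌋₊
  memq : q ∈ PL M (⌊Y⌋₊ + 1)
  ent : ∀ r ∈ l2, r.Prime ∧ M ≤ lv r
  tail : Tail M (kk M) T.2
  coll : Coll (Nf (lv q)) (lv q) q ((q - 1) * (pm l2 * T.2))
  pos : 0 < T.2

theorem NcAux.dec (K : ℕ) (hK : 1 ≤ K) : ∃ M₀ : ℕ, ∀ M ≥ M₀, ∀ Y : ℝ, Rgm K M Y → ∀ X : ℕ,
    ∀ T ∈ (TM M (kk M) X (th M) Y).filter (fun T => ¬ Canon (kk M) T),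
      ∃ (l1 : List ℕ) (q : ℕ) (l2 : List ℕ), NcAux.Dec M Y T l1 q l2 := by
  obtain ⟨M2, hM2⟩ := tm_reg
  obtain ⟨M3, hM3⟩ := two_Nf_pow
  obtain ⟨M4, hM4⟩ := th_small (1 / 20) (by norm_num)
  obtain ⟨M5, hM5⟩ := geom_length
  obtain ⟨M6, hM6⟩ := Nf_tendsto 200
  refine ⟨M2 + M3 + M4 + M5 + M6 + 2, ?_⟩
  intro M hM Y hY X
  obtain ⟨hθ0, hθ1, -⟩ := hM4 M (by omega)
  have hm := hM6 M (by omega)
  have hMr : (2:ℝ) ≤ M := by exact_mod_cast (by omega : 2 ≤ M)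
  have hMY : (M:ℝ) ≤ Y := by
    refine le_trans ?_ hY.1
    calc (M:ℝ) = (M:ℝ) ^ 1 := (pow_one _).symm
      _ ≤ (M:ℝ) ^ K := pow_le_pow_right₀ (by linarith) hK
  have hY0 : 0 ≤ Y := by linarith
  have hk : 1 ≤ kk M := by
    unfold kk
    exact Nat.log_pos (by norm_num) (by omega)
  have hkM : kk M ≤ M := Nat.log_le_self 2 M
  have hMm : Nf M ^ 10 ≤ M :=
    le_trans (Nat.pow_le_pow_right (by omega) (by norm_num)) (Nf_pow_le M)
  have hk10 : kk M ≤ Nf M ^ 10 := kk_le (by omega) (by omega)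
  have hfinM : ∀ J t, (RM (th M) Y J t).Finite := fun J t =>
    (RP_finite (th M) Y J t).subset (RM_subset_RP (th M) Y hθ0.le hY0 J t)
  rintro ⟨L, ω⟩ hT
  rw [Finset.mem_filter] at hT
  obtain ⟨hT1, hT2⟩ := hT
  unfold TM at hT1
  rw [mem_TT_iff hfinM (fun J t h hh => hh.1)] at hT1
  obtain ⟨⟨hω1, -, hTail⟩, -, hgood, hR⟩ := hT1
  obtain ⟨-, hok, hhead, hal⟩ := hR
  have hht : M ≤ (hl M (kk M) ω).headI := hl_head hk hMm hTail
  obtain ⟨l1, q, l2, hL, hcan, hne⟩ := exists_split (k := kk M) (ω := ω) L (by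
    unfold Canon val at hT2
    exact hT2)
  have hent' := (okM_ent hht _ hok).2
  have hent : ∀ r ∈ L, M ≤ lv r := fun r hr => hent' _ (List.mem_map_of_mem hr)
  have hub : ∀ r ∈ L, lv r ≤ ⌊Y⌋₊ := by
    intro r hr
    have h1 := okM_le_head hok (lv r) (List.mem_map_of_mem hr)
    apply Nat.le_floor
    have h2 : ((lv r : ℕ) : ℝ) ≤ ((L.map lv ++ hl M (kk M) ω).headI : ℝ) := by exact_mod_cast h1
    nlinarith
  have hP : ∀ r ∈ L, r ∈ PL M (⌊Y⌋₊ + 1) := by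
    intro r hr
    rw [mem_PL_iff]
    exact ⟨(hgood r hr).1, hent r hr, Nat.lt_succ_of_le (hub r hr)⟩
  have hq : q ∈ L := by rw [hL]; exact List.mem_append_right _ List.mem_cons_self
  have hl2 : ∀ r ∈ l2, r ∈ L := fun r hr => by
    rw [hL]; exact List.mem_append_right _ (List.mem_cons_of_mem _ hr)
  have hl1 : ∀ r ∈ l1, r ∈ L := fun r hr => by
    rw [hL]; exact List.mem_append_left _ hr
  have hlen : (L.length : ℝ) ≤ 5 * Real.log Y := by
    refine hM5 M (by omega) Y (th M) hMY hθ0.le hθ1 L.length (hl M (kk M) ω) hht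
      ⟨L.map lv, ?_⟩
    exact RM_subset_RP (th M) Y hθ0.le hY0 _ _ ⟨List.length_map _, hok, hhead, hal⟩
  have hok2 : okM (th M) (hl M (kk M) ω) ((q :: l2).map lv) := by
    rw [hL, List.map_append] at hok
    exact okM_suffix _ hok
  rw [List.map_cons] at hok2
  obtain ⟨hok3, hok4, hok5⟩ := hok2
  have hMq := hent q hq
  have hcr : (0:ℝ) ≤ lv q := Nat.cast_nonneg _
  obtain ⟨r1, r2, r3, r4, r5⟩ := hM2 M (by omega) ω l2 (lv q) hTail
    (fun r hr => hgood r (hl2 r hr)) hok5 hcan hMq hok4 (by nlinarith)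
  have hmN : Nf M ≤ Nf (lv q) := Nf_mono hMq
  have hN10 : Nf M ^ 10 ≤ Nf (lv q) ^ 10 := Nat.pow_le_pow_left hmN 10
  have hnorm : Normal (Nf (lv q)) q := by
    refine (hgood q hq).2 (Nf (lv q)) hmN ?_ ?_
    · exact le_trans (Nat.pow_le_pow_right (by omega) (by norm_num)) (Nf_pow_le (lv q))
    · have := hM3 (lv q) (by omega)
      omega
  have hw : pm l2 * ω ∈ SS (kk M) := mem_SS_pm
    (fun r hr => ⟨(hgood r (hl2 r hr)).1, hkM.trans (hent r (hl2 r hr))⟩) hTail.mem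
  refine ⟨l1, q, l2, hL, hcan, fun r hr => hP r (hl1 r hr), ?_, hP q hq,
    fun r hr => ⟨(hgood r (hl2 r hr)).1, hent r (hl2 r hr)⟩, hTail, ?_, hω1⟩
  · apply Nat.le_floor
    have h1 : l1.length ≤ L.length := by rw [hL, List.length_append]; omega
    have h2 : (l1.length : ℝ) ≤ L.length := by exact_mod_cast h1
    linarith
  · exact coll_of_ne hk (hk10.trans hN10) hw hnorm (hkM.trans hMq) r1 r2 r3 r4 r5
      (by rw [hcan]; exact hne)

theorem nc_mass (K : ℕ) (hK : 1 ≤ K) : ∃ M₀ : ℕ, ∀ M ≥ M₀, ∀ Y : ℝ, Rgm K M Y → ∀ X : ℕ,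
    ∑ T ∈ (TM M (kk M) X (th M) Y).filter (fun T => ¬ Canon (kk M) T), (1 : ℝ) / (val T) ≤
      Real.exp (-(Nf M : ℝ) ^ 80) := by
  obtain ⟨C, hC, hmass⟩ := level_mass
  obtain ⟨N1, hN1⟩ := collision_sum
  obtain ⟨M1, hM1⟩ := nc_num K C hC
  obtain ⟨M2, hM2⟩ := NcAux.dec K hK
  obtain ⟨M3, hM3⟩ := two_Nf_pow
  obtain ⟨M6, hM6⟩ := Nf_tendsto N1
  refine ⟨M1 + M2 + M3 + M6 + 2, ?_⟩
  intro M hM Y hY X
  have hMr : (2:ℝ) ≤ M := by exact_mod_cast (by omega : 2 ≤ M)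
  have hMY : (M:ℝ) ≤ Y := by
    refine le_trans ?_ hY.1
    calc (M:ℝ) = (M:ℝ) ^ 1 := (pow_one _).symm
      _ ≤ (M:ℝ) ^ K := pow_le_pow_right₀ (by linarith) hK
  have hY0 : 0 ≤ Y := by linarith
  have hY1 : 1 ≤ Y := by linarith
  have hk : 1 ≤ kk M := by
    unfold kk
    exact Nat.log_pos (by norm_num) (by omega)
  obtain ⟨S, hS⟩ : ∃ S, S = (TM M (kk M) X (th M) Y).filter (fun T => ¬ Canon (kk M) T) :=
    ⟨_, rfl⟩
  have hdec := hM2 M (by omega) Y hY X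
  rw [← hS] at hdec ⊢
  choose! l1 q l2 hd using hdec
  obtain ⟨P0, hP0⟩ : ∃ P0, P0 = PL M (⌊Y⌋₊ + 1) := ⟨_, rfl⟩
  obtain ⟨Tm, hTm⟩ : ∃ Tm, Tm = S.sup val := ⟨_, rfl⟩
  obtain ⟨v, hv⟩ : ∃ v : List ℕ × ℕ → ℕ, v = fun T => (q T - 1) * (pm (l2 T) * T.2) := ⟨_, rfl⟩
  have hval : ∀ T ∈ S, val T = pm (l1 T) * v T := by
    intro T hT
    unfold val
    rw [(hd T hT).eq, pm_append, pm_cons, hv]
    ring
  have hqp : ∀ T ∈ S, (q T).Prime ∧ M ≤ lv (q T) ∧ lv (q T) ≤ ⌊Y⌋₊ := by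
    intro T hT
    have h1 := (hd T hT).memq
    rw [mem_PL_iff] at h1
    exact ⟨h1.1, h1.2.1, by omega⟩
  have hpm1 : ∀ T ∈ S, 0 < pm (l1 T) := by
    intro T hT
    refine pm_pos fun r hr => ?_
    have h1 := (hd T hT).mem1 r hr
    rw [mem_PL_iff] at h1
    exact h1.1
  have hpm2 : ∀ T ∈ S, 0 < pm (l2 T) := fun T hT => pm_pos fun r hr => ((hd T hT).ent r hr).1
  have hq1 : ∀ T ∈ S, 0 < q T - 1 := by
    intro T hT
    have := (hqp T hT).1.two_le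
    omega
  have hv0 : ∀ T ∈ S, 0 < v T := by
    intro T hT
    rw [hv]
    exact Nat.mul_pos (hq1 T hT) (Nat.mul_pos (hpm2 T hT) (hd T hT).pos)
  have hvT : ∀ T ∈ S, v T ≤ Tm := by
    intro T hT
    have h1 : val T ≤ Tm := by rw [hTm]; exact Finset.le_sup hT
    rw [hval T hT] at h1
    exact le_trans (Nat.le_mul_of_pos_left _ (hpm1 T hT)) h1
  obtain ⟨A, hA⟩ : ∃ A : Finset (Σ _ : ℕ, List ℕ), A = (range (⌊5 * Real.log Y⌋₊ + 1)).sigma
    fun j => PLs (fun _ => P0) (List.replicate j 0) := ⟨_, rfl⟩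
  obtain ⟨B, hB⟩ : ∃ B : Finset (Σ _ : ℕ, ℕ × ℕ), B = (Icc M ⌊Y⌋₊).sigma
    fun c => (Nat.primesLE (Tm + 1) ×ˢ Icc 1 Tm).filter (fun p => Coll (Nf c) c p.1 p.2) :=
    ⟨_, rfl⟩
  obtain ⟨Φ, hΦ⟩ : ∃ Φ : List ℕ × ℕ → (Σ _ : ℕ, List ℕ) × (Σ _ : ℕ, ℕ × ℕ),
    Φ = fun T => (⟨(l1 T).length, l1 T⟩, ⟨lv (q T), (q T, v T)⟩) := ⟨_, rfl⟩
  obtain ⟨g, hg⟩ : ∃ g : (Σ _ : ℕ, List ℕ) × (Σ _ : ℕ, ℕ × ℕ) → ℝ,
    g = fun x => (x.1.2.map fun r : ℕ => (1 : ℝ) / ((r : ℝ) - 1)).prod * (1 / (x.2.2.2 : ℝ)) :=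
    ⟨_, rfl⟩
  have hmaps : ∀ T ∈ S, Φ T ∈ A ×ˢ B := by
    intro T hT
    rw [hΦ, Finset.mem_product]
    constructor
    · rw [hA, Finset.mem_sigma]
      refine ⟨Finset.mem_range.2 (Nat.lt_succ_of_le (hd T hT).len), ?_⟩
      refine mem_PLs_const fun r hr => ?_
      rw [hP0]
      exact (hd T hT).mem1 r hr
    · rw [hB, Finset.mem_sigma]
      refine ⟨Finset.mem_Icc.2 ⟨(hqp T hT).2.1, (hqp T hT).2.2⟩, ?_⟩
      rw [Finset.mem_filter, Finset.mem_product]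
      refine ⟨⟨?_, Finset.mem_Icc.2 ⟨hv0 T hT, hvT T hT⟩⟩, ?_⟩
      · rw [Nat.mem_primesLE]
        refine ⟨?_, (hqp T hT).1⟩
        have h1 : q T - 1 ≤ v T := by
          rw [hv]
          exact Nat.le_mul_of_pos_right _ (Nat.mul_pos (hpm2 T hT) (hd T hT).pos)
        have h2 := hvT T hT
        change q T ≤ Tm + 1
        omega
      · rw [hv]
        exact (hd T hT).coll
  have hinj : Set.InjOn Φ (S : Set (List ℕ × ℕ)) := by
    intro T hT T' hT' he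
    rw [hΦ] at he
    simp only [Prod.mk.injEq, Sigma.mk.injEq, heq_eq_eq] at he
    obtain ⟨⟨-, h1⟩, -, h2, h3⟩ := he
    rw [hv] at h3
    simp only at h3
    rw [← h2] at h3
    have h4 := Nat.eq_of_mul_eq_mul_left (hq1 T hT) h3
    have c1 := (hd T hT).can
    have c2 := (hd T' hT').can
    rw [← h4, c1] at c2
    have hcount : ∀ T ∈ S, ((l2 T ++ can (kk M) T.2).filter
        (fun r => decide (M ≤ lv r))).length = (l2 T).length + 1 := by
      intro T hT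
      rw [List.filter_append, List.length_append]
      congr 1
      · congr 1
        rw [List.filter_eq_self]
        intro r hr
        simpa using ((hd T hT).ent r hr).2
      · exact (hd T hT).tail.one
    have h5 := hcount T hT
    rw [c2, hcount T' hT'] at h5
    obtain ⟨h6, -⟩ := List.append_inj c2 (by omega)
    have h7 : T.2 = T'.2 := by
      rw [h6] at h4
      exact Nat.eq_of_mul_eq_mul_left (hpm2 T' hT') h4
    exact Prod.ext (by rw [(hd T hT).eq, (hd T' hT').eq, h1, h2, h6]) h7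
  have hfg : ∀ T ∈ S, (1 : ℝ) / (val T) = g (Φ T) := by
    intro T hT
    rw [hval T hT, hg, hΦ]
    simp only
    rw [← inv_pm fun r hr => ?_]
    · push_cast
      rw [one_div_mul_one_div]
    · have h1 := (hd T hT).mem1 r hr
      rw [mem_PL_iff] at h1
      exact h1.1
  have hg0 : ∀ x ∈ A ×ˢ B, 0 ≤ g x := by
    intro x hx
    rw [Finset.mem_product, hA, Finset.mem_sigma] at hx
    rw [hg]
    refine mul_nonneg (List.prod_nonneg ?_) (by positivity)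
    intro y hy
    obtain ⟨r, hr, rfl⟩ := List.mem_map.1 hy
    have h1 := mem_of_PLs_const hx.1.2 r hr
    rw [hP0, mem_PL_iff] at h1
    have h2 : (1:ℝ) ≤ r := by exact_mod_cast h1.1.one_lt.le
    exact div_nonneg zero_le_one (by linarith)
  have hP0mass : ∑ r ∈ P0, (1 : ℝ) / ((r : ℝ) - 1) ≤ 2 * (Y + 1 + C) := by
    have hMle : M ≤ ⌊Y⌋₊ + 1 := by
      have := Nat.le_floor hMY
      omega
    have h1 := (abs_le.1 (hmass M (⌊Y⌋₊ + 1) hMle)).2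
    rw [← hP0] at h1
    have h2 : ∑ r ∈ P0, (1 : ℝ) / ((r : ℝ) - 1) ≤ ∑ r ∈ P0, 2 * ((1 : ℝ) / r) := by
      refine Finset.sum_le_sum fun r hr => ?_
      rw [hP0, mem_PL_iff] at hr
      have h3 : (2:ℝ) ≤ r := by exact_mod_cast hr.1.two_le
      rw [mul_one_div, div_le_div_iff₀ (by linarith) (by linarith)]
      linarith
    rw [← Finset.mul_sum] at h2
    have h4 : ((⌊Y⌋₊ : ℕ) : ℝ) ≤ Y := Nat.floor_le hY0
    push_cast at h1
    linarith
  have hAsum : ∑ x ∈ A, (x.2.map fun r : ℕ => (1 : ℝ) / ((r : ℝ) - 1)).prod ≤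
      ∑ j ∈ range (⌊5 * Real.log Y⌋₊ + 1), (2 * (Y + 1 + C)) ^ j := by
    rw [hA, Finset.sum_sigma]
    refine Finset.sum_le_sum fun j _ => ?_
    rw [sum_PLs]
    simp only [List.map_replicate, List.prod_replicate]
    refine pow_le_pow_left₀ ?_ hP0mass j
    refine Finset.sum_nonneg fun r hr => ?_
    rw [hP0, mem_PL_iff] at hr
    have h2 : (1:ℝ) ≤ r := by exact_mod_cast hr.1.one_lt.le
    exact div_nonneg zero_le_one (by linarith)
  have hBsum : ∑ y ∈ B, (1 : ℝ) / (y.2.2 : ℝ) ≤ (Y + 1) * Real.exp (-(Nf M : ℝ) ^ 88) := by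
    rw [hB, Finset.sum_sigma]
    have h1 : ∀ c ∈ Icc M ⌊Y⌋₊, ∑ p ∈ (Nat.primesLE (Tm + 1) ×ˢ Icc 1 Tm).filter
        (fun p => Coll (Nf c) c p.1 p.2), (1 : ℝ) / (p.2 : ℝ) ≤
        Real.exp (-(Nf M : ℝ) ^ 88) := by
      intro c hc
      rw [Finset.mem_Icc] at hc
      have h2 := hM3 c (by omega)
      have h3 : Nf M ≤ Nf c := Nf_mono hc.1
      have h4 := hM6 M (by omega)
      refine (hN1 (Nf c) (by omega) c (Nf_pow_le c) (by omega) Tm).trans ?_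
      apply Real.exp_le_exp.2
      have h5 : (Nf M : ℝ) ^ 88 ≤ (Nf c : ℝ) ^ 88 :=
        pow_le_pow_left₀ (Nat.cast_nonneg _) (by exact_mod_cast h3) 88
      linarith
    refine (Finset.sum_le_sum h1).trans ?_
    rw [Finset.sum_const, nsmul_eq_mul]
    refine mul_le_mul_of_nonneg_right ?_ (Real.exp_pos _).le
    have h2 : (Icc M ⌊Y⌋₊).card ≤ ⌊Y⌋₊ + 1 := by
      rw [Nat.card_Icc]; omega
    have h3 : (((Icc M ⌊Y⌋₊).card : ℕ) : ℝ) ≤ (⌊Y⌋₊ : ℝ) + 1 := by exact_mod_cast h2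
    have h4 : ((⌊Y⌋₊ : ℕ) : ℝ) ≤ Y := Nat.floor_le hY0
    linarith
  calc ∑ T ∈ S, (1 : ℝ) / (val T) = ∑ T ∈ S, g (Φ T) := Finset.sum_congr rfl hfg
    _ = ∑ x ∈ S.image Φ, g x := (Finset.sum_image hinj).symm
    _ ≤ ∑ x ∈ A ×ˢ B, g x := by
        refine Finset.sum_le_sum_of_subset_of_nonneg ?_ fun x hx _ => hg0 x hx
        intro x hx
        obtain ⟨T, hT, rfl⟩ := Finset.mem_image.1 hx
        exact hmaps T hT
    _ = (∑ x ∈ A, (x.2.map fun r : ℕ => (1 : ℝ) / ((r : ℝ) - 1)).prod) *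
        ∑ y ∈ B, (1 : ℝ) / (y.2.2 : ℝ) := by
        rw [Finset.sum_product, Finset.sum_mul_sum, hg]
    _ ≤ (∑ j ∈ range (⌊5 * Real.log Y⌋₊ + 1), (2 * (Y + 1 + C)) ^ j) *
        ((Y + 1) * Real.exp (-(Nf M : ℝ) ^ 88)) := by
        refine mul_le_mul hAsum hBsum (Finset.sum_nonneg fun y _ => by positivity) ?_
        exact Finset.sum_nonneg fun j _ => by positivity
    _ ≤ _ := hM1 M (by omega) Y hY hY1

end P031
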