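import Vale.Agent.P031.RgmDefs
import Vale.Agent.P031.GeomMin
import Vale.Agent.P031.OmTools

/-! P031, [SIZE]: the values of the `R-` tuples are small. -/

namespace P031

open Finset Filter Topology
open scoped Classical

namespace SizeAux

theorem RM_finite {θ Y : ℝ} (hθ : 0 ≤ θ) (hY : 0 ≤ Y) (J : ℕ) (t : List ℕ) :
    (RM θ Y J t).Finite := (Gm.RP_finite θ Y J t).subset (Gm.RM_sub_RP θ Y hθ hY J t)

theorem pm_split (p : ℕ → Bool) (l : List ℕ) :
    pm (l.filter p) * pm (l.filter (fun q => !p q)) = pm l := by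
  induction l with
  | nil => simp
  | cons a l ih =>
    by_cases h : p a = true
    · rw [List.filter_cons_of_pos h, List.filter_cons_of_neg (by simp [h]), pm_cons, pm_cons,
        mul_assoc, ih]
    · rw [List.filter_cons_of_neg h, List.filter_cons_of_pos (by simp [h]), pm_cons, pm_cons,
        ← ih]
      ring

theorem up_mul_lowp {k j w : ℕ} (hk : 1 ≤ k) (hw : w ∈ SS k) :
    pm (up k j w) * lowp k j w = w := by
  have h1 := pm_can_mul_rest hk hw
  have h2 := pm_split (fun q => decide (j ≤ lv q)) (can k w)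
  have h3 : (can k w).filter (fun q => decide (lv q < j)) =
      (can k w).filter (fun q => !decide (j ≤ lv q)) := by
    apply List.filter_congr
    intro q _
    by_cases h : j ≤ lv q
    · simp [h]
    · simp [h]
      omega
  unfold up lowp
  rw [h3, ← mul_assoc, h2, h1]

theorem pm_le_exp {l : List ℕ} (hl : ∀ q ∈ l, q.Prime) :
    (pm l : ℝ) ≤ Real.exp ((l.map (fun q => Real.exp ((lv q : ℝ) + 1))).sum) := by
  induction l with
  | nil => simp
  | cons a l ih =>
    rw [pm_cons, List.map_cons, List.sum_cons, Real.exp_add, Nat.cast_mul]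
    have h1 := ih (fun q hq => hl q (List.mem_cons_of_mem _ hq))
    have h2 := OmT.lt_exp_lv a
    have h3 : ((a - 1 : ℕ) : ℝ) ≤ a := by exact_mod_cast Nat.sub_le a 1
    exact mul_le_mul (h3.trans h2.le) h1 (Nat.cast_nonneg _) (Real.exp_pos _).le

theorem head_sum {θ : ℝ} {t : List ℕ} {K : ℝ} (hK : 0 ≤ K) (l : List ℕ)
    (h : okM θ t (l.map lv)) :
    (l.map (fun q => Real.exp ((lv q : ℝ) + 1))).sum + K * Real.exp ((t.headI : ℝ) + 1) ≤
      (K + 2) * Real.exp (((l.map lv ++ t).headI : ℝ) + 1) := by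
  induction l with
  | nil =>
    simp only [List.map_nil, List.sum_nil, List.nil_append]
    have := Real.exp_pos ((t.headI : ℝ) + 1)
    nlinarith
  | cons a l ih =>
    simp only [List.map_cons, okM] at h
    obtain ⟨-, h2, h3⟩ := h
    have h4 := ih h3
    rw [List.map_cons, List.sum_cons]
    simp only [List.map_cons, List.cons_append, List.headI_cons]
    have h5 : (((l.map lv ++ t).headI : ℕ) : ℝ) + 2 ≤ lv a := by exact_mod_cast h2
    have h6 : Real.exp (((l.map lv ++ t).headI : ℝ) + 1) ≤ Real.exp (-2) *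
        Real.exp ((lv a : ℝ) + 1) := by
      rw [← Real.exp_add]
      apply Real.exp_le_exp.2
      linarith
    have h7 : Real.exp (-2) ≤ 1 / 4 := by
      rw [Real.exp_neg, inv_le_comm₀ (Real.exp_pos _) (by norm_num)]
      have h8 : Real.exp 2 = Real.exp 1 * Real.exp 1 := by
        rw [← Real.exp_add]; norm_num
      have := Real.exp_one_gt_d9
      rw [h8]
      nlinarith
    have h9 := Real.exp_pos ((lv a : ℝ) + 1)
    have h10 : Real.exp (((l.map lv ++ t).headI : ℝ) + 1) ≤ 1 / 4 * Real.exp ((lv a : ℝ) + 1) :=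
      h6.trans (mul_le_mul_of_nonneg_right h7 h9.le)
    have h11 : (K + 2) * Real.exp (((l.map lv ++ t).headI : ℝ) + 1) ≤
        (K + 2) * (1 / 4 * Real.exp ((lv a : ℝ) + 1)) :=
      mul_le_mul_of_nonneg_left h10 (by linarith)
    nlinarith

theorem sum_le_len {l : List ℕ} {B : ℝ} (h : ∀ q ∈ l, Real.exp ((lv q : ℝ) + 1) ≤ B) :
    (l.map (fun q => Real.exp ((lv q : ℝ) + 1))).sum ≤ l.length * B := by
  induction l with
  | nil => simp
  | cons a l ih =>
    rw [List.map_cons, List.sum_cons, List.length_cons]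
    have h1 := ih (fun q hq => h q (List.mem_cons_of_mem _ hq))
    have h2 := h a List.mem_cons_self
    push_cast
    linarith

theorem tail_bound {M k ω : ℕ} (hk : 1 ≤ k) (h : Tail M k ω) :
    (ω : ℝ) ≤ Real.exp ((Nf M : ℝ) * Real.exp (((hl M k ω).headI : ℝ) + 1)) *
      Real.exp (Real.exp (2 * (Nf M : ℝ) ^ 10)) := by
  have h1 := up_mul_lowp (j := Nf M ^ 10) hk h.mem
  have h2 : (ω : ℝ) = (pm (up k (Nf M ^ 10) ω) : ℝ) * (lowp k (Nf M ^ 10) ω : ℝ) := by
    rw [← Nat.cast_mul, h1]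
  rw [h2]
  have hprime : ∀ q ∈ up k (Nf M ^ 10) ω, q.Prime := fun q hq => (h.good q hq).1
  have hsort : (up k (Nf M ^ 10) ω).Pairwise (· ≥ ·) := by
    unfold up
    exact (can_sorted hk h.mem).filter _
  have hhead : ∀ q ∈ up k (Nf M ^ 10) ω, lv q ≤ (hl M k ω).headI := by
    intro q hq
    unfold hl
    cases hc : up k (Nf M ^ 10) ω with
    | nil =>
      rw [hc] at hq
      simp at hq
    | cons a l =>
      rw [hc] at hq hsort
      rw [List.pairwise_cons] at hsort
      simp only [List.map_cons, List.headI_cons]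
      rcases List.mem_cons.1 hq with h' | h'
      · rw [h']
      · exact lv_mono (hsort.1 q h')
  have h3 := pm_le_exp hprime
  have h4 : ((up k (Nf M ^ 10) ω).map (fun q => Real.exp ((lv q : ℝ) + 1))).sum ≤
      (Nf M : ℝ) * Real.exp (((hl M k ω).headI : ℝ) + 1) := by
    refine (sum_le_len (B := Real.exp (((hl M k ω).headI : ℝ) + 1)) (fun q hq => ?_)).trans ?_
    · apply Real.exp_le_exp.2
      have := hhead q hq
      have h' : (lv q : ℝ) ≤ (hl M k ω).headI := by exact_mod_cast this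
      linarith
    · apply mul_le_mul_of_nonneg_right _ (Real.exp_pos _).le
      have := h.cnt
      exact_mod_cast (by omega : (up k (Nf M ^ 10) ω).length ≤ Nf M)
  exact mul_le_mul (h3.trans (Real.exp_le_exp.2 h4)) h.rst (Nat.cast_nonneg _)
    (Real.exp_pos _).le

theorem one_le_kk {M : ℕ} (hM : 2 ≤ M) : 1 ≤ kk M := by
  unfold kk
  exact Nat.log_pos (by norm_num) hM

/-- the numerical inequality. -/
theorem num_ineq {N Y θ : ℝ} (hN : 2 ≤ N) (hY : N ^ 100 ≤ Y) (hθ : θ = 4 / N ^ 10) :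
    (N + 2) * Real.exp ((1 - θ) * Y + 1) + Real.exp (2 * N ^ 10) ≤ Real.exp Y / 8 := by
  have hN0 : 0 < N := by linarith
  have hN10 : (2 : ℝ) ^ 10 ≤ N ^ 10 := pow_le_pow_left₀ (by norm_num) hN 10
  have hN90 : N ≤ N ^ 90 := le_self_pow₀ (by linarith) (by norm_num)
  have e100 : N ^ 100 = N ^ 10 * N ^ 90 := by rw [← pow_add]
  have h1 : 4 * N ≤ θ * Y := by
    rw [hθ, div_mul_eq_mul_div, le_div_iff₀ (by positivity)]
    have : N ^ 10 * N ≤ N ^ 10 * N ^ 90 := mul_le_mul_of_nonneg_left hN90 (by positivity)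
    nlinarith
  have h2 : 2 * N ^ 10 + 4 ≤ Y := by
    have h3 : N ^ 10 * 3 ≤ N ^ 10 * N ^ 90 := by
      apply mul_le_mul_of_nonneg_left _ (by positivity)
      have : (2 : ℝ) ^ 90 ≤ N ^ 90 := pow_le_pow_left₀ (by norm_num) hN 90
      norm_num at this ⊢
      linarith
    norm_num at hN10
    linarith
  have h4 : Real.exp (-4) ≤ 1 / 16 := by
    rw [Real.exp_neg, inv_le_comm₀ (Real.exp_pos _) (by norm_num)]
    have h8 : Real.exp 4 = Real.exp 1 * Real.exp 1 * (Real.exp 1 * Real.exp 1) := by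
      rw [← Real.exp_add, ← Real.exp_add]; norm_num
    have h9 := Real.exp_one_gt_d9
    have h10 : (4 : ℝ) ≤ Real.exp 1 * Real.exp 1 := by nlinarith
    rw [h8]
    nlinarith
  have h5 : (N + 2) * Real.exp ((1 - θ) * Y + 1) ≤ Real.exp Y * Real.exp (-4) := by
    have h6 : N + 2 ≤ Real.exp (N + 1) := by
      have := Real.add_one_le_exp (N + 1)
      linarith
    calc (N + 2) * Real.exp ((1 - θ) * Y + 1) ≤
        Real.exp (N + 1) * Real.exp ((1 - θ) * Y + 1) :=
          mul_le_mul_of_nonneg_right h6 (Real.exp_pos _).le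
      _ ≤ Real.exp Y * Real.exp (-4) := by
          rw [← Real.exp_add, ← Real.exp_add]
          apply Real.exp_le_exp.2
          nlinarith
  have h6 : Real.exp (2 * N ^ 10) ≤ Real.exp Y * Real.exp (-4) := by
    rw [← Real.exp_add]
    apply Real.exp_le_exp.2
    linarith
  have h7 := mul_le_mul_of_nonneg_left h4 (Real.exp_pos Y).le
  linarith

end SizeAux

open SizeAux

theorem TM_subset_TP (M k X : ℕ) (θ Y : ℝ) (hθ : 0 ≤ θ) (hY : 0 ≤ Y) :
    TM M k X θ Y ⊆ TP M k X θ Y := by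
  rintro ⟨l, ω⟩ h
  unfold TM at h
  unfold TP
  rw [mem_TT_iff (RM_finite hθ hY) (fun J t h hh => hh.1)] at h
  rw [mem_TT_iff (Gm.RP_finite θ Y) (fun J t h hh => hh.1)]
  obtain ⟨h1, h2, h3, h4⟩ := h
  exact ⟨h1, h2, h3, Gm.RM_sub_RP θ Y hθ hY _ _ h4⟩

theorem TM_size (K : ℕ) (hK : 1 ≤ K) : ∃ M₀ : ℕ, ∀ M ≥ M₀, ∀ Y : ℝ, Rgm K M Y → ∀ X : ℕ,
    ∀ T ∈ TM M (kk M) X (th M) Y, 1 ≤ val T ∧ (val T : ℝ) ≤ Real.exp (Real.exp Y / 8) := by
  refine ⟨2 ^ 100, fun M hM Y hY X => ?_⟩
  rintro ⟨l, ω⟩ hT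
  have hM2 : 2 ≤ M := by
    have : (2 : ℕ) ≤ 2 ^ 100 := by norm_num
    omega
  have hk1 : 1 ≤ kk M := one_le_kk hM2
  have hN2 : 2 ≤ Nf M := le_Nf hM
  have hN2' : (2 : ℝ) ≤ Nf M := by exact_mod_cast hN2
  have hM1 : (1 : ℝ) ≤ M := by exact_mod_cast (by omega : 1 ≤ M)
  have hMY : (M : ℝ) ≤ Y := by
    have h1 : (M : ℝ) ≤ (M : ℝ) ^ K := le_self_pow₀ hM1 (by omega)
    exact h1.trans hY.1
  have hNY : (Nf M : ℝ) ^ 100 ≤ Y := by
    have h1 : ((Nf M ^ 100 : ℕ) : ℝ) ≤ M := by exact_mod_cast Nf_pow_le M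
    push_cast at h1
    linarith
  have hY0 : 0 ≤ Y := by linarith
  have hθ0 : 0 ≤ th M := by
    unfold th
    positivity
  unfold TM at hT
  rw [mem_TT_iff (RM_finite hθ0 hY0) (fun J t h hh => hh.1)] at hT
  obtain ⟨⟨hω1, -, htail⟩, -, hgood, hRM⟩ := hT
  have hprime : ∀ q ∈ l, q.Prime := fun q hq => (hgood q hq).1
  constructor
  · unfold val
    exact Nat.mul_pos (pm_pos hprime) hω1
  · obtain ⟨-, hok, hhead, -⟩ := hRM
    have h1 := pm_le_exp hprime
    have h2 := tail_bound hk1 htail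
    have h3 := head_sum (K := (Nf M : ℝ)) (by positivity) l hok
    unfold val
    rw [Nat.cast_mul]
    calc (pm l : ℝ) * (ω : ℝ) ≤
        Real.exp ((l.map (fun q => Real.exp ((lv q : ℝ) + 1))).sum) *
        (Real.exp ((Nf M : ℝ) * Real.exp (((hl M (kk M) ω).headI : ℝ) + 1)) *
          Real.exp (Real.exp (2 * (Nf M : ℝ) ^ 10))) :=
          mul_le_mul h1 h2 (Nat.cast_nonneg _) (Real.exp_pos _).le
      _ = Real.exp (((l.map (fun q => Real.exp ((lv q : ℝ) + 1))).sum +
          (Nf M : ℝ) * Real.exp (((hl M (kk M) ω).headI : ℝ) + 1)) +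
            Real.exp (2 * (Nf M : ℝ) ^ 10)) := by
          rw [← Real.exp_add, ← Real.exp_add]
          congr 1
          ring
      _ ≤ Real.exp (Real.exp Y / 8) := by
          apply Real.exp_le_exp.2
          have h4 : ((Nf M : ℝ) + 2) * Real.exp (((l.map lv ++ hl M (kk M) ω).headI : ℝ) + 1) ≤
              ((Nf M : ℝ) + 2) * Real.exp ((1 - th M) * Y + 1) := by
            apply mul_le_mul_of_nonneg_left _ (by positivity)
            apply Real.exp_le_exp.2
            linarith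
          have h5 := num_ineq (θ := th M) hN2' hNY rfl
          linarith

end P031
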