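import Vale.Agent.P031.RgmDefs

/-! P031 [TSUM], part 1: sums over tuples. -/

namespace P031

open Finset
open scoped Classical

namespace TSumAux

/-- sum over lists of elements of cells -/
theorem sum_PLs (P : ℕ → Finset ℕ) (f : ℕ → ℝ) : ∀ h : List ℕ,
    ∑ l ∈ PLs P h, (l.map f).prod = (h.map fun c => ∑ q ∈ P c, f q).prod := by
  intro h
  induction h with
  | nil => simp [PLs]
  | cons c cs ih =>
    rw [PLs, Finset.sum_image, Finset.sum_product]
    · simp only [List.map_cons, List.prod_cons]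
      rw [← ih, Finset.sum_mul_sum]
    · rintro ⟨a, b⟩ _ ⟨a', b'⟩ _ hab
      simp only [List.cons.injEq] at hab
      exact Prod.ext hab.1 hab.2

theorem inv_pm {l : List ℕ} (hl : ∀ q ∈ l, q.Prime) :
    (1 : ℝ) / (pm l : ℝ) = (l.map fun q : ℕ => (1 : ℝ) / ((q : ℝ) - 1)).prod := by
  induction l with
  | nil => simp
  | cons a l ih =>
    rw [pm_cons, List.map_cons, List.prod_cons, ← ih fun q hq => hl q (List.mem_cons_of_mem _ hq)]
    have ha : 1 ≤ a := (hl a List.mem_cons_self).one_lt.le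
    push_cast [Nat.cast_sub ha]
    rw [one_div_mul_one_div]

/-- bounds for products of cell masses -/
theorem prod_bounds {S : ℕ → ℝ} {M : ℕ} {η : ℝ} (hη : 0 ≤ η) (hη1 : η ≤ 1)
    (hS : ∀ c ≥ M, |S c - 1| ≤ η) : ∀ h : List ℕ, (∀ c ∈ h, M ≤ c) →
    (1 - η) ^ h.length ≤ (h.map S).prod ∧ (h.map S).prod ≤ (1 + η) ^ h.length := by
  intro h
  induction h with
  | nil => intro _; simp
  | cons c cs ih =>
    intro hc
    obtain ⟨h1, h2⟩ := ih fun x hx => hc x (List.mem_cons_of_mem _ hx)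
    have h3 := abs_le.1 (hS c (hc c List.mem_cons_self))
    rw [List.map_cons, List.prod_cons, List.length_cons, pow_succ, pow_succ]
    have h4 : (0:ℝ) ≤ (1 - η) ^ cs.length := pow_nonneg (by linarith) _
    constructor
    · rw [mul_comm]
      exact mul_le_mul (by linarith) h1 h4 (by linarith)
    · rw [mul_comm]
      exact mul_le_mul h2 (by linarith) (by linarith) (by positivity)

/-- the head of the level list of a tail -/
theorem hl_head {M k ω : ℕ} (hk : 1 ≤ k) (hM : Nf M ^ 10 ≤ M) (h : Tail M k ω) :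
    M ≤ (hl M k ω).headI := by
  have hs := can_sorted hk h.mem
  have hne : ∃ q, q ∈ up k M ω := by
    have h1 := h.one
    rcases hu : up k M ω with _ | ⟨q, l⟩
    · rw [hu] at h1; simp at h1
    · exact ⟨q, List.mem_cons_self⟩
  obtain ⟨q, hq⟩ := hne
  unfold up at hq
  rw [List.mem_filter] at hq
  have hq2 : M ≤ lv q := by simpa using hq.2
  have hq3 : q ∈ up k (Nf M ^ 10) ω := by
    unfold up
    rw [List.mem_filter]
    exact ⟨hq.1, by simpa using hM.trans hq2⟩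
  have hs2 : (up k (Nf M ^ 10) ω).Pairwise (· ≥ ·) := by
    unfold up
    exact hs.filter _
  unfold hl
  rcases hu : up k (Nf M ^ 10) ω with _ | ⟨a, l⟩
  · rw [hu] at hq3
    exact absurd hq3 List.not_mem_nil
  · rw [hu] at hq3 hs2
    simp only [List.map_cons, List.headI_cons]
    rcases List.mem_cons.1 hq3 with rfl | h4
    · exact hq2
    · exact hq2.trans (lv_mono (List.rel_of_pairwise_cons hs2 h4))

/-- the sum over tuples, unfolded -/
theorem sum_TT {R : ℕ → List ℕ → Set (List ℕ)} (hfin : ∀ J t, (R J t).Finite)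
    (hlen : ∀ J t h, h ∈ R J t → h.length = J) (M k X Jm : ℕ) (f : List ℕ × ℕ → ℝ) :
    ∑ T ∈ TT R M k X Jm, f T = ∑ ω ∈ tails M k X, ∑ J ∈ range Jm,
      ∑ h ∈ fins (R J (hl M k ω)), ∑ l ∈ PLs (GP (Nf M)) h, f (l, ω) := by
  unfold TT
  rw [Finset.sum_biUnion]
  · refine Finset.sum_congr rfl fun ω _ => ?_
    rw [Finset.sum_biUnion]
    · refine Finset.sum_congr rfl fun J _ => ?_
      rw [Finset.sum_biUnion]
      · refine Finset.sum_congr rfl fun h _ => ?_
        rw [Finset.sum_image]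
        rintro l _ l' _ hll
        exact (Prod.mk.injEq _ _ _ _ ▸ hll).1
      · intro h _ h' _ hne
        rw [Function.onFun, Finset.disjoint_left]
        intro T hT hT'
        obtain ⟨l, hl, rfl⟩ := Finset.mem_image.1 hT
        obtain ⟨l', hl', he⟩ := Finset.mem_image.1 hT'
        have e : l' = l := congrArg Prod.fst he
        rw [mem_PLs_GP_iff] at hl hl'
        exact hne (by rw [← hl.2, ← hl'.2, e])
    · intro J _ J' _ hne
      rw [Function.onFun, Finset.disjoint_left]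
      intro T hT hT'
      obtain ⟨h, hh, hT⟩ := Finset.mem_biUnion.1 hT
      obtain ⟨h', hh', hT'⟩ := Finset.mem_biUnion.1 hT'
      obtain ⟨l, hl, rfl⟩ := Finset.mem_image.1 hT
      obtain ⟨l', hl', he⟩ := Finset.mem_image.1 hT'
      have e : l' = l := congrArg Prod.fst he
      rw [mem_PLs_GP_iff] at hl hl'
      rw [mem_fins (hfin _ _)] at hh hh'
      refine hne ?_
      rw [← hlen _ _ _ hh, ← hlen _ _ _ hh', ← hl.2, ← hl'.2, e]
  · intro ω _ ω' _ hne
    rw [Function.onFun, Finset.disjoint_left]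
    intro T hT hT'
    obtain ⟨J, _, hT⟩ := Finset.mem_biUnion.1 hT
    obtain ⟨h, _, hT⟩ := Finset.mem_biUnion.1 hT
    obtain ⟨l, _, rfl⟩ := Finset.mem_image.1 hT
    obtain ⟨J', _, hT'⟩ := Finset.mem_biUnion.1 hT'
    obtain ⟨h', _, hT'⟩ := Finset.mem_biUnion.1 hT'
    obtain ⟨l', _, he⟩ := Finset.mem_image.1 hT'
    exact hne (congrArg Prod.snd he).symm

theorem sum_Tl (M k X : ℕ) (g : List ℕ → ℝ) :
    ∑ t ∈ Tl M k X, Wt M k X t * g t = ∑ ω ∈ tails M k X, (1 : ℝ) / ω * g (hl M k ω) := by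
  unfold Tl Wt
  rw [← Finset.sum_fiberwise_of_maps_to (s := tails M k X) (t := (tails M k X).image (hl M k))
    (g := hl M k) (fun ω hω => Finset.mem_image_of_mem _ hω)]
  refine Finset.sum_congr rfl fun t _ => ?_
  rw [Finset.sum_mul]
  refine Finset.sum_congr rfl fun ω hω => ?_
  rw [(Finset.mem_filter.1 hω).2]

end TSumAux

open TSumAux

theorem tt_sum {R : ℕ → List ℕ → Set (List ℕ)} (hfin : ∀ J t, (R J t).Finite)
    (hlen : ∀ J t h, h ∈ R J t → h.length = J) (M k X Jm : ℕ) (hk : 1 ≤ k)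
    (hent : ∀ J t h, h ∈ R J t → M ≤ t.headI → ∀ c ∈ h, M ≤ c) (η : ℝ) (hη : 0 ≤ η) (hη1 : η ≤ 1)
    (hm : ∀ c ≥ M, |∑ q ∈ GP (Nf M) c, (1 : ℝ) / ((q : ℝ) - 1) - 1| ≤ η)
    (hM : Nf M ^ 10 ≤ M) :
    ∑ J ∈ range Jm, ∑ t ∈ Tl M k X, Wt M k X t * ((1 - η) ^ J * ((R J t).ncard : ℝ)) ≤
      ∑ T ∈ TT R M k X Jm, (1 : ℝ) / (val T) ∧
    ∑ T ∈ TT R M k X Jm, (1 : ℝ) / (val T) ≤
      ∑ J ∈ range Jm, ∑ t ∈ Tl M k X, Wt M k X t * ((1 + η) ^ J * ((R J t).ncard : ℝ)) := by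
  have hcell : ∀ ω ∈ tails M k X, ∀ J ∈ range Jm, ∀ h ∈ fins (R J (hl M k ω)),
      (1 : ℝ) / ω * (1 - η) ^ J ≤ ∑ l ∈ PLs (GP (Nf M)) h, (1 : ℝ) / (val (l, ω)) ∧
      ∑ l ∈ PLs (GP (Nf M)) h, (1 : ℝ) / (val (l, ω)) ≤ (1 : ℝ) / ω * (1 + η) ^ J := by
    intro ω hω J _ h hh
    rw [mem_fins (hfin _ _)] at hh
    have hT : Tail M k ω := (Finset.mem_filter.1 hω).2
    have hc := hent _ _ _ hh (hl_head hk hM hT)
    obtain ⟨h1, h2⟩ := prod_bounds hη hη1 hm h hc
    rw [hlen _ _ _ hh] at h1 h2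
    have e : ∑ l ∈ PLs (GP (Nf M)) h, (1 : ℝ) / (val (l, ω)) = (1 : ℝ) / ω *
        (h.map fun c => ∑ q ∈ GP (Nf M) c, (1 : ℝ) / ((q : ℝ) - 1)).prod := by
      rw [← sum_PLs, Finset.mul_sum]
      refine Finset.sum_congr rfl fun l hl => ?_
      rw [mem_PLs_GP_iff] at hl
      rw [← inv_pm fun q hq => (hl.1 q hq).1]
      unfold val
      push_cast
      rw [one_div_mul_one_div, mul_comm]
    have hω0 : (0:ℝ) ≤ 1 / ω := by positivity
    rw [e]
    exact ⟨mul_le_mul_of_nonneg_left h1 hω0, mul_le_mul_of_nonneg_left h2 hω0⟩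
  rw [sum_TT hfin hlen]
  constructor
  · have e : ∑ J ∈ range Jm, ∑ t ∈ Tl M k X, Wt M k X t * ((1 - η) ^ J * ((R J t).ncard : ℝ)) =
        ∑ ω ∈ tails M k X, ∑ J ∈ range Jm, ∑ h ∈ fins (R J (hl M k ω)),
          (1 : ℝ) / ω * (1 - η) ^ J := by
      rw [Finset.sum_comm]
      rw [Finset.sum_comm]
      simp only [sum_Tl M k X]
      rw [Finset.sum_comm]
      refine Finset.sum_congr rfl fun ω _ => Finset.sum_congr rfl fun J _ => ?_
      rw [Finset.sum_const, card_fins, nsmul_eq_mul]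
      ring
    rw [e]
    exact Finset.sum_le_sum fun ω hω => Finset.sum_le_sum fun J hJ => Finset.sum_le_sum
      fun h hh => (hcell ω hω J hJ h hh).1
  · have e : ∑ J ∈ range Jm, ∑ t ∈ Tl M k X, Wt M k X t * ((1 + η) ^ J * ((R J t).ncard : ℝ)) =
        ∑ ω ∈ tails M k X, ∑ J ∈ range Jm, ∑ h ∈ fins (R J (hl M k ω)),
          (1 : ℝ) / ω * (1 + η) ^ J := by
      simp only [sum_Tl M k X]
      rw [Finset.sum_comm]
      refine Finset.sum_congr rfl fun ω _ => Finset.sum_congr rfl fun J _ => ?_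
      rw [Finset.sum_const, card_fins, nsmul_eq_mul]
      ring
    rw [e]
    exact Finset.sum_le_sum fun ω hω => Finset.sum_le_sum fun J hJ => Finset.sum_le_sum
      fun h hh => (hcell ω hω J hJ h hh).2

namespace TSumAux

theorem RP_len {θ Y : ℝ} (J : ℕ) (t h : List ℕ) (hh : h ∈ RP θ Y J t) : h.length = J := hh.1

theorem RM_len {θ Y : ℝ} (J : ℕ) (t h : List ℕ) (hh : h ∈ RM θ Y J t) : h.length = J := hh.1

theorem okP_ent {θ : ℝ} {M : ℕ} {t : List ℕ} (ht : M ≤ t.headI) : ∀ h : List ℕ, okP θ t h →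
    M ≤ (h ++ t).headI ∧ ∀ c ∈ h, M ≤ c := by
  intro h
  induction h with
  | nil => intro _; exact ⟨by simpa using ht, by simp⟩
  | cons c l ih =>
    intro hok
    obtain ⟨h1, h2, h3⟩ := hok
    obtain ⟨h4, h5⟩ := ih h3
    have hc : M ≤ c := h4.trans h2
    refine ⟨by simpa using hc, ?_⟩
    intro x hx
    rcases List.mem_cons.1 hx with rfl | hx
    · exact hc
    · exact h5 x hx

theorem okM_ent {θ : ℝ} {M : ℕ} {t : List ℕ} (ht : M ≤ t.headI) : ∀ h : List ℕ, okM θ t h →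
    M ≤ (h ++ t).headI ∧ ∀ c ∈ h, M ≤ c := by
  intro h
  induction h with
  | nil => intro _; exact ⟨by simpa using ht, by simp⟩
  | cons c l ih =>
    intro hok
    obtain ⟨h1, h2, h3⟩ := hok
    obtain ⟨h4, h5⟩ := ih h3
    have hc : M ≤ c := by omega
    refine ⟨by simpa using hc, ?_⟩
    intro x hx
    rcases List.mem_cons.1 hx with rfl | hx
    · exact hc
    · exact h5 x hx

end TSumAux

end P031
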