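import Vale.Agent.P031.RgmDefs
import Vale.Agent.P031.Normal
import Vale.Agent.P031.CollGen
import Vale.Agent.P031.Cheb
import Vale.Agent.P031.GeomMin
import Vale.Agent.P031.Num
import Vale.Agent.P031.Size
import Vale.Agent.P031.TSumA
import Vale.Agent.P031.TmReg
import Vale.Agent.P031.CollMain
import Vale.Agent.P031.Nc

/-! P031, [LOWC]: lower bound for the number of elements of `SS k`. -/

namespace P031
namespace LowAux

open Finset Filter Topology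
open scoped Classical

lemma okM_entries {θ : ℝ} {t : List ℕ} {M : ℕ} (hM : M ≤ t.headI) :
    ∀ {l : List ℕ}, okM θ t l → ∀ c ∈ l, M ≤ c := by
  intro l
  induction l with
  | nil => simp
  | cons a l ih =>
    intro h c hc
    obtain ⟨h1, h2, h3⟩ := h
    have ih' := ih h3
    have ha : M ≤ a := by
      have : M ≤ (l ++ t).headI := by
        cases l with
        | nil => simpa using hM
        | cons b l' => simpa using ih' b (by simp)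
      omega
    rw [List.mem_cons] at hc
    rcases hc with rfl | hc
    · exact ha
    · exact ih' c hc

lemma tm_facts {M k X : ℕ} {θ Y : ℝ} (hθ : 0 ≤ θ) (hY : 0 ≤ Y) {l : List ℕ} {ω : ℕ}
    (h : (l, ω) ∈ TM M k X θ Y) : Tail M k ω ∧ 1 ≤ ω ∧ ω ≤ X ∧ (∀ q ∈ l, Good (Nf M) q) ∧
      okM θ (hl M k ω) (l.map lv) ∧ ((l.map lv ++ hl M k ω).headI : ℝ) ≤ (1 - θ) * Y ∧
      al 1 (l.map lv ++ hl M k ω) ≤ (1 - θ) * Y := by
  unfold TM at h
  rw [mem_TT_iff (fun J t => (Gm.RP_finite θ Y J t).subset (Gm.RM_sub_RP θ Y hθ hY J t))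
    (fun J t h hh => hh.1)] at h
  obtain ⟨⟨h1, h2, h3⟩, h4, h5, h6⟩ := h
  exact ⟨h3, h1, h2, h5, h6.2.1, h6.2.2.1, h6.2.2.2⟩

lemma head_le {M k ω : ℕ} (hk : 1 ≤ k) (hM : Nf M ^ 10 ≤ M) (h : Tail M k ω) (_h1 : 1 ≤ ω) :
    M ≤ (hl M k ω).headI := TSumAux.hl_head hk hM h

lemma heads_ge {M k X : ℕ} {θ Y : ℝ} (hk : 1 ≤ k) (hM : Nf M ^ 10 ≤ M) (hθ : 0 ≤ θ) (hY : 0 ≤ Y)
    {l : List ℕ} {ω : ℕ} (h : (l, ω) ∈ TM M k X θ Y) : ∀ q ∈ l, q.Prime ∧ M ≤ lv q := by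
  obtain ⟨h1, h2, -, h3, h4, -, -⟩ := tm_facts hθ hY h
  intro q hq
  exact ⟨(h3 q hq).1, okM_entries (head_le hk hM h1 h2) h4 _ (List.mem_map_of_mem hq)⟩

lemma val_mem {M k X : ℕ} {θ Y : ℝ} (hk : 1 ≤ k) (hkM : k ≤ M) (hM : Nf M ^ 10 ≤ M) (hθ : 0 ≤ θ)
    (hY : 0 ≤ Y) {T : List ℕ × ℕ} (h : T ∈ TM M k X θ Y) : val T ∈ SS k := by
  obtain ⟨l, ω⟩ := T
  obtain ⟨h1, h2, -, h3, h4, -, -⟩ := tm_facts hθ hY h
  exact mem_SS_pm (fun q hq => ⟨(heads_ge hk hM hθ hY h q hq).1,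
    hkM.trans (heads_ge hk hM hθ hY h q hq).2⟩) h1.mem

lemma tuple_inj {M k ω ω' : ℕ} {l l' : List ℕ} (hl : ∀ q ∈ l, q.Prime ∧ M ≤ lv q)
    (hl' : ∀ q ∈ l', q.Prime ∧ M ≤ lv q) (h1 : Tail M k ω) (h1' : Tail M k ω')
    (h : l ++ can k ω = l' ++ can k ω') (hv : pm l * ω = pm l' * ω') : l = l' ∧ ω = ω' := by
  have hlen : ∀ (l : List ℕ) (ω : ℕ), (∀ q ∈ l, q.Prime ∧ M ≤ lv q) → Tail M k ω →
      ((l ++ can k ω).filter (fun q => decide (M ≤ lv q))).length = l.length + 1 := by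
    intro l ω hl h1
    rw [List.filter_append, List.length_append]
    have e1 : l.filter (fun q => decide (M ≤ lv q)) = l := by
      rw [List.filter_eq_self]
      intro q hq
      simpa using (hl q hq).2
    rw [e1]
    congr 1
    exact h1.one
  have e := hlen l ω hl h1
  rw [h, hlen l' ω' hl' h1'] at e
  have e2 : l.length = l'.length := by omega
  have e3 := (List.append_inj h e2).1
  subst e3
  refine ⟨rfl, ?_⟩
  have hp : 0 < pm l := pm_pos (fun q hq => (hl q hq).1)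
  exact Nat.eq_of_mul_eq_mul_left hp hv

/-- the good pairs give distinct elements of `SS k`. -/
lemma good_card {M k X : ℕ} {θ Y t : ℝ} (hk : 1 ≤ k) (hkM : k ≤ M) (hM : Nf M ^ 10 ≤ M)
    (hθ : 0 ≤ θ) (hY : 0 ≤ Y) (ht : 0 < t)
    (G : Finset (Σ _ : List ℕ × ℕ, ℕ))
    (hG : ∀ p ∈ G, p.1 ∈ TM M k X θ Y ∧ p.2 ∈ Nat.primesLE ⌊t / val p.1⌋₊ ∧ k ≤ lv p.2 ∧
      Canon k p.1 ∧ can k ((p.2 - 1) * val p.1) = p.2 :: can k (val p.1)) :
    G.card ≤ ((Icc 1 ⌊t⌋₊).filter (fun v => v ∈ SS k)).card := by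
  refine Finset.card_le_card_of_injOn (fun p => (p.2 - 1) * val p.1) ?_ ?_
  · intro p hp
    obtain ⟨h1, h2, h3, h4, h5⟩ := hG p hp
    rw [Nat.mem_primesLE] at h2
    have hv := val_mem hk hkM hM hθ hY h1
    have hv0 := SS_pos hv
    have hmem := SS_mul h2.2 h3 hv
    refine Finset.mem_coe.2 (Finset.mem_filter.2 ⟨Finset.mem_Icc.2 ⟨SS_pos hmem, ?_⟩, hmem⟩)
    apply Nat.le_floor
    have h6 : (p.2 : ℝ) ≤ t / val p.1 := (Nat.le_floor_iff (by positivity)).1 h2.1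
    have hv0' : (0 : ℝ) < val p.1 := by exact_mod_cast hv0
    rw [le_div_iff₀ hv0'] at h6
    have h7 : (((p.2 - 1) * val p.1 : ℕ) : ℝ) ≤ ((p.2 * val p.1 : ℕ) : ℝ) := by
      exact_mod_cast Nat.mul_le_mul_right _ (Nat.sub_le _ _)
    push_cast at h7
    push_cast
    linarith
  · intro p hp p' hp' h
    obtain ⟨h1, h2, h3, h4, h5⟩ := hG p hp
    obtain ⟨h1', h2', h3', h4', h5'⟩ := hG p' hp'
    simp only at h
    rw [h, h5'] at h5
    obtain ⟨e1, e2⟩ := List.cons.inj h5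
    obtain ⟨⟨l, ω⟩, q⟩ := p
    obtain ⟨⟨l', ω'⟩, q'⟩ := p'
    simp only at e1 e2 h h2 h4 h4' h1 h1'
    subst e1
    have h20 := (Nat.mem_primesLE.1 h2).2.two_le
    have hv : val (l, ω) = val (l', ω') := Nat.eq_of_mul_eq_mul_left (by omega) h
    unfold Canon at h4 h4'
    rw [h4, h4'] at e2
    simp only at e2
    obtain ⟨i1, i2⟩ := tuple_inj (heads_ge hk hM hθ hY h1) (heads_ge hk hM hθ hY h1')
      (tm_facts hθ hY h1).1 (tm_facts hθ hY h1').1 e2.symm hv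
    subst i1 i2
    rfl

/-- levels of the primes between `√t` and `t`. -/
lemma level_window {Y t : ℝ} (hY : 3 ≤ Y) (hlow : Real.exp (Real.exp Y) ≤ t)
    (hhigh : Real.log (Real.log (t + 1)) ≤ Y + 1) {q : ℕ} (hq : 2 ≤ q) (h1 : t < (q : ℝ) ^ 2)
    (h2 : (q : ℝ) ≤ t) : lv q ∈ Icc (⌊Y⌋₊ - 1) (⌊Y⌋₊ + 1) := by
  have hE : (1 : ℝ) < Real.exp Y := Real.one_lt_exp_iff.2 (by linarith)
  have ht0 : 0 < t := lt_of_lt_of_le (Real.exp_pos _) hlow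
  have ht1 : 1 < t := lt_of_lt_of_le (Real.one_lt_exp_iff.2 (Real.exp_pos _)) hlow
  have hlt : Real.exp Y ≤ Real.log t := by rwa [Real.le_log_iff_exp_le ht0]
  have hllt : Y ≤ Real.log (Real.log t) := by
    rwa [Real.le_log_iff_exp_le (by linarith)]
  have hq0 : (0 : ℝ) < q := by positivity
  have hlq : Real.log t / 2 ≤ Real.log q := by
    have := Real.log_le_log ht0 h1.le
    rw [Real.log_pow] at this
    push_cast at this
    linarith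
  have hlq0 : 0 < Real.log q := by linarith
  have hlog2 := Real.log_two_lt_d9
  have hllq : Y - 1 ≤ Real.log (Real.log q) := by
    have h3 := Real.log_le_log (by linarith) hlq
    rw [Real.log_div (by linarith) (by norm_num)] at h3
    linarith
  have hllq2 : Real.log (Real.log q) ≤ Y + 1 := by
    refine le_trans (Real.log_le_log hlq0 ?_) hhigh
    exact Real.log_le_log hq0 (by linarith)
  rw [Finset.mem_Icc]
  unfold lv
  constructor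
  · apply Nat.le_floor
    have h3 : ((⌊Y⌋₊ - 1 : ℕ) : ℝ) = (⌊Y⌋₊ : ℝ) - 1 := by
      rw [Nat.cast_sub]
      · simp
      · exact Nat.le_floor (by push_cast; linarith)
    rw [h3]
    have := Nat.floor_le (show 0 ≤ Y by linarith)
    linarith
  · have h3 : Real.log (Real.log q) < ⌊Y⌋₊ + 1 + 1 := by
      have := Nat.lt_floor_add_one Y
      linarith
    have h4 : ⌊Real.log (Real.log q)⌋₊ < ⌊Y⌋₊ + 1 + 1 := by
      rw [Nat.floor_lt (by linarith)]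
      push_cast
      exact h3
    omega

/-- regime facts for a value `u` with `u ^ 8 ≤ t`. -/
lemma quot_facts {Y t u : ℝ} (hY : 3 ≤ Y) (hlow : Real.exp (Real.exp Y) ≤ t)
    (hhigh : Real.log (Real.log (t + 1)) ≤ Y + 1) (hu1 : 1 ≤ u) (hu : u ^ 8 ≤ t) :
    16 ≤ t / u ∧ 7 / 8 * Real.log t ≤ Real.log (t / u) ∧ Real.log (t / u) ≤ Real.log t ∧
      Y - 1 ≤ Real.log (Real.log (t / u)) ∧ Real.log (Real.log (t / u)) ≤ Y + 1 ∧ t / u ≤ t := by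
  have ht0 : 0 < t := lt_of_lt_of_le (Real.exp_pos _) hlow
  have hlt : Real.exp Y ≤ Real.log t := by rwa [Real.le_log_iff_exp_le ht0]
  have hE : (4 : ℝ) ≤ Real.exp Y := by
    have := Real.add_one_le_exp Y
    linarith
  have hllt : Y ≤ Real.log (Real.log t) := by
    rwa [Real.le_log_iff_exp_le (by linarith)]
  have hu0 : 0 < u := by linarith
  have hlu : 8 * Real.log u ≤ Real.log t := by
    have := Real.log_le_log (by positivity) hu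
    rw [Real.log_pow] at this
    push_cast at this
    exact this
  have hlu0 : 0 ≤ Real.log u := Real.log_nonneg hu1
  have e : Real.log (t / u) = Real.log t - Real.log u := Real.log_div ht0.ne' hu0.ne'
  have h1 : 7 / 8 * Real.log t ≤ Real.log (t / u) := by rw [e]; linarith
  have h2 : Real.log (t / u) ≤ Real.log t := by rw [e]; linarith
  have h78 : -1 ≤ Real.log (7 / 8) := by
    rw [Real.le_log_iff_exp_le (by norm_num), Real.exp_neg, inv_le_comm₀ (Real.exp_pos _) (by norm_num)]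
    have := Real.exp_one_gt_d9
    norm_num
    linarith
  have htu : t / u ≤ t := div_le_self ht0.le hu1
  have htu0 : 0 < t / u := by positivity
  refine ⟨?_, h1, h2, ?_, ?_, htu⟩
  · have h3 : Real.exp 3 ≤ t / u := by
      rw [← Real.le_log_iff_exp_le htu0]
      linarith
    have h8 : Real.exp 3 = Real.exp 1 * Real.exp 1 * Real.exp 1 := by
      rw [← Real.exp_add, ← Real.exp_add]; norm_num
    have h9 := Real.exp_one_gt_d9
    have h10 : (7.3 : ℝ) ≤ Real.exp 1 * Real.exp 1 := by nlinarith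
    rw [h8] at h3
    nlinarith
  · have h3 := Real.log_le_log (by linarith) h1
    rw [Real.log_mul (by norm_num) (by linarith)] at h3
    linarith
  · refine le_trans (Real.log_le_log (by linarith) ?_) hhigh
    exact Real.log_le_log htu0 (by linarith)

/-- at most `√t` primes with `q² ≤ t`. -/
lemma small_card {t : ℝ} (S : Finset ℕ) (hS : ∀ q ∈ S, 1 ≤ q) :
    ((S.filter (fun q : ℕ => (q : ℝ) ^ 2 ≤ t)).card : ℝ) ≤ Real.sqrt t := by
  have h1 : S.filter (fun q : ℕ => (q : ℝ) ^ 2 ≤ t) ⊆ Icc 1 ⌊Real.sqrt t⌋₊ := by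
    intro q hq
    obtain ⟨h1, h2⟩ := Finset.mem_filter.1 hq
    exact Finset.mem_Icc.2 ⟨hS q h1, Nat.le_floor (Real.le_sqrt_of_sq_le h2)⟩
  calc ((S.filter (fun q : ℕ => (q : ℝ) ^ 2 ≤ t)).card : ℝ) ≤ ((Icc 1 ⌊Real.sqrt t⌋₊).card : ℝ) := by
        exact_mod_cast Finset.card_le_card h1
    _ = (⌊Real.sqrt t⌋₊ : ℝ) := by simp
    _ ≤ Real.sqrt t := Nat.floor_le (Real.sqrt_nonneg _)

/-- shape of `nonnormal_count`. -/
def NNC (N₀ : ℕ) : Prop := ∀ N ≥ N₀, ∀ t : ℝ, 16 ≤ t →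
    (N : ℝ) ^ 10 ≤ Real.log (Real.log t) → Real.log (Real.log t) ≤ 3 * (N : ℝ) ^ 100 →
    (((Nat.primesLE ⌊t⌋₊).filter (fun q => N ^ 10 ≤ lv q ∧ ¬ Normal N q)).card : ℝ) ≤
      t / Real.log t * Real.exp (-(N : ℝ) ^ 16)

lemma card_three (n : ℕ) : ((Icc (n - 1) (n + 1)).card : ℝ) ≤ 3 := by
  rw [Nat.card_Icc]
  have : n + 1 + 1 - (n - 1) ≤ 3 := by omega
  exact_mod_cast this

/-- non-normal top primes over a fixed tuple -/
lemma nonnormal_fibre {N₀ M : ℕ} (hnn : NNC N₀) (hm : N₀ ≤ Nf M) (hm2 : 2 ≤ Nf M)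
    (hpow : ∀ c ≥ M, c + 4 ≤ 2 * (Nf c) ^ 100) {Y t u : ℝ} (hYM : (M : ℝ) + 3 ≤ Y) (hY : 3 ≤ Y)
    (hlow : Real.exp (Real.exp Y) ≤ t)
    (hhigh : Real.log (Real.log (t + 1)) ≤ Y + 1) (hu1 : 1 ≤ u) (hu : u ^ 8 ≤ t) :
    (((Nat.primesLE ⌊t / u⌋₊).filter (fun q : ℕ => t < (q : ℝ) ^ 2 ∧ ¬ Normal (Nf (lv q)) q)).card : ℝ)
      ≤ 4 * (t / u / Real.log t) * Real.exp (-(Nf M : ℝ)) := by
  obtain ⟨h16, hl1, hl2, hll1, hll2, htu⟩ := quot_facts hY hlow hhigh hu1 hu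
  have ht0 : 0 < t := lt_of_lt_of_le (Real.exp_pos _) hlow
  have htu0 : 0 < t / u := by linarith
  have hlt : 0 < Real.log t := Real.log_pos (lt_of_lt_of_le (Real.one_lt_exp_iff.2 (Real.exp_pos _)) hlow)
  have hYf : (M : ℕ) + 3 ≤ ⌊Y⌋₊ := Nat.le_floor (by push_cast; exact hYM)
  have hsub : (Nat.primesLE ⌊t / u⌋₊).filter (fun q : ℕ => t < (q : ℝ) ^ 2 ∧ ¬ Normal (Nf (lv q)) q) ⊆
      (Icc (⌊Y⌋₊ - 1) (⌊Y⌋₊ + 1)).biUnion (fun c => (Nat.primesLE ⌊t / u⌋₊).filter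
        (fun q : ℕ => (Nf c) ^ 10 ≤ lv q ∧ ¬ Normal (Nf c) q)) := by
    intro q hq
    obtain ⟨h1, h2, h3⟩ := Finset.mem_filter.1 hq
    have h4 := Nat.mem_primesLE.1 h1
    have h5 : (q : ℝ) ≤ t / u := (Nat.le_floor_iff htu0.le).1 h4.1
    have h6 := level_window hY hlow hhigh h4.2.two_le h2 (h5.trans htu)
    refine Finset.mem_biUnion.2 ⟨lv q, h6, Finset.mem_filter.2 ⟨h1, ?_, h3⟩⟩
    have h7 := Nf_pow_le (lv q)
    have h8 : Nf M ≤ Nf (lv q) := Nf_mono (by rw [Finset.mem_Icc] at h6; omega)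
    exact (Nat.pow_le_pow_right (by omega) (by norm_num)).trans h7
  have hfib : ∀ c ∈ Icc (⌊Y⌋₊ - 1) (⌊Y⌋₊ + 1), (((Nat.primesLE ⌊t / u⌋₊).filter
        (fun q : ℕ => (Nf c) ^ 10 ≤ lv q ∧ ¬ Normal (Nf c) q)).card : ℝ) ≤
        8 / 7 * (t / u / Real.log t) * Real.exp (-(Nf M : ℝ)) := by
    intro c hc
    rw [Finset.mem_Icc] at hc
    have hcM : M ≤ c := by omega
    have hNc : Nf M ≤ Nf c := Nf_mono hcM
    have hNc1 : (1 : ℝ) ≤ (Nf c : ℝ) := by exact_mod_cast (by omega : 1 ≤ Nf c)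
    have hp1 := Nf_pow_le c
    have hp2 := hpow c hcM
    have hp1' : ((Nf c : ℝ)) ^ 100 ≤ c := by exact_mod_cast hp1
    have hp2' : (c : ℝ) + 4 ≤ 2 * (Nf c : ℝ) ^ 100 := by exact_mod_cast hp2
    have hcY : (c : ℝ) ≤ Y + 1 := by
      have h1 : (c : ℝ) ≤ (⌊Y⌋₊ : ℝ) + 1 := by exact_mod_cast hc.2
      have := Nat.floor_le (show 0 ≤ Y by linarith)
      linarith
    have hcY2 : Y ≤ (c : ℝ) + 2 := by
      have h1 : ⌊Y⌋₊ ≤ c + 1 := by omega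
      have h2 : (⌊Y⌋₊ : ℝ) ≤ (c : ℝ) + 1 := by exact_mod_cast h1
      have := Nat.lt_floor_add_one Y
      linarith
    have hb1 : (Nf c : ℝ) ^ 10 ≤ Real.log (Real.log (t / u)) := by
      have h20 : (2 : ℝ) ≤ (Nf c : ℝ) := by exact_mod_cast (by omega : 2 ≤ Nf c)
      have h9 : (Nf c : ℝ) ^ 10 + 4 ≤ (Nf c : ℝ) ^ 100 := by
        have e1 : (Nf c : ℝ) ^ 100 = (Nf c : ℝ) ^ 90 * (Nf c : ℝ) ^ 10 := by ring
        have e2 : (2 : ℝ) ^ 90 ≤ (Nf c : ℝ) ^ 90 := pow_le_pow_left₀ (by norm_num) h20 90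
        have e3 : (1 : ℝ) ≤ (Nf c : ℝ) ^ 10 := one_le_pow₀ hNc1
        rw [e1]
        nlinarith
      linarith
    have hb2 : Real.log (Real.log (t / u)) ≤ 3 * (Nf c : ℝ) ^ 100 := by
      have : (0 : ℝ) ≤ (Nf c : ℝ) ^ 100 := by positivity
      linarith
    have h10 := hnn (Nf c) (hm.trans hNc) (t / u) h16 hb1 hb2
    refine h10.trans ?_
    have h11 : t / u / Real.log (t / u) ≤ 8 / 7 * (t / u / Real.log t) := by
      rw [div_le_iff₀ (by linarith)]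
      have e1 : t / u = (t / u / Real.log t) * Real.log t := by field_simp
      have e2 : 0 ≤ t / u / Real.log t := by positivity
      calc t / u = 8 / 7 * (t / u / Real.log t) * (7 / 8 * Real.log t) := by
            rw [← mul_assoc]; field_simp
        _ ≤ _ := by gcongr
    have h12 : Real.exp (-(Nf c : ℝ) ^ 16) ≤ Real.exp (-(Nf M : ℝ)) := by
      apply Real.exp_le_exp.2
      have e1 : (Nf M : ℝ) ≤ Nf c := by exact_mod_cast hNc
      have e2 : (Nf c : ℝ) ^ 1 ≤ (Nf c : ℝ) ^ 16 := pow_le_pow_right₀ hNc1 (by norm_num)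
      rw [pow_one] at e2
      linarith
    gcongr
  have h1 : (((Nat.primesLE ⌊t / u⌋₊).filter
      (fun q : ℕ => t < (q : ℝ) ^ 2 ∧ ¬ Normal (Nf (lv q)) q)).card : ℝ) ≤
      ∑ c ∈ Icc (⌊Y⌋₊ - 1) (⌊Y⌋₊ + 1), (((Nat.primesLE ⌊t / u⌋₊).filter
        (fun q : ℕ => (Nf c) ^ 10 ≤ lv q ∧ ¬ Normal (Nf c) q)).card : ℝ) := by
    have := (Finset.card_le_card hsub).trans Finset.card_biUnion_le
    exact_mod_cast this
  refine h1.trans ((Finset.sum_le_sum hfib).trans ?_)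
  rw [Finset.sum_const, nsmul_eq_mul]
  have h3 := card_three ⌊Y⌋₊
  have h4 : 0 ≤ (t / u / Real.log t) * Real.exp (-(Nf M : ℝ)) := by positivity
  calc ((Icc (⌊Y⌋₊ - 1) (⌊Y⌋₊ + 1)).card : ℝ) * (8 / 7 * (t / u / Real.log t) * Real.exp (-(Nf M : ℝ)))
      ≤ 3 * (8 / 7 * (t / u / Real.log t) * Real.exp (-(Nf M : ℝ))) := by gcongr
    _ ≤ 4 * (t / u / Real.log t) * Real.exp (-(Nf M : ℝ)) := by nlinarith

lemma kk_le {M : ℕ} (hm : 2 ≤ Nf M) : kk M ≤ Nf M ^ 10 := by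
  by_contra h
  push Not at h
  have hM0 : M ≠ 0 := by
    rintro rfl
    have := Nf_pow_le 0
    have h2 : 1 ≤ Nf 0 ^ 100 := Nat.one_le_pow _ _ (by omega)
    omega
  have h1 : 2 ^ (kk M) ≤ M := Nat.pow_log_le_self 2 hM0
  have h2 := lt_Nf_succ M
  have h3 : Nf M + 1 ≤ 2 ^ (Nf M) := Nat.lt_two_pow_self
  have h4 : (Nf M + 1) ^ 100 ≤ 2 ^ (Nf M * 100) := by
    rw [pow_mul]; exact Nat.pow_le_pow_left h3 100
  have h5 : Nf M * 100 ≤ Nf M ^ 10 := by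
    have e1 : Nf M ^ 10 = Nf M * Nf M ^ 9 := by ring
    have e2 : 2 ^ 9 ≤ Nf M ^ 9 := Nat.pow_le_pow_left hm 9
    rw [e1]
    apply Nat.mul_le_mul_left
    omega
  have h6 : 2 ^ (Nf M * 100) ≤ 2 ^ (kk M) := Nat.pow_le_pow_right (by norm_num) (by omega)
  omega

lemma Nf_ten_le {M : ℕ} (hm : 2 ≤ Nf M) : Nf M ^ 10 ≤ M :=
  (Nat.pow_le_pow_right (by omega) (by norm_num)).trans (Nf_pow_le M)

lemma one_le_kk {M : ℕ} (hM : 2 ≤ M) : 1 ≤ kk M := Nat.log_pos (by norm_num) hM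

/-- shape of `tm_reg` at `M`. -/
def TMR (M : ℕ) : Prop := ∀ (ω : ℕ) (l : List ℕ) (c : ℕ), Tail M (kk M) ω →
    (∀ q ∈ l, Good (Nf M) q) → okM (th M) (hl M (kk M) ω) (l.map lv) →
    can (kk M) (pm l * ω) = l ++ can (kk M) ω → M ≤ c →
    (l.map lv ++ hl M (kk M) ω).headI + 2 ≤ c →
    al 1 (l.map lv ++ hl M (kk M) ω) ≤ (1 - th M / 2) * c →
    (∀ r ∈ can (kk M) (pm l * ω), lv r + 2 ≤ c) ∧
    (∀ r ∈ up (kk M) ((Nf c) ^ 10) (pm l * ω), Normal (Nf c) r) ∧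
    (up (kk M) ((Nf c) ^ 10) (pm l * ω)).length ≤ Nf c ∧
    al 1 ((up (kk M) ((Nf c) ^ 10) (pm l * ω)).map lv) + (Nf c : ℝ) ^ 90 ≤ c ∧
    (lowp (kk M) ((Nf c) ^ 10) (pm l * ω) : ℝ) ≤ Real.exp (Real.exp (2 * (Nf c : ℝ) ^ 10))

lemma th_facts {M : ℕ} (hm : 2 ≤ Nf M) {Y : ℝ} (hYM : (M : ℝ) ≤ Y) :
    0 ≤ th M ∧ th M ≤ 1 ∧ 4 ≤ th M * Y := by
  have h2 : (2 : ℝ) ≤ Nf M := by exact_mod_cast hm
  have h10 : (4 : ℝ) ≤ (Nf M : ℝ) ^ 10 := by
    have := pow_le_pow_left₀ (by norm_num) h2 10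
    norm_num at this
    linarith
  have h100 : (Nf M : ℝ) ^ 100 ≤ M := by exact_mod_cast Nf_pow_le M
  have hp : (Nf M : ℝ) ^ 10 ≤ Y := by
    have : (Nf M : ℝ) ^ 10 ≤ (Nf M : ℝ) ^ 100 := pow_le_pow_right₀ (by linarith) (by norm_num)
    linarith
  unfold th
  refine ⟨by positivity, ?_, ?_⟩
  · rw [div_le_one (by positivity)]; exact h10
  · rw [div_mul_eq_mul_div, le_div_iff₀ (by positivity)]
    linarith

lemma coll_fact {M X : ℕ} {Y : ℝ} (hreg : TMR M) (hm : 2 ≤ Nf M) (hYM : (M : ℝ) + 3 ≤ Y)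
    {T : List ℕ × ℕ} (hT : T ∈ TM M (kk M) X (th M) Y) (hcan : Canon (kk M) T) {q : ℕ}
    (hw : lv q ∈ Icc (⌊Y⌋₊ - 1) (⌊Y⌋₊ + 1)) (hq : Normal (Nf (lv q)) q)
    (hne : can (kk M) ((q - 1) * val T) ≠ q :: can (kk M) (val T)) :
    Coll (Nf (lv q)) (lv q) q ((q - 1) * val T) := by
  obtain ⟨hθ0, hθ1, hθY⟩ := th_facts hm (show (M : ℝ) ≤ Y by linarith)
  have hM2 : 2 ≤ M := by
    have h1 := Nf_pow_le M
    have h2 : 2 ^ 100 ≤ Nf M ^ 100 := Nat.pow_le_pow_left hm 100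
    norm_num at h2
    omega
  have hk := one_le_kk hM2
  have hkm := kk_le hm
  have hm10 := Nf_ten_le hm
  have hY0 : 0 ≤ Y := by
    have : (0 : ℝ) ≤ M := Nat.cast_nonneg M
    linarith
  have hYf : (M : ℕ) + 3 ≤ ⌊Y⌋₊ := Nat.le_floor (by push_cast; exact hYM)
  rw [Finset.mem_Icc] at hw
  have hcM : M ≤ lv q := by omega
  have hcY2 : Y ≤ (lv q : ℝ) + 2 := by
    have h1 : ⌊Y⌋₊ ≤ lv q + 1 := by omega
    have h2 : (⌊Y⌋₊ : ℝ) ≤ (lv q : ℝ) + 1 := by exact_mod_cast h1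
    have := Nat.lt_floor_add_one Y
    linarith
  have hv := val_mem hk (hkm.trans hm10) hm10 hθ0 hY0 hT
  obtain ⟨l, ω⟩ := T
  obtain ⟨h1, h2, -, h3, h4, h5, h6⟩ := tm_facts hθ0 hY0 hT
  have hhead : (l.map lv ++ hl M (kk M) ω).headI + 2 ≤ lv q := by
    have h7 : (((l.map lv ++ hl M (kk M) ω).headI + 2 : ℕ) : ℝ) ≤ lv q := by
      push_cast
      linarith
    exact_mod_cast h7
  have hal : al 1 (l.map lv ++ hl M (kk M) ω) ≤ (1 - th M / 2) * (lv q : ℝ) := by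
    refine h6.trans ?_
    have h7 : 0 ≤ 1 - th M / 2 := by linarith
    have h8 : (1 - th M / 2) * (Y - 2) ≤ (1 - th M / 2) * (lv q : ℝ) := by
      apply mul_le_mul_of_nonneg_left _ h7
      linarith
    nlinarith
  obtain ⟨r1, r2, r3, r4, r5⟩ := hreg ω l (lv q) h1 h3 h4 hcan hcM hhead hal
  have hNm : Nf M ≤ Nf (lv q) := Nf_mono hcM
  exact coll_of_ne hk (hkm.trans (Nat.pow_le_pow_left hNm 10)) hv hq
    ((hkm.trans hm10).trans hcM) r1 r2 r3 r4 r5 hne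

/-- shape of `collision_count`. -/
def CLC (N₀ : ℕ) : Prop := ∀ N ≥ N₀, ∀ c : ℕ, N ^ 100 ≤ c → c ≤ 2 * N ^ 100 →
    ∀ t : ℝ, 1 ≤ t → (((Nat.primesLE (⌊t⌋₊ + 1) ×ˢ Icc 1 ⌊t⌋₊).filter
      (fun p => Coll N c p.1 p.2)).card : ℝ) ≤ t * Real.exp (-(c : ℝ) - (N : ℝ) ^ 89)

lemma coll_bound {N₀ M X : ℕ} {Y t : ℝ} (hcl : CLC N₀) (hreg : TMR M) (hm0 : N₀ ≤ Nf M)
    (hm : 2 ≤ Nf M) (hpow : ∀ c ≥ M, c + 4 ≤ 2 * (Nf c) ^ 100) (hYM : (M : ℝ) + 3 ≤ Y)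
    (hY : 3 ≤ Y) (hlow : Real.exp (Real.exp Y) ≤ t) (hhigh : Real.log (Real.log (t + 1)) ≤ Y + 1)
    (B : Finset (Σ _ : List ℕ × ℕ, ℕ))
    (hB : ∀ p ∈ B, p.1 ∈ TM M (kk M) X (th M) Y ∧ p.2 ∈ Nat.primesLE ⌊t / val p.1⌋₊ ∧
      Canon (kk M) p.1 ∧ t < (p.2 : ℝ) ^ 2 ∧ Normal (Nf (lv p.2)) p.2 ∧
      can (kk M) ((p.2 - 1) * val p.1) ≠ p.2 :: can (kk M) (val p.1)) :
    (B.card : ℝ) ≤ 3 * (Real.exp 3 * (t / Real.log t) * Real.exp (-(Nf M : ℝ))) := by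
  obtain ⟨hθ0, hθ1, hθY⟩ := th_facts hm (show (M : ℝ) ≤ Y by linarith)
  have hM2 : 2 ≤ M := by
    have h1 := Nf_pow_le M
    have h2 : 2 ^ 100 ≤ Nf M ^ 100 := Nat.pow_le_pow_left hm 100
    norm_num at h2
    omega
  have hk := one_le_kk hM2
  have hkm := kk_le hm
  have hm10 := Nf_ten_le hm
  have hY0 : 0 ≤ Y := by linarith
  have ht0 : 0 < t := lt_of_lt_of_le (Real.exp_pos _) hlow
  have ht1 : 1 < t := lt_of_lt_of_le (Real.one_lt_exp_iff.2 (Real.exp_pos _)) hlow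
  have hlt : 0 < Real.log t := Real.log_pos ht1
  have hYf : (M : ℕ) + 3 ≤ ⌊Y⌋₊ := Nat.le_floor (by push_cast; exact hYM)
  have hinj : Set.InjOn (fun p : (Σ _ : List ℕ × ℕ, ℕ) => ((p.2, (p.2 - 1) * val p.1) : ℕ × ℕ)) B := by
    intro p hp p' hp' h
    obtain ⟨h1, h2, h3, -⟩ := hB p hp
    obtain ⟨h1', h2', h3', -⟩ := hB p' hp'
    obtain ⟨⟨l, ω⟩, q⟩ := p
    obtain ⟨⟨l', ω'⟩, q'⟩ := p'
    simp only [Prod.mk.injEq] at h h1 h1' h2 h2' h3 h3'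
    obtain ⟨e1, e2⟩ := h
    subst e1
    have h20 := (Nat.mem_primesLE.1 h2).2.two_le
    have hv : val (l, ω) = val (l', ω') := Nat.eq_of_mul_eq_mul_left (by omega) e2
    unfold Canon at h3 h3'
    rw [hv, h3'] at h3
    simp only at h3
    obtain ⟨i1, i2⟩ := tuple_inj (heads_ge hk hm10 hθ0 hY0 h1) (heads_ge hk hm10 hθ0 hY0 h1')
      (tm_facts hθ0 hY0 h1).1 (tm_facts hθ0 hY0 h1').1 h3.symm hv
    subst i1 i2
    rfl
  have hmaps : B.image (fun p : (Σ _ : List ℕ × ℕ, ℕ) => ((p.2, (p.2 - 1) * val p.1) : ℕ × ℕ)) ⊆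
      (Icc (⌊Y⌋₊ - 1) (⌊Y⌋₊ + 1)).biUnion (fun c => (Nat.primesLE (⌊t⌋₊ + 1) ×ˢ Icc 1 ⌊t⌋₊).filter
        (fun p => Coll (Nf c) c p.1 p.2)) := by
    intro x hx
    obtain ⟨p, hp, rfl⟩ := Finset.mem_image.1 hx
    obtain ⟨h1, h2, h3, h4, h5, h6⟩ := hB p hp
    have h2' := Nat.mem_primesLE.1 h2
    have hv := val_mem hk (hkm.trans hm10) hm10 hθ0 hY0 h1
    have hv0 := SS_pos hv
    have hv0' : (1 : ℝ) ≤ val p.1 := by exact_mod_cast hv0
    have hqt' : (p.2 : ℝ) ≤ t / val p.1 := (Nat.le_floor_iff (by positivity)).1 h2'.1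
    have hqt : (p.2 : ℝ) ≤ t := hqt'.trans (div_le_self ht0.le hv0')
    have hwin := level_window hY hlow hhigh h2'.2.two_le h4 hqt
    have hcoll := coll_fact hreg hm hYM h1 h3 hwin h5 h6
    refine Finset.mem_biUnion.2 ⟨lv p.2, hwin, Finset.mem_filter.2 ⟨Finset.mem_product.2
      ⟨Nat.mem_primesLE.2 ⟨?_, h2'.2⟩, Finset.mem_Icc.2 ⟨?_, ?_⟩⟩, hcoll⟩⟩
    · have : p.2 ≤ ⌊t⌋₊ := Nat.le_floor hqt
      show p.2 ≤ ⌊t⌋₊ + 1
      omega
    · exact Nat.mul_pos (by have := h2'.2.two_le; show 0 < p.2 - 1; omega) hv0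
    · apply Nat.le_floor
      rw [le_div_iff₀ (by linarith)] at hqt'
      have h7 : (((p.2 - 1) * val p.1 : ℕ) : ℝ) ≤ ((p.2 * val p.1 : ℕ) : ℝ) := by
        exact_mod_cast Nat.mul_le_mul_right _ (Nat.sub_le _ _)
      push_cast at h7
      push_cast
      linarith
  have hfib : ∀ c ∈ Icc (⌊Y⌋₊ - 1) (⌊Y⌋₊ + 1), (((Nat.primesLE (⌊t⌋₊ + 1) ×ˢ Icc 1 ⌊t⌋₊).filter
        (fun p => Coll (Nf c) c p.1 p.2)).card : ℝ) ≤
        Real.exp 3 * (t / Real.log t) * Real.exp (-(Nf M : ℝ)) := by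
    intro c hc
    rw [Finset.mem_Icc] at hc
    have hcM : M ≤ c := by omega
    have hNc : Nf M ≤ Nf c := Nf_mono hcM
    have hNc1 : (1 : ℝ) ≤ (Nf c : ℝ) := by exact_mod_cast (by omega : 1 ≤ Nf c)
    have hp2 := hpow c hcM
    have h1 := hcl (Nf c) (hm0.trans hNc) c (Nf_pow_le c) (by omega) t ht1.le
    refine h1.trans ?_
    have hcY2 : Y ≤ (c : ℝ) + 2 := by
      have h1 : ⌊Y⌋₊ ≤ c + 1 := by omega
      have h2 : (⌊Y⌋₊ : ℝ) ≤ (c : ℝ) + 1 := by exact_mod_cast h1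
      have := Nat.lt_floor_add_one Y
      linarith
    have hlogt : Real.log t ≤ Real.exp (Y + 1) := by
      have h3 : Real.log t ≤ Real.log (t + 1) := Real.log_le_log ht0 (by linarith)
      have h4 : 0 < Real.log (t + 1) := by linarith
      rw [Real.log_le_iff_le_exp h4] at hhigh
      linarith
    have h5 : Real.exp (-(c : ℝ) - (Nf c : ℝ) ^ 89) ≤
        Real.exp 3 * Real.exp (-(Y + 1)) * Real.exp (-(Nf M : ℝ)) := by
      rw [← Real.exp_add, ← Real.exp_add]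
      apply Real.exp_le_exp.2
      have e1 : (Nf M : ℝ) ≤ Nf c := by exact_mod_cast hNc
      have e2 : (Nf c : ℝ) ^ 1 ≤ (Nf c : ℝ) ^ 89 := pow_le_pow_right₀ hNc1 (by norm_num)
      rw [pow_one] at e2
      linarith
    have h6 : Real.exp (-(Y + 1)) ≤ (Real.log t)⁻¹ := by
      rw [Real.exp_neg]
      exact inv_anti₀ hlt hlogt
    calc t * Real.exp (-(c : ℝ) - (Nf c : ℝ) ^ 89)
        ≤ t * (Real.exp 3 * (Real.log t)⁻¹ * Real.exp (-(Nf M : ℝ))) := by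
          apply mul_le_mul_of_nonneg_left _ ht0.le
          refine h5.trans ?_
          gcongr
      _ = Real.exp 3 * (t / Real.log t) * Real.exp (-(Nf M : ℝ)) := by
          rw [div_eq_mul_inv]; ring
  rw [← Finset.card_image_of_injOn hinj]
  have h1 : ((B.image (fun p : (Σ _ : List ℕ × ℕ, ℕ) =>
      ((p.2, (p.2 - 1) * val p.1) : ℕ × ℕ))).card : ℝ) ≤
      ∑ c ∈ Icc (⌊Y⌋₊ - 1) (⌊Y⌋₊ + 1), (((Nat.primesLE (⌊t⌋₊ + 1) ×ˢ Icc 1 ⌊t⌋₊).filter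
        (fun p => Coll (Nf c) c p.1 p.2)).card : ℝ) := by
    have := (Finset.card_le_card hmaps).trans Finset.card_biUnion_le
    exact_mod_cast this
  refine h1.trans ((Finset.sum_le_sum hfib).trans ?_)
  rw [Finset.sum_const, nsmul_eq_mul]
  have h3 := card_three ⌊Y⌋₊
  gcongr

lemma sqrt_small {c0 δ t Y u m : ℝ} (hc0 : 0 < c0) (hδ : 0 < δ) (hY : 3 ≤ Y)
    (hlow : Real.exp (Real.exp Y) ≤ t) (hu1 : 1 ≤ u) (hu : u ≤ Real.exp (Real.exp Y / 8))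
    (hmY : 8 * m ≤ Y) (hm : 8 / (δ * c0) ≤ m) :
    Real.sqrt t ≤ δ * (c0 * (t / u / Real.log t)) := by
  have ht0 : 0 < t := lt_of_lt_of_le (Real.exp_pos _) hlow
  have ht1 : 1 < t := lt_of_lt_of_le (Real.one_lt_exp_iff.2 (Real.exp_pos _)) hlow
  have hlt0 : 0 < Real.log t := Real.log_pos ht1
  have hlt : Real.exp Y ≤ Real.log t := by rwa [Real.le_log_iff_exp_le ht0]
  set r := Real.exp (Real.log t / 8) with hr
  have hr8 : r ^ 8 = t := by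
    rw [hr, ← Real.exp_nat_mul]
    have : ((8 : ℕ) : ℝ) * (Real.log t / 8) = Real.log t := by push_cast; ring
    rw [this, Real.exp_log ht0]
  have hr0 : 0 < r := Real.exp_pos _
  have hrY : Y / 8 ≤ r := by
    have h1 := Real.add_one_le_exp Y
    have h2 := Real.add_one_le_exp (Real.log t / 8)
    linarith
  have hrm : m ≤ r := by linarith
  have hm0 : 0 < m := lt_of_lt_of_le (by positivity) hm
  have hur : u ≤ r := hu.trans (Real.exp_le_exp.2 (by linarith))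
  have hlogr : Real.log t ≤ 8 * r := by
    have h2 := Real.add_one_le_exp (Real.log t / 8)
    linarith
  have hr1 : 1 ≤ r := by linarith
  have hsq : Real.sqrt t = r ^ 4 := by
    rw [← hr8, show r ^ 8 = (r ^ 4) ^ 2 by ring, Real.sqrt_sq (by positivity)]
  have hkey : 8 ≤ δ * c0 * r ^ 2 := by
    rw [div_le_iff₀ (by positivity)] at hm
    have h1 : 8 ≤ r * (δ * c0) := hm.trans (by gcongr)
    have h2 : r ≤ r ^ 2 := by nlinarith
    have h3 : 0 < δ * c0 := by positivity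
    nlinarith
  rw [hsq]
  have h1 : c0 * (r ^ 8 / r / (8 * r)) ≤ c0 * (t / u / Real.log t) := by
    rw [hr8]
    gcongr
  calc r ^ 4 ≤ δ * (c0 * (r ^ 8 / r / (8 * r))) := by
        have h2 : δ * (c0 * (r ^ 8 / r / (8 * r))) = (δ * c0 * r ^ 2) * r ^ 4 / 8 := by
          field_simp
        rw [h2]
        have : 0 < r ^ 4 := by positivity
        nlinarith
    _ ≤ _ := by gcongr

/-- the size facts of the tuples -/
def SZ (U : Finset (List ℕ × ℕ)) (Y t : ℝ) : Prop :=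
  ∀ T ∈ U, 1 ≤ (val T : ℝ) ∧ (val T : ℝ) ≤ Real.exp (Real.exp Y / 8) ∧ (val T : ℝ) ^ 8 ≤ t

lemma piR_lower {c0 : ℝ} (hc0 : 0 < c0) (hpl : ∀ x : ℝ, 2 ≤ x →
    c0 * x / Real.log x ≤ (Nat.primeCounting ⌊x⌋₊ : ℝ)) {U : Finset (List ℕ × ℕ)} {Y t : ℝ}
    (hY3 : 3 ≤ Y) (hlow : Real.exp (Real.exp Y) ≤ t)
    (hhigh : Real.log (Real.log (t + 1)) ≤ Y + 1) (hsz : SZ U Y t) :
    ∀ T ∈ U, c0 * (t / val T / Real.log t) ≤ piR (t / val T) := by
  intro T hT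
  obtain ⟨h1, h2, h3⟩ := hsz T hT
  obtain ⟨g1, g2, g3, g4, g5, g6⟩ := quot_facts hY3 hlow hhigh h1 h3
  have ht1 : 1 < t := lt_of_lt_of_le (Real.one_lt_exp_iff.2 (Real.exp_pos _)) hlow
  have hlt0 : 0 < Real.log t := Real.log_pos ht1
  have h4 := hpl (t / val T) (by linarith)
  refine le_trans ?_ h4
  have h5 : 0 < Real.log (t / val T) := by linarith
  rw [mul_div_assoc]
  gcongr

lemma B1_bound {c0 δ t Y m : ℝ} {U : Finset (List ℕ × ℕ)} (hc0 : 0 < c0) (hδ : 0 < δ) (hY : 3 ≤ Y)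
    (hlow : Real.exp (Real.exp Y) ≤ t) (hsz : SZ U Y t) (hmY : 8 * m ≤ Y) (hm : 8 / (δ * c0) ≤ m)
    (hpiR : ∀ T ∈ U, c0 * (t / val T / Real.log t) ≤ piR (t / val T)) :
    ((U.sigma (fun T => (Nat.primesLE ⌊t / val T⌋₊).filter (fun q : ℕ => (q : ℝ) ^ 2 ≤ t))).card : ℝ)
      ≤ δ * ∑ T ∈ U, piR (t / val T) := by
  rw [Finset.card_sigma, Finset.mul_sum]
  push_cast
  refine Finset.sum_le_sum fun T hT => ?_
  obtain ⟨g1, g2, g3⟩ := hsz T hT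
  refine (small_card _ (fun q hq => (Nat.mem_primesLE.1 hq).2.one_lt.le)).trans ?_
  have h1 := sqrt_small hc0 hδ hY hlow g1 g2 hmY hm
  refine h1.trans ?_
  have := hpiR T hT
  gcongr

lemma B2_bound {C0 t Y E : ℝ} {U V : Finset (List ℕ × ℕ)} (hC0 : 0 < C0) (hpu : ∀ x : ℝ, 2 ≤ x →
    (Nat.primeCounting ⌊x⌋₊ : ℝ) ≤ C0 * x / Real.log x) (hY : 3 ≤ Y)
    (hlow : Real.exp (Real.exp Y) ≤ t) (hhigh : Real.log (Real.log (t + 1)) ≤ Y + 1)
    (hsz : SZ U Y t) (hVU : V ⊆ U) (hV : ∑ T ∈ V, (1 : ℝ) / (val T) ≤ E) :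
    ((V.sigma (fun T => Nat.primesLE ⌊t / val T⌋₊)).card : ℝ) ≤ 2 * C0 * (t / Real.log t) * E := by
  have ht1 : 1 < t := lt_of_lt_of_le (Real.one_lt_exp_iff.2 (Real.exp_pos _)) hlow
  have ht0 : 0 < t := by linarith
  have hlt0 : 0 < Real.log t := Real.log_pos ht1
  rw [Finset.card_sigma]
  push_cast
  have h1 : ∀ T ∈ V, ((Nat.primesLE ⌊t / val T⌋₊).card : ℝ) ≤
      2 * C0 * (t / Real.log t) * (1 / val T) := by
    intro T hT
    obtain ⟨h1, h2, h3⟩ := hsz T (hVU hT)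
    obtain ⟨g1, g2, g3, g4, g5, g6⟩ := quot_facts hY hlow hhigh h1 h3
    have h4 := hpu (t / val T) (by linarith)
    have h5 : ((Nat.primesLE ⌊t / val T⌋₊).card : ℝ) = (Nat.primeCounting ⌊t / val T⌋₊ : ℝ) := by simp
    rw [h5]
    refine h4.trans ?_
    have h6 : C0 * (t / val T) / Real.log (t / val T) ≤ C0 * (t / val T) / (Real.log t / 2) := by
      gcongr
      linarith
    refine h6.trans (le_of_eq ?_)
    field_simp
  refine (Finset.sum_le_sum h1).trans ?_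
  rw [← Finset.mul_sum]
  gcongr

lemma B3_bound {c0 t Y : ℝ} {U : Finset (List ℕ × ℕ)} {N₀ M : ℕ} (hc0 : 0 < c0)
    (hnn : NNC N₀) (hm : N₀ ≤ Nf M) (hm2 : 2 ≤ Nf M)
    (hpow : ∀ c ≥ M, c + 4 ≤ 2 * (Nf c) ^ 100) (hYM : (M : ℝ) + 3 ≤ Y) (hY : 3 ≤ Y)
    (hlow : Real.exp (Real.exp Y) ≤ t)
    (hhigh : Real.log (Real.log (t + 1)) ≤ Y + 1) (hsz : SZ U Y t)
    (hpiR : ∀ T ∈ U, c0 * (t / val T / Real.log t) ≤ piR (t / val T)) :
    ((U.sigma (fun T => (Nat.primesLE ⌊t / val T⌋₊).filter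
      (fun q : ℕ => t < (q : ℝ) ^ 2 ∧ ¬ Normal (Nf (lv q)) q))).card : ℝ) ≤
      (4 / c0 * Real.exp (-(Nf M : ℝ))) * ∑ T ∈ U, piR (t / val T) := by
  rw [Finset.card_sigma, Finset.mul_sum]
  push_cast
  refine Finset.sum_le_sum fun T hT => ?_
  obtain ⟨h1, h2, h3⟩ := hsz T hT
  have h4 := nonnormal_fibre (u := (val T : ℝ)) hnn hm hm2 hpow hYM hY hlow hhigh h1 h3
  refine h4.trans ?_
  have h5 := hpiR T hT
  calc 4 * (t / val T / Real.log t) * Real.exp (-(Nf M : ℝ))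
      = 4 / c0 * Real.exp (-(Nf M : ℝ)) * (c0 * (t / val T / Real.log t)) := by
        field_simp
    _ ≤ _ := by gcongr

lemma cover_pairs {M X : ℕ} {Y t : ℝ} {U : Finset (List ℕ × ℕ)} (hkM : kk M ≤ M)
    (hYM : (M : ℝ) + 3 ≤ Y) (hY3 : 3 ≤ Y) (hlow : Real.exp (Real.exp Y) ≤ t)
    (hhigh : Real.log (Real.log (t + 1)) ≤ Y + 1) (hsz : SZ U Y t) :
    U.sigma (fun T => Nat.primesLE ⌊t / val T⌋₊) ⊆
      (U.sigma (fun T => Nat.primesLE ⌊t / val T⌋₊)).filter (fun p => kk M ≤ lv p.2 ∧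
        Canon (kk M) p.1 ∧ can (kk M) ((p.2 - 1) * val p.1) = p.2 :: can (kk M) (val p.1)) ∪
      (U.sigma (fun T => (Nat.primesLE ⌊t / val T⌋₊).filter (fun q : ℕ => (q : ℝ) ^ 2 ≤ t)) ∪
      ((U.filter (fun T => ¬ Canon (kk M) T)).sigma (fun T => Nat.primesLE ⌊t / val T⌋₊) ∪
      (U.sigma (fun T => (Nat.primesLE ⌊t / val T⌋₊).filter
        (fun q : ℕ => t < (q : ℝ) ^ 2 ∧ ¬ Normal (Nf (lv q)) q)) ∪
      (U.sigma (fun T => Nat.primesLE ⌊t / val T⌋₊)).filter (fun p => Canon (kk M) p.1 ∧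
        t < (p.2 : ℝ) ^ 2 ∧ Normal (Nf (lv p.2)) p.2 ∧
        can (kk M) ((p.2 - 1) * val p.1) ≠ p.2 :: can (kk M) (val p.1))))) := by
  intro p hp
  obtain ⟨hp1, hp2⟩ := Finset.mem_sigma.1 hp
  have ht1 : 1 < t := lt_of_lt_of_le (Real.one_lt_exp_iff.2 (Real.exp_pos _)) hlow
  simp only [Finset.mem_union]
  by_cases c1 : (p.2 : ℝ) ^ 2 ≤ t
  · right; left
    exact Finset.mem_sigma.2 ⟨hp1, Finset.mem_filter.2 ⟨hp2, c1⟩⟩
  push Not at c1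
  by_cases c2 : Canon (kk M) p.1
  · by_cases c3 : Normal (Nf (lv p.2)) p.2
    · by_cases c4 : can (kk M) ((p.2 - 1) * val p.1) = p.2 :: can (kk M) (val p.1)
      · left
        refine Finset.mem_filter.2 ⟨hp, ?_, c2, c4⟩
        have h1 := Nat.mem_primesLE.1 hp2
        obtain ⟨g1, g2, g3⟩ := hsz p.1 hp1
        have h2 : (p.2 : ℝ) ≤ t := by
          have h3 : (p.2 : ℝ) ≤ t / val p.1 := (Nat.le_floor_iff (by positivity)).1 h1.1
          exact h3.trans (div_le_self (by linarith) g1)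
        have h4 := level_window hY3 hlow hhigh h1.2.two_le c1 h2
        rw [Finset.mem_Icc] at h4
        have hYf : (M : ℕ) + 3 ≤ ⌊Y⌋₊ := Nat.le_floor (by push_cast; exact hYM)
        omega
      · right; right; right; right
        exact Finset.mem_filter.2 ⟨hp, c2, c1, c3, c4⟩
    · right; right; right; left
      exact Finset.mem_sigma.2 ⟨hp1, Finset.mem_filter.2 ⟨hp2, c1, c3⟩⟩
  · right; right; left
    exact Finset.mem_sigma.2 ⟨Finset.mem_filter.2 ⟨hp1, c2⟩, hp2⟩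

lemma final_arith {c0 C0 δ A S E p g b1 b2 b3 b4 e3 : ℝ} (hc0 : 0 < c0) (hC0 : 0 < C0) (hδ : 0 < δ)
    (he3 : 0 < e3) (hE0 : 0 < E) (hA0 : 0 < A) (hSA : c0 * A ≤ S)
    (hexp : E * (2 * C0 + 4 + 3 * e3) ≤ δ * c0) (hp : p = S)
    (hcards : p ≤ g + (b1 + (b2 + (b3 + b4)))) (hb1 : b1 ≤ δ * S) (hb2 : b2 ≤ 2 * C0 * A * E)
    (hb3 : b3 ≤ (4 / c0 * E) * S) (hb4 : b4 ≤ 3 * (e3 * A * E)) : (1 - 4 * δ) * S ≤ g := by
  have hS0 : 0 ≤ S := by
    have : 0 < c0 * A := by positivity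
    linarith
  have e1 : A ≤ S / c0 := by
    rw [le_div_iff₀ hc0]; linarith
  have e2 : 2 * C0 * A * E + 3 * (e3 * A * E) ≤ (2 * C0 + 3 * e3) * E * (S / c0) := by
    calc _ = (2 * C0 + 3 * e3) * E * A := by ring
      _ ≤ _ := by gcongr
  have e3' : (2 * C0 + 3 * e3) * E * (S / c0) + (4 / c0 * E) * S =
      (E * (2 * C0 + 4 + 3 * e3)) * (S / c0) := by
    field_simp
    ring
  have e4 : (E * (2 * C0 + 4 + 3 * e3)) * (S / c0) ≤ (δ * c0) * (S / c0) := by gcongr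
  have e5 : (δ * c0) * (S / c0) = δ * S := by field_simp
  have hδS : 0 ≤ δ * S := by positivity
  nlinarith

lemma M_facts {M : ℕ} (hm2 : 2 ≤ Nf M) : 16 ≤ M ∧ (8 : ℝ) * Nf M ≤ M := by
  have h1 := Nf_pow_le M
  have h2 : 2 ^ 99 ≤ Nf M ^ 99 := Nat.pow_le_pow_left hm2 99
  have h3 : Nf M ^ 100 = Nf M ^ 99 * Nf M := by ring
  have h4 : 8 * Nf M ≤ M := by
    refine le_trans ?_ h1
    rw [h3]
    apply Nat.mul_le_mul_right
    norm_num at h2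
    omega
  refine ⟨by omega, by exact_mod_cast h4⟩

/-- a nonempty `R-` forces `M + 3 ≤ Y`. -/
lemma ne_imp {M X : ℕ} {Y : ℝ} (hm2 : 2 ≤ Nf M) (hYM0 : (M : ℝ) ≤ Y)
    (hne : (TM M (kk M) X (th M) Y).Nonempty) : (M : ℝ) + 3 ≤ Y := by
  obtain ⟨hθ0, hθ1, hθY⟩ := th_facts hm2 hYM0
  obtain ⟨hM16, -⟩ := M_facts hm2
  have hk := one_le_kk (show 2 ≤ M by omega)
  have hY0 : 0 ≤ Y := by
    have : (0 : ℝ) ≤ M := Nat.cast_nonneg M
    linarith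
  obtain ⟨⟨l, ω⟩, hT⟩ := hne
  obtain ⟨h1, h2, -, h3, h4, h5, h6⟩ := tm_facts hθ0 hY0 hT
  have h7 := head_le hk (Nf_ten_le hm2) h1 h2
  have h8 := okM_entries h7 h4
  have h9 : M ≤ (l.map lv ++ hl M (kk M) ω).headI := by
    cases l with
    | nil => simpa using h7
    | cons a l' => simpa using h8 (lv a) (by simp)
  have h10 : (M : ℝ) ≤ ((l.map lv ++ hl M (kk M) ω).headI : ℝ) := by exact_mod_cast h9
  linarith

lemma exp_small {m D : ℝ} (hm : 0 < m) (hD : 0 ≤ D) {e : ℝ} (h : D ≤ e * m) :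
    Real.exp (-m) * D ≤ e := by
  have h1 : Real.exp (-m) ≤ 1 / m := by
    rw [Real.exp_neg, one_div]
    apply inv_anti₀ hm
    have := Real.add_one_le_exp m
    linarith
  calc Real.exp (-m) * D ≤ 1 / m * (e * m) := by gcongr
    _ = e := by field_simp

end LowAux

open Finset Filter Topology LowAux
open scoped Classical

theorem lower_count (K : ℕ) (hK : 1 ≤ K) (ε : ℝ) (hε : 0 < ε) : ∃ M₀ : ℕ, ∀ M ≥ M₀, ∀ Y : ℝ,
    Rgm K M Y → ∀ (X : ℕ) (t : ℝ), Real.exp (Real.exp Y) ≤ t →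
    Real.log (Real.log (t + 1)) ≤ Y + 1 → 1 ≤ ∑ T ∈ TM M (kk M) X (th M) Y, (1 : ℝ) / (val T) →
    (1 - ε) * ∑ T ∈ TM M (kk M) X (th M) Y, piR (t / val T) ≤
      (((Icc 1 ⌊t⌋₊).filter (fun v => v ∈ SS (kk M))).card : ℝ) := by
  obtain ⟨c0, hc0, hpl⟩ := pi_lower
  obtain ⟨C0, hC0, hpu⟩ := pi_upper
  obtain ⟨N₁, hnn⟩ := nonnormal_count
  obtain ⟨N₂, hcl⟩ := collision_count
  obtain ⟨M₁, hpow⟩ := two_Nf_pow
  obtain ⟨M₂, hsize⟩ := TM_size K hK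
  obtain ⟨M₃, hreg⟩ := tm_reg
  obtain ⟨M₄, hnc⟩ := nc_mass K hK
  obtain ⟨δ, hδd⟩ : ∃ δ, δ = ε / 4 := ⟨_, rfl⟩
  have hδ : 0 < δ := by rw [hδd]; positivity
  have he3 := Real.exp_pos 3
  obtain ⟨Q, hQ⟩ : ∃ Q : ℝ, Q = (2 * C0 + 4 + 3 * Real.exp 3 + 8) / (δ * c0) := ⟨_, rfl⟩
  obtain ⟨M₅, hNf⟩ := Nf_tendsto (max (max 2 (max N₁ N₂)) ⌈Q⌉₊)
  refine ⟨max (max M₁ M₂) (max (max M₃ M₄) M₅), ?_⟩
  intro M hM Y hY X t hlow hhigh hW
  simp only [ge_iff_le, max_le_iff] at hM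
  obtain ⟨⟨hM1, hM2⟩, ⟨hM3, hM4⟩, hM5⟩ := hM
  have hm := hNf M hM5
  simp only [max_le_iff] at hm
  obtain ⟨⟨hm2, hmN1, hmN2⟩, hmQ⟩ := hm
  have hmQ' : Q ≤ (Nf M : ℝ) := (Nat.le_ceil Q).trans (by exact_mod_cast hmQ)
  have hmpos : (0 : ℝ) < Nf M := by exact_mod_cast (by omega : 0 < Nf M)
  obtain ⟨hM16, hM8⟩ := M_facts hm2
  have hM16' : (16 : ℝ) ≤ M := by exact_mod_cast hM16
  have hYM0 : (M : ℝ) ≤ Y := by
    refine le_trans ?_ hY.1
    have : (M : ℝ) ^ 1 ≤ (M : ℝ) ^ K := pow_le_pow_right₀ (by linarith) hK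
    rwa [pow_one] at this
  have hne : (TM M (kk M) X (th M) Y).Nonempty := by
    rw [Finset.nonempty_iff_ne_empty]
    intro h
    rw [h, Finset.sum_empty] at hW
    linarith
  have hYM := ne_imp hm2 hYM0 hne
  obtain ⟨hθ0, hθ1, hθY⟩ := th_facts hm2 hYM0
  have hk := one_le_kk (show 2 ≤ M by omega)
  have hkm := kk_le hm2
  have hm10 := Nf_ten_le hm2
  have hY0 : 0 ≤ Y := by linarith
  have hY3 : 3 ≤ Y := by linarith
  have ht0 : 0 < t := lt_of_lt_of_le (Real.exp_pos _) hlow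
  have ht1 : 1 < t := lt_of_lt_of_le (Real.one_lt_exp_iff.2 (Real.exp_pos _)) hlow
  have hlt0 : 0 < Real.log t := Real.log_pos ht1
  have hsz : SZ (TM M (kk M) X (th M) Y) Y t := by
    intro T hT
    obtain ⟨h1, h2⟩ := hsize M hM2 Y hY X T hT
    refine ⟨by exact_mod_cast h1, h2, ?_⟩
    calc (val T : ℝ) ^ 8 ≤ (Real.exp (Real.exp Y / 8)) ^ 8 := by gcongr
      _ = Real.exp (Real.exp Y) := by
          rw [← Real.exp_nat_mul]; congr 1; push_cast; ring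
      _ ≤ t := hlow
  have hpiR := piR_lower hc0 hpl hY3 hlow hhigh hsz
  have hSA : c0 * (t / Real.log t) ≤ ∑ T ∈ TM M (kk M) X (th M) Y, piR (t / val T) := by
    have h1 : c0 * (t / Real.log t) * ∑ T ∈ TM M (kk M) X (th M) Y, (1 : ℝ) / (val T) ≤
        ∑ T ∈ TM M (kk M) X (th M) Y, piR (t / val T) := by
      rw [Finset.mul_sum]
      refine Finset.sum_le_sum fun T hT => ?_
      refine le_trans (le_of_eq ?_) (hpiR T hT)
      field_simp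
    have : 0 < c0 * (t / Real.log t) := by positivity
    nlinarith
  have hexp : Real.exp (-(Nf M : ℝ)) * (2 * C0 + 4 + 3 * Real.exp 3) ≤ δ * c0 := by
    apply exp_small hmpos (by positivity)
    rw [hQ, div_le_iff₀ (by positivity)] at hmQ'
    nlinarith
  have hcardP : (((TM M (kk M) X (th M) Y).sigma (fun T => Nat.primesLE ⌊t / val T⌋₊)).card : ℝ) =
      ∑ T ∈ TM M (kk M) X (th M) Y, piR (t / val T) := by
    rw [Finset.card_sigma]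
    push_cast
    refine Finset.sum_congr rfl fun T _ => ?_
    simp [piR]
  have hcover := cover_pairs (X := X) (hkm.trans hm10) hYM hY3 hlow hhigh hsz
  have hcards := (Finset.card_le_card hcover).trans ((Finset.card_union_le _ _).trans
    (Nat.add_le_add_left ((Finset.card_union_le _ _).trans (Nat.add_le_add_left
      ((Finset.card_union_le _ _).trans (Nat.add_le_add_left (Finset.card_union_le _ _) _)) _)) _))
  have hcards' := (Nat.cast_le (α := ℝ)).2 hcards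
  push_cast at hcards'
  have hGc := good_card (X := X) hk (hkm.trans hm10) hm10 hθ0 hY0 ht0
    (((TM M (kk M) X (th M) Y).sigma (fun T => Nat.primesLE ⌊t / val T⌋₊)).filter
      (fun p => kk M ≤ lv p.2 ∧ Canon (kk M) p.1 ∧
        can (kk M) ((p.2 - 1) * val p.1) = p.2 :: can (kk M) (val p.1))) (by
      intro p hp
      obtain ⟨h1, h2, h3, h4⟩ := Finset.mem_filter.1 hp
      obtain ⟨h5, h6⟩ := Finset.mem_sigma.1 h1
      exact ⟨h5, h6, h2, h3, h4⟩)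
  have hGc' := (Nat.cast_le (α := ℝ)).2 hGc
  have hB1 := B1_bound (m := (Nf M : ℝ)) hc0 hδ hY3 hlow hsz (by linarith) (by
      refine le_trans ?_ hmQ'
      rw [hQ]
      gcongr
      linarith) hpiR
  have hB2 := B2_bound hC0 hpu hY3 hlow hhigh hsz (Finset.filter_subset _ _)
    ((hnc M hM4 Y hY X).trans (show Real.exp (-(Nf M : ℝ) ^ 80) ≤ Real.exp (-(Nf M : ℝ)) by
      apply Real.exp_le_exp.2
      have e1 : (1 : ℝ) ≤ Nf M := by exact_mod_cast (by omega : 1 ≤ Nf M)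
      have e2 : (Nf M : ℝ) ^ 1 ≤ (Nf M : ℝ) ^ 80 := pow_le_pow_right₀ e1 (by norm_num)
      rw [pow_one] at e2
      linarith))
  have hB3 := B3_bound hc0 hnn hmN1 hm2 (fun c hc => hpow c (hM1.trans hc)) hYM hY3 hlow hhigh
    hsz hpiR
  have hB4 := coll_bound (X := X) hcl (hreg M hM3) hmN2 hm2 (fun c hc => hpow c (hM1.trans hc))
      hYM hY3 hlow hhigh
      (((TM M (kk M) X (th M) Y).sigma (fun T => Nat.primesLE ⌊t / val T⌋₊)).filter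
        (fun p => Canon (kk M) p.1 ∧ t < (p.2 : ℝ) ^ 2 ∧ Normal (Nf (lv p.2)) p.2 ∧
          can (kk M) ((p.2 - 1) * val p.1) ≠ p.2 :: can (kk M) (val p.1))) (by
      intro p hp
      obtain ⟨h1, h2, h3, h4, h5⟩ := Finset.mem_filter.1 hp
      obtain ⟨h6, h7⟩ := Finset.mem_sigma.1 h1
      exact ⟨h6, h7, h2, h3, h4, h5⟩)
  have hεδ : ε = 4 * δ := by rw [hδd]; ring
  have hfin := final_arith hc0 hC0 hδ he3 (Real.exp_pos _) (by positivity) hSA hexp hcardP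
    hcards' hB1 hB2 hB3 hB4
  rw [hεδ]
  exact hfin.trans hGc'

end P031
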