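import Mathlib

open MeasureTheory Filter Topology Set
open scoped ArithmeticFunction

namespace Vale.Agent.P031.PNT

/-- The normalised Chebyshev function in the exponential variable. -/
noncomputable def B (u : ℝ) : ℝ := Chebyshev.psi (Real.exp u) * Real.exp (-u)

lemma B_nonneg (u : ℝ) : 0 ≤ B u := mul_nonneg (Chebyshev.psi_nonneg _) (Real.exp_pos _).le

lemma B_le (u : ℝ) : B u ≤ Real.log 4 + 4 := by
  have h := Chebyshev.psi_le_const_mul_self (Real.exp_pos u).le
  unfold B
  calc _ ≤ (Real.log 4 + 4) * Real.exp u * Real.exp (-u) := by gcongr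
    _ = _ := by rw [mul_assoc, ← Real.exp_add]; simp

lemma B_measurable : Measurable B := by
  unfold B
  exact (Chebyshev.psi_mono.measurable.comp Real.measurable_exp).mul (by fun_prop)

lemma B_mono {u w : ℝ} (h : u ≤ w) : B u * Real.exp (-(w - u)) ≤ B w := by
  unfold B
  have h1 : Chebyshev.psi (Real.exp u) ≤ Chebyshev.psi (Real.exp w) :=
    Chebyshev.psi_mono (Real.exp_le_exp.2 h)
  rw [mul_assoc, ← Real.exp_add]
  have : -u + -(w - u) = -w := by ring
  rw [this]
  gcongr

lemma B_eq_zero {u : ℝ} (h : u ≤ 0) : B u = 0 := by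
  unfold B
  rw [Chebyshev.psi_eq_zero_of_le_one (Real.exp_le_one_iff.2 h), zero_mul]

/-- Laplace transform of `B` is the logarithmic derivative of zeta. -/
lemma laplace_B {s : ℂ} (hs : 1 < s.re) :
    LSeries (fun n => (Λ n : ℂ)) s = s * ∫ u in Ioi (0 : ℝ), (B u : ℂ) * Complex.exp (-(s - 1) * u) := by
  have hO : (fun n : ℕ ↦ ∑ k ∈ Finset.Icc 1 n, Λ k) =O[atTop] fun n ↦ (n : ℝ) ^ (1 : ℝ) := by
    refine Asymptotics.IsBigO.of_bound (Real.log 4 + 4) (Eventually.of_forall fun n => ?_)
    have h := Chebyshev.psi_le_const_mul_self (x := (n : ℝ)) (Nat.cast_nonneg n)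
    have h0 := Chebyshev.psi_nonneg (n : ℝ)
    have h1 : Chebyshev.psi (n : ℝ) = ∑ k ∈ Finset.Icc 1 n, Λ k := by
      unfold Chebyshev.psi
      rw [Nat.floor_natCast]
      rfl
    rw [h1] at h h0
    rw [Real.norm_of_nonneg h0, Real.rpow_one, Real.norm_of_nonneg (Nat.cast_nonneg n)]
    exact h
  rw [LSeries_eq_mul_integral_of_nonneg (fun n => Λ n) zero_le_one hs hO
    (fun n => ArithmeticFunction.vonMangoldt_nonneg)]
  congr 1
  have h := integral_comp_exp_Ioi
    (fun t : ℝ => (∑ k ∈ Finset.Icc 1 ⌊t⌋₊, ((Λ k : ℝ) : ℂ)) * (t : ℂ) ^ (-(s + 1))) 0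
  rw [Real.exp_zero] at h
  rw [← h]
  refine setIntegral_congr_fun measurableSet_Ioi (fun u hu => ?_)
  simp only [Complex.real_smul]
  have h1 : (∑ k ∈ Finset.Icc 1 ⌊Real.exp u⌋₊, ((Λ k : ℝ) : ℂ)) = (Chebyshev.psi (Real.exp u) : ℂ) := by
    unfold Chebyshev.psi
    push_cast
    rfl
  rw [h1]
  unfold B
  have h2 : ((Real.exp u : ℝ) : ℂ) ^ (-(s + 1)) = Complex.exp (-(s + 1) * u) := by
    rw [Complex.cpow_def_of_ne_zero (by exact_mod_cast Real.exp_ne_zero u),
      ← Complex.ofReal_log (Real.exp_pos u).le, Real.log_exp]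
    ring_nf
  rw [h2]
  push_cast
  rw [mul_left_comm, mul_assoc, ← Complex.exp_add, ← Complex.exp_add]
  ring_nf

/-- `(-ζ'/ζ(s) - 1/(s-1) - 1)/s`, continuous on `re s ≥ 1`. -/
noncomputable def G (s : ℂ) : ℂ :=
  (ArithmeticFunction.vonMangoldt.LFunctionResidueClassAux (1 : ZMod 1) s - 1) / s

lemma G_continuousOn : ContinuousOn G {s | 1 ≤ s.re} := by
  unfold G
  refine ContinuousOn.div ?_ continuousOn_id ?_
  · exact (ArithmeticFunction.vonMangoldt.continuousOn_LFunctionResidueClassAux (1 : ZMod 1)).sub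
      continuousOn_const
  · intro s hs h
    rw [h] at hs
    simp at hs
    linarith

lemma integrable_exp_neg {s : ℂ} (hs : 1 < s.re) :
    IntegrableOn (fun u : ℝ => Complex.exp (-(s - 1) * u)) (Ioi 0) := by
  have := integrableOn_exp_mul_complex_Ioi (a := -(s - 1)) (by simp; linarith) 0
  exact this

lemma integrable_B_exp {s : ℂ} (hs : 1 < s.re) :
    IntegrableOn (fun u : ℝ => (B u : ℂ) * Complex.exp (-(s - 1) * u)) (Ioi 0) := by
  refine (integrable_exp_neg hs).bdd_mul (c := Real.log 4 + 4) ?_ ?_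
  · exact (Complex.measurable_ofReal.comp B_measurable).aestronglyMeasurable
  · refine Eventually.of_forall fun u => ?_
    rw [Complex.norm_real, Real.norm_of_nonneg (B_nonneg u)]
    exact B_le u

lemma laplace {s : ℂ} (hs : 1 < s.re) :
    ∫ u in Ioi (0 : ℝ), ((B u - 1 : ℝ) : ℂ) * Complex.exp (-(s - 1) * u) = G s := by
  have hs0 : s ≠ 0 := by
    intro h; rw [h] at hs; simp at hs; linarith
  have hs1 : s - 1 ≠ 0 := by
    intro h
    have : s = 1 := by linear_combination h
    rw [this] at hs; simp at hs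
  have h1 := integral_exp_mul_complex_Ioi (a := -(s - 1)) (by simp; linarith) 0
  have h2 := laplace_B hs
  have h3 := ArithmeticFunction.vonMangoldt.eqOn_LFunctionResidueClassAux
    (isUnit_one : IsUnit (1 : ZMod 1)) hs
  have h4 : (fun n : ℕ => ((ArithmeticFunction.vonMangoldt.residueClass (1 : ZMod 1) n : ℝ) : ℂ))
      = fun n => (Λ n : ℂ) := by
    ext n
    congr 1
    exact Set.indicator_of_mem (s := {n : ℕ | (n : ZMod 1) = 1}) (Subsingleton.elim _ _) _
  have h5 : ∫ u in Ioi (0 : ℝ), ((B u - 1 : ℝ) : ℂ) * Complex.exp (-(s - 1) * u)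
      = (∫ u in Ioi (0 : ℝ), (B u : ℂ) * Complex.exp (-(s - 1) * u))
        - ∫ u in Ioi (0 : ℝ), Complex.exp (-(s - 1) * u) := by
    rw [← integral_sub (integrable_B_exp hs) (integrable_exp_neg hs)]
    refine setIntegral_congr_fun measurableSet_Ioi (fun u hu => ?_)
    push_cast
    ring
  rw [h5]
  unfold G
  have h3' : ArithmeticFunction.vonMangoldt.LFunctionResidueClassAux (1 : ZMod 1) s =
    LSeries (fun n : ℕ => ((ArithmeticFunction.vonMangoldt.residueClass (1 : ZMod 1) n : ℝ) : ℂ)) s
      - ((Nat.totient 1 : ℕ) : ℂ)⁻¹ / (s - 1) := h3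
  rw [h3', h4, h2, h1]
  generalize (∫ u in Ioi (0 : ℝ), (B u : ℂ) * Complex.exp (-(s - 1) * u)) = J
  simp only [Complex.ofReal_zero, mul_zero, Complex.exp_zero, Nat.totient_one, Nat.cast_one, inv_one]
  rw [neg_div_neg_eq]
  field_simp
  ring

/-- The (half-range) Fejer kernel. -/
noncomputable def F (l x : ℝ) : ℝ := ∫ t in (0 : ℝ)..l, (1 - t / l) * Real.cos (t * x)

lemma F_eq {l x : ℝ} (hl : 0 < l) (hx : x ≠ 0) : F l x = (1 - Real.cos (l * x)) / (l * x ^ 2) := by
  unfold F
  have h : ∀ t ∈ uIcc 0 l, HasDerivAt (fun t => (1 - t / l) * (Real.sin (t * x) / x)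
      - Real.cos (t * x) / (l * x ^ 2)) ((1 - t / l) * Real.cos (t * x)) t := by
    intro t _
    have h1 : HasDerivAt (fun t : ℝ => 1 - t / l) (-(1 / l)) t := by
      simpa using ((hasDerivAt_id t).div_const l).const_sub 1
    have h2 : HasDerivAt (fun t : ℝ => t * x) x t := by
      simpa using (hasDerivAt_id t).mul_const x
    have h3 := (h2.sin).div_const x
    have h4 := (h2.cos).div_const (l * x ^ 2)
    have h5 := (h1.mul h3).sub h4
    refine h5.congr_deriv ?_
    field_simp
    ring
  rw [intervalIntegral.integral_eq_sub_of_hasDerivAt h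
    (Continuous.intervalIntegrable (by fun_prop) _ _)]
  simp
  field_simp
  ring

lemma F_nonneg {l : ℝ} (hl : 0 < l) (x : ℝ) : 0 ≤ F l x := by
  rcases eq_or_ne x 0 with rfl | hx
  · unfold F
    refine intervalIntegral.integral_nonneg hl.le (fun t ht => ?_)
    have : t / l ≤ 1 := (div_le_one hl).2 ht.2
    simp
    linarith
  · rw [F_eq hl hx]
    have := Real.cos_le_one (l * x)
    positivity [sub_nonneg.2 this]

lemma F_le {l : ℝ} (hl : 0 < l) (x : ℝ) : F l x ≤ l := by
  unfold F
  calc ∫ t in (0 : ℝ)..l, (1 - t / l) * Real.cos (t * x) ≤ ∫ t in (0 : ℝ)..l, (1 : ℝ) := by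
        refine intervalIntegral.integral_mono_on hl.le
          (Continuous.intervalIntegrable (by fun_prop) _ _)
          (Continuous.intervalIntegrable (by fun_prop) _ _) (fun t ht => ?_)
        have h1 : t / l ≤ 1 := (div_le_one hl).2 ht.2
        have h2 : 0 ≤ t / l := div_nonneg ht.1 hl.le
        have h3 := Real.cos_le_one (t * x)
        nlinarith
    _ = l := by simp

lemma F_mul_sq_le {l : ℝ} (hl : 0 < l) (x : ℝ) : F l x * x ^ 2 ≤ 2 / l := by
  rcases eq_or_ne x 0 with rfl | hx
  · simp; positivity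
  · rw [F_eq hl hx]
    have := Real.neg_one_le_cos (l * x)
    rw [div_mul_eq_mul_div, mul_div_mul_right _ _ (pow_ne_zero 2 hx)]
    gcongr
    linarith

lemma F_bound {l : ℝ} (hl : 0 < l) (x : ℝ) : F l x ≤ (l + 2 / l) * (1 + x ^ 2)⁻¹ := by
  rw [← div_eq_mul_inv, le_div_iff₀ (by positivity)]
  have h1 := F_le hl x
  have h2 := F_mul_sq_le hl x
  linarith

lemma F_continuous {l : ℝ} : Continuous (F l) := by
  unfold F
  exact intervalIntegral.continuous_parametric_intervalIntegral_of_continuous' (by fun_prop) 0 l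

lemma F_integrable {l : ℝ} (hl : 0 < l) : Integrable (F l) := by
  refine Integrable.mono' (integrable_inv_one_add_sq.const_mul (l + 2 / l))
    F_continuous.aestronglyMeasurable (Eventually.of_forall fun x => ?_)
  rw [Real.norm_of_nonneg (F_nonneg hl x)]
  exact F_bound hl x

lemma F_neg (l x : ℝ) : F l (-x) = F l x := by
  unfold F; simp

lemma F_scale {l : ℝ} (hl : 0 < l) (x : ℝ) : F l x = l * F 1 (l * x) := by
  rcases eq_or_ne x 0 with rfl | hx
  · unfold F
    simp
    rw [intervalIntegral.integral_sub (by simp) (Continuous.intervalIntegrable (by fun_prop) _ _)]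
    simp only [integral_id, intervalIntegral.integral_const, smul_eq_mul]
    field_simp
    ring
  · rw [F_eq hl hx, F_eq one_pos (mul_ne_zero hl.ne' hx)]
    field_simp

/-- total mass of the kernel -/
noncomputable def kappa : ℝ := ∫ x, F 1 x

lemma integral_F {l : ℝ} (hl : 0 < l) : ∫ x, F l x = kappa := by
  have h := Measure.integral_comp_mul_left (F 1) l
  simp_rw [F_scale hl, integral_const_mul]
  rw [h, abs_of_pos (inv_pos.2 hl)]
  unfold kappa
  rw [smul_eq_mul, ← mul_assoc, mul_inv_cancel₀ hl.ne', one_mul]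

lemma kappa_pos : 0 < kappa := by
  unfold kappa
  rw [integral_pos_iff_support_of_nonneg (F_nonneg one_pos) (F_integrable one_pos)]
  refine IsOpen.measure_pos _ (F_continuous.isOpen_support) ⟨0, ?_⟩
  simp only [Function.mem_support]
  unfold F
  simp
  rw [intervalIntegral.integral_sub (by simp) (Continuous.intervalIntegrable (by fun_prop) _ _)]
  simp
  norm_num

/-- mass near the origin -/
lemma tail_le {l δ : ℝ} (hl : 0 < l) (hδ : 0 < δ) :
    ∫ x in (Icc (-δ) δ)ᶜ, F l x ≤ (2 * (1 + (δ ^ 2)⁻¹) * Real.pi) / l := by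
  have h1 : ∫ x in (Icc (-δ) δ)ᶜ, F l x ≤
      ∫ x in (Icc (-δ) δ)ᶜ, (2 / l * (1 + (δ ^ 2)⁻¹)) * (1 + x ^ 2)⁻¹ := by
    refine setIntegral_mono_on (F_integrable hl).integrableOn
      (integrable_inv_one_add_sq.const_mul _).integrableOn measurableSet_Icc.compl (fun x hx => ?_)
    have hx2 : δ ^ 2 ≤ x ^ 2 := by
      rw [sq_le_sq, abs_of_pos hδ]
      by_contra h
      push Not at h
      exact hx ⟨by linarith [(abs_lt.1 h).1], by linarith [(abs_lt.1 h).2]⟩
    have h2 := F_mul_sq_le hl x
    have h0 := F_nonneg hl x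
    rw [← div_eq_mul_inv, le_div_iff₀ (by positivity), mul_add, mul_one]
    have hδ2 : 0 < δ ^ 2 := by positivity
    have h3 : F l x ≤ 2 / l * (δ ^ 2)⁻¹ := by
      rw [← div_eq_mul_inv, le_div_iff₀ hδ2]
      nlinarith
    linarith
  have h2 : ∫ x in (Icc (-δ) δ)ᶜ, (2 / l * (1 + (δ ^ 2)⁻¹)) * (1 + x ^ 2)⁻¹ ≤
      ∫ x, (2 / l * (1 + (δ ^ 2)⁻¹)) * (1 + x ^ 2)⁻¹ := by
    refine setIntegral_le_integral (integrable_inv_one_add_sq.const_mul _)
      (Eventually.of_forall fun x => ?_)
    simp only [Pi.zero_apply]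
    positivity
  have h3 : ∫ x, (2 / l * (1 + (δ ^ 2)⁻¹)) * (1 + x ^ 2)⁻¹
      = (2 / l * (1 + (δ ^ 2)⁻¹)) * Real.pi := by
    rw [integral_const_mul, integral_univ_inv_one_add_sq]
  calc _ ≤ _ := h1
    _ ≤ _ := h2
    _ = _ := by rw [h3]; ring

lemma split {l δ : ℝ} (hl : 0 < l) :
    (∫ x in Icc (-δ) δ, F l x) + ∫ x in (Icc (-δ) δ)ᶜ, F l x = kappa := by
  rw [integral_add_compl measurableSet_Icc (F_integrable hl), integral_F hl]

/-- the Tauberian step -/
theorem tauberian (hconv : ∀ l : ℝ, 0 < l →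
    Tendsto (fun v : ℝ => ∫ y, B (v - y) * F l y) atTop (𝓝 kappa)) : Tendsto B atTop (𝓝 1) := by
  set C : ℝ := Real.log 4 + 4 with hC
  have hCpos : 0 < C := by positivity
  have hint : ∀ (l v : ℝ), 0 < l → Integrable (fun y => B (v - y) * F l y) := by
    intro l v hl
    refine (F_integrable hl).bdd_mul (c := C) ?_ ?_
    · exact (B_measurable.comp (by fun_prop)).aestronglyMeasurable
    · refine Eventually.of_forall fun y => ?_
      rw [Real.norm_of_nonneg (B_nonneg _)]
      exact B_le _
  have htail : ∀ (δ η : ℝ), 0 < δ → 0 < η → ∃ l : ℝ, 0 < l ∧ ∫ x in (Icc (-δ) δ)ᶜ, F l x < η := by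
    intro δ η hδ hη
    have hc : 0 < 2 * (1 + (δ ^ 2)⁻¹) * Real.pi := by positivity
    refine ⟨2 * (2 * (1 + (δ ^ 2)⁻¹) * Real.pi) / η, by positivity, ?_⟩
    refine lt_of_le_of_lt (tail_le (by positivity) hδ) ?_
    generalize 2 * (1 + (δ ^ 2)⁻¹) * Real.pi = c at hc
    have : c / (2 * c / η) = η / 2 := by field_simp
    rw [this]
    linarith
  have hkey1 : ∀ (l δ v : ℝ), 0 < l → 0 < δ →
      B v * Real.exp (-(2 * δ)) * (∫ x in Icc (-δ) δ, F l x) ≤ ∫ y, B (v + δ - y) * F l y := by
    intro l δ v hl hδ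
    calc B v * Real.exp (-(2 * δ)) * (∫ x in Icc (-δ) δ, F l x)
        = ∫ x in Icc (-δ) δ, B v * Real.exp (-(2 * δ)) * F l x := by rw [integral_const_mul]
      _ ≤ ∫ x in Icc (-δ) δ, B (v + δ - x) * F l x := by
          refine setIntegral_mono_on ((F_integrable hl).const_mul _).integrableOn
            (hint l _ hl).integrableOn measurableSet_Icc (fun x hx => ?_)
          have h1 := B_mono (u := v) (w := v + δ - x) (by linarith [hx.2])
          have h2 : B v * Real.exp (-(2 * δ)) ≤ B v * Real.exp (-(v + δ - x - v)) := by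
            have := B_nonneg v
            gcongr
            linarith [hx.1]
          have h3 := F_nonneg hl x
          gcongr
          exact h2.trans h1
      _ ≤ _ := by
          refine setIntegral_le_integral (hint l _ hl) (Eventually.of_forall fun y => ?_)
          exact mul_nonneg (B_nonneg _) (F_nonneg hl y)
  have hkey2 : ∀ (l δ v : ℝ), 0 < l → 0 < δ →
      ∫ y, B (v - δ - y) * F l y ≤ B v * Real.exp (2 * δ) * kappa
        + C * ∫ x in (Icc (-δ) δ)ᶜ, F l x := by
    intro l δ v hl hδ
    rw [← integral_add_compl (measurableSet_Icc (a := -δ) (b := δ)) (hint l _ hl)]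
    have e1 : ∫ x in Icc (-δ) δ, B (v - δ - x) * F l x ≤ B v * Real.exp (2 * δ) * kappa := by
      calc ∫ x in Icc (-δ) δ, B (v - δ - x) * F l x
          ≤ ∫ x in Icc (-δ) δ, B v * Real.exp (2 * δ) * F l x := by
            refine setIntegral_mono_on (hint l _ hl).integrableOn
              ((F_integrable hl).const_mul _).integrableOn measurableSet_Icc (fun x hx => ?_)
            have h1 := B_mono (u := v - δ - x) (w := v) (by linarith [hx.1])
            have h4 : B (v - δ - x) ≤ B v * Real.exp (v - (v - δ - x)) := by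
              have h5 : B (v - δ - x) = B (v - δ - x) * Real.exp (-(v - (v - δ - x)))
                  * Real.exp (v - (v - δ - x)) := by
                rw [mul_assoc, ← Real.exp_add]; simp
              rw [h5]
              gcongr
            have h2 : B v * Real.exp (v - (v - δ - x)) ≤ B v * Real.exp (2 * δ) := by
              have := B_nonneg v
              gcongr
              linarith [hx.2]
            have h3 := F_nonneg hl x
            gcongr
            exact h4.trans h2
        _ = B v * Real.exp (2 * δ) * ∫ x in Icc (-δ) δ, F l x := by rw [integral_const_mul]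
        _ ≤ B v * Real.exp (2 * δ) * kappa := by
            have h0 := B_nonneg v
            have h1 : ∫ x in Icc (-δ) δ, F l x ≤ kappa := by
              rw [← integral_F hl]
              exact setIntegral_le_integral (F_integrable hl)
                (Eventually.of_forall fun y => F_nonneg hl y)
            gcongr
    have e2 : ∫ x in (Icc (-δ) δ)ᶜ, B (v - δ - x) * F l x ≤ C * ∫ x in (Icc (-δ) δ)ᶜ, F l x := by
      rw [← integral_const_mul]
      refine setIntegral_mono_on (hint l _ hl).integrableOn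
        ((F_integrable hl).const_mul _).integrableOn measurableSet_Icc.compl (fun x hx => ?_)
      have h3 := F_nonneg hl x
      gcongr
      exact B_le _
    exact add_le_add e1 e2
  have hk := kappa_pos
  rw [tendsto_order]
  constructor
  · -- lower bound
    intro c hc
    set c' := max c (1 / 2) with hc'
    have hc'1 : c' < 1 := max_lt hc (by norm_num)
    have hc'0 : 0 < c' := lt_of_lt_of_le (by norm_num) (le_max_right _ _)
    set δ := -Real.log c' / 4 with hδd
    have hδ : 0 < δ := by
      have := Real.log_neg hc'0 hc'1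
      rw [hδd]; linarith
    have hexp : Real.exp (2 * δ) * c' < 1 := by
      have : Real.exp (2 * δ) * c' = Real.exp (Real.log c' / 2) := by
        calc Real.exp (2 * δ) * c' = Real.exp (2 * δ) * Real.exp (Real.log c') := by
              rw [Real.exp_log hc'0]
          _ = _ := by rw [← Real.exp_add, hδd]; ring_nf
      rw [this, Real.exp_lt_one_iff]
      have := Real.log_neg hc'0 hc'1
      linarith
    obtain ⟨l, hl, hlt⟩ := htail δ (kappa * (1 - Real.exp (2 * δ) * c') / C) hδ
      (div_pos (mul_pos hk (by linarith)) hCpos)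
    rw [lt_div_iff₀ hCpos] at hlt
    have h1 : Tendsto (fun v : ℝ => ∫ y, B (v - δ - y) * F l y) atTop (𝓝 kappa) :=
      (hconv l hl).comp (tendsto_atTop_add_const_right _ (-δ) tendsto_id)
    have h2 : ∀ᶠ v in atTop, Real.exp (2 * δ) * c' * kappa + C * (∫ x in (Icc (-δ) δ)ᶜ, F l x)
        < ∫ y, B (v - δ - y) * F l y := by
      refine h1.eventually (lt_mem_nhds ?_)
      nlinarith
    filter_upwards [h2] with v hv
    refine lt_of_le_of_lt (le_max_left c (1 / 2)) ?_
    have h3 := hkey2 l δ v hl hδ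
    have h4 : Real.exp (2 * δ) * kappa * c' < Real.exp (2 * δ) * kappa * B v := by nlinarith
    exact lt_of_mul_lt_mul_left h4 (by positivity)
  · -- upper bound
    intro c hc
    have hc0 : 0 < c := by linarith
    set δ := Real.log c / 4 with hδd
    have hlog := Real.log_pos hc
    have hδ : 0 < δ := by rw [hδd]; linarith
    have hexp : 1 < Real.exp (-(2 * δ)) * c := by
      have : Real.exp (-(2 * δ)) * c = Real.exp (Real.log c / 2) := by
        calc Real.exp (-(2 * δ)) * c = Real.exp (-(2 * δ)) * Real.exp (Real.log c) := by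
              rw [Real.exp_log hc0]
          _ = _ := by rw [← Real.exp_add, hδd]; ring_nf
      rw [this, Real.one_lt_exp_iff]
      linarith
    set E := Real.exp (-(2 * δ)) * c with hE
    obtain ⟨l, hl, hlt⟩ := htail δ (kappa * (1 - 1 / E)) hδ
      (mul_pos hk (by rw [sub_pos, div_lt_one (by linarith)]; exact hexp))
    have ha : kappa / E < ∫ x in Icc (-δ) δ, F l x := by
      have h0 := split (δ := δ) hl
      have : kappa * (1 - 1 / E) = kappa - kappa / E := by ring
      linarith
    have ha0 : 0 < ∫ x in Icc (-δ) δ, F l x := lt_trans (div_pos hk (by linarith)) ha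
    rw [div_lt_iff₀ (by linarith)] at ha
    have h1 : Tendsto (fun v : ℝ => ∫ y, B (v + δ - y) * F l y) atTop (𝓝 kappa) :=
      (hconv l hl).comp (tendsto_atTop_add_const_right _ δ tendsto_id)
    have h2 : ∀ᶠ v in atTop, ∫ y, B (v + δ - y) * F l y < (∫ x in Icc (-δ) δ, F l x) * E :=
      h1.eventually (gt_mem_nhds ha)
    filter_upwards [h2] with v hv
    have h3 := hkey1 l δ v hl hδ
    have h4 : (Real.exp (-(2 * δ)) * ∫ x in Icc (-δ) δ, F l x) * B v
        < (Real.exp (-(2 * δ)) * ∫ x in Icc (-δ) δ, F l x) * c := by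
      rw [hE] at hv
      nlinarith
    exact lt_of_mul_lt_mul_left h4 (by positivity)

/-- weight times `G` on the vertical line through `1 + ε` -/
noncomputable def W (l ε : ℝ) (t : ℝ) : ℂ := ((1 - t / l : ℝ) : ℂ) * G (1 + ε + t * Complex.I)

lemma fubini {l ε : ℝ} (hl : 0 < l) (hε : 0 < ε) (v : ℝ) :
    ∫ u in Ioi (0 : ℝ), ((B u - 1) * Real.exp (-(ε * u))) * F l (v - u)
      = (∫ t in Ioc (0 : ℝ) l, Complex.exp (t * v * Complex.I) * W l ε t).re := by
  have hC : ∀ u, |B u - 1| ≤ Real.log 4 + 5 := by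
    intro u
    have h1 := B_nonneg u
    have h2 := B_le u
    have h3 := Real.log_nonneg (show (1 : ℝ) ≤ 4 by norm_num)
    rw [abs_le]; constructor <;> linarith
  -- the two-variable integrand
  let Φ : ℝ → ℝ → ℂ := fun u t => (((B u - 1) * Real.exp (-(ε * u)) * (1 - t / l) : ℝ) : ℂ)
      * Complex.exp (t * (v - u) * Complex.I)
  have hexp : IntegrableOn (fun u : ℝ => Real.exp (-(ε * u))) (Ioi 0) := by
    simpa using integrableOn_exp_mul_Ioi (a := -ε) (by linarith) 0
  have hΦ : Integrable (Function.uncurry Φ)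
      ((volume.restrict (Ioi 0)).prod (volume.restrict (Ioc 0 l))) := by
    have hb : Integrable (fun z : ℝ × ℝ => ((Real.log 4 + 5) * Real.exp (-(ε * z.1))) * 1)
        ((volume.restrict (Ioi 0)).prod (volume.restrict (Ioc 0 l))) := by
      have h1 : Integrable (fun u : ℝ => (Real.log 4 + 5) * Real.exp (-(ε * u)))
        (volume.restrict (Ioi 0)) := hexp.const_mul _
      have h2 : Integrable (fun _ : ℝ => (1 : ℝ)) (volume.restrict (Ioc 0 l)) := integrable_const _
      exact h1.mul_prod h2
    refine hb.mono' ?_ ?_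
    · refine Measurable.aestronglyMeasurable ?_
      have := B_measurable
      unfold Φ
      simp only [Function.uncurry_def]
      fun_prop
    · have : ∀ᵐ z : ℝ × ℝ ∂((volume.restrict (Ioi 0)).prod (volume.restrict (Ioc 0 l))),
          z ∈ (Ioi (0:ℝ)) ×ˢ (Ioc (0:ℝ) l) := by
        rw [Measure.prod_restrict]
        exact ae_restrict_mem (measurableSet_Ioi.prod measurableSet_Ioc)
      filter_upwards [this] with z hz
      obtain ⟨hz1, hz2⟩ := hz
      simp only [Function.uncurry_def, Φ, norm_mul]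
      have e1 : ‖Complex.exp ((z.2 : ℂ) * (v - z.1) * Complex.I)‖ = 1 := by
        have := Complex.norm_exp_ofReal_mul_I (z.2 * (v - z.1))
        push_cast at this
        exact this
      rw [e1, Complex.norm_real, norm_mul, norm_mul, Real.norm_eq_abs, Real.norm_eq_abs,
        Real.norm_eq_abs, Real.abs_exp, mul_one, mul_one]
      have h2 : |1 - z.2 / l| ≤ 1 := by
        have h1 : z.2 / l ≤ 1 := (div_le_one hl).2 hz2.2
        have h2 : 0 < z.2 / l := div_pos hz2.1 hl
        rw [abs_le]; constructor <;> linarith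
      calc |B z.1 - 1| * Real.exp (-(ε * z.1)) * |1 - z.2 / l|
          ≤ (Real.log 4 + 5) * Real.exp (-(ε * z.1)) * 1 := by
            gcongr
            exact hC _
        _ = _ := mul_one _
  have hswap := integral_integral_swap hΦ
  have hL : ∫ u in Ioi (0 : ℝ), ((B u - 1) * Real.exp (-(ε * u))) * F l (v - u)
      = (∫ u in Ioi (0 : ℝ), ∫ t in Ioc (0 : ℝ) l, Φ u t).re := by
    have hI : Integrable (fun u => ∫ t in Ioc (0 : ℝ) l, Φ u t) (volume.restrict (Ioi 0)) :=
      hΦ.integral_prod_left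
    rw [← Complex.reCLM_apply, ← ContinuousLinearMap.integral_comp_comm _ hI]
    refine setIntegral_congr_fun measurableSet_Ioi (fun u hu => ?_)
    simp only [Complex.reCLM_apply]
    have h1 : (fun t => Φ u t) = fun t : ℝ => (((B u - 1) * Real.exp (-(ε * u)) : ℝ) : ℂ) *
        ((((1 - t / l : ℝ)) : ℂ) * Complex.exp (t * (v - u) * Complex.I)) := by
      ext t
      simp only [Φ]
      push_cast
      ring
    rw [h1, integral_const_mul, Complex.re_ofReal_mul]
    congr 1
    unfold F
    rw [intervalIntegral.integral_of_le hl.le, ← Complex.reCLM_apply,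
      ← ContinuousLinearMap.integral_comp_comm]
    · refine setIntegral_congr_fun measurableSet_Ioc (fun t ht => ?_)
      simp only [Complex.reCLM_apply, Complex.re_ofReal_mul]
      congr 1
      have : (t : ℂ) * (v - u) * Complex.I = ((t * (v - u) : ℝ) : ℂ) * Complex.I := by push_cast; ring
      rw [this, Complex.exp_ofReal_mul_I_re]
    · exact (Continuous.integrableOn_Icc (by fun_prop)).mono_set Ioc_subset_Icc_self
  rw [hL, hswap]
  congr 1
  refine setIntegral_congr_fun measurableSet_Ioc (fun t ht => ?_)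
  simp only [W]
  have hs : 1 < (1 + ε + t * Complex.I : ℂ).re := by simp; exact hε
  rw [← laplace hs]
  rw [← integral_const_mul, ← integral_const_mul]
  refine setIntegral_congr_fun measurableSet_Ioi (fun u hu => ?_)
  simp only [Φ]
  push_cast
  have : Complex.exp (t * (v - u) * Complex.I) * Complex.exp (-(ε * u)) =
      Complex.exp (t * v * Complex.I) * Complex.exp (-(1 + ε + t * Complex.I - 1) * u) := by
    rw [← Complex.exp_add, ← Complex.exp_add]
    ring_nf
  linear_combination ((B u : ℂ) - 1) * (1 - t / l) * this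

lemma eps_tendsto : Tendsto (fun n : ℕ => (1 : ℝ) / ((n : ℝ) + 1)) atTop (𝓝 0) :=
  tendsto_one_div_add_atTop_nhds_zero_nat

lemma abs_B_sub_one (u : ℝ) : |B u - 1| ≤ Real.log 4 + 5 := by
  have h1 := B_nonneg u
  have h2 := B_le u
  have h3 := Real.log_nonneg (show (1 : ℝ) ≤ 4 by norm_num)
  rw [abs_le]; constructor <;> linarith

lemma W_limit {l : ℝ} (hl : 0 < l) (v : ℝ) :
    Tendsto (fun n : ℕ => ∫ t in Ioc (0 : ℝ) l, Complex.exp (t * v * Complex.I)
      * W l (1 / ((n : ℝ) + 1)) t) atTop
      (𝓝 (∫ t in Ioc (0 : ℝ) l, Complex.exp (t * v * Complex.I) * W l 0 t)) := by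
  have hmaps : ∀ z ∈ (Icc (0 : ℝ) 1) ×ˢ (Icc (0 : ℝ) l),
      (1 + (z.1 : ℂ) + z.2 * Complex.I) ∈ {s : ℂ | 1 ≤ s.re} := by
    intro z hz
    simp
    exact hz.1.1
  have hcont : ContinuousOn (fun z : ℝ × ℝ => G (1 + (z.1 : ℂ) + z.2 * Complex.I))
      ((Icc (0 : ℝ) 1) ×ˢ (Icc (0 : ℝ) l)) :=
    G_continuousOn.comp (by fun_prop) hmaps
  obtain ⟨M, hM⟩ := (isCompact_Icc.prod isCompact_Icc).exists_bound_of_continuousOn hcont
  have hn : ∀ n : ℕ, (1 : ℝ) / ((n : ℝ) + 1) ∈ Icc (0 : ℝ) 1 := by
    intro n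
    refine ⟨by positivity, ?_⟩
    rw [div_le_one (by positivity)]
    have : (0 : ℝ) ≤ n := Nat.cast_nonneg n
    linarith
  refine tendsto_integral_of_dominated_convergence (fun _ => M) ?_ (integrable_const _) ?_ ?_
  · intro n
    refine ContinuousOn.aestronglyMeasurable ?_ measurableSet_Ioc
    unfold W
    refine ContinuousOn.mul (by fun_prop) (ContinuousOn.mul (by fun_prop) ?_)
    refine G_continuousOn.comp (by fun_prop) (fun t ht => ?_)
    exact hmaps ((1 : ℝ) / ((n : ℝ) + 1), t) ⟨hn n, ⟨ht.1.le, ht.2⟩⟩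
  · intro n
    filter_upwards [ae_restrict_mem measurableSet_Ioc] with t ht
    have h1 := hM ((1 : ℝ) / ((n : ℝ) + 1), t) ⟨hn n, ⟨ht.1.le, ht.2⟩⟩
    unfold W
    rw [norm_mul, norm_mul, Complex.norm_real]
    have e1 : ‖Complex.exp ((t : ℂ) * v * Complex.I)‖ = 1 := by
      have := Complex.norm_exp_ofReal_mul_I (t * v)
      push_cast at this
      exact this
    have h2 : ‖1 - t / l‖ ≤ 1 := by
      have h1 : t / l ≤ 1 := (div_le_one hl).2 ht.2
      have h2 : 0 < t / l := div_pos ht.1 hl
      rw [Real.norm_eq_abs, abs_le]; constructor <;> linarith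
    rw [e1, one_mul]
    calc _ ≤ 1 * M := by
          gcongr
      _ = M := one_mul M
  · filter_upwards [ae_restrict_mem measurableSet_Ioc] with t ht
    unfold W
    refine Tendsto.const_mul _ (Tendsto.const_mul _ ?_)
    have hc : Continuous (fun e : ℝ => 1 + (e : ℂ) + t * Complex.I) := by fun_prop
    have h2 : Tendsto (fun n : ℕ => 1 + (((1 : ℝ) / ((n : ℝ) + 1) : ℝ) : ℂ) + t * Complex.I) atTop
        (𝓝[{s : ℂ | 1 ≤ s.re}] (1 + ((0 : ℝ) : ℂ) + t * Complex.I)) := by
      refine tendsto_nhdsWithin_iff.2 ⟨(hc.tendsto 0).comp eps_tendsto, Eventually.of_forall fun n => ?_⟩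
      exact hmaps ((1 : ℝ) / ((n : ℝ) + 1), t) ⟨hn n, ⟨ht.1.le, ht.2⟩⟩
    have h1 : ContinuousWithinAt G {s : ℂ | 1 ≤ s.re} (1 + ((0 : ℝ) : ℂ) + t * Complex.I) :=
      G_continuousOn _ (hmaps (0, t) ⟨⟨le_rfl, zero_le_one⟩, ⟨ht.1.le, ht.2⟩⟩)
    exact Tendsto.comp h1 h2

lemma key {l : ℝ} (hl : 0 < l) (v : ℝ) :
    ∫ u in Ioi (0 : ℝ), (B u - 1) * F l (v - u)
      = (∫ t in Ioc (0 : ℝ) l, Complex.exp (t * v * Complex.I) * W l 0 t).re := by
  have h1 : Tendsto (fun n : ℕ => ∫ u in Ioi (0 : ℝ),
      ((B u - 1) * Real.exp (-(1 / ((n : ℝ) + 1) * u))) * F l (v - u)) atTop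
      (𝓝 (∫ u in Ioi (0 : ℝ), (B u - 1) * F l (v - u))) := by
    have hFi : Integrable (fun u => F l (v - u)) := (F_integrable hl).comp_sub_left v
    have hFm := F_continuous (l := l)
    have hBm := B_measurable
    refine tendsto_integral_of_dominated_convergence
      (fun u => (Real.log 4 + 5) * F l (v - u)) ?_ (hFi.const_mul _).integrableOn ?_ ?_
    · intro n
      have : Measurable (fun u => F l (v - u)) := (hFm.comp (by fun_prop)).measurable
      refine Measurable.aestronglyMeasurable ?_
      fun_prop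
    · intro n
      filter_upwards [ae_restrict_mem measurableSet_Ioi] with u hu
      have h0 := F_nonneg hl (v - u)
      rw [norm_mul, norm_mul, Real.norm_eq_abs, Real.norm_eq_abs, Real.abs_exp,
        Real.norm_of_nonneg h0]
      have h2 : Real.exp (-(1 / ((n : ℝ) + 1) * u)) ≤ 1 := by
        rw [Real.exp_le_one_iff]
        have : 0 ≤ 1 / ((n : ℝ) + 1) * u := mul_nonneg (by positivity) (le_of_lt hu)
        linarith
      have h3 := abs_B_sub_one u
      calc |B u - 1| * Real.exp (-(1 / ((n : ℝ) + 1) * u)) * F l (v - u)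
          ≤ (Real.log 4 + 5) * 1 * F l (v - u) := by gcongr
        _ = _ := by ring
    · refine Eventually.of_forall fun u => ?_
      have : Tendsto (fun n : ℕ => Real.exp (-(1 / ((n : ℝ) + 1) * u))) atTop (𝓝 1) := by
        have h := (eps_tendsto.mul_const u).neg
        rw [zero_mul, neg_zero] at h
        have := (Real.continuous_exp.tendsto 0).comp h
        rwa [Real.exp_zero] at this
      have h2 := (this.const_mul (B u - 1)).mul_const (F l (v - u))
      rwa [mul_one] at h2
  have h2 := (Complex.continuous_re.tendsto _).comp (W_limit hl v)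
  refine tendsto_nhds_unique h1 (h2.congr fun n => ?_)
  simp only [Function.comp]
  have h3 := fubini hl (ε := 1 / ((n : ℝ) + 1)) (by positivity) v
  rw [h3]

lemma riemann_lebesgue {l : ℝ} :
    Tendsto (fun v : ℝ => (∫ t in Ioc (0 : ℝ) l, Complex.exp (t * v * Complex.I) * W l 0 t).re)
      atTop (𝓝 0) := by
  have h := Real.tendsto_integral_exp_smul_cocompact (fun t => (Ioc (0 : ℝ) l).indicator (W l 0) t)
  have hv : Tendsto (fun v : ℝ => -v / (2 * Real.pi)) atTop (cocompact ℝ) := by
    refine Tendsto.mono_right ?_ (atBot_le_cocompact (α := ℝ))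
    refine Tendsto.atBot_div_const (by positivity) tendsto_neg_atTop_atBot
  have h2 := h.comp hv
  have h3 := (Complex.continuous_re.tendsto _).comp h2
  rw [Complex.zero_re] at h3
  refine h3.congr fun v => ?_
  simp only [Function.comp]
  congr 1
  rw [← integral_indicator measurableSet_Ioc]
  congr 1
  ext t
  by_cases ht : t ∈ Ioc (0 : ℝ) l
  · simp only [Set.indicator_of_mem ht]
    rw [Circle.smul_def, Real.fourierChar_apply, smul_eq_mul]
    congr 2
    push_cast
    field_simp
  · simp only [Set.indicator_of_notMem ht, smul_zero]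

theorem B_tendsto : Tendsto B atTop (𝓝 1) := by
  refine tauberian (fun l hl => ?_)
  have hFi : ∀ v, Integrable (fun u => F l (v - u)) := fun v => (F_integrable hl).comp_sub_left v
  have e1 : ∀ v, ∫ y, B (v - y) * F l y = ∫ u, B u * F l (v - u) := by
    intro v
    have := integral_sub_left_eq_self (fun u => B u * F l (v - u)) volume v
    rw [← this]
    simp
  have e2 : ∀ v, ∫ u, B u * F l (v - u) = ∫ u in Ioi (0 : ℝ), B u * F l (v - u) := by
    intro v
    rw [← integral_indicator measurableSet_Ioi]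
    congr 1
    ext u
    by_cases hu : u ∈ Ioi (0 : ℝ)
    · rw [Set.indicator_of_mem hu]
    · rw [Set.indicator_of_notMem hu, B_eq_zero (not_lt.1 hu), zero_mul]
  have e3 : ∀ v, ∫ u in Ioi (0 : ℝ), B u * F l (v - u) =
      (∫ u in Ioi (0 : ℝ), (B u - 1) * F l (v - u)) + ∫ u in Ioi (0 : ℝ), F l (v - u) := by
    intro v
    rw [← integral_add]
    · congr 1
      ext u
      ring
    · refine Integrable.bdd_mul (c := Real.log 4 + 5) (hFi v).integrableOn ?_ ?_
      · exact (B_measurable.sub measurable_const).aestronglyMeasurable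
      · exact Eventually.of_forall fun u => abs_B_sub_one u
    · exact (hFi v).integrableOn
  have e4 : Tendsto (fun v => ∫ u in Ioi (0 : ℝ), F l (v - u)) atTop (𝓝 kappa) := by
    have h5 : ∀ v, ∫ u in Ioi (0 : ℝ), F l (v - u)
        = ∫ y, (Ioi (0 : ℝ)).indicator (fun _ => (1 : ℝ)) (v - y) * F l y := by
      intro v
      have := integral_sub_left_eq_self
        (fun u => (Ioi (0 : ℝ)).indicator (fun _ => (1 : ℝ)) u * F l (v - u)) volume v
      rw [← integral_indicator measurableSet_Ioi]
      simp only [sub_sub_cancel] at this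
      rw [this]
      congr 1
      ext u
      by_cases hu : u ∈ Ioi (0 : ℝ)
      · rw [Set.indicator_of_mem hu, Set.indicator_of_mem hu, one_mul]
      · rw [Set.indicator_of_notMem hu, Set.indicator_of_notMem hu, zero_mul]
    simp_rw [h5]
    rw [← integral_F hl]
    refine tendsto_integral_filter_of_dominated_convergence (F l) ?_ ?_ (F_integrable hl) ?_
    · refine Eventually.of_forall fun v => ?_
      refine AEStronglyMeasurable.mul ?_ F_continuous.aestronglyMeasurable
      exact ((measurable_const.indicator measurableSet_Ioi).comp (by fun_prop)).aestronglyMeasurable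
    · refine Eventually.of_forall fun v => Eventually.of_forall fun y => ?_
      rw [norm_mul, Real.norm_of_nonneg (F_nonneg hl y)]
      have h1 : ‖(Ioi (0 : ℝ)).indicator (fun _ => (1 : ℝ)) (v - y)‖ ≤ 1 := by
        by_cases hu : v - y ∈ Ioi (0 : ℝ)
        · rw [Set.indicator_of_mem hu]; simp
        · rw [Set.indicator_of_notMem hu]; simp
      have := F_nonneg hl y
      nlinarith
    · refine Eventually.of_forall fun y => ?_
      refine tendsto_const_nhds.congr' ?_
      filter_upwards [eventually_gt_atTop y] with v hv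
      rw [Set.indicator_of_mem (show v - y ∈ Ioi (0 : ℝ) from sub_pos.2 hv), one_mul]
  have e5 := (riemann_lebesgue (l := l)).add e4
  rw [zero_add] at e5
  refine e5.congr fun v => ?_
  rw [e1, e2, e3, key hl]

/-- **Prime number theorem** for `ψ`. -/
theorem psi_div_tendsto : Tendsto (fun x : ℝ => Chebyshev.psi x / x) atTop (𝓝 1) := by
  refine (B_tendsto.comp Real.tendsto_log_atTop).congr' ?_
  filter_upwards [eventually_gt_atTop 0] with x hx
  simp only [Function.comp, B, Real.exp_neg, Real.exp_log hx]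
  rw [div_eq_mul_inv]

/-- **Prime number theorem** for `θ`. -/
theorem theta_div_tendsto : Tendsto (fun x : ℝ => Chebyshev.theta x / x) atTop (𝓝 1) := by
  obtain ⟨C, hC⟩ := Chebyshev.psi_sub_theta_le_mul_sqrt
  have h1 : Tendsto (fun x : ℝ => (Chebyshev.psi x - Chebyshev.theta x) / x) atTop (𝓝 0) := by
    have h2 : Tendsto (fun x : ℝ => C * (Real.sqrt x)⁻¹) atTop (𝓝 0) := by
      have := (Real.tendsto_sqrt_atTop.inv_tendsto_atTop).const_mul C
      rwa [mul_zero] at this
    refine squeeze_zero' ?_ ?_ h2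
    · filter_upwards [eventually_gt_atTop 0] with x hx
      exact div_nonneg (sub_nonneg.2 (Chebyshev.theta_le_psi x)) hx.le
    · filter_upwards [eventually_gt_atTop 0] with x hx
      rw [div_le_iff₀ hx]
      refine (hC x).trans (le_of_eq ?_)
      have : (Real.sqrt x)⁻¹ * x = Real.sqrt x := by
        have hs : 0 < Real.sqrt x := Real.sqrt_pos.2 hx
        nth_rewrite 2 [← Real.mul_self_sqrt hx.le]
        field_simp
      rw [mul_assoc, this]
  have h3 := psi_div_tendsto.sub h1
  rw [sub_zero] at h3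
  refine h3.congr fun x => ?_
  ring

/-- **Prime number theorem**: `π(x) log x / x → 1`. -/
theorem primeCounting_tendsto :
    Tendsto (fun x : ℝ => (Nat.primeCounting ⌊x⌋₊ : ℝ) * Real.log x / x) atTop (𝓝 1) := by
  obtain ⟨C, hC⟩ := Chebyshev.primeCounting_sub_theta_div_log_isBigO.bound
  have h1 : Tendsto (fun x : ℝ => ((Nat.primeCounting ⌊x⌋₊ : ℝ) - Chebyshev.theta x / Real.log x)
      * (Real.log x / x)) atTop (𝓝 0) := by
    have h2 : Tendsto (fun x : ℝ => C * (Real.log x)⁻¹) atTop (𝓝 0) := by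
      have := (Real.tendsto_log_atTop.inv_tendsto_atTop).const_mul C
      rwa [mul_zero] at this
    refine squeeze_zero_norm' ?_ h2
    filter_upwards [eventually_gt_atTop 1, hC] with x hx h
    have hlog := Real.log_pos hx
    have hx0 : 0 < x := by linarith
    rw [norm_mul]
    calc _ ≤ C * ‖x / Real.log x ^ 2‖ * ‖Real.log x / x‖ := by gcongr
      _ = C * (Real.log x)⁻¹ := by
        rw [Real.norm_of_nonneg (by positivity), Real.norm_of_nonneg (by positivity)]
        field_simp
  have h3 := h1.add theta_div_tendsto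
  rw [zero_add] at h3
  refine h3.congr' ?_
  filter_upwards [eventually_gt_atTop 1] with x hx
  have hlog := Real.log_pos hx
  have hx0 : 0 < x := by linarith
  field_simp
  ring

end Vale.Agent.P031.PNT

namespace Vale.Agent.P031

open PNT

/-- Consequence of the prime number theorem: `π(cx)/π(x) → c`. -/
theorem pnt_ratio (c : ℝ) (hc : 0 < c) :
    Filter.Tendsto (fun x : ℝ => (Nat.primeCounting ⌊c*x⌋₊ : ℝ) / (Nat.primeCounting ⌊x⌋₊ : ℝ))
      Filter.atTop (nhds c) := by
  have h1 := primeCounting_tendsto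
  have h2 := h1.comp (tendsto_id.const_mul_atTop hc)
  have h3 : Tendsto (fun x : ℝ => Real.log x / Real.log (c * x)) atTop (𝓝 1) := by
    have e1 : Tendsto (fun x : ℝ => Real.log c * (Real.log x)⁻¹ + 1) atTop (𝓝 1) := by
      have := ((Real.tendsto_log_atTop.inv_tendsto_atTop).const_mul (Real.log c)).add_const 1
      rwa [mul_zero, zero_add] at this
    have e2 := e1.inv₀ one_ne_zero
    rw [inv_one] at e2
    refine e2.congr' ?_
    filter_upwards [eventually_gt_atTop 1] with x hx
    have hlog := Real.log_pos hx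
    have hx0 : 0 < x := by linarith
    rw [Real.log_mul hc.ne' hx0.ne', ← inv_div, add_div, div_self hlog.ne', div_eq_mul_inv]
  have h4 := ((h2.div h1 one_ne_zero).mul h3).mul_const c
  simp only [div_one, one_mul] at h4
  refine h4.congr' ?_
  have hlt : ∀ᶠ x in atTop, 1 < c * x :=
    (tendsto_id.const_mul_atTop hc).eventually (eventually_gt_atTop 1)
  filter_upwards [eventually_gt_atTop 2, hlt] with x hx hcx
  have hlog := Real.log_pos (by linarith : (1 : ℝ) < x)
  have hlog2 := Real.log_pos hcx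
  have hx0 : 0 < x := by linarith
  have hp : (0 : ℝ) < (Nat.primeCounting ⌊x⌋₊ : ℝ) := by
    have h5 : 2 ≤ ⌊x⌋₊ := Nat.le_floor (by exact_mod_cast hx.le)
    have h6 : 0 < Nat.primeCounting 2 := by decide
    exact_mod_cast lt_of_lt_of_le h6 (Nat.monotone_primeCounting h5)
  simp only [Function.comp, id, Pi.div_apply]
  field_simp

end Vale.Agent.P031
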