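import Vale.Agent.P031.SqFin
import Vale.Agent.P031.TRec

/-! P031: totients versus `SS k` (helper36). -/

namespace P031

open Finset Filter Topology
open scoped Classical

theorem squares : ∃ C : ℝ, 0 < C ∧ ∀ (k : ℕ) (x : ℝ), 1 ≤ k → 16 ≤ x →
    |(V x : ℝ) - (((Icc 1 ⌊x⌋₊).filter (fun v => v ∈ SS k)).card : ℝ)| ≤
      C * (x / Real.log x * Real.exp (C * ((k : ℝ) + 1 +
        (Real.log (Real.log (Real.log x) + 2)) ^ 2) - Real.exp k) + x ^ (9 / 10 : ℝ)) := by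
  obtain ⟨C1, hC1, hA⟩ := a_bound
  exact SqAux.squares_of hC1 hA

end P031
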