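import Vale.Agent.P031.TSumA
import Vale.Agent.P031.Num
import Vale.Agent.P031.Gpm
import Vale.Agent.P031.Geom

/-! P031 [TSUM], part 2: the final form. -/

namespace P031

open Finset
open scoped Classical

open TSumAux

/-- final form (from `tt_sum`, `gp_mass`, `geom_length`). -/
theorem tuple_sums (K : ℕ) (ε : ℝ) (hε : 0 < ε) : ∃ M₀ : ℕ, ∀ M ≥ M₀, ∀ Y : ℝ, Rgm K M Y →
    ∀ X : ℕ,
    ∑ T ∈ TP M (kk M) X (th M) Y, (1 : ℝ) / (val T) ≤ (1 + ε) * SR (RP (th M) Y) M (kk M) X Y ∧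
    (1 - ε) * SR (RM (th M) Y) M (kk M) X Y ≤ ∑ T ∈ TM M (kk M) X (th M) Y, (1 : ℝ) / (val T) := by
  obtain ⟨ε', hε', hε'1, hε'2⟩ : ∃ ε' : ℝ, 0 < ε' ∧ ε' ≤ 1 ∧ ε' ≤ ε :=
    ⟨min ε 1, lt_min hε one_pos, min_le_right _ _, min_le_left _ _⟩
  obtain ⟨M1, hM1⟩ := Nf_tendsto 1
  obtain ⟨M2, hM2⟩ := num_small K 1 (ε' / 10) (by positivity)
  obtain ⟨M3, hM3⟩ := th_small (1 / 20) (by norm_num)
  obtain ⟨M4, hM4⟩ := gp_mass
  obtain ⟨M5, hM5⟩ := geom_length
  refine ⟨M1 + M2 + M3 + M4 + M5 + 2, ?_⟩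
  intro M hM Y hY X
  have hm1 : 1 ≤ Nf M := hM1 M (by omega)
  have hMr : (2:ℝ) ≤ M := by exact_mod_cast (by omega : 2 ≤ M)
  have hK : K ≠ 0 := by
    rintro rfl
    have := hY.1.trans_lt hY.2
    norm_num at this
  have hMY : (M:ℝ) ≤ Y := by
    refine le_trans ?_ hY.1
    calc (M:ℝ) = (M:ℝ) ^ 1 := (pow_one _).symm
      _ ≤ (M:ℝ) ^ K := pow_le_pow_right₀ (by linarith) (by omega)
  have hY0 : 0 ≤ Y := by linarith
  obtain ⟨hθ0, hθ1, -⟩ := hM3 M (by omega)
  have hk : 1 ≤ kk M := by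
    unfold kk
    exact Nat.log_pos (by norm_num) (by omega)
  have hMm : Nf M ^ 10 ≤ M :=
    le_trans (Nat.pow_le_pow_right hm1 (by norm_num)) (Nf_pow_le M)
  obtain ⟨η, hη⟩ : ∃ η : ℝ, η = Real.exp (-(Nf M : ℝ) ^ 14) := ⟨_, rfl⟩
  have hη0 : 0 ≤ η := by rw [hη]; positivity
  have hη1 : η ≤ 1 := by
    rw [hη, Real.exp_le_one_iff]
    have : (0:ℝ) ≤ (Nf M : ℝ) ^ 14 := by positivity
    linarith
  have hηm : η ≤ Real.exp (-(Nf M : ℝ)) := by
    rw [hη]
    apply Real.exp_le_exp.2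
    have h1 : (1:ℝ) ≤ (Nf M : ℝ) := by exact_mod_cast hm1
    have h2 : (Nf M : ℝ) ^ 1 ≤ (Nf M : ℝ) ^ 14 := pow_le_pow_right₀ h1 (by norm_num)
    rw [pow_one] at h2
    linarith
  -- the error factor
  have hlog : 5 * Real.log Y * η ≤ ε' / 2 := by
    have h1 := hM2 M (by omega) Y hY
    rw [one_mul] at h1
    have hl0 : 0 ≤ Real.log Y := Real.log_nonneg (by linarith)
    have h2 : Real.log Y ≤ Real.exp ((Real.log (Y + 3)) ^ 2) := by
      have h3 : Real.log Y ≤ Real.log (Y + 3) := Real.log_le_log (by linarith) (by linarith)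
      have h4 : 1 ≤ Real.log (Y + 3) := by
        rw [Real.le_log_iff_exp_le (by linarith)]
        have := Real.exp_one_lt_d9
        linarith
      have h5 : Real.log (Y + 3) ≤ (Real.log (Y + 3)) ^ 2 := by nlinarith
      have h6 := Real.add_one_le_exp ((Real.log (Y + 3)) ^ 2)
      linarith
    have h7 : Real.log Y * η ≤ Real.exp ((Real.log (Y + 3)) ^ 2) * Real.exp (-(Nf M : ℝ)) :=
      mul_le_mul h2 hηm hη0 (by positivity)
    calc 5 * Real.log Y * η = 5 * (Real.log Y * η) := by ring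
      _ ≤ 5 * (ε' / 10) := by linarith
      _ = ε' / 2 := by ring
  have hup : ∀ J : ℕ, (J:ℝ) ≤ 5 * Real.log Y → (1 + η) ^ J ≤ 1 + ε := by
    intro J hJ
    have h1 : (J:ℝ) * η ≤ ε' / 2 := (mul_le_mul_of_nonneg_right hJ hη0).trans hlog
    have h2 : (1 + η) ^ J ≤ Real.exp (J * η) := by
      rw [Real.exp_nat_mul]
      refine pow_le_pow_left₀ (by linarith) ?_ J
      have := Real.add_one_le_exp η
      linarith
    have h3 : Real.exp (J * η) ≤ Real.exp (ε' / 2) := Real.exp_le_exp.2 h1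
    have h4 : Real.exp (ε' / 2) ≤ 1 + ε' := by
      have h5 := Real.exp_bound_div_one_sub_of_interval (x := ε' / 2) (by positivity) (by linarith)
      refine h5.trans ?_
      rw [div_le_iff₀ (by linarith)]
      nlinarith
    linarith
  have hlo : ∀ J : ℕ, (J:ℝ) ≤ 5 * Real.log Y → 1 - ε ≤ (1 - η) ^ J := by
    intro J hJ
    have h1 : (J:ℝ) * η ≤ ε' / 2 := (mul_le_mul_of_nonneg_right hJ hη0).trans hlog
    have h2 := one_add_mul_le_pow (a := -η) (by linarith) J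
    have e : 1 + -η = 1 - η := by ring
    rw [e] at h2
    linarith
  have hWt : ∀ t, 0 ≤ Wt M (kk M) X t := fun t => Finset.sum_nonneg fun ω _ => by positivity
  have hhead : ∀ t ∈ Tl M (kk M) X, M ≤ t.headI := by
    intro t ht
    obtain ⟨ω, hω, rfl⟩ := Finset.mem_image.1 ht
    exact hl_head hk hMm (Finset.mem_filter.1 hω).2
  have hgp := hM4 M (by omega)
  rw [← hη] at hgp
  have hmain1 := tt_sum (R := RP (th M) Y) (fun J t => RP_finite _ _ J t) (fun J t h hh => hh.1) M (kk M) X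
    (⌊Y⌋₊ + 1) hk (fun J t h hh ht => (okP_ent ht h hh.2.1).2) η hη0 hη1 hgp hMm
  have hfinM : ∀ J t, (RM (th M) Y J t).Finite := fun J t =>
    (RP_finite (th M) Y J t).subset (RM_subset_RP (th M) Y hθ0.le hY0 J t)
  have hmain2 := tt_sum (R := RM (th M) Y) hfinM (fun J t h hh => hh.1) M (kk M) X
    (⌊Y⌋₊ + 1) hk (fun J t h hh ht => (okM_ent ht h hh.2.1).2) η hη0 hη1 hgp hMm
  have hlenP : ∀ J : ℕ, ∀ t ∈ Tl M (kk M) X, (RP (th M) Y J t).ncard ≠ 0 →
      (J:ℝ) ≤ 5 * Real.log Y := by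
    intro J t ht hne
    exact hM5 M (by omega) Y (th M) hMY hθ0.le hθ1 J t (hhead t ht)
      (Set.nonempty_of_ncard_ne_zero hne)
  constructor
  · refine hmain1.2.trans ?_
    unfold SR
    rw [Finset.mul_sum]
    refine Finset.sum_le_sum fun J _ => ?_
    rw [Finset.mul_sum]
    refine Finset.sum_le_sum fun t ht => ?_
    by_cases h0 : (RP (th M) Y J t).ncard = 0
    · rw [h0]; simp
    · have h1 := hup J (hlenP J t ht h0)
      calc Wt M (kk M) X t * ((1 + η) ^ J * ((RP (th M) Y J t).ncard : ℝ))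
          ≤ Wt M (kk M) X t * ((1 + ε) * ((RP (th M) Y J t).ncard : ℝ)) :=
            mul_le_mul_of_nonneg_left (mul_le_mul_of_nonneg_right h1 (by positivity)) (hWt t)
        _ = _ := by ring
  · refine le_trans ?_ hmain2.1
    unfold SR
    rw [Finset.mul_sum]
    refine Finset.sum_le_sum fun J _ => ?_
    rw [Finset.mul_sum]
    refine Finset.sum_le_sum fun t ht => ?_
    by_cases h0 : (RM (th M) Y J t).ncard = 0
    · rw [h0]; simp
    · have hne : (RP (th M) Y J t).Nonempty :=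
        (Set.nonempty_of_ncard_ne_zero h0).mono (RM_subset_RP (th M) Y hθ0.le hY0 J t)
      have hJ := hM5 M (by omega) Y (th M) hMY hθ0.le hθ1 J t (hhead t ht) hne
      have h1 := hlo J hJ
      calc (1 - ε) * (Wt M (kk M) X t * ((RM (th M) Y J t).ncard : ℝ))
          = Wt M (kk M) X t * ((1 - ε) * ((RM (th M) Y J t).ncard : ℝ)) := by ring
        _ ≤ Wt M (kk M) X t * ((1 - η) ^ J * ((RM (th M) Y J t).ncard : ℝ)) :=
            mul_le_mul_of_nonneg_left (mul_le_mul_of_nonneg_right h1 (by positivity)) (hWt t)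

end P031
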