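import Vale.Agent.P031.RgmDefs
import Vale.Agent.P031.Class
import Vale.Agent.P031.Exc

/-! P031, [UPC]: upper bound for the number of elements of `SS k`. -/

namespace P031

open Finset Filter Topology
open scoped Classical

theorem upper_count : ∃ A : ℝ, 0 < A ∧ ∀ K : ℕ, 2 ≤ K → ∀ ε : ℝ, 0 < ε → ∃ M₀ : ℕ, ∀ M ≥ M₀,
    ∀ Y : ℝ, Rgm K M Y → ∀ (X : ℕ) (t : ℝ), Real.exp (Real.exp Y) ≤ t →
    Real.log (Real.log (t + 1)) ≤ Y + 1 → t ≤ X →
    (((Icc 1 ⌊t⌋₊).filter (fun v => v ∈ SS (kk M))).card : ℝ) ≤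
      ∑ T ∈ TP M (kk M) X (th M) Y, ((((Nat.primesLE (⌊t / val T⌋₊ + 1)).filter
        (fun q : ℕ => t < (q : ℝ) ^ 100)).card : ℕ) : ℝ) +
      t / Real.log t * (ε + Real.exp (A * (Real.log M) ^ 2)) := by
  obtain ⟨A, hA, hexc⟩ := exc_count
  refine ⟨A, hA, ?_⟩
  intro K hK ε hε
  obtain ⟨M₁, h1⟩ := hexc K hK ε hε
  obtain ⟨M₂, h2⟩ := reg_tuple K (by omega)
  refine ⟨max M₁ M₂, ?_⟩
  intro M hM Y hY X t hlow hhigh htX
  have e1 := h1 M (le_trans (le_max_left _ _) hM) Y hY t hlow hhigh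
  have e2 := h2 M (le_trans (le_max_right _ _) hM) Y hY X t hlow hhigh htX
  have ht0 : 0 < t := lt_of_lt_of_le (Real.exp_pos _) hlow
  set P := (TP M (kk M) X (th M) Y).sigma (fun T => (Nat.primesLE (⌊t / val T⌋₊ + 1)).filter
        (fun q : ℕ => t < (q : ℝ) ^ 100)) with hP
  have hsub : (Icc 1 ⌊t⌋₊).filter (fun v => v ∈ SS (kk M)) ⊆
      P.image (fun p => (p.2 - 1) * val p.1) ∪
      (Icc 1 ⌊t⌋₊).filter (fun v => v ∈ SS (kk M) ∧ ¬ RegV M (kk M) Y t v) := by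
    intro v hv
    obtain ⟨hv1, hv2⟩ := Finset.mem_filter.1 hv
    rw [Finset.mem_union]
    by_cases hr : RegV M (kk M) Y t v
    · left
      obtain ⟨hv3, hv4⟩ := Finset.mem_Icc.1 hv1
      have hvt : (v : ℝ) ≤ t := (Nat.le_floor_iff ht0.le).1 hv4
      obtain ⟨q₀, T, hq, hqt, hvv, hT⟩ := e2 v hvt hr
      refine Finset.mem_image.2 ⟨⟨T, q₀⟩, Finset.mem_sigma.2 ⟨hT, Finset.mem_filter.2
        ⟨Nat.mem_primesLE.2 ⟨?_, hq⟩, hqt⟩⟩, hvv.symm⟩
      have hval : 0 < val T := by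
        rcases Nat.eq_zero_or_pos (val T) with h | h
        · rw [h, mul_zero] at hvv; omega
        · exact h
      have hval' : (0 : ℝ) < val T := by exact_mod_cast hval
      have h3 : ((q₀ - 1 : ℕ) : ℝ) ≤ t / val T := by
        rw [le_div_iff₀ hval']
        calc ((q₀ - 1 : ℕ) : ℝ) * val T = (v : ℝ) := by rw [hvv]; push_cast; rfl
          _ ≤ t := hvt
      have h4 : q₀ - 1 ≤ ⌊t / val T⌋₊ := Nat.le_floor h3
      show q₀ ≤ ⌊t / val T⌋₊ + 1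
      omega
    · right
      exact Finset.mem_filter.2 ⟨hv1, hv2, hr⟩
  have hc1 := (Finset.card_le_card hsub).trans (Finset.card_union_le _ _)
  have hc2 : (P.image (fun p => (p.2 - 1) * val p.1)).card ≤ P.card := Finset.card_image_le
  have hc3 : P.card = ∑ T ∈ TP M (kk M) X (th M) Y, ((Nat.primesLE (⌊t / val T⌋₊ + 1)).filter
        (fun q : ℕ => t < (q : ℝ) ^ 100)).card := Finset.card_sigma _ _
  have hc4 : ((((Icc 1 ⌊t⌋₊).filter (fun v => v ∈ SS (kk M))).card : ℕ) : ℝ) ≤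
      (P.card : ℝ) + (((Icc 1 ⌊t⌋₊).filter
        (fun v => v ∈ SS (kk M) ∧ ¬ RegV M (kk M) Y t v)).card : ℝ) := by
    exact_mod_cast hc1.trans (Nat.add_le_add_right hc2 _)
  rw [hc3] at hc4
  push_cast at hc4 ⊢
  linarith

end P031
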