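import Vale.Agent.P031.RgmDefs
import Vale.Agent.P031.Mert
import Vale.Agent.P031.TRec
import Vale.Agent.P031.Gpm
import Vale.Agent.P031.Num
import Vale.Agent.P031.Geom

/-! P031, [WB]: the hypotheses of `geom` for the weights of the tails. -/

namespace P031

open Finset Filter Topology
open scoped Classical

namespace WBAux

theorem kk_le (M : ℕ) : kk M ≤ M := by
  unfold kk
  exact Nat.log_le_self 2 M

theorem one_le_kk {M : ℕ} (hM : 2 ≤ M) : 1 ≤ kk M := by
  unfold kk
  exact Nat.log_pos (by norm_num) hM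

theorem kk_le_log {M : ℕ} (hM : 1 ≤ M) : (kk M : ℝ) ≤ 2 * Real.log M := by
  have hM0 : (0 : ℝ) < M := by exact_mod_cast hM
  have h1 : 2 ^ kk M ≤ M := by
    unfold kk
    exact Nat.pow_log_le_self 2 (by omega)
  have h2 : (2 : ℝ) ^ kk M ≤ M := by exact_mod_cast h1
  have h3 := Real.log_le_log (by positivity) h2
  rw [Real.log_pow] at h3
  have h4 := Real.log_two_gt_d9
  have h5 : (0 : ℝ) ≤ kk M := Nat.cast_nonneg _
  nlinarith

/-- Wt-sum over a head class as a sum over tails. -/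
theorem sum_Wt (M k X c : ℕ) :
    ∑ t ∈ Tl M k X with t.headI = c, Wt M k X t =
      ∑ ω ∈ (tails M k X).filter (fun ω => (hl M k ω).headI = c), (1 : ℝ) / ω := by
  unfold Wt
  have hmaps : ∀ ω ∈ (tails M k X).filter (fun ω => (hl M k ω).headI = c),
      hl M k ω ∈ (Tl M k X).filter (fun t => t.headI = c) := by
    intro ω hω
    rw [Finset.mem_filter] at hω ⊢
    refine ⟨?_, hω.2⟩
    unfold Tl
    exact Finset.mem_image_of_mem _ hω.1
  rw [← Finset.sum_fiberwise_of_maps_to hmaps]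
  refine Finset.sum_congr rfl (fun t ht => ?_)
  rw [Finset.mem_filter] at ht
  rw [Finset.filter_filter]
  refine Finset.sum_congr ?_ (fun _ _ => rfl)
  ext ω
  simp only [Finset.mem_filter]
  constructor
  · rintro ⟨h1, h2⟩
    refine ⟨h1, ?_, h2⟩
    rw [h2]
    exact ht.2
  · rintro ⟨h1, -, h2⟩
    exact ⟨h1, h2⟩

/-- structure of a tail. -/
theorem tail_structure {M k ω : ℕ} (hk : 1 ≤ k) (hM : Nf M ^ 10 ≤ M)
    (h : Tail M k ω) : ∃ q w, q.Prime ∧ M ≤ lv q ∧ lv q = (hl M k ω).headI ∧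
      ω = (q - 1) * w ∧ w ∈ SSl k M := by
  have hω := h.mem
  have h1 := h.one
  -- the canonical list is nonempty
  obtain ⟨q, hq⟩ := List.length_eq_one_iff.1 h1
  have hqm : q ∈ up k M ω := by rw [hq]; simp
  unfold up at hqm
  rw [List.mem_filter] at hqm
  have hqM : M ≤ lv q := by simpa using hqm.2
  have hsort := can_sorted hk hω
  cases hcan : can k ω with
  | nil =>
    rw [hcan] at hqm
    simp at hqm
  | cons a l =>
    have haq : a = q := by
      rw [hcan] at hsort hqm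
      rw [List.pairwise_cons] at hsort
      have haM : M ≤ lv a := by
        rcases List.mem_cons.1 hqm.1 with h2 | h2
        · rw [← h2]; exact hqM
        · exact hqM.trans (lv_mono (hsort.1 q h2))
      unfold up at hq
      rw [hcan, List.filter_cons_of_pos (by simpa using haM)] at hq
      exact (List.cons.inj hq).1
    subst haq
    have hlow : ∀ r ∈ l, lv r < M := by
      intro r hr
      by_contra hc
      push Not at hc
      unfold up at hq
      rw [hcan, List.filter_cons_of_pos (by simpa using hqM)] at hq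
      have h2 := (List.cons.inj hq).2
      rw [List.filter_eq_nil_iff] at h2
      exact h2 r hr (by simpa using hc)
    have hmem := mem_can hk hω (q := a) (by rw [hcan]; simp)
    refine ⟨a, pm l * rest k ω, hmem.1, hqM, ?_, ?_, ?_⟩
    · unfold hl up
      rw [hcan, List.filter_cons_of_pos (by simpa using hM.trans hqM)]
      rfl
    · have h2 := pm_can_mul_rest hk hω
      rw [hcan, pm_cons] at h2
      rw [← mul_assoc]
      exact h2.symm
    · obtain ⟨m, hm0, hm1, hm2⟩ := exists_totient_of_no_top (rest_mem hk hω) (rest_no_top hk hω)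
      refine ⟨(l : Multiset ℕ), m, hm0, ?_, hm1, ?_⟩
      · intro r hr
        have hr' : r ∈ l := by simpa using hr
        have h2 := mem_can hk hω (q := r) (by rw [hcan]; exact List.mem_cons_of_mem _ hr')
        exact ⟨h2.1, h2.2, hlow r hr'⟩
      · rw [← hm2]
        unfold pm
        rw [Multiset.map_coe, Multiset.prod_coe]

theorem Nf_pow_ten_le (M : ℕ) : Nf M ^ 10 ≤ M := by
  rcases Nat.eq_zero_or_pos (Nf M) with h | h
  · rw [h]
    simp
  · exact (Nat.pow_le_pow_right h (by norm_num)).trans (Nf_pow_le M)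

end WBAux

open WBAux MertAux

theorem wt_bound : ∃ C1 : ℝ, 0 < C1 ∧ ∃ M₀ : ℕ, ∀ M ≥ M₀, ∀ X c : ℕ,
    ∑ t ∈ Tl M (kk M) X with t.headI = c, Wt M (kk M) X t ≤ Real.exp (C1 * (Real.log M) ^ 2) := by
  obtain ⟨C, hC, hh⟩ := h_bound
  obtain ⟨D, hD, hcell⟩ := cell_mass
  refine ⟨1 + D + 12 * C, by positivity, 3, fun M hM X c => ?_⟩
  have hM3 : (3 : ℝ) ≤ M := by exact_mod_cast hM
  have hlog3 : (1 : ℝ) < Real.log 3 := by
    rw [Real.lt_log_iff_exp_lt (by norm_num)]
    exact Real.exp_one_lt_d9.trans (by norm_num)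
  have hlogM : 1 < Real.log M := lt_of_lt_of_le hlog3 (Real.log_le_log (by norm_num) hM3)
  have hk1 : 1 ≤ kk M := one_le_kk (by omega)
  rw [sum_Wt]
  -- inject into pairs
  have hsub : (tails M (kk M) X).filter (fun ω => (hl M (kk M) ω).headI = c) ⊆
      ((PL c (c + 1)) ×ˢ ((Icc 1 X).filter (fun w => w ∈ SSl (kk M) M))).image
        (fun x => (x.1 - 1) * x.2) := by
    intro ω hω
    unfold tails at hω
    rw [Finset.mem_filter, Finset.mem_filter, Finset.mem_Icc] at hω
    obtain ⟨⟨⟨h1, h2⟩, h3⟩, h4⟩ := hω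
    obtain ⟨q, w, hq, hqM, hlq, hqw, hw⟩ := tail_structure hk1 (Nf_pow_ten_le M) h3
    rw [Finset.mem_image]
    refine ⟨(q, w), ?_, hqw.symm⟩
    rw [Finset.mem_product, Finset.mem_filter, Finset.mem_Icc, mem_PL]
    simp only
    have hq2 := hq.two_le
    have hw0 : w ≠ 0 := by
      rintro rfl
      rw [mul_zero] at hqw
      omega
    refine ⟨⟨hq, by omega, by omega⟩, ⟨by omega, ?_⟩, hw⟩
    have : 1 * w ≤ (q - 1) * w := Nat.mul_le_mul_right w (by omega)
    omega
  refine (Finset.sum_le_sum_of_subset_of_nonneg hsub (fun _ _ _ => by positivity)).trans ?_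
  refine (Finset.sum_image_le_of_nonneg (fun _ _ => by positivity)).trans ?_
  rw [Finset.sum_product]
  have h1 : ∀ q ∈ PL c (c + 1), ∑ w ∈ (Icc 1 X).filter (fun w => w ∈ SSl (kk M) M),
      (1 : ℝ) / (((q - 1) * w : ℕ) : ℝ) = (1 : ℝ) / ((q : ℝ) - 1) *
        ∑ w ∈ (Icc 1 X).filter (fun w => w ∈ SSl (kk M) M), (1 : ℝ) / w := by
    intro q hq
    rw [Finset.mul_sum]
    refine Finset.sum_congr rfl (fun w _ => ?_)
    have hq2 := (mem_PL.1 hq).1.two_le
    rw [Nat.cast_mul, Nat.cast_sub (by omega)]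
    rw [one_div_mul_one_div]
    simp
  rw [Finset.sum_congr rfl h1, ← Finset.sum_mul]
  have h2 := hh (kk M) M X (by omega) (kk_le M)
  have h3 : ∑ q ∈ PL c (c + 1), (1 : ℝ) / ((q : ℝ) - 1) ≤ 1 + D := by
    have h4 := (abs_le.1 (hcell c)).2
    have h5 : Real.exp (-(c : ℝ)) ≤ 1 := Real.exp_le_one_iff.2 (by simp)
    nlinarith
  have h4 : 0 ≤ ∑ w ∈ (Icc 1 X).filter (fun w => w ∈ SSl (kk M) M), (1 : ℝ) / w :=
    Finset.sum_nonneg (fun _ _ => by positivity)
  calc _ ≤ (1 + D) * Real.exp (C * ((kk M : ℝ) + 1 + (Real.log (M + 2)) ^ 2)) := by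
        apply mul_le_mul h3 h2 h4 (by positivity)
    _ ≤ Real.exp (1 + D) * Real.exp (C * ((kk M : ℝ) + 1 + (Real.log (M + 2)) ^ 2)) := by
        apply mul_le_mul_of_nonneg_right _ (Real.exp_pos _).le
        have := Real.add_one_le_exp (1 + D)
        linarith
    _ ≤ Real.exp ((1 + D + 12 * C) * (Real.log M) ^ 2) := by
        rw [← Real.exp_add]
        apply Real.exp_le_exp.2
        have h5 := kk_le_log (M := M) (by omega)
        have h6 : Real.log ((M : ℝ) + 2) ≤ 2 * Real.log M := by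
          have h7 : Real.log ((M : ℝ) + 2) ≤ Real.log ((M : ℝ) ^ 2) := by
            apply Real.log_le_log (by positivity)
            nlinarith
          rw [Real.log_pow] at h7
          push_cast at h7
          exact h7
        have h8 : 0 ≤ Real.log ((M : ℝ) + 2) := Real.log_nonneg (by linarith)
        have h9 : (Real.log ((M : ℝ) + 2)) ^ 2 ≤ 4 * (Real.log M) ^ 2 := by nlinarith
        have h10 : 1 ≤ (Real.log M) ^ 2 := by nlinarith
        have h11 : Real.log M ≤ (Real.log M) ^ 2 := by nlinarith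
        have h12 : (kk M : ℝ) + 1 + (Real.log (M + 2)) ^ 2 ≤ 12 * (Real.log M) ^ 2 := by linarith
        have h13 := mul_le_mul_of_nonneg_left h12 hC.le
        nlinarith

namespace WBAux

theorem not_top_one {k r : ℕ} (hk : 1 ≤ k) : ¬ IsTop k 1 r := by
  rintro ⟨h1, h2, h3, -⟩
  have h4 := three_le_of_lv (hk.trans h2)
  have h5 := Nat.le_of_dvd one_pos h3
  omega

theorem can_sub_one {k q : ℕ} (hk : 1 ≤ k) (hq : q.Prime) (hkq : k ≤ lv q) :
    can k (q - 1) = [q] ∧ rest k (q - 1) = 1 ∧ q - 1 ∈ SS k := by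
  have h1 := one_mem_SS k
  have hmem := SS_mul hq hkq h1
  rw [mul_one] at hmem
  have hcan1 : can k 1 = [] := can_eq_nil (by rintro ⟨r, hr⟩; exact not_top_one hk hr)
  have h2 : can k ((q - 1) * 1) = q :: can k 1 := by
    apply can_mul hk hq hkq h1
    intro r hr
    rw [mul_one] at hr
    have := isTop_le (SS_pos hmem) hr
    have := hq.two_le
    omega
  rw [mul_one, hcan1] at h2
  refine ⟨h2, ?_, hmem⟩
  unfold rest
  rw [h2]
  simp only [List.map_cons, List.map_nil, List.prod_cons, List.prod_nil, mul_one]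
  exact Nat.div_self (SS_pos hmem)

theorem tail_of_good {M k q : ℕ} (hk : 1 ≤ k) (hkM : k ≤ M) (h4 : 4 ≤ Nf M)
    (hq : Good (Nf M) q) (hlq : lv q = M) : Tail M k (q - 1) ∧ hl M k (q - 1) = [M] := by
  have hM := Nf_pow_ten_le M
  obtain ⟨h1, h2, h3⟩ := can_sub_one hk hq.1 (by omega : k ≤ lv q)
  have hup : up k M (q - 1) = [q] := by
    unfold up
    rw [h1, List.filter_cons_of_pos (by simp [hlq])]
    simp
  have hup2 : up k (Nf M ^ 10) (q - 1) = [q] := by
    unfold up
    rw [h1, List.filter_cons_of_pos (by simpa [hlq] using hM)]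
    simp
  refine ⟨⟨h3, ?_, ?_, ?_, ?_⟩, ?_⟩
  · rw [hup]; simp
  · rw [hup2]
    intro r hr
    rw [List.mem_singleton] at hr
    rw [hr]
    exact hq
  · rw [hup2]
    simpa using h4
  · unfold lowp
    rw [h1, h2]
    have : ([q].filter (fun q => decide (lv q < Nf M ^ 10))) = [] := by
      rw [List.filter_eq_nil_iff]
      intro r hr
      rw [List.mem_singleton] at hr
      rw [hr, hlq]
      simpa using hM
    rw [this]
    simp only [pm_nil, mul_one, Nat.cast_one]
    exact Real.one_le_exp (Real.exp_pos _).le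
  · unfold hl
    rw [hup2]
    simp [hlq]

end WBAux

theorem wt_base : ∃ M₀ : ℕ, ∀ M ≥ M₀, ∀ X : ℕ, Real.exp (Real.exp ((M : ℝ) + 1)) ≤ X →
    [M] ∈ Tl M (kk M) X ∧ 1 / 2 ≤ Wt M (kk M) X [M] := by
  obtain ⟨M1, hM1⟩ := gp_mass
  obtain ⟨M2, hM2⟩ := Nf_tendsto 4
  refine ⟨max (max M1 M2) 3, fun M hM X hX => ?_⟩
  have hMM1 : M1 ≤ M := by omega
  have hMM2 : M2 ≤ M := by omega
  have hM3 : 3 ≤ M := by omega
  have h4 := hM2 M hMM2
  have hk1 : 1 ≤ kk M := one_le_kk (by omega)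
  have hmass := hM1 M hMM1 M le_rfl
  have hhalf : (1 : ℝ) / 2 ≤ ∑ q ∈ GP (Nf M) M, (1 : ℝ) / ((q : ℝ) - 1) := by
    have h5 : Real.exp (-(Nf M : ℝ) ^ 14) ≤ 1 / 2 := by
      have h6 : (1 : ℝ) ≤ (Nf M : ℝ) ^ 14 := by
        apply one_le_pow₀
        exact_mod_cast (by omega : 1 ≤ Nf M)
      have h7 : Real.exp (-(Nf M : ℝ) ^ 14) ≤ Real.exp (-1) := Real.exp_le_exp.2 (by linarith)
      have h8 : Real.exp (-1) ≤ 1 / 2 := by
        rw [Real.exp_neg, inv_le_comm₀ (Real.exp_pos _) (by norm_num)]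
        have := Real.exp_one_gt_d9
        linarith
      linarith
    have h6 := (abs_le.1 hmass).1
    linarith
  have hgood : ∀ q ∈ GP (Nf M) M, q - 1 ∈ (tails M (kk M) X).filter
      (fun ω => hl M (kk M) ω = [M]) := by
    intro q hq
    rw [mem_GP_iff] at hq
    obtain ⟨h5, h6⟩ := tail_of_good hk1 (kk_le M) h4 hq.1 hq.2
    rw [Finset.mem_filter]
    refine ⟨?_, h6⟩
    unfold tails
    rw [Finset.mem_filter, Finset.mem_Icc]
    have hq2 := hq.1.1.two_le
    refine ⟨⟨by omega, ?_⟩, h5⟩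
    have h7 : (q : ℝ) < Real.exp (Real.exp ((M + 1 : ℕ) : ℝ)) := lt_exp_of_lv_lt (by omega)
    push_cast at h7
    have h8 : (q : ℝ) < X := lt_of_lt_of_le h7 hX
    have h9 : q < X := by exact_mod_cast h8
    omega
  constructor
  · have hne : (GP (Nf M) M).Nonempty := by
      rw [Finset.nonempty_iff_ne_empty]
      intro h0
      rw [h0] at hhalf
      simp at hhalf
      linarith
    obtain ⟨q, hq⟩ := hne
    have h5 := hgood q hq
    rw [Finset.mem_filter] at h5
    unfold Tl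
    rw [Finset.mem_image]
    exact ⟨q - 1, h5.1, h5.2⟩
  · refine hhalf.trans ?_
    unfold Wt
    have h5 : ∑ q ∈ GP (Nf M) M, (1 : ℝ) / ((q : ℝ) - 1) =
        ∑ ω ∈ (GP (Nf M) M).image (fun q : ℕ => q - 1), (1 : ℝ) / (ω : ℝ) := by
      rw [Finset.sum_image]
      · refine Finset.sum_congr rfl (fun q hq => ?_)
        rw [mem_GP_iff] at hq
        have hq2 := hq.1.1.two_le
        rw [Nat.cast_sub (by omega), Nat.cast_one]
      · intro a ha b hb hab
        have ha' : a ∈ GP (Nf M) M := by simpa using ha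
        have hb' : b ∈ GP (Nf M) M := by simpa using hb
        rw [mem_GP_iff] at ha' hb'
        have := ha'.1.1.two_le
        have := hb'.1.1.two_le
        simp only at hab
        omega
    rw [h5]
    apply Finset.sum_le_sum_of_subset_of_nonneg
    · intro ω hω
      rw [Finset.mem_image] at hω
      obtain ⟨q, hq, rfl⟩ := hω
      exact hgood q hq
    · intro _ _ _
      positivity

theorem Tl_head {M k X : ℕ} {t : List ℕ} (hk : 1 ≤ k) (hM : Nf M ^ 10 ≤ M) (ht : t ∈ Tl M k X) :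
    M ≤ t.headI := by
  unfold Tl at ht
  rw [Finset.mem_image] at ht
  obtain ⟨ω, hω, rfl⟩ := ht
  unfold tails at hω
  rw [Finset.mem_filter] at hω
  have hT := hω.2
  obtain ⟨q, hq⟩ := List.length_eq_one_iff.1 hT.one
  have hqm : q ∈ up k M ω := by rw [hq]; simp
  unfold up at hqm
  rw [List.mem_filter] at hqm
  have hqM : M ≤ lv q := by simpa using hqm.2
  have hsort := can_sorted hk hT.mem
  have hs2 : (up k (Nf M ^ 10) ω).Pairwise (· ≥ ·) := by
    unfold up
    exact hsort.filter _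
  have hq2 : q ∈ up k (Nf M ^ 10) ω := by
    unfold up
    rw [List.mem_filter]
    exact ⟨hqm.1, by simpa using hM.trans hqM⟩
  unfold hl
  cases hc : up k (Nf M ^ 10) ω with
  | nil =>
    rw [hc] at hq2
    simp at hq2
  | cons a l =>
    rw [hc] at hq2 hs2
    rw [List.pairwise_cons] at hs2
    simp only [List.map_cons, List.headI_cons]
    rcases List.mem_cons.1 hq2 with h | h
    · rw [← h]; exact hqM
    · exact hqM.trans (lv_mono (hs2.1 q h))

/-- combination with `geom`: for every `A` there is `K₀`. -/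
theorem geom_applied (A : ℝ) : ∃ K₀ : ℕ, ∀ K ≥ K₀, ∀ ε : ℝ, 0 < ε → ∃ M₀ : ℕ, ∀ M ≥ M₀,
    ∀ Y : ℝ, Rgm K M Y → ∀ X : ℕ, Real.exp (Real.exp ((M : ℝ) + 1)) ≤ X →
    SR (RP (th M) Y) M (kk M) X Y ≤ (1 + ε) * SR (RM (th M) Y) M (kk M) X Y ∧
    Real.exp (A * (Real.log M) ^ 2) ≤ ε * SR (RM (th M) Y) M (kk M) X Y := by
  obtain ⟨C1, hC1, M1, hwt⟩ := wt_bound
  obtain ⟨M2, hbase⟩ := wt_base
  obtain ⟨M3, hth⟩ := th_small 1 one_pos
  obtain ⟨K0, hK0⟩ := geom (max A C1)
  refine ⟨K0, fun K hK ε hε => ?_⟩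
  obtain ⟨M4, hM4⟩ := hK0 K hK 8 ε hε
  refine ⟨max (max M1 M2) (max (max M3 M4) 3), fun M hM Y hY X hX => ?_⟩
  have h1 : M1 ≤ M := by omega
  have h2 : M2 ≤ M := by omega
  have h3 : M3 ≤ M := by omega
  have h4 : M4 ≤ M := by omega
  have h5 : 3 ≤ M := by omega
  obtain ⟨ht1, ht2, ht3⟩ := hth M h3
  obtain ⟨hb1, hb2⟩ := hbase M h2 X hX
  have hk1 : 1 ≤ kk M := one_le_kk (by omega)
  have hlogsq : 0 ≤ (Real.log M) ^ 2 := by positivity
  have hmain := hM4 M h4 Y hY.1 hY.2 (th M) ht1.le ht3 (Tl M (kk M) X) (Wt M (kk M) X)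
    (fun t _ => by
      unfold Wt
      exact Finset.sum_nonneg (fun _ _ => by positivity))
    (fun t ht => Tl_head hk1 (Nf_pow_ten_le M) ht)
    (fun c => (hwt M h1 X c).trans (Real.exp_le_exp.2
      (mul_le_mul_of_nonneg_right (le_max_right A C1) hlogsq)))
    hb1 hb2
  refine ⟨hmain.1, le_trans (Real.exp_le_exp.2 ?_) hmain.2⟩
  exact mul_le_mul_of_nonneg_right (le_max_left A C1) hlogsq

end P031
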