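import Vale.Agent.P031.Final
import Vale.Agent.P031.PNT
import Vale.Agent.P031.Cheb
import Vale.Agent.P031.Geom
import Vale.Agent.P031.Num
import Vale.Agent.P031.Size
import Vale.Agent.P031.Sq
import Vale.Agent.P031.TSum
import Vale.Agent.P031.UpC
import Vale.Agent.P031.LowC
import Vale.Agent.P031.Wb

/-! P031: main approximation and the final theorem (helper65). -/

namespace P031

open Finset Filter Topology
open scoped Classical

/-- choice of `M` for given `Y`. -/
theorem exists_Rgm (K : ℕ) (hK : 1 ≤ K) (M₁ : ℕ) (Y : ℝ) (hY : ((M₁ : ℝ) + 1) ^ K ≤ Y) :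
    ∃ M : ℕ, M₁ ≤ M ∧ Rgm K M Y := by
  have hY0 : 0 ≤ Y := le_trans (by positivity) hY
  set y := ⌊Y⌋₊ with hy
  have hyY : (y : ℝ) ≤ Y := Nat.floor_le hY0
  have hYy : Y < y + 1 := Nat.lt_floor_add_one Y
  set M := Nat.findGreatest (fun n => n ^ K ≤ y) y with hM
  have h1 : M ^ K ≤ y := by
    have : (fun n => n ^ K ≤ y) M :=
      Nat.findGreatest_spec (P := fun n => n ^ K ≤ y) (m := 0) (Nat.zero_le _)
        (by rw [zero_pow (by omega)]; exact Nat.zero_le _)
    exact this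
  have h2 : y < (M + 1) ^ K := by
    by_contra h
    push Not at h
    have h3 : M + 1 ≤ y := le_trans (Nat.le_self_pow (by omega) _) h
    have h4 : M + 1 ≤ M := Nat.le_findGreatest (P := fun n => n ^ K ≤ y) h3 h
    omega
  have h3 : (M₁ + 1) ^ K ≤ y := by
    apply Nat.le_floor
    push_cast
    exact hY
  refine ⟨M, ?_, ?_, ?_⟩
  · by_contra h
    push Not at h
    have : (M + 1) ^ K ≤ (M₁ + 1) ^ K := Nat.pow_le_pow_left (by omega) _
    omega
  · calc (M : ℝ) ^ K ≤ (y : ℝ) := by exact_mod_cast h1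
      _ ≤ Y := hyY
  · calc Y < y + 1 := hYy
      _ ≤ ((M : ℝ) + 1) ^ K := by exact_mod_cast h2

/-- a count of large primes. -/
theorem large_primes_count : ∃ C : ℝ, 0 < C ∧ ∀ (t : ℝ) (u : ℕ), Real.exp 200 ≤ t → 1 ≤ u →
    ((((Nat.primesLE (⌊t / u⌋₊ + 1)).filter (fun q : ℕ => t < (q : ℝ) ^ 100)).card : ℕ) : ℝ) ≤
      C * (t / Real.log t) * (1 / u) := by
  obtain ⟨C, hC, hpi⟩ := pi_upper
  refine ⟨200 * C, by positivity, fun t u ht hu => ?_⟩
  have ht0 : 0 < t := lt_of_lt_of_le (Real.exp_pos _) ht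
  have hlog : 200 ≤ Real.log t := by
    rw [Real.le_log_iff_exp_le ht0]; exact ht
  have hu0 : (0:ℝ) < u := by exact_mod_cast hu
  rcases Finset.eq_empty_or_nonempty
    ((Nat.primesLE (⌊t / u⌋₊ + 1)).filter (fun q : ℕ => t < (q : ℝ) ^ 100)) with h | h
  · rw [h]
    simp only [Finset.card_empty, Nat.cast_zero]
    have : 0 < Real.log t := by linarith
    positivity
  · obtain ⟨q, hq⟩ := h
    rw [Finset.mem_filter, Nat.mem_primesLE] at hq
    obtain ⟨⟨hq1, hqp⟩, hq2⟩ := hq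
    have hq0 : (0:ℝ) < q := by exact_mod_cast hqp.pos
    have hqle : (q : ℝ) ≤ t / u + 1 := by
      calc (q:ℝ) ≤ ((⌊t / u⌋₊ + 1 : ℕ) : ℝ) := by exact_mod_cast hq1
        _ = (⌊t / u⌋₊ : ℝ) + 1 := by push_cast; ring
        _ ≤ t / u + 1 := by
            have := Nat.floor_le (show 0 ≤ t / u by positivity)
            linarith
    have hlq : Real.log t / 100 < Real.log q := by
      have : Real.log t < Real.log ((q : ℝ) ^ 100) := Real.log_lt_log ht0 hq2
      rw [Real.log_pow] at this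
      push_cast at this
      linarith
    have hlq2 : 2 < Real.log q := by linarith
    have hq3 : (3:ℝ) ≤ q := by
      have h1 : Real.log q ≤ q - 1 := Real.log_le_sub_one_of_pos hq0
      linarith
    have hz : (2:ℝ) ≤ t / u := by linarith
    -- bound
    have hb := hpi (t / u + 1) (by linarith)
    have hcard : (((Nat.primesLE (⌊t / u⌋₊ + 1)).filter (fun q : ℕ => t < (q : ℝ) ^ 100)).card : ℝ)
        ≤ (Nat.primeCounting ⌊t / u + 1⌋₊ : ℝ) := by
      have e : ⌊t / u + 1⌋₊ = ⌊t / u⌋₊ + 1 := Nat.floor_add_one (by positivity)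
      rw [e]
      have : ((Nat.primesLE (⌊t / u⌋₊ + 1)).filter (fun q : ℕ => t < (q : ℝ) ^ 100)).card ≤
          (Nat.primesLE (⌊t / u⌋₊ + 1)).card := Finset.card_filter_le _ _
      rw [Nat.primesLE_card_eq_primeCounting] at this
      exact_mod_cast this
    refine le_trans hcard (le_trans hb ?_)
    have hlz : Real.log t / 100 ≤ Real.log (t / u + 1) := by
      have := Real.log_le_log hq0 hqle
      linarith
    have hl100 : 0 < Real.log t / 100 := by linarith
    calc C * (t / u + 1) / Real.log (t / u + 1) ≤ C * (t / u + 1) / (Real.log t / 100) := by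
          apply div_le_div_of_nonneg_left (by positivity) hl100 hlz
      _ ≤ C * (2 * (t / u)) / (Real.log t / 100) := by
          apply div_le_div_of_nonneg_right _ hl100.le
          apply mul_le_mul_of_nonneg_left _ hC.le
          linarith
      _ = 200 * C * (t / Real.log t) * (1 / u) := by
          field_simp
          ring

/-- the comparison at one argument `t`. -/
theorem core_at : ∃ C₄ : ℝ, 0 < C₄ ∧ ∀ (δ t E A S D : ℝ) (TM TP : Finset (List ℕ × ℕ)),
    0 < δ → Real.exp 200 ≤ t → TM ⊆ TP → (∀ T ∈ TP, 1 ≤ val T) →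
    (∀ T ∈ TM, (val T : ℝ) ≤ t ^ (1 / 8 : ℝ)) → t ^ (1 / 8 : ℝ) ≤ δ * (t / Real.log t) →
    S = ∑ T ∈ TM, (1 : ℝ) / (val T) → 1 ≤ S →
    ∑ T ∈ TP, (1 : ℝ) / (val T) - S ≤ D → D ≤ 10 * δ * S → E ≤ 2 * δ * S →
    (1 - δ) * ∑ T ∈ TM, piR (t / val T) ≤ A →
    A ≤ ∑ T ∈ TP, ((((Nat.primesLE (⌊t / val T⌋₊ + 1)).filter
        (fun q : ℕ => t < (q : ℝ) ^ 100)).card : ℕ) : ℝ) + t / Real.log t * (δ + E) →
    |(V t : ℝ) - A| ≤ δ * (t / Real.log t) →
    |(V t : ℝ) - ∑ T ∈ TM, piR (t / val T)| ≤ C₄ * δ * ∑ T ∈ TM, piR (t / val T) := by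
  obtain ⟨c₂, hc₂, hlow⟩ := pi_lower
  obtain ⟨C, hC, hbig⟩ := large_primes_count
  refine ⟨(15 + 10 * C) / c₂ + 1, by positivity, ?_⟩
  intro δ t E A S D TM TP hδ ht hsub hval1 hval2 ht8 hS hS1 hD hDδ hE hlo hup hV
  have ht0 : 0 < t := lt_of_lt_of_le (Real.exp_pos _) ht
  have hlog : 200 ≤ Real.log t := by
    rw [Real.le_log_iff_exp_le ht0]; exact ht
  have hlog0 : 0 < Real.log t := by linarith
  have ht1 : 1 ≤ t := by
    have := Real.one_le_exp (show (0:ℝ) ≤ 200 by norm_num)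
    linarith
  set L := t / Real.log t with hL
  have hL0 : 0 < L := by positivity
  set P := ∑ T ∈ TM, piR (t / val T) with hP
  -- each term
  have hterm : ∀ T ∈ TM, c₂ * L * (1 / (val T : ℝ)) ≤ piR (t / val T) := by
    intro T hT
    have h1 : (1:ℝ) ≤ val T := by exact_mod_cast hval1 T (hsub hT)
    have h2 := hval2 T hT
    have hv0 : (0:ℝ) < val T := by linarith
    have h3 : t ^ (7 / 8 : ℝ) ≤ t / val T := by
      rw [le_div_iff₀ hv0]
      calc t ^ (7 / 8 : ℝ) * (val T : ℝ) ≤ t ^ (7 / 8 : ℝ) * t ^ (1 / 8 : ℝ) := by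
            apply mul_le_mul_of_nonneg_left h2 (Real.rpow_nonneg ht0.le _)
        _ = t := by
            rw [← Real.rpow_add ht0]; norm_num
    have h4 : (2:ℝ) ≤ t ^ (7 / 8 : ℝ) := by
      have h5 : t ^ (7 / 8 : ℝ) = Real.exp (Real.log t * (7 / 8)) := by
        rw [Real.rpow_def_of_pos ht0]
      rw [h5]
      have h6 : Real.log t * (7 / 8) + 1 ≤ Real.exp (Real.log t * (7 / 8)) := Real.add_one_le_exp _
      linarith
    have h7 := hlow (t / val T) (by linarith)
    unfold piR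
    refine le_trans ?_ h7
    have h8 : Real.log (t / val T) ≤ Real.log t := by
      apply Real.log_le_log (by positivity)
      exact div_le_self ht0.le h1
    have h9 : 0 < Real.log (t / val T) := Real.log_pos (by linarith)
    calc c₂ * L * (1 / (val T : ℝ)) = c₂ * (t / val T) / Real.log t := by
          rw [hL]; field_simp
      _ ≤ c₂ * (t / val T) / Real.log (t / val T) := by
          apply div_le_div_of_nonneg_left (by positivity) h9 h8
  have hPS : c₂ * L * S ≤ P := by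
    rw [hS, Finset.mul_sum]
    exact Finset.sum_le_sum hterm
  have hLS : L * S ≤ P / c₂ := by
    rw [le_div_iff₀ hc₂]; linarith
  have hP0 : 0 ≤ P := le_trans (by positivity) hPS
  -- upper bound
  have hcardTM : (TM.card : ℝ) ≤ t ^ (1 / 8 : ℝ) * S := by
    rw [hS, Finset.mul_sum]
    have : (TM.card : ℝ) = ∑ T ∈ TM, (1:ℝ) := by simp
    rw [this]
    apply Finset.sum_le_sum
    intro T hT
    have h1 : (1:ℝ) ≤ val T := by exact_mod_cast hval1 T (hsub hT)
    have hv0 : (0:ℝ) < val T := by linarith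
    rw [mul_one_div, le_div_iff₀ hv0, one_mul]
    exact hval2 T hT
  have hupTM : ∑ T ∈ TM, ((((Nat.primesLE (⌊t / val T⌋₊ + 1)).filter
        (fun q : ℕ => t < (q : ℝ) ^ 100)).card : ℕ) : ℝ) ≤ P + TM.card := by
    have : (TM.card : ℝ) = ∑ T ∈ TM, (1:ℝ) := by simp
    rw [this, hP, ← Finset.sum_add_distrib]
    apply Finset.sum_le_sum
    intro T hT
    have h1 : ((Nat.primesLE (⌊t / val T⌋₊ + 1)).filter (fun q : ℕ => t < (q : ℝ) ^ 100)).card ≤
        Nat.primeCounting (⌊t / val T⌋₊ + 1) := by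
      rw [← Nat.primesLE_card_eq_primeCounting]
      exact Finset.card_filter_le _ _
    have h2 : Nat.primeCounting (⌊t / val T⌋₊ + 1) ≤ Nat.primeCounting ⌊t / val T⌋₊ + 1 := by
      have e1 := Nat.primesLE_card_eq_primeCounting (⌊t / val T⌋₊ + 1)
      have e2 := Nat.primesLE_card_eq_primeCounting ⌊t / val T⌋₊
      rw [← e1, ← e2]
      have : Nat.primesLE (⌊t / val T⌋₊ + 1) ⊆ insert (⌊t / val T⌋₊ + 1) (Nat.primesLE ⌊t / val T⌋₊) := by
        intro q hq
        rw [Nat.mem_primesLE] at hq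
        rw [Finset.mem_insert, Nat.mem_primesLE]
        rcases Nat.lt_or_ge q (⌊t / val T⌋₊ + 1) with h | h
        · right; exact ⟨by omega, hq.2⟩
        · left; omega
      exact le_trans (Finset.card_le_card this) (Finset.card_insert_le _ _)
    unfold piR
    exact_mod_cast le_trans h1 h2
  have hupD : ∑ T ∈ TP \ TM, ((((Nat.primesLE (⌊t / val T⌋₊ + 1)).filter
        (fun q : ℕ => t < (q : ℝ) ^ 100)).card : ℕ) : ℝ) ≤ C * L * D := by
    calc ∑ T ∈ TP \ TM, ((((Nat.primesLE (⌊t / val T⌋₊ + 1)).filter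
        (fun q : ℕ => t < (q : ℝ) ^ 100)).card : ℕ) : ℝ)
        ≤ ∑ T ∈ TP \ TM, C * L * (1 / (val T : ℝ)) := by
          apply Finset.sum_le_sum
          intro T hT
          exact hbig t (val T) ht (hval1 T (Finset.mem_sdiff.1 hT).1)
      _ = C * L * ∑ T ∈ TP \ TM, (1 / (val T : ℝ)) := by rw [Finset.mul_sum]
      _ ≤ C * L * D := by
          apply mul_le_mul_of_nonneg_left _ (by positivity)
          have := Finset.sum_sdiff hsub (f := fun T => (1:ℝ) / (val T))
          linarith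
  have hsplit := Finset.sum_sdiff hsub (f := fun T => ((((Nat.primesLE (⌊t / val T⌋₊ + 1)).filter
        (fun q : ℕ => t < (q : ℝ) ^ 100)).card : ℕ) : ℝ))
  rw [← hsplit] at hup
  have hL8 : t ^ (1 / 8 : ℝ) * S ≤ δ * (L * S) := by
    calc t ^ (1 / 8 : ℝ) * S ≤ (δ * L) * S := by
          apply mul_le_mul_of_nonneg_right ht8; linarith
      _ = δ * (L * S) := by ring
  have hA : A - P ≤ (14 + 10 * C) / c₂ * δ * P := by
    have e1 : C * L * D ≤ 10 * C * δ * (L * S) := by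
      calc C * L * D ≤ C * L * (10 * δ * S) := by
            apply mul_le_mul_of_nonneg_left hDδ; positivity
        _ = 10 * C * δ * (L * S) := by ring
    have e2 : L * (δ + E) ≤ 3 * δ * (L * S) := by
      have : δ + E ≤ 3 * δ * S := by nlinarith
      calc L * (δ + E) ≤ L * (3 * δ * S) := by
            apply mul_le_mul_of_nonneg_left this hL0.le
        _ = 3 * δ * (L * S) := by ring
    have e3 : A - P ≤ (4 + 10 * C) * δ * (L * S) := by
      have e4 : (4 + 10 * C) * δ * (L * S) = 10 * C * δ * (L * S) + 3 * δ * (L * S) + δ * (L * S) := by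
        ring
      rw [e4]
      linarith [hup, hupTM, hupD, hcardTM, hL8, e1, e2]
    calc A - P ≤ (4 + 10 * C) * δ * (L * S) := e3
      _ ≤ (14 + 10 * C) * δ * (L * S) := by
          have : 0 ≤ δ * (L * S) := by positivity
          nlinarith
      _ ≤ (14 + 10 * C) * δ * (P / c₂) := by
          apply mul_le_mul_of_nonneg_left hLS; positivity
      _ = (14 + 10 * C) / c₂ * δ * P := by ring
  have hVA : |(V t : ℝ) - A| ≤ 1 / c₂ * δ * P := by
    refine le_trans hV ?_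
    have : L ≤ L * S := by nlinarith
    calc δ * L ≤ δ * (L * S) := by apply mul_le_mul_of_nonneg_left this hδ.le
      _ ≤ δ * (P / c₂) := by apply mul_le_mul_of_nonneg_left hLS hδ.le
      _ = 1 / c₂ * δ * P := by ring
  have hfin : (15 + 10 * C) / c₂ + 1 = (14 + 10 * C) / c₂ + 1 / c₂ + 1 := by ring
  have hpos1 : 0 ≤ (14 + 10 * C) / c₂ * δ * P := by positivity
  have hpos2 : 0 ≤ δ * P := by positivity
  rw [abs_le] at hVA ⊢
  rw [hfin]
  constructor
  · nlinarith [hVA.1, hlo]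
  · nlinarith [hVA.2, hA]

theorem TP_val_pos {M k X : ℕ} {θ Y : ℝ} {T : List ℕ × ℕ} (hT : T ∈ TP M k X θ Y) :
    1 ≤ val T := by
  obtain ⟨l, ω⟩ := T
  unfold TP at hT
  rw [mem_TT_iff (fun J t => RP_finite θ Y J t) (fun J t h hh => hh.1)] at hT
  have h1 : 0 < pm l := pm_pos fun q hq => (hT.2.2.1 q hq).1
  have h2 : 0 < ω := hT.1.1
  exact Nat.mul_pos h1 h2

theorem Nf_le_exp_kk {M : ℕ} (hM : 2 ≤ M) : (Nf M : ℝ) ≤ Real.exp (kk M) := by
  have h1 := Nf_pow_le M
  have h2 : M < 2 ^ (kk M + 1) := Nat.lt_pow_succ_log_self (by norm_num) M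
  have hk : 1 ≤ kk M := by
    have : Nat.log 2 2 ≤ Nat.log 2 M := Nat.log_mono_right hM
    have e : Nat.log 2 2 = 1 := by norm_num
    unfold kk; omega
  have h3 : Nf M ≤ 2 ^ kk M := by
    by_contra h
    push Not at h
    have h4 : (2 ^ kk M) ^ 100 < (Nf M) ^ 100 := Nat.pow_lt_pow_left h (by norm_num)
    have h5 : 2 ^ (kk M + 1) ≤ (2 ^ kk M) ^ 100 := by
      rw [← pow_mul]
      exact Nat.pow_le_pow_right (by norm_num) (by omega)
    omega
  calc (Nf M : ℝ) ≤ (2:ℝ) ^ kk M := by exact_mod_cast h3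
    _ ≤ (Real.exp 1) ^ kk M := by
        apply pow_le_pow_left₀ (by norm_num)
        have := Real.add_one_le_exp (1:ℝ)
        linarith
    _ = Real.exp (kk M) := by
        rw [← Real.exp_nat_mul]; simp

/-- elementary asymptotics in `t`. -/
theorem eventually_small (a b δ : ℝ) (ha : a < 1) (hδ : 0 < δ) :
    ∀ᶠ t : ℝ in atTop, b * t ^ a ≤ δ * (t / Real.log t) := by
  have h1 : (fun t : ℝ => Real.log t) =o[atTop] fun t => t ^ (1 - a) :=
    isLittleO_log_rpow_atTop (by linarith)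
  have h2 := h1.bound (show 0 < δ / (|b| + 1) by positivity)
  filter_upwards [h2, eventually_gt_atTop (Real.exp 1)] with t ht ht1
  have ht0 : 0 < t := lt_trans (Real.exp_pos _) ht1
  have hl : 0 < Real.log t := by
    have : Real.log (Real.exp 1) < Real.log t := Real.log_lt_log (Real.exp_pos _) ht1
    rw [Real.log_exp] at this; linarith
  rw [Real.norm_of_nonneg hl.le, Real.norm_of_nonneg (Real.rpow_nonneg ht0.le _)] at ht
  have hta : 0 < t ^ a := Real.rpow_pos_of_pos ht0 _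
  have htt : t ^ a * t ^ (1 - a) = t := by
    rw [← Real.rpow_add ht0]; simp
  rw [← mul_div_assoc, le_div_iff₀ hl]
  have hb1 : 0 < |b| + 1 := by positivity
  calc b * t ^ a * Real.log t ≤ (|b| + 1) * t ^ a * Real.log t := by
        apply mul_le_mul_of_nonneg_right _ hl.le
        apply mul_le_mul_of_nonneg_right _ hta.le
        linarith [le_abs_self b]
    _ ≤ (|b| + 1) * t ^ a * (δ / (|b| + 1) * t ^ (1 - a)) := by
        apply mul_le_mul_of_nonneg_left ht; positivity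
    _ = δ * (t ^ a * t ^ (1 - a)) := by field_simp
    _ = δ * t := by rw [htt]

theorem arith_SM {δ SM E : ℝ} (hδ : 0 < δ) (hδ4 : δ ≤ 1 / 4) (hE : 1 ≤ E) (h : E ≤ δ * SM) :
    4 ≤ SM := by
  have h2 : 0 < SM := by
    by_contra h'
    push Not at h'
    have : δ * SM ≤ 0 := mul_nonpos_of_nonneg_of_nonpos hδ.le h'
    linarith
  have h3 : δ * SM ≤ 1 / 4 * SM := mul_le_mul_of_nonneg_right hδ4 h2.le
  linarith

theorem arith_S {δ SM S : ℝ} (hδ4 : δ ≤ 1 / 4) (h4 : 4 ≤ SM)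
    (h : (1 - δ) * SM ≤ S) : 1 ≤ S ∧ SM ≤ 2 * S := by
  have h1 : 3 / 4 * SM ≤ (1 - δ) * SM := mul_le_mul_of_nonneg_right (by linarith) (by linarith)
  constructor <;> linarith

theorem arith_D {δ SM SP S Q : ℝ} (hδ : 0 < δ) (hδ4 : δ ≤ 1 / 4) (h4 : 4 ≤ SM)
    (h1 : Q ≤ (1 + δ) * SP) (h2 : SP ≤ (1 + δ) * SM) (h3 : (1 - δ) * SM ≤ S) :
    Q - S ≤ 10 * δ * S := by
  have h4 : Q ≤ (1 + δ) * ((1 + δ) * SM) :=
    le_trans h1 (mul_le_mul_of_nonneg_left h2 (by linarith))
  have h5 : (1 + δ) * ((1 + δ) * SM) ≤ (1 + 10 * δ) * ((1 - δ) * SM) := by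
    have : (1 + δ) * (1 + δ) ≤ (1 + 10 * δ) * (1 - δ) := by nlinarith
    calc (1 + δ) * ((1 + δ) * SM) = (1 + δ) * (1 + δ) * SM := by ring
      _ ≤ (1 + 10 * δ) * (1 - δ) * SM := mul_le_mul_of_nonneg_right this (by linarith)
      _ = (1 + 10 * δ) * ((1 - δ) * SM) := by ring
  have h6 : (1 + 10 * δ) * ((1 - δ) * SM) ≤ (1 + 10 * δ) * S :=
    mul_le_mul_of_nonneg_left h3 (by linarith)
  linarith

theorem loglog_shift {c x t Y : ℝ} (hY : Y = Real.log (Real.log x)) (h200 : 200 ≤ Real.log x)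
    (hx1 : 1 < x) (hc : 2 * c + 1 ≤ x) (hxt : x ≤ t) (htc : t ≤ c * x) :
    Real.log (Real.log (t + 1)) ≤ Y + 1 := by
  have hx0 : 0 < x := by linarith
  have h1 : Real.log (t + 1) ≤ 2 * Real.log x := by
    calc Real.log (t + 1) ≤ Real.log (x * x) := by
          apply Real.log_le_log (by linarith)
          nlinarith
      _ = 2 * Real.log x := by
          rw [Real.log_mul hx0.ne' hx0.ne']; ring
  have h2 : 0 < Real.log (t + 1) := Real.log_pos (by linarith)
  calc Real.log (Real.log (t + 1)) ≤ Real.log (2 * Real.log x) := Real.log_le_log h2 h1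
    _ = Real.log 2 + Y := by
        rw [Real.log_mul (by norm_num) (by linarith), hY]
    _ ≤ Y + 1 := by
        have := Real.log_two_lt_d9
        linarith

/-- at one argument. -/
theorem squares_small {Cs δ t k' N : ℝ} {k : ℕ} (hCs : 0 < Cs) (hδ : 0 < δ)
    (ht : 0 < t / Real.log t) (hk : N ≤ Real.exp k) {B : ℝ}
    (u3 : |(V t : ℝ) - k'| ≤ Cs * (t / Real.log t * Real.exp (B - Real.exp k) + t ^ (9 / 10 : ℝ)))
    {G : ℝ} (u4 : Real.exp B ≤ G) (hG : 0 ≤ G) (u5 : G * Real.exp (-N) ≤ δ / (2 * Cs))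
    (ht9 : Cs * t ^ (9 / 10 : ℝ) ≤ δ / 2 * (t / Real.log t)) :
    |(V t : ℝ) - k'| ≤ δ * (t / Real.log t) := by
  refine le_trans u3 ?_
  have h1 : Real.exp (B - Real.exp k) ≤ δ / (2 * Cs) := by
    rw [Real.exp_sub, div_eq_mul_inv, ← Real.exp_neg]
    refine le_trans ?_ u5
    apply mul_le_mul u4 _ (Real.exp_pos _).le hG
    apply Real.exp_le_exp.2
    linarith
  calc Cs * (t / Real.log t * Real.exp (B - Real.exp k) + t ^ (9 / 10 : ℝ))
      = Cs * (t / Real.log t * Real.exp (B - Real.exp k)) +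
          Cs * t ^ (9 / 10 : ℝ) := by ring
    _ ≤ Cs * (t / Real.log t * (δ / (2 * Cs))) + δ / 2 * (t / Real.log t) := by
        apply add_le_add _ ht9
        apply mul_le_mul_of_nonneg_left _ hCs.le
        exact mul_le_mul_of_nonneg_left h1 ht.le
    _ = δ * (t / Real.log t) := by
        field_simp; ring

/-- **Main approximation.** -/
theorem main_approx (c : ℝ) (hc : 1 < c) (ε : ℝ) (hε : 0 < ε) :
    ∀ᶠ x : ℝ in atTop, ∃ (U : Finset (List ℕ × ℕ)) (f : List ℕ × ℕ → ℕ), U.Nonempty ∧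
      (∀ u ∈ U, 1 ≤ f u ∧ (f u : ℝ) ^ 2 ≤ x) ∧
      |(V x : ℝ) - ∑ u ∈ U, piR (x / f u)| ≤ ε * ∑ u ∈ U, piR (x / f u) ∧
      |(V (c * x) : ℝ) - ∑ u ∈ U, piR (c * x / f u)| ≤ ε * ∑ u ∈ U, piR (c * x / f u) := by
  obtain ⟨C₄, hC₄, hcore⟩ := core_at
  obtain ⟨A, hA, hupper⟩ := upper_count
  obtain ⟨K₀, hgeom⟩ := geom_applied A
  obtain ⟨Cs, hCs, hsq⟩ := squares
  obtain ⟨A₂, hA₂, hkk⟩ := kk_exp Cs
  set K := max K₀ 2 with hK
  have hK2 : 2 ≤ K := le_max_right _ _
  have hK1 : 1 ≤ K := by omega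
  set δ := min (1 / 4) (ε / C₄) with hδdef
  have hδ : 0 < δ := lt_min (by norm_num) (by positivity)
  have hδ4 : δ ≤ 1 / 4 := min_le_left _ _
  have hδε : C₄ * δ ≤ ε := by
    have : δ ≤ ε / C₄ := min_le_right _ _
    rw [le_div_iff₀ hC₄] at this
    linarith
  obtain ⟨M₁, hM₁⟩ := hupper K hK2 δ hδ
  obtain ⟨M₂, hM₂⟩ := lower_count K hK1 δ hδ
  obtain ⟨M₃, hM₃⟩ := tuple_sums K δ hδ
  obtain ⟨M₄, hM₄⟩ := hgeom K (le_max_left _ _) δ hδ
  obtain ⟨M₅, hM₅⟩ := TM_size K hK1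
  obtain ⟨M₆, hM₆⟩ := hkk K hK1
  obtain ⟨M₇, hM₇⟩ := num_small K A₂ (δ / (2 * Cs)) (by positivity)
  obtain ⟨M₈, hM₈⟩ := th_small 1 one_pos
  set Mx := M₁ + M₂ + M₃ + M₄ + M₅ + M₆ + M₇ + M₈ + 2 with hMx
  -- eventually
  have ev1 : ∀ᶠ x : ℝ in atTop, ((Mx : ℝ) + 1) ^ K ≤ Real.log (Real.log x) := by
    have : Tendsto (fun x : ℝ => Real.log (Real.log x)) atTop atTop :=
      Real.tendsto_log_atTop.comp Real.tendsto_log_atTop
    exact this.eventually_ge_atTop _
  have ev2 := eventually_small (1/8) 1 δ (by norm_num) hδ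
  have ev3 := eventually_small (9/10) Cs (δ/2) (by norm_num) (by positivity)
  obtain ⟨x₂, hx₂⟩ := eventually_atTop.1 ev2
  obtain ⟨x₃, hx₃⟩ := eventually_atTop.1 ev3
  filter_upwards [ev1, eventually_ge_atTop (Real.exp 200), eventually_ge_atTop x₂,
    eventually_ge_atTop x₃, eventually_ge_atTop (2 * c + 1)] with x e1 e2 e3 e4 e5
  have hx0 : 0 < x := lt_of_lt_of_le (Real.exp_pos _) e2
  have hlogx : 200 ≤ Real.log x := by
    rw [Real.le_log_iff_exp_le hx0]; exact e2
  set Y := Real.log (Real.log x) with hY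
  have hexpY : Real.exp Y = Real.log x := Real.exp_log (by linarith)
  have hexpexpY : Real.exp (Real.exp Y) = x := by rw [hexpY, Real.exp_log hx0]
  obtain ⟨M, hMM, hR⟩ := exists_Rgm K hK1 Mx Y e1
  have hM2 : 2 ≤ M := by omega
  set k := kk M with hk
  set θ := th M with hθ
  have hθ0 : 0 < θ := (hM₈ M (by omega)).1
  have hk1 : 1 ≤ k := by
    have : Nat.log 2 2 ≤ Nat.log 2 M := Nat.log_mono_right hM2
    have e : Nat.log 2 2 = 1 := by norm_num
    rw [hk]; unfold kk; omega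
  have hMY : (M : ℝ) + 1 ≤ Y := by
    have h1 : (2:ℝ) ≤ M := by exact_mod_cast hM2
    have h2 : (M:ℝ) ^ 2 ≤ (M:ℝ) ^ K := pow_le_pow_right₀ (by linarith) hK2
    nlinarith [hR.1]
  have hY0 : 0 ≤ Y := by
    have : (0:ℝ) ≤ M := Nat.cast_nonneg _
    linarith
  set X := ⌈c * x⌉₊ with hX
  have hcxX : c * x ≤ X := Nat.le_ceil _
  have hxcx : x ≤ c * x := by nlinarith
  have hXexp : Real.exp (Real.exp ((M : ℝ) + 1)) ≤ X := by
    calc Real.exp (Real.exp ((M : ℝ) + 1)) ≤ Real.exp (Real.exp Y) := by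
          apply Real.exp_le_exp.2; apply Real.exp_le_exp.2; exact hMY
      _ = x := hexpexpY
      _ ≤ X := le_trans hxcx hcxX
  set TM' := TM M k X θ Y with hTM
  set TP' := TP M k X θ Y with hTP
  set S := ∑ T ∈ TM', (1 : ℝ) / (val T) with hS
  set SM := SR (RM θ Y) M k X Y with hSM
  set SP := SR (RP θ Y) M k X Y with hSP
  have t3 := hM₃ M (by omega) Y hR X
  have t4 := hM₄ M (by omega) Y hR X hXexp
  have hexpA : 1 ≤ Real.exp (A * (Real.log M) ^ 2) := Real.one_le_exp (by positivity)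
  have hSM4 : 4 ≤ SM := arith_SM hδ hδ4 hexpA t4.2
  have hSS := arith_S hδ4 hSM4 t3.2
  have hS1 : 1 ≤ S := hSS.1
  have hSMS : SM ≤ 2 * S := hSS.2
  have hD : ∑ T ∈ TP', (1 : ℝ) / (val T) - S ≤ 10 * δ * S := arith_D hδ hδ4 hSM4 t3.1 t4.1 t3.2
  have hE : Real.exp (A * (Real.log M) ^ 2) ≤ 2 * δ * S := by
    refine le_trans t4.2 ?_
    have := mul_le_mul_of_nonneg_left hSMS hδ.le
    linarith
  have hsub : TM' ⊆ TP' := TM_subset_TP M k X θ Y hθ0.le hY0
  have hval1 : ∀ T ∈ TP', 1 ≤ val T := fun T hT => TP_val_pos hT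
  have hval2 : ∀ T ∈ TM', (val T : ℝ) ≤ Real.exp (Real.log x / 8) := by
    intro T hT
    have := (hM₅ M (by omega) Y hR X T hT).2
    rwa [hexpY] at this
  -- at one argument
  have key : ∀ t : ℝ, x ≤ t → t ≤ c * x →
      |(V t : ℝ) - ∑ T ∈ TM', piR (t / val T)| ≤ ε * ∑ T ∈ TM', piR (t / val T) := by
    intro t hxt htcx
    have ht0 : 0 < t := by linarith
    have hlxt : Real.log x ≤ Real.log t := Real.log_le_log hx0 hxt
    have hlt : 0 < Real.log t := by linarith
    have ht200 : Real.exp 200 ≤ t := le_trans e2 hxt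
    have hlogt1 : Real.log (Real.log (t + 1)) ≤ Y + 1 :=
      loglog_shift hY hlogx (by linarith) e5 hxt htcx
    have hlogt : Real.log (Real.log t) ≤ Y + 1 := by
      refine le_trans ?_ hlogt1
      apply Real.log_le_log hlt
      apply Real.log_le_log ht0; linarith
    have ht16 : 16 ≤ t := by
      have : (200:ℝ) + 1 ≤ Real.exp 200 := Real.add_one_le_exp _
      linarith
    have hval3 : ∀ T ∈ TM', (val T : ℝ) ≤ t ^ (1 / 8 : ℝ) := by
      intro T hT
      refine le_trans (hval2 T hT) ?_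
      rw [Real.rpow_def_of_pos ht0]
      apply Real.exp_le_exp.2
      linarith
    have ht8 : t ^ (1 / 8 : ℝ) ≤ δ * (t / Real.log t) := by
      have := hx₂ t (le_trans e3 hxt)
      linarith
    have ht9 := hx₃ t (le_trans e4 hxt)
    have hexpt : Real.exp (Real.exp Y) ≤ t := by rw [hexpexpY]; exact hxt
    have htX : t ≤ X := le_trans htcx hcxX
    have u1 := hM₁ M (by omega) Y hR X t hexpt hlogt1 htX
    have u2 := hM₂ M (by omega) Y hR X t hexpt hlogt1 hS1
    have u3 := hsq k t hk1 ht16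
    have u4 := hM₆ M (by omega) Y hR t ht16 hlogt
    have u5 := hM₇ M (by omega) Y hR
    have hV : |(V t : ℝ) - (((Icc 1 ⌊t⌋₊).filter (fun v => v ∈ SS k)).card : ℝ)| ≤
        δ * (t / Real.log t) := by
      have hL0 : 0 < t / Real.log t := by positivity
      exact squares_small hCs hδ hL0 (Nf_le_exp_kk hM2) u3 u4 (Real.exp_pos _).le u5 ht9
    have := hcore δ t (Real.exp (A * (Real.log M) ^ 2)) _ S (10 * δ * S) TM' TP' hδ ht200 hsub
      hval1 hval3 ht8 hS hS1 hD le_rfl hE u2 u1 hV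
    refine le_trans this ?_
    apply mul_le_mul_of_nonneg_right hδε
    apply Finset.sum_nonneg
    intro T _
    unfold piR
    positivity
  refine ⟨TM', val, ?_, ?_, key x le_rfl hxcx, key (c * x) hxcx le_rfl⟩
  · rw [Finset.nonempty_iff_ne_empty]
    intro h
    rw [hS, h, Finset.sum_empty] at hS1
    linarith
  · intro T hT
    refine ⟨hval1 T (hsub hT), ?_⟩
    have h1 := hval2 T hT
    have h2 : (0:ℝ) ≤ val T := Nat.cast_nonneg _
    calc (val T : ℝ) ^ 2 ≤ (Real.exp (Real.log x / 8)) ^ 2 := pow_le_pow_left₀ h2 h1 2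
      _ = Real.exp (Real.log x / 4) := by
          rw [← Real.exp_nat_mul]; congr 1; push_cast; ring
      _ ≤ Real.exp (Real.log x) := by
          apply Real.exp_le_exp.2; linarith
      _ = x := Real.exp_log hx0

/-- **The theorem** (Erdős–Hall question): `V(cx)/V(x) → c` for every `c > 1`. -/
theorem V_ratio_tendsto (c : ℝ) (hc : 1 < c) :
    Tendsto (fun x : ℝ => (V (c * x) : ℝ) / (V x : ℝ)) atTop (𝓝 c) :=
  final_of_main (fun c hc => _root_.Vale.Agent.P031.pnt_ratio c hc) main_approx c hc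

end P031
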