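import Vale.Agent.P031.AsmDefs
import Vale.Agent.P031.Final

/-! P031: definitions `Rgm`, `Canon`, `RegV` for the assembly (helper65). -/

namespace P031

open Finset
open scoped Classical

/-- regime: `M^K ≤ Y < (M+1)^K`. -/
def Rgm (K M : ℕ) (Y : ℝ) : Prop := (M : ℝ) ^ K ≤ Y ∧ Y < ((M : ℝ) + 1) ^ K

/-- the tuple is its own canonical decomposition. -/
def Canon (k : ℕ) (T : List ℕ × ℕ) : Prop := can k (val T) = T.1 ++ can k T.2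

/-- the regular elements of `SS k` up to `t`. -/
def RegV (M k : ℕ) (Y t : ℝ) (v : ℕ) : Prop :=
  v ∈ SS k ∧ ∃ (q₀ : ℕ) (L : List ℕ), can k v = q₀ :: L ∧ t < (q₀ : ℝ) ^ 100 ∧
    (∀ q ∈ L, (Nf M) ^ 10 ≤ lv q → Good (Nf M) q) ∧
    (∀ y : ℕ, (Nf M) ^ 10 ≤ y → (y : ℝ) ≤ Y / 2 →
      ((can k v).filter (fun q => decide (y ≤ 2 * lv q ∧ lv q < y))).length ≤ 23) ∧
    ((can k v).filter (fun q => decide (45 / 100 * (Y + 1) ≤ (lv q : ℝ) + 1))).length ≤ 23 ∧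
    (lowp k ((Nf M) ^ 10) v : ℝ) ≤ Real.exp (Real.exp (2 * (Nf M : ℝ) ^ 10)) ∧
    (∀ (l₁ l₂ : List ℕ) (q : ℕ), L = l₁ ++ q :: l₂ → M ≤ lv q →
      ¬ Over (Nf (lv q)) (lv q) (pm (q :: l₂) * rest k v)) ∧
    al 1 ((L.filter (fun q => decide ((Nf ⌊Y⌋₊) ^ 10 ≤ lv q))).map lv) <
      Y + 1 + (Nf ⌊Y⌋₊ : ℝ) ^ 90 / 2 ∧
    ∃ q ∈ L, M ≤ lv q

end P031
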