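import Vale.Agent.P031.Defs

/-! P031: statements of the analytic modules (with `sorry`; each helper proves his statement
in the file named in brackets, importing only `Defs` and finished modules). -/

namespace P031

open Finset Filter Topology
open scoped Classical

/-! ### [PNT] file PNT.lean -/

theorem pnt_ratio (c : ℝ) (hc : 0 < c) :
    Tendsto (fun x : ℝ => (Nat.primeCounting ⌊c * x⌋₊ : ℝ) / Nat.primeCounting ⌊x⌋₊)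
      atTop (𝓝 c) := by
  sorry

/-! ### [CHEB] file Cheb.lean -/

theorem pi_upper : ∃ C : ℝ, 0 < C ∧ ∀ x : ℝ, 2 ≤ x →
    (Nat.primeCounting ⌊x⌋₊ : ℝ) ≤ C * x / Real.log x := by
  sorry

theorem pi_lower : ∃ c : ℝ, 0 < c ∧ ∀ x : ℝ, 2 ≤ x →
    c * x / Real.log x ≤ (Nat.primeCounting ⌊x⌋₊ : ℝ) := by
  sorry

/-! ### [MERT] file Mert.lean -/

theorem mertens_two : ∃ B C : ℝ, ∀ n : ℕ, 2 ≤ n →
    |∑ p ∈ Nat.primesLE n, (1 : ℝ) / p - Real.log (Real.log n) - B| ≤ C / Real.log n := by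
  sorry

theorem sum_log_div : ∃ C : ℝ, ∀ n : ℕ, 2 ≤ n →
    |∑ p ∈ Nat.primesLE n, Real.log p / p - Real.log n| ≤ C := by
  sorry

/-- mass of one cell, `1 + O(e^{-c})`. -/
theorem cell_mass : ∃ C : ℝ, 0 < C ∧ ∀ c : ℕ,
    |∑ p ∈ PL c (c + 1), (1 : ℝ) / ((p : ℝ) - 1) - 1| ≤ C * Real.exp (-(c : ℝ)) := by
  sorry

theorem level_mass : ∃ C : ℝ, 0 < C ∧ ∀ a b : ℕ, a ≤ b →
    |∑ p ∈ PL a b, (1 : ℝ) / p - ((b : ℝ) - a)| ≤ C := by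
  sorry

/-! ### [SIEVE] file Sieve.lean (Brun's pure sieve is enough) -/

theorem sieve2 : ∃ (C : ℝ) (k : ℕ), 0 < C ∧ ∀ (A : ℕ) (X : ℝ), 1 ≤ A → 3 ≤ X →
    (((Icc 1 ⌊X⌋₊).filter (fun P => P.Prime ∧ (A * P + 1).Prime)).card : ℝ) ≤
      C * X * (Real.log (Real.log (A * X + 16))) ^ k / (Real.log X) ^ 2 := by
  sorry

theorem sieve3 : ∃ (C : ℝ) (k : ℕ), 0 < C ∧ ∀ (A B : ℕ) (X : ℝ), 1 ≤ B → B < A → 3 ≤ X →
    (((Icc 1 ⌊X⌋₊).filter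
      (fun P => P.Prime ∧ (A * P + 1).Prime ∧ (B * P + 1).Prime)).card : ℝ) ≤
      C * X * (Real.log (Real.log (A * X + 16))) ^ k / (Real.log X) ^ 3 := by
  sorry

/-! ### [SIEVE-S] file SieveSum.lean: partial summation from sieve2, sieve3 -/

theorem sieve2_sum : ∃ (C : ℝ) (k : ℕ), 0 < C ∧ ∀ (A : ℕ) (X Z : ℝ), 1 ≤ A → 3 ≤ X → X ≤ Z →
    ∑ P ∈ (Icc 1 ⌊Z⌋₊).filter (fun P : ℕ => X ≤ P ∧ P.Prime ∧ (A * P + 1).Prime), (1 : ℝ) / P ≤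
      C * (Real.log (Real.log (A * Z + 16))) ^ k / Real.log X := by
  sorry

theorem sieve3_sum : ∃ (C : ℝ) (k : ℕ), 0 < C ∧ ∀ (A B : ℕ) (X Z : ℝ), 1 ≤ B → B < A →
    3 ≤ X → X ≤ Z →
    ∑ P ∈ (Icc 1 ⌊Z⌋₊).filter
      (fun P : ℕ => X ≤ P ∧ P.Prime ∧ (A * P + 1).Prime ∧ (B * P + 1).Prime), (1 : ℝ) / P ≤
      C * (Real.log (Real.log (A * Z + 16))) ^ k / (Real.log X) ^ 2 := by
  sorry

/-! ### [RANKIN] file Rankin.lean -/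

theorem rankin_mean (P : Finset ℕ) (lam : ℕ → ℝ) (hP : ∀ p ∈ P, p.Prime)
    (h1 : ∀ p ∈ P, 1 ≤ lam p) (h2 : ∀ p ∈ P, lam p < p) (x : ℕ) :
    ∑ n ∈ Icc 1 x, ∏ p ∈ P, lam p ^ n.factorization p ≤
      x * Real.exp (∑ p ∈ P, (lam p - 1) / (p - lam p)) := by
  sorry

/-- sum over smooth numbers, Rankin exponent `1/log w`. -/
theorem smooth_sum : ∃ (C : ℝ), 0 < C ∧ ∀ (w z : ℝ) (T : ℕ), 16 ≤ w → 1 ≤ z →
    ∑ n ∈ (Icc 1 T).filter (fun n : ℕ => z < n ∧ ∀ p, p.Prime → p ∣ n → (p : ℝ) ≤ w),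
      (1 : ℝ) / n ≤ C * (Real.log w) ^ 3 * Real.exp (-(Real.log z / Real.log w)) := by
  sorry

/-- few integers have a large smooth part. -/
theorem smooth_part_count : ∃ (C : ℝ), 0 < C ∧ ∀ (w z t : ℝ), 16 ≤ w → 1 ≤ z → 1 ≤ t →
    (((Icc 1 ⌊t⌋₊).filter (fun n : ℕ => z < (smp w n : ℝ))).card : ℝ) ≤
      C * t * (Real.log w) ^ 3 * Real.exp (-(Real.log z / Real.log w)) := by
  sorry

/-- the same for divisors `∏ (q-1) * totient m` built from `w`-smooth `m` (all representations,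
with multiplicity over `m`). -/
theorem totient_smooth_sum : ∃ (C : ℝ), 0 < C ∧ ∀ (w z : ℝ) (T : ℕ), 16 ≤ w → 1 ≤ z →
    ∑ m ∈ (Icc 1 T).filter (fun m : ℕ => z < Nat.totient m ∧
      ∀ p, p.Prime → p ∣ m → (p : ℝ) ≤ w), (1 : ℝ) / Nat.totient m ≤
      C * (Real.log w) ^ 8 * Real.exp (-(Real.log z / Real.log w)) := by
  sorry

/-! ### [EM] file EM.lean: exponential moments over shifted primes. -/

theorem em_bound : ∃ (C : ℝ) (k : ℕ), 0 < C ∧ ∀ (t z : ℝ) (a b : ℕ), 16 ≤ t → 0 ≤ z → z ≤ 2 →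
    1 ≤ a → a ≤ b → (b : ℝ) ≤ Real.log (Real.log t) →
    ∑ q ∈ Nat.primesLE ⌊t⌋₊, z ^ (Om a b (q - 1)) ≤
      C * t / Real.log t * (Real.log (Real.log t)) ^ k * Real.exp ((z - 1) * ((b : ℝ) - a)) := by
  sorry

end P031
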