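import Vale.Agent.P031.DefsB

/-! P031: statements, second batch: totient-type sums (Pomerance recursion). -/

namespace P031

open Finset Filter Topology
open scoped Classical

/-! ### [TAIL] file Tail.lean -/

/-- Rankin bound with exponent `e^{-y}` for the tail of the sum over `SSl k y`. -/
theorem ss_tail : ∃ C : ℝ, 0 < C ∧ ∀ (k y T : ℕ) (z : ℝ), 1 ≤ y → k ≤ y → 1 ≤ z →
    ∑ u ∈ (Icc 1 T).filter (fun u : ℕ => u ∈ SSl k y ∧ z < u), (1 : ℝ) / u ≤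
      C * Real.exp (8 * y) * Real.exp (-(Real.log z / Real.exp y)) := by
  sorry

/-- the full sum (`z` absent). -/
theorem ss_trivial : ∃ C : ℝ, 0 < C ∧ ∀ (k y T : ℕ), 1 ≤ y → k ≤ y →
    ∑ u ∈ (Icc 1 T).filter (fun u : ℕ => u ∈ SSl k y), (1 : ℝ) / u ≤ C * Real.exp (8 * y) := by
  sorry

/-! ### [P0] file PZero.lean -/

theorem p0_bound : ∃ C : ℝ, 0 < C ∧ ∀ t : ℝ, 16 ≤ t →
    (((Icc 1 ⌊t⌋₊).filter (fun v : ℕ => ∃ L : Multiset ℕ, L.card = 24 ∧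
      (∀ q ∈ L, q.Prime ∧ (45 / 100 : ℝ) * Real.log (Real.log t) ≤ (lv q : ℝ) + 1) ∧
      (L.map (fun q => q - 1)).prod ∣ v)).card : ℝ) ≤
      C * t * Real.exp (-(105 / 100) * Real.log (Real.log t)) := by
  sorry

/-! ### [TREC] file TRec.lean -/

theorem h_bound : ∃ C : ℝ, 0 < C ∧ ∀ (k y T : ℕ), 1 ≤ y → k ≤ y →
    ∑ u ∈ (Icc 1 T).filter (fun u : ℕ => u ∈ SSl k y), (1 : ℝ) / u ≤
      Real.exp (C * ((k : ℝ) + 1 + (Real.log (y + 2)) ^ 2)) := by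
  sorry

theorem a_bound : ∃ C : ℝ, 0 < C ∧ ∀ (k : ℕ) (t : ℝ), 16 ≤ t →
    (((Icc 1 ⌊t⌋₊).filter (fun u : ℕ => u ∈ SS k)).card : ℝ) ≤ t / Real.log t *
      Real.exp (C * ((k : ℝ) + 1 + (Real.log (Real.log (Real.log t) + 2)) ^ 2)) := by
  sorry

theorem t_bound : ∃ C : ℝ, 0 < C ∧ ∀ (k : ℕ) (t : ℝ), 16 ≤ t →
    ∑ u ∈ (Icc 1 ⌊t⌋₊).filter (fun u : ℕ => u ∈ SS k), (1 : ℝ) / u ≤
      Real.exp (C * ((k : ℝ) + 1 + (Real.log (Real.log (Real.log t) + 2)) ^ 2)) := by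
  sorry

/-- at least 24 primes of level in `[y/2, y)` is a rare event. -/
theorem k_bound : ∃ C : ℝ, 0 < C ∧ ∀ (k y T : ℕ), 1 ≤ y → k ≤ y →
    ∑ u ∈ (Icc 1 T).filter (fun u : ℕ => u ∈ SSl k y ∧ ∃ L : Multiset ℕ, L.card = 24 ∧
      (∀ q ∈ L, q.Prime ∧ (y : ℝ) / 2 ≤ lv q) ∧ (L.map (fun q => q - 1)).prod ∣ u),
      (1 : ℝ) / u ≤ C * Real.exp (-((y : ℝ) / 100)) := by
  sorry

end P031
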