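import Vale.Agent.P031.DefsB

/-! P031: statements, third batch: normal primes, overfull integers, collisions. -/

namespace P031

open Finset Filter Topology
open scoped Classical

/-! ### [NORMAL] file Normal.lean -/

theorem nonnormal_count : ∃ N₀ : ℕ, ∀ N ≥ N₀, ∀ t : ℝ, 16 ≤ t →
    (N : ℝ) ^ 10 ≤ Real.log (Real.log t) → Real.log (Real.log t) ≤ 3 * (N : ℝ) ^ 100 →
    (((Nat.primesLE ⌊t⌋₊).filter (fun q => N ^ 10 ≤ lv q ∧ ¬ Normal N q)).card : ℝ) ≤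
      t / Real.log t * Real.exp (-(N : ℝ) ^ 16) := by
  sorry

theorem nonnormal_sum : ∃ N₀ : ℕ, ∀ N ≥ N₀, ∀ c : ℕ, N ^ 10 ≤ c → c + 2 ≤ 3 * N ^ 100 →
    ∑ q ∈ (PL c (c + 1)).filter (fun q => ¬ Normal N q), (1 : ℝ) / ((q : ℝ) - 1) ≤
      Real.exp (-(N : ℝ) ^ 15) := by
  sorry

/-! ### [OVER] file Over.lean -/

theorem overfull_count : ∃ N₀ : ℕ, ∀ N ≥ N₀, ∀ t : ℝ, 16 ≤ t →
    Real.log (Real.log t) ≤ 3 * (N : ℝ) ^ 100 →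
    (((Icc 1 ⌊t⌋₊).filter (fun v : ℕ => ∃ l : List ℕ, l.length ≤ N + 1 ∧ l.Pairwise (· ≥ ·) ∧
      (∀ q ∈ l, Normal N q) ∧ (l.map (fun q => q - 1)).prod ∣ v ∧
      Real.log (Real.log t) + (N : ℝ) ^ 90 / 2 ≤ al 1 (l.tail.map lv))).card : ℝ) ≤
      t / Real.log t * Real.exp (-(N : ℝ) ^ 89) := by
  sorry

theorem overfull_sum : ∃ N₀ : ℕ, ∀ N ≥ N₀, ∀ c : ℕ, N ^ 100 ≤ c → c ≤ 2 * N ^ 100 → ∀ T : ℕ,
    ∑ v ∈ (Icc 1 T).filter (fun v => Over N c v), (1 : ℝ) / v ≤ Real.exp (-(N : ℝ) ^ 88) := by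
  sorry

/-! ### [MAT] file Mat.lean -/

theorem exists_matrix {ι κ : Type} [Fintype ι] [Fintype κ] (a : ι → ℕ) (b : κ → ℕ)
    (ha : ∀ i, 0 < a i) (hb : ∀ j, 0 < b j) (h : ∏ i, a i = ∏ j, b j) :
    ∃ d : ι → κ → ℕ, (∀ i, ∏ j, d i j = a i) ∧ (∀ j, ∏ i, d i j = b j) := by
  sorry

/-! ### [BG] file Bg.lean: background sums -/

theorem cm_mul (z : ℕ → ℝ) (m n : ℕ) (hm : 0 < m) (hn : 0 < n) :
    cm z (m * n) = cm z m * cm z n := by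
  sorry

theorem cm_sum (z : ℕ → ℝ) (hz : ∀ p, 0 ≤ z p ∧ z p ≤ 1) (T : ℕ) :
    ∑ n ∈ Icc 1 T, cm z n / n ≤ Real.exp (∑ p ∈ Nat.primesLE T, z p / p + 1) := by
  sorry

/-! ### [MS] file MatSieve.lean: the matrix sieve (abstract, hypotheses `hS1, hS2` from the sieve) -/

theorem mat_sieve_sum {ι κ : Type} [Fintype ι] [DecidableEq ι] [Fintype κ] [DecidableEq κ]
    (T : ℕ) (W S : ℝ) (hW : 3 ≤ W) (hS : 0 ≤ S)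
    (hS1 : ∀ (a : ℕ) (x : ℝ), 1 ≤ a → a ≤ T ^ (Fintype.card ι + Fintype.card κ) → W ≤ x →
      ∑ P ∈ (Icc 1 T).filter (fun P : ℕ => x ≤ P ∧ P.Prime ∧ (a * P + 1).Prime), (1 : ℝ) / P ≤
        S / Real.log x)
    (hS2 : ∀ (a b : ℕ) (x : ℝ), 1 ≤ b → b < a →
      a ≤ T ^ (Fintype.card ι + Fintype.card κ) → W ≤ x →
      ∑ P ∈ (Icc 1 T).filter (fun P : ℕ => x ≤ P ∧ P.Prime ∧ (a * P + 1).Prime ∧
        (b * P + 1).Prime), (1 : ℝ) / P ≤ S / (Real.log x) ^ 2)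
    (f : ι → κ → ℕ → ℝ) (hf : ∀ i j n, 0 ≤ f i j n)
    (hfm : ∀ i j n P, 1 ≤ n → Nat.Prime P → f i j (P * n) ≤ f i j n / P)
    (X : ι → ℝ) (X' : κ → ℝ) (A : Finset ι) (B : Finset κ)
    (hX : ∀ i ∈ A, W ≤ X i) (hX' : ∀ j ∈ B, W ≤ X' j) :
    ∑ d ∈ (Fintype.piFinset (fun _ : ι => Fintype.piFinset (fun _ : κ => Icc 1 T))).filter
        (fun d => Adm A B X X' W d), ∏ i, ∏ j, f i j (d i j) ≤
      (max 1 (S * (Fintype.card ι * Fintype.card κ))) ^ (A.card + B.card) *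
        (∏ i ∈ A, (Real.log (X i))⁻¹) * (∏ j ∈ B, (Real.log (X' j))⁻¹) *
        ∑ d ∈ Fintype.piFinset (fun _ : ι => Fintype.piFinset (fun _ : κ => Icc 1 T)),
          ∏ i, ∏ j, f i j (d i j) := by
  sorry

theorem mat_sieve_count {ι κ : Type} [Fintype ι] [DecidableEq ι] [Fintype κ] [DecidableEq κ]
    (T : ℕ) (W S : ℝ) (hW : 3 ≤ W) (hS : 0 ≤ S)
    (hS1 : ∀ (a : ℕ) (x : ℝ), 1 ≤ a → a ≤ T ^ (Fintype.card ι + Fintype.card κ) → W ≤ x →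
      ∑ P ∈ (Icc 1 T).filter (fun P : ℕ => x ≤ P ∧ P.Prime ∧ (a * P + 1).Prime), (1 : ℝ) / P ≤
        S / Real.log x)
    (hS2 : ∀ (a b : ℕ) (x : ℝ), 1 ≤ b → b < a →
      a ≤ T ^ (Fintype.card ι + Fintype.card κ) → W ≤ x →
      ∑ P ∈ (Icc 1 T).filter (fun P : ℕ => x ≤ P ∧ P.Prime ∧ (a * P + 1).Prime ∧
        (b * P + 1).Prime), (1 : ℝ) / P ≤ S / (Real.log x) ^ 2)
    (hC1 : ∀ (a : ℕ) (x z : ℝ), 1 ≤ a → a ≤ T ^ (Fintype.card ι + Fintype.card κ) → W ≤ x →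
      0 < z → z ≤ T →
      (((Icc 1 T).filter (fun P : ℕ => x ≤ P ∧ (P : ℝ) ≤ z ∧ P.Prime ∧
        (a * P + 1).Prime)).card : ℝ) ≤ S * z / (Real.log x) ^ 2)
    (hC2 : ∀ (a b : ℕ) (x z : ℝ), 1 ≤ b → b < a →
      a ≤ T ^ (Fintype.card ι + Fintype.card κ) → W ≤ x → 0 < z → z ≤ T →
      (((Icc 1 T).filter (fun P : ℕ => x ≤ P ∧ (P : ℝ) ≤ z ∧ P.Prime ∧
        (a * P + 1).Prime ∧ (b * P + 1).Prime)).card : ℝ) ≤ S * z / (Real.log x) ^ 3)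
    (g : ι → κ → ℕ → ℝ) (hg : ∀ i j n, 0 ≤ g i j n)
    (hgm : ∀ i j n P, 1 ≤ n → Nat.Prime P → g i j (P * n) ≤ g i j n)
    (X : ι → ℝ) (X' : κ → ℝ) (A : Finset ι) (B : Finset κ)
    (hX : ∀ i ∈ A, W ≤ X i) (hX' : ∀ j ∈ B, W ≤ X' j) (i₀ : ι) (hi₀ : i₀ ∈ A) :
    ∑ d ∈ (Fintype.piFinset (fun _ : ι => Fintype.piFinset (fun _ : κ => Icc 1 T))).filter
        (fun d => Adm A B X X' W d ∧ ∏ i, ∏ j, d i j ≤ T), ∏ i, ∏ j, g i j (d i j) ≤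
      T * (max 1 (S * (Fintype.card ι * Fintype.card κ))) ^ (A.card + B.card) *
        (Real.log (X i₀))⁻¹ *
        (∏ i ∈ A, (Real.log (X i))⁻¹) * (∏ j ∈ B, (Real.log (X' j))⁻¹) *
        ∑ d ∈ Fintype.piFinset (fun _ : ι => Fintype.piFinset (fun _ : κ => Icc 1 T)),
          ∏ i, ∏ j, (g i j (d i j) / d i j) := by
  sorry

/-! ### [CRED] file CRed.lean: reduction of collisions to patterns -/

theorem coll_reduce : ∃ N₀ : ℕ, ∀ N ≥ N₀, ∀ c : ℕ, N ^ 100 ≤ c → c ≤ 2 * N ^ 100 →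
    ∀ q₀ v, Coll N c q₀ v → (∃ P : ℕ, P.Prime ∧ N ^ 50 ≤ lv P ∧ P ^ 2 ∣ v) ∨
      ∃ (D : List ℕ) (r s : ℕ) (cr : Fin (r + 1) → ℕ) (cc : Fin s → ℕ) (v' : ℕ),
        D.length ≤ N ∧ (∀ q ∈ D, q.Prime ∧ N ^ 10 ≤ lv q ∧ lv q ≤ c) ∧
        r ≤ N ∧ s ≤ N ^ 102 ∧ Antitone cr ∧ cr 0 = c ∧ (∀ i, N ^ 80 ≤ cr i) ∧
        (∀ j, N ^ 80 ≤ cc j ∧ cc j ≤ 3 * N ^ 100) ∧
        al 1 (List.ofFn (fun i : Fin r => cr i.succ)) + (N : ℝ) ^ 90 ≤ c ∧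
        RPat N r s cr cc q₀ v' ∧ v = (D.map (fun q => q - 1)).prod * v' := by
  sorry

/-! ### [CPAT] file CPat.lean: the bound for one pattern -/

theorem rpat_count : ∃ N₀ : ℕ, ∀ N ≥ N₀, ∀ (r s : ℕ) (cr : Fin (r + 1) → ℕ) (cc : Fin s → ℕ),
    r ≤ N → s ≤ N ^ 102 → Antitone cr → (∀ i, N ^ 80 ≤ cr i ∧ cr i ≤ 2 * N ^ 100) →
    (∀ j, N ^ 80 ≤ cc j ∧ cc j ≤ 3 * N ^ 100) →
    ∀ t : ℝ, 1 ≤ t → t ≤ Real.exp (Real.exp (3 * (N : ℝ) ^ 100)) →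
    (((Nat.primesLE (⌊t⌋₊ + 1) ×ˢ Icc 1 ⌊t⌋₊).filter
      (fun p => RPat N r s cr cc p.1 p.2)).card : ℝ) ≤
      t * Real.exp (-2 * (cr 0 : ℝ) + al 1 (List.ofFn (fun i : Fin r => cr i.succ)) +
        (N : ℝ) ^ 88 - s * (N : ℝ) ^ 79) := by
  sorry

/-! ### [COLL] file CollMain.lean: from CRED and CPAT -/

theorem collision_count : ∃ N₀ : ℕ, ∀ N ≥ N₀, ∀ c : ℕ, N ^ 100 ≤ c → c ≤ 2 * N ^ 100 →
    ∀ t : ℝ, 1 ≤ t → (((Nat.primesLE (⌊t⌋₊ + 1) ×ˢ Icc 1 ⌊t⌋₊).filter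
      (fun p => Coll N c p.1 p.2)).card : ℝ) ≤ t * Real.exp (-(c : ℝ) - (N : ℝ) ^ 89) := by
  sorry

theorem collision_sum : ∃ N₀ : ℕ, ∀ N ≥ N₀, ∀ c : ℕ, N ^ 100 ≤ c → c ≤ 2 * N ^ 100 →
    ∀ T : ℕ, ∑ p ∈ (Nat.primesLE (T + 1) ×ˢ Icc 1 T).filter (fun p => Coll N c p.1 p.2),
      (1 : ℝ) / p.2 ≤ Real.exp (-(N : ℝ) ^ 88) := by
  sorry

end P031
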