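import Vale.Agent.P031.DefsB
import Vale.Agent.P031.Can
import Vale.Agent.P031.GeomDefs

/-! P031: statements, assembly batch 1 (helper65). -/

namespace P031

open Finset Filter Topology
open scoped Classical

/-! ### [SQ] file Sq.lean: totients versus `SS k` -/

theorem squares : ∃ C : ℝ, 0 < C ∧ ∀ (k : ℕ) (x : ℝ), 1 ≤ k → 16 ≤ x →
    |(V x : ℝ) - (((Icc 1 ⌊x⌋₊).filter (fun v => v ∈ SS k)).card : ℝ)| ≤
      C * (x / Real.log x * Real.exp (C * ((k : ℝ) + 1 +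
        (Real.log (Real.log (Real.log x) + 2)) ^ 2) - Real.exp k) + x ^ (9 / 10 : ℝ)) := by
  sorry

/-! ### [TOPBIG] file TopBig.lean: the largest prime is rarely `< t^(1/100)` -/

theorem small_top_count : ∃ C : ℝ, 0 < C ∧ ∀ (k : ℕ) (t : ℝ), 1 ≤ k → 16 ≤ t →
    (k : ℝ) ≤ Real.log (Real.log t) / 4 →
    (((Icc 1 ⌊t⌋₊).filter (fun v : ℕ => v ∈ SS k ∧ ∀ q, IsTop k v q → (q : ℝ) ^ 100 ≤ t)).card : ℝ) ≤
      C * t * Real.exp (-(104 / 100) * Real.log (Real.log t)) := by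
  sorry

/-! ### [PS] file PSum.lean: prefix-suffix lemma -/

/-- number of `v ≤ t` in `SS k` with largest prime `q₀ > t^(1/100)` which have a proper suffix in `D`. -/
theorem prefix_suffix : ∃ C : ℝ, 0 < C ∧ ∀ (k : ℕ) (t : ℝ) (D : Set ℕ), 1 ≤ k → 16 ≤ t →
    (((Icc 1 ⌊t⌋₊).filter (fun v : ℕ => v ∈ SS k ∧ ∃ (q₀ : ℕ) (l₁ l₂ : List ℕ),
        can k v = q₀ :: (l₁ ++ l₂) ∧ t < (q₀ : ℝ) ^ 100 ∧ pm l₂ * rest k v ∈ D)).card : ℝ) ≤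
      C * (t / Real.log t) *
        (∑ a ∈ (Icc 1 ⌊t⌋₊).filter (fun a : ℕ => a ∈ SS k), (1 : ℝ) / a) *
        (∑ d ∈ (Icc 1 ⌊t⌋₊).filter (fun d : ℕ => d ∈ D), (1 : ℝ) / d) := by
  sorry

end P031
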