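import Vale.Agent.P031.RgmDefs

/-! P031: statements, assembly batch 2 (helper65). `M` is the main parameter, `m = Nf M`
(`m^100 ≤ M < (m+1)^100`), `k = kk M = log_2 M`, `θ = th M = 4 m^{-10}`, `Y = log log x`. -/

namespace P031

open Finset Filter Topology
open scoped Classical


/-! ### [NUM] file Num.lean: numerical facts about the regime -/

theorem Nf_tendsto (n : ℕ) : ∃ M₀ : ℕ, ∀ M ≥ M₀, n ≤ Nf M := by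
  sorry

/-- powers of logs are negligible against `exp(-m)`. -/
theorem num_small (K : ℕ) (A ε : ℝ) (hε : 0 < ε) : ∃ M₀ : ℕ, ∀ M ≥ M₀, ∀ Y : ℝ, Rgm K M Y →
    Real.exp (A * (Real.log (Y + 3)) ^ 2) * Real.exp (-(Nf M : ℝ)) ≤ ε := by
  sorry

theorem two_Nf_pow : ∃ M₀ : ℕ, ∀ c ≥ M₀, c + 4 ≤ 2 * (Nf c) ^ 100 := by
  sorry

theorem th_small (ε : ℝ) (hε : 0 < ε) : ∃ M₀ : ℕ, ∀ M ≥ M₀, 0 < th M ∧ th M ≤ ε ∧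
    th M ≤ 8 * (M : ℝ) ^ (-(1 / 10) : ℝ) := by
  sorry

/-- the error factor of `t_bound`, `a_bound` for `k = kk M`. -/
theorem kk_exp (C : ℝ) : ∃ A : ℝ, 0 < A ∧ ∀ K : ℕ, 1 ≤ K → ∃ M₀ : ℕ, ∀ M ≥ M₀, ∀ Y : ℝ,
    Rgm K M Y → ∀ t : ℝ, 16 ≤ t → Real.log (Real.log t) ≤ Y + 1 →
    Real.exp (C * ((kk M : ℝ) + 1 + (Real.log (Real.log (Real.log t) + 2)) ^ 2)) ≤
      Real.exp (A * (Real.log (Y + 3)) ^ 2) := by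
  sorry

/-! ### [GPM] file Gpm.lean -/

theorem gp_mass : ∃ M₀ : ℕ, ∀ M ≥ M₀, ∀ c ≥ M,
    |∑ q ∈ GP (Nf M) c, (1 : ℝ) / ((q : ℝ) - 1) - 1| ≤ Real.exp (-(Nf M : ℝ) ^ 14) := by
  sorry

/-- total mass of the primes of level `≥ (Nf M)^10` which are not `Good`. -/
theorem bad_mass : ∃ M₀ : ℕ, ∀ M ≥ M₀, ∀ T : ℕ,
    ∑ q ∈ (Nat.primesLE T).filter (fun q => (Nf M) ^ 10 ≤ lv q ∧ ¬ Good (Nf M) q),
      (1 : ℝ) / ((q : ℝ) - 1) ≤ Real.exp (-(Nf M : ℝ) ^ 14) := by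
  sorry

/-! ### [TSUM] file TSum.lean: sums over tuples -/

theorem tt_sum {R : ℕ → List ℕ → Set (List ℕ)} (hfin : ∀ J t, (R J t).Finite)
    (hlen : ∀ J t h, h ∈ R J t → h.length = J) (M k X Jm : ℕ) (hk : 1 ≤ k)
    (hent : ∀ J t h, h ∈ R J t → M ≤ t.headI → ∀ c ∈ h, M ≤ c) (η : ℝ) (hη : 0 ≤ η) (hη1 : η ≤ 1)
    (hm : ∀ c ≥ M, |∑ q ∈ GP (Nf M) c, (1 : ℝ) / ((q : ℝ) - 1) - 1| ≤ η)
    (hM : Nf M ^ 10 ≤ M) :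
    ∑ J ∈ range Jm, ∑ t ∈ Tl M k X, Wt M k X t * ((1 - η) ^ J * ((R J t).ncard : ℝ)) ≤
      ∑ T ∈ TT R M k X Jm, (1 : ℝ) / (val T) ∧
    ∑ T ∈ TT R M k X Jm, (1 : ℝ) / (val T) ≤
      ∑ J ∈ range Jm, ∑ t ∈ Tl M k X, Wt M k X t * ((1 + η) ^ J * ((R J t).ncard : ℝ)) := by
  sorry

/-- final form (from `tt_sum`, `gp_mass`, `geom_length`). -/
theorem tuple_sums (K : ℕ) (ε : ℝ) (hε : 0 < ε) : ∃ M₀ : ℕ, ∀ M ≥ M₀, ∀ Y : ℝ, Rgm K M Y →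
    ∀ X : ℕ,
    ∑ T ∈ TP M (kk M) X (th M) Y, (1 : ℝ) / (val T) ≤ (1 + ε) * SR (RP (th M) Y) M (kk M) X Y ∧
    (1 - ε) * SR (RM (th M) Y) M (kk M) X Y ≤ ∑ T ∈ TM M (kk M) X (th M) Y, (1 : ℝ) / (val T) := by
  sorry

/-! ### [WB] file Wb.lean: hypotheses of `geom` -/

theorem wt_bound : ∃ C1 : ℝ, 0 < C1 ∧ ∃ M₀ : ℕ, ∀ M ≥ M₀, ∀ X c : ℕ,
    ∑ t ∈ Tl M (kk M) X with t.headI = c, Wt M (kk M) X t ≤ Real.exp (C1 * (Real.log M) ^ 2) := by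
  sorry

theorem wt_base : ∃ M₀ : ℕ, ∀ M ≥ M₀, ∀ X : ℕ, Real.exp (Real.exp ((M : ℝ) + 1)) ≤ X →
    [M] ∈ Tl M (kk M) X ∧ 1 / 2 ≤ Wt M (kk M) X [M] := by
  sorry

theorem Tl_head {M k X : ℕ} {t : List ℕ} (hk : 1 ≤ k) (hM : Nf M ^ 10 ≤ M) (ht : t ∈ Tl M k X) :
    M ≤ t.headI := by
  sorry

/-- combination with `geom`: for every `A` there is `K₀`. -/
theorem geom_applied (A : ℝ) : ∃ K₀ : ℕ, ∀ K ≥ K₀, ∀ ε : ℝ, 0 < ε → ∃ M₀ : ℕ, ∀ M ≥ M₀,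
    ∀ Y : ℝ, Rgm K M Y → ∀ X : ℕ, Real.exp (Real.exp ((M : ℝ) + 1)) ≤ X →
    SR (RP (th M) Y) M (kk M) X Y ≤ (1 + ε) * SR (RM (th M) Y) M (kk M) X Y ∧
    Real.exp (A * (Real.log M) ^ 2) ≤ ε * SR (RM (th M) Y) M (kk M) X Y := by
  sorry

/-! ### [SIZE] file Size.lean -/

theorem TM_subset_TP (M k X : ℕ) (θ Y : ℝ) (hθ : 0 ≤ θ) (hY : 0 ≤ Y) :
    TM M k X θ Y ⊆ TP M k X θ Y := by
  sorry

theorem TM_size (K : ℕ) (hK : 1 ≤ K) : ∃ M₀ : ℕ, ∀ M ≥ M₀, ∀ Y : ℝ, Rgm K M Y → ∀ X : ℕ,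
    ∀ T ∈ TM M (kk M) X (th M) Y, 1 ≤ val T ∧ (val T : ℝ) ≤ Real.exp (Real.exp Y / 8) := by
  sorry

/-! ### [COLLGEN] file CollGen.lean: non-canonical pairs are collisions -/

theorem coll_of_ne {k N q w : ℕ} (hk : 1 ≤ k) (hkN : k ≤ N ^ 10) (hw : w ∈ SS k)
    (hq : Normal N q) (hkq : k ≤ lv q)
    (h1 : ∀ r ∈ can k w, lv r + 2 ≤ lv q)
    (h2 : ∀ r ∈ up k (N ^ 10) w, Normal N r)
    (h3 : (up k (N ^ 10) w).length ≤ N)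
    (h4 : al 1 ((up k (N ^ 10) w).map lv) + (N : ℝ) ^ 90 ≤ lv q)
    (h5 : (lowp k (N ^ 10) w : ℝ) ≤ Real.exp (Real.exp (2 * (N : ℝ) ^ 10)))
    (hne : can k ((q - 1) * w) ≠ q :: can k w) :
    Coll N (lv q) q ((q - 1) * w) := by
  sorry

/-! ### [TMREG] file TmReg.lean: suffixes of `R-` tuples satisfy the hypotheses of `coll_of_ne` -/

theorem tm_reg : ∃ M₀ : ℕ, ∀ M ≥ M₀, ∀ (ω : ℕ) (l : List ℕ) (c : ℕ), Tail M (kk M) ω →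
    (∀ q ∈ l, Good (Nf M) q) → okM (th M) (hl M (kk M) ω) (l.map lv) →
    can (kk M) (pm l * ω) = l ++ can (kk M) ω → M ≤ c →
    (l.map lv ++ hl M (kk M) ω).headI + 2 ≤ c →
    al 1 (l.map lv ++ hl M (kk M) ω) ≤ (1 - th M / 2) * c →
    (∀ r ∈ can (kk M) (pm l * ω), lv r + 2 ≤ c) ∧
    (∀ r ∈ up (kk M) ((Nf c) ^ 10) (pm l * ω), Normal (Nf c) r) ∧
    (up (kk M) ((Nf c) ^ 10) (pm l * ω)).length ≤ Nf c ∧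
    al 1 ((up (kk M) ((Nf c) ^ 10) (pm l * ω)).map lv) + (Nf c : ℝ) ^ 90 ≤ c ∧
    (lowp (kk M) ((Nf c) ^ 10) (pm l * ω) : ℝ) ≤ Real.exp (Real.exp (2 * (Nf c : ℝ) ^ 10)) := by
  sorry

/-! ### [NC] file Nc.lean: non-canonical tuples have small mass -/


theorem nc_mass (K : ℕ) (hK : 1 ≤ K) : ∃ M₀ : ℕ, ∀ M ≥ M₀, ∀ Y : ℝ, Rgm K M Y → ∀ X : ℕ,
    ∑ T ∈ (TM M (kk M) X (th M) Y).filter (fun T => ¬ Canon (kk M) T), (1 : ℝ) / (val T) ≤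
      Real.exp (-(Nf M : ℝ) ^ 80) := by
  sorry

/-! ### [LOWC] file LowC.lean -/

theorem lower_count (K : ℕ) (hK : 1 ≤ K) (ε : ℝ) (hε : 0 < ε) : ∃ M₀ : ℕ, ∀ M ≥ M₀, ∀ Y : ℝ,
    Rgm K M Y → ∀ (X : ℕ) (t : ℝ), Real.exp (Real.exp Y) ≤ t →
    Real.log (Real.log (t + 1)) ≤ Y + 1 → 1 ≤ ∑ T ∈ TM M (kk M) X (th M) Y, (1 : ℝ) / (val T) →
    (1 - ε) * ∑ T ∈ TM M (kk M) X (th M) Y, piR (t / val T) ≤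
      (((Icc 1 ⌊t⌋₊).filter (fun v => v ∈ SS (kk M))).card : ℝ) := by
  sorry

/-! ### [CLASS], [EXC] : regular values -/

/-- [CNT] file Cnt.lean: number of entries from the dyadic bounds. -/
theorem cnt_entries : ∃ m₀ : ℕ, ∀ m ≥ m₀, ∀ (Y : ℝ) (L : List ℕ), (2 : ℝ) * m ^ 10 ≤ Y →
    (∀ y : ℕ, m ^ 10 ≤ y → (y : ℝ) ≤ Y / 2 →
      (L.filter (fun q => decide (y ≤ 2 * lv q ∧ lv q < y))).length ≤ 23) →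
    (L.filter (fun q => decide (45 / 100 * (Y + 1) ≤ (lv q : ℝ) + 1))).length ≤ 23 →
    ∀ N ≥ m, 16 * (L.filter (fun q => decide (m ^ 10 ≤ lv q ∧ lv q ≤ 3 * N ^ 100))).length ≤ N := by
  sorry

/-- [CLASS] file Class.lean: a regular value is `(q₀-1) val T` with an `R+` tuple `T`. -/
theorem reg_tuple (K : ℕ) (hK : 1 ≤ K) : ∃ M₀ : ℕ, ∀ M ≥ M₀, ∀ Y : ℝ, Rgm K M Y →
    ∀ (X : ℕ) (t : ℝ), Real.exp (Real.exp Y) ≤ t → Real.log (Real.log (t + 1)) ≤ Y + 1 → t ≤ X →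
    ∀ v : ℕ, (v : ℝ) ≤ t → RegV M (kk M) Y t v →
    ∃ (q₀ : ℕ) (T : List ℕ × ℕ), q₀.Prime ∧ t < (q₀ : ℝ) ^ 100 ∧ v = (q₀ - 1) * val T ∧
      T ∈ TP M (kk M) X (th M) Y := by
  sorry

/-- [EXC] file Exc.lean: the exceptional values are few. -/
theorem exc_count : ∃ A : ℝ, 0 < A ∧ ∀ K : ℕ, 2 ≤ K → ∀ ε : ℝ, 0 < ε → ∃ M₀ : ℕ, ∀ M ≥ M₀,
    ∀ Y : ℝ, Rgm K M Y →
    ∀ t : ℝ, Real.exp (Real.exp Y) ≤ t → Real.log (Real.log (t + 1)) ≤ Y + 1 →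
    (((Icc 1 ⌊t⌋₊).filter (fun v => v ∈ SS (kk M) ∧ ¬ RegV M (kk M) Y t v)).card : ℝ) ≤
      t / Real.log t * (ε + Real.exp (A * (Real.log M) ^ 2)) := by
  sorry

/-! ### [UPC] file UpC.lean (from [CLASS], [EXC]) -/

theorem upper_count : ∃ A : ℝ, 0 < A ∧ ∀ K : ℕ, 2 ≤ K → ∀ ε : ℝ, 0 < ε → ∃ M₀ : ℕ, ∀ M ≥ M₀,
    ∀ Y : ℝ, Rgm K M Y → ∀ (X : ℕ) (t : ℝ), Real.exp (Real.exp Y) ≤ t →
    Real.log (Real.log (t + 1)) ≤ Y + 1 → t ≤ X →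
    (((Icc 1 ⌊t⌋₊).filter (fun v => v ∈ SS (kk M))).card : ℝ) ≤
      ∑ T ∈ TP M (kk M) X (th M) Y, ((((Nat.primesLE (⌊t / val T⌋₊ + 1)).filter
        (fun q : ℕ => t < (q : ℝ) ^ 100)).card : ℕ) : ℝ) +
      t / Real.log t * (ε + Real.exp (A * (Real.log M) ^ 2)) := by
  sorry

end P031
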