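import Vale.Agent.P031.GeomDefs

/-! P031: statement of the geometry module (with `sorry`; the proof is in Geom.lean). -/

namespace P031

open Finset

/-- [GEOM] The weighted number of lattice points in `R+`, `R-` agree asymptotically, and
the sum over `R-` is large. -/
theorem geom (C1 : ℝ) : ∃ K0 : ℕ, ∀ K : ℕ, K0 ≤ K → ∀ C ε : ℝ, 0 < ε →
    ∃ M0 : ℕ, ∀ M : ℕ, M0 ≤ M → ∀ Y : ℝ, (M : ℝ) ^ K ≤ Y → Y < ((M : ℝ) + 1) ^ K →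
    ∀ θ : ℝ, 0 ≤ θ → θ ≤ C * (M : ℝ) ^ (-(1 / 10) : ℝ) →
    ∀ (T : Finset (List ℕ)) (W : List ℕ → ℝ), (∀ t ∈ T, 0 ≤ W t) → (∀ t ∈ T, M ≤ t.headI) →
    (∀ c : ℕ, ∑ t ∈ T with t.headI = c, W t ≤ Real.exp (C1 * (Real.log M) ^ 2)) →
    [M] ∈ T → 1 / 2 ≤ W [M] →
    (∑ J ∈ range (⌊Y⌋₊ + 1), ∑ t ∈ T, W t * (RP θ Y J t).ncard ≤
      (1 + ε) * ∑ J ∈ range (⌊Y⌋₊ + 1), ∑ t ∈ T, W t * (RM θ Y J t).ncard) ∧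
    Real.exp (C1 * (Real.log M) ^ 2) ≤
      ε * ∑ J ∈ range (⌊Y⌋₊ + 1), ∑ t ∈ T, W t * (RM θ Y J t).ncard := by
  sorry

/-- the number of head entries is `O(log Y)`. -/
theorem geom_length : ∃ M0 : ℕ, ∀ M : ℕ, M0 ≤ M → ∀ Y θ : ℝ, (M : ℝ) ≤ Y → 0 ≤ θ →
    θ ≤ 1 / 20 → ∀ (J : ℕ) (t : List ℕ), M ≤ t.headI → (RP θ Y J t).Nonempty →
    (J : ℝ) ≤ 5 * Real.log Y := by
  sorry

theorem RP_finite (θ Y : ℝ) (J : ℕ) (t : List ℕ) : (RP θ Y J t).Finite := by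
  sorry

end P031
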