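import Vale.Agent.P031.SqMain

/-! P031: totients versus `SS k`, assembly from `a_bound` (helper36). -/

namespace P031

open Finset Filter Topology
open scoped Classical

namespace SqAux

/-- the function `h(g) = g φ(rad g)` -/
def hh (g : ℕ) : ℕ := g * ∏ p ∈ g.primeFactors, (p - 1)

theorem prod_ge_one (g : ℕ) : 1 ≤ ∏ p ∈ g.primeFactors, (p - 1) := by
  refine Finset.one_le_prod' (fun p hp => ?_)
  have := (Nat.prime_of_mem_primeFactors hp).two_le
  omega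

theorem hh_pos {g : ℕ} (hg : 0 < g) : 0 < hh g := Nat.mul_pos hg (prod_ge_one g)

theorem hh_le {g : ℕ} (hg : 0 < g) : (hh g : ℝ) ≤ Real.sqrt (g : ℝ) ^ 4 := by
  have h2 : Real.sqrt (g : ℝ) ^ 2 = (g : ℝ) := Real.sq_sqrt (Nat.cast_nonneg g)
  have e : Real.sqrt (g : ℝ) ^ 4 = (g : ℝ) * (g : ℝ) := by
    calc Real.sqrt (g : ℝ) ^ 4 = (Real.sqrt (g : ℝ) ^ 2) * (Real.sqrt (g : ℝ) ^ 2) := by ring
      _ = (g : ℝ) * (g : ℝ) := by rw [h2]
  rw [e]
  have h3 : ∏ p ∈ g.primeFactors, (p - 1) ≤ g := by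
    calc ∏ p ∈ g.primeFactors, (p - 1) ≤ ∏ p ∈ g.primeFactors, p :=
          Finset.prod_le_prod' (fun p _ => Nat.sub_le p 1)
      _ ≤ g := Nat.le_of_dvd hg (Nat.prod_primeFactors_dvd g)
  unfold hh
  exact_mod_cast Nat.mul_le_mul_left g h3

theorem f2_hh {g : ℕ} (hg : 0 < g) : Real.sqrt (g : ℝ) / (hh g : ℝ) = f2 g := by
  have hg0 : (0 : ℝ) < g := by exact_mod_cast hg
  have hsg : 0 < Real.sqrt (g : ℝ) := Real.sqrt_pos.2 hg0
  have hcast : ((∏ p ∈ g.primeFactors, (p - 1) : ℕ) : ℝ) =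
      ∏ p ∈ g.primeFactors, ((p : ℝ) - 1) := by
    rw [Nat.cast_prod]
    refine Finset.prod_congr rfl (fun p hp => ?_)
    rw [Nat.cast_sub (Nat.prime_of_mem_primeFactors hp).one_le, Nat.cast_one]
  have hpr : (0 : ℝ) < ∏ p ∈ g.primeFactors, ((p : ℝ) - 1) := by
    rw [← hcast]
    exact_mod_cast prod_ge_one g
  have hss : Real.sqrt (g : ℝ) * Real.sqrt (g : ℝ) = (g : ℝ) := Real.mul_self_sqrt hg0.le
  unfold f2 hh
  rw [Nat.cast_mul, hcast, Finset.prod_div_distrib, Finset.prod_const_one, one_div_mul_one_div,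
    div_eq_div_iff (by positivity) (by positivity), one_mul]
  nth_rewrite 3 [← hss]
  ring

theorem one_hh {g : ℕ} {z : ℝ} (hz : 14 ≤ z) (hg : 2 ≤ g)
    (hgz : ∀ p, p.Prime → p ∣ g → z ≤ (p : ℝ)) : 1 / (hh g : ℝ) ≤ f2 g / Real.sqrt z := by
  have hg0 : (0 : ℝ) < g := by
    have : 0 < g := by omega
    exact_mod_cast this
  have hsg : 0 < Real.sqrt (g : ℝ) := Real.sqrt_pos.2 hg0
  have hzg : z ≤ (g : ℝ) := by
    obtain ⟨p, hp, hpg⟩ := Nat.exists_prime_and_dvd (n := g) (by omega)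
    have h1 : (p : ℝ) ≤ g := by exact_mod_cast Nat.le_of_dvd (by omega) hpg
    exact (hgz p hp hpg).trans h1
  have hsz : 0 < Real.sqrt z := Real.sqrt_pos.2 (by linarith)
  have hss : Real.sqrt z ≤ Real.sqrt (g : ℝ) := Real.sqrt_le_sqrt hzg
  have hh0 : (0 : ℝ) < hh g := by exact_mod_cast hh_pos (by omega : 0 < g)
  rw [← f2_hh (by omega : 0 < g), div_div, div_le_div_iff₀ hh0 (by positivity), one_mul, mul_comm]
  exact mul_le_mul_of_nonneg_right hss hh0.le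

theorem sumG {z : ℝ} (hz14 : 14 ≤ z) (T : ℕ) :
    ∑ g ∈ (Icc 2 T).filter (fun g : ℕ => ∀ p, p.Prime → p ∣ g → z ≤ (p : ℝ)),
      Real.sqrt (g : ℝ) / (hh g : ℝ) ≤ 40 / 3.7 ∧
    ∑ g ∈ (Icc 2 T).filter (fun g : ℕ => ∀ p, p.Prime → p ∣ g → z ≤ (p : ℝ)),
      1 / (hh g : ℝ) ≤ 40 / z := by
  set G := (Icc 2 T).filter (fun g : ℕ => ∀ p, p.Prime → p ∣ g → z ≤ (p : ℝ)) with hG
  have hG2 : ∀ g ∈ G, 2 ≤ g ∧ ∀ p, p.Prime → p ∣ g → z ≤ (p : ℝ) := fun g hg =>
    ⟨(Finset.mem_Icc.1 (Finset.mem_filter.1 hg).1).1, (Finset.mem_filter.1 hg).2⟩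
  have hz0 : 0 < z := by linarith
  have hsz : 0 < Real.sqrt z := Real.sqrt_pos.2 hz0
  have hszz : Real.sqrt z * Real.sqrt z = z := Real.mul_self_sqrt hz0.le
  have hsz3 : (3.7 : ℝ) ≤ Real.sqrt z := by
    rw [Real.le_sqrt' (by norm_num)]
    linarith
  have hf2 := f2_sum_le z hz14 T
  rw [← hG] at hf2
  constructor
  · rw [Finset.sum_congr rfl (fun g hg => f2_hh (by have := (hG2 g hg).1; omega))]
    exact hf2.trans (div_le_div_of_nonneg_left (by norm_num) (by norm_num) hsz3)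
  · calc ∑ g ∈ G, 1 / (hh g : ℝ) ≤ ∑ g ∈ G, f2 g / Real.sqrt z :=
          Finset.sum_le_sum (fun g hg => one_hh hz14 (hG2 g hg).1 (hG2 g hg).2)
      _ = (∑ g ∈ G, f2 g) / Real.sqrt z := by rw [Finset.sum_div]
      _ ≤ (40 / Real.sqrt z) / Real.sqrt z := div_le_div_of_nonneg_right hf2 hsz.le
      _ = 40 / z := by rw [div_div, hszz]

theorem sumQ {z : ℝ} (hz14 : 14 ≤ z) (Q : Finset ℕ) (hQ2 : ∀ q ∈ Q, q.Prime ∧ z ≤ (q : ℝ)) :
    ∑ q ∈ Q, Real.sqrt ((q : ℝ) - 1) / (((q - 1) ^ 2 : ℕ) : ℝ) ≤ 2 * (3 / 3.7) ∧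
    ∑ q ∈ Q, 1 / (((q - 1) ^ 2 : ℕ) : ℝ) ≤ 6 / z := by
  have hz0 : 0 < z := by linarith
  have hsz : 0 < Real.sqrt z := Real.sqrt_pos.2 hz0
  have hszz : Real.sqrt z * Real.sqrt z = z := Real.mul_self_sqrt hz0.le
  have hsz3 : (3.7 : ℝ) ≤ Real.sqrt z := by
    rw [Real.le_sqrt' (by norm_num)]
    linarith
  have hQc : ∀ q ∈ Q, (((q - 1) ^ 2 : ℕ) : ℝ) = ((q : ℝ) - 1) ^ 2 := by
    intro q hq
    rw [Nat.cast_pow, Nat.cast_sub (hQ2 q hq).1.one_le, Nat.cast_one]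
  have hqs := sum_inv_sqrt_set z hz14 Q (fun q hq => (hQ2 q hq).2)
  have hkey : ∀ (q : ℕ) (y : ℝ), 14 ≤ (q : ℝ) → y ≤ Real.sqrt (q : ℝ) →
      y * ((q : ℝ) * Real.sqrt q) ≤ 2 * ((q : ℝ) - 1) ^ 2 := by
    intro q y h14 hy
    have hq0 : (0 : ℝ) < q := by linarith
    have hss : Real.sqrt (q : ℝ) * Real.sqrt q = q := Real.mul_self_sqrt hq0.le
    have h1 : 0 ≤ (q : ℝ) * Real.sqrt q := by positivity
    calc y * ((q : ℝ) * Real.sqrt q) ≤ Real.sqrt (q : ℝ) * ((q : ℝ) * Real.sqrt q) :=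
          mul_le_mul_of_nonneg_right hy h1
      _ = (q : ℝ) * (Real.sqrt (q : ℝ) * Real.sqrt q) := by ring
      _ = (q : ℝ) * q := by rw [hss]
      _ ≤ 2 * ((q : ℝ) - 1) ^ 2 := by nlinarith
  constructor
  · calc ∑ q ∈ Q, Real.sqrt ((q : ℝ) - 1) / (((q - 1) ^ 2 : ℕ) : ℝ)
        ≤ ∑ q ∈ Q, 2 * (1 / ((q : ℝ) * Real.sqrt q)) := by
          refine Finset.sum_le_sum (fun q hq => ?_)
          rw [hQc q hq]
          have h14 := hz14.trans (hQ2 q hq).2
          have hq0 : (0 : ℝ) < q := by linarith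
          have hq1 : (0 : ℝ) < (q : ℝ) - 1 := by linarith
          have hsq : 0 < Real.sqrt (q : ℝ) := Real.sqrt_pos.2 hq0
          have e : 2 * (1 / ((q : ℝ) * Real.sqrt q)) = 2 / ((q : ℝ) * Real.sqrt q) := by ring
          rw [e, div_le_div_iff₀ (by positivity) (by positivity)]
          exact hkey q _ h14 (Real.sqrt_le_sqrt (by linarith))
      _ = 2 * ∑ q ∈ Q, 1 / ((q : ℝ) * Real.sqrt q) := by rw [Finset.mul_sum]
      _ ≤ 2 * (3 / 3.7) := by
          have := hqs.trans (div_le_div_of_nonneg_left (by norm_num) (by norm_num) hsz3)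
          linarith
  · calc ∑ q ∈ Q, 1 / (((q - 1) ^ 2 : ℕ) : ℝ)
        ≤ ∑ q ∈ Q, 2 / Real.sqrt z * (1 / ((q : ℝ) * Real.sqrt q)) := by
          refine Finset.sum_le_sum (fun q hq => ?_)
          rw [hQc q hq]
          have h14 := hz14.trans (hQ2 q hq).2
          have hq0 : (0 : ℝ) < q := by linarith
          have hq1 : (0 : ℝ) < (q : ℝ) - 1 := by linarith
          have hsq : 0 < Real.sqrt (q : ℝ) := Real.sqrt_pos.2 hq0
          rw [div_mul_div_comm, mul_one, div_le_div_iff₀ (by positivity) (by positivity), one_mul]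
          exact hkey q _ h14 (Real.sqrt_le_sqrt (hQ2 q hq).2)
      _ = 2 / Real.sqrt z * ∑ q ∈ Q, 1 / ((q : ℝ) * Real.sqrt q) := by rw [Finset.mul_sum]
      _ ≤ 2 / Real.sqrt z * (3 / Real.sqrt z) := mul_le_mul_of_nonneg_left hqs (by positivity)
      _ = 6 / z := by
          rw [div_mul_div_comm, hszz]
          norm_num

theorem combine {xl E z X9 N9 M C1 a b : ℝ} (hxl : 0 ≤ xl) (hX90 : 0 ≤ X9) (hX9 : X9 ≤ N9)
    (hC1 : 0 < C1) (hM : E / z ≤ M) (hM0 : 0 ≤ M)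
    (ha : a ≤ 10 * xl * E * (40 / z) + X9 * (40 / 3.7))
    (hb : b ≤ 10 * xl * E * (6 / z) + X9 * (2 * (3 / 3.7))) :
    a + b ≤ (C1 + 1000) * (xl * M + N9) := by
  have c3 : 10 * xl * E * (40 / z) + 10 * xl * E * (6 / z) ≤ 460 * (xl * M) := by
    have e : 10 * xl * E * (40 / z) + 10 * xl * E * (6 / z) = 460 * (xl * (E / z)) := by ring
    rw [e]
    have := mul_le_mul_of_nonneg_left hM hxl
    linarith
  have c4 : X9 * (40 / 3.7) + X9 * (2 * (3 / 3.7)) ≤ 20 * N9 := by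
    have e : X9 * (40 / 3.7) + X9 * (2 * (3 / 3.7)) = X9 * (46 / 3.7) := by ring
    rw [e]
    have : (46 / 3.7 : ℝ) ≤ 20 := by norm_num
    nlinarith
  have c5 : 0 ≤ xl * M := mul_nonneg hxl hM0
  have c6 : 0 ≤ C1 * (xl * M + N9) := mul_nonneg hC1.le (by linarith)
  nlinarith

theorem squares_of {C1 : ℝ} (hC1 : 0 < C1)
    (hA : ∀ (k : ℕ) (t : ℝ), 16 ≤ t →
      (((Icc 1 ⌊t⌋₊).filter (fun u : ℕ => u ∈ SS k)).card : ℝ) ≤ t / Real.log t *
        Real.exp (C1 * ((k : ℝ) + 1 + (Real.log (Real.log (Real.log t) + 2)) ^ 2))) :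
    ∃ C : ℝ, 0 < C ∧ ∀ (k : ℕ) (x : ℝ), 1 ≤ k → 16 ≤ x →
    |(V x : ℝ) - (((Icc 1 ⌊x⌋₊).filter (fun v => v ∈ SS k)).card : ℝ)| ≤
      C * (x / Real.log x * Real.exp (C * ((k : ℝ) + 1 +
        (Real.log (Real.log (Real.log x) + 2)) ^ 2) - Real.exp k) + x ^ (9 / 10 : ℝ)) := by
  refine ⟨C1 + 1000, by linarith, ?_⟩
  intro k x hk hx
  have hx0 : (0 : ℝ) < x := by linarith
  have hlogx : 0 < Real.log x := Real.log_pos (by linarith)
  set P : ℕ → Prop := fun v => ∃ n : ℕ, 0 < n ∧ Nat.totient n = v with hP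
  set E0 : ℝ := (k : ℝ) + 1 + (Real.log (Real.log (Real.log x) + 2)) ^ 2 with hE0
  have hE00 : 0 ≤ E0 := by positivity
  have hmain0 : 0 ≤ x / Real.log x * Real.exp ((C1 + 1000) * E0 - Real.exp k) := by positivity
  have hx9 : 0 ≤ x ^ (9 / 10 : ℝ) := Real.rpow_nonneg hx0.le _
  set F := (Icc 1 ⌊x⌋₊).filter (fun v => P v) with hF
  set S := (Icc 1 ⌊x⌋₊).filter (fun v => v ∈ SS k) with hS
  have hV : (V x : ℝ) = (F.card : ℝ) := by
    unfold V
    rfl
  rw [hV]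
  have hcard : |(F.card : ℝ) - (S.card : ℝ)| ≤ ((F \ S).card : ℝ) + ((S \ F).card : ℝ) := by
    have h1 := Finset.card_sdiff_add_card_inter F S
    have h2 := Finset.card_sdiff_add_card_inter S F
    rw [Finset.inter_comm S F] at h2
    have h1' : ((F \ S).card : ℝ) + ((F ∩ S).card : ℝ) = F.card := by exact_mod_cast h1
    have h2' : ((S \ F).card : ℝ) + ((F ∩ S).card : ℝ) = S.card := by exact_mod_cast h2
    have h3 : (0 : ℝ) ≤ (F \ S).card := Nat.cast_nonneg _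
    have h4 : (0 : ℝ) ≤ (S \ F).card := Nat.cast_nonneg _
    rw [abs_le]
    constructor <;> linarith
  by_cases hbig : (16 : ℝ) ^ 10 ≤ x
  swap
  · -- small `x`: trivial bound
    push Not at hbig
    have h1 : ((F \ S).card : ℝ) + ((S \ F).card : ℝ) ≤ 2 * x := by
      have h2 : ∀ T : Finset ℕ, T ⊆ Icc 1 ⌊x⌋₊ → (T.card : ℝ) ≤ x := by
        intro T hT
        have h3 := Finset.card_le_card hT
        rw [Nat.card_Icc] at h3
        have h4 : (T.card : ℝ) ≤ (⌊x⌋₊ : ℝ) := by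
          have : T.card ≤ ⌊x⌋₊ := by omega
          exact_mod_cast this
        exact h4.trans (Nat.floor_le hx0.le)
      have h5 := h2 (F \ S) (Finset.sdiff_subset.trans (Finset.filter_subset _ _))
      have h6 := h2 (S \ F) (Finset.sdiff_subset.trans (Finset.filter_subset _ _))
      linarith
    have h7 : x ≤ 16 * x ^ (9 / 10 : ℝ) := by
      have h8 : x ^ (1 / 10 : ℝ) ≤ 16 := by
        have h9 : x ^ (1 / 10 : ℝ) ≤ ((16 : ℝ) ^ 10) ^ (1 / 10 : ℝ) :=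
          Real.rpow_le_rpow hx0.le hbig.le (by norm_num)
        have h10 : ((16 : ℝ) ^ 10) ^ (1 / 10 : ℝ) = 16 := by
          rw [← Real.rpow_natCast, ← Real.rpow_mul (by norm_num)]
          norm_num
        rwa [h10] at h9
      have hxx : x = x ^ (1 / 10 : ℝ) * x ^ (9 / 10 : ℝ) := by
        rw [← Real.rpow_add hx0]
        norm_num
      calc x = x ^ (1 / 10 : ℝ) * x ^ (9 / 10 : ℝ) := hxx
        _ ≤ 16 * x ^ (9 / 10 : ℝ) := mul_le_mul_of_nonneg_right h8 hx9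
    nlinarith
  · -- large `x`
    set z := Real.exp (Real.exp k) with hz
    have hz14 : 14 ≤ z := z0_ge hk
    have hz0 : 0 < z := by linarith
    have hsz : 0 < Real.sqrt z := Real.sqrt_pos.2 hz0
    have hszz : Real.sqrt z * Real.sqrt z = z := Real.mul_self_sqrt hz0.le
    have hsz3 : (3.7 : ℝ) ≤ Real.sqrt z := by
      rw [Real.le_sqrt' (by norm_num)]
      linarith
    set E := Real.exp (C1 * E0) with hE
    have hEpos : 0 < E := Real.exp_pos _
    set X9 := x * x ^ (-(9 / 40 : ℝ)) with hX9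
    have hX90 : 0 ≤ X9 := mul_nonneg hx0.le (Real.rpow_nonneg hx0.le _)
    have hX9le : X9 ≤ x ^ (9 / 10 : ℝ) := by
      have : X9 = x ^ (31 / 40 : ℝ) := by
        rw [hX9]
        nth_rewrite 1 [← Real.rpow_one x]
        rw [← Real.rpow_add hx0]
        norm_num
      rw [this]
      exact Real.rpow_le_rpow_of_exponent_le (by linarith) (by norm_num)
    -- first part
    set G := (Icc 2 ⌊x⌋₊).filter (fun g : ℕ => ∀ p, p.Prime → p ∣ g → z ≤ (p : ℝ)) with hG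
    have hG2 : ∀ g ∈ G, 2 ≤ g ∧ ∀ p, p.Prime → p ∣ g → z ≤ (p : ℝ) := fun g hg =>
      ⟨(Finset.mem_Icc.1 (Finset.mem_filter.1 hg).1).1, (Finset.mem_filter.1 hg).2⟩
    have hB1 := count_gen hC1 hA k x hbig G hh (fun g => Real.sqrt g)
      (fun g hg => hh_pos (by have := (hG2 g hg).1; omega))
      (fun g hg => ⟨Real.sqrt_nonneg _, hh_le (by have := (hG2 g hg).1; omega)⟩)
      (F \ S)
      (fun v hv => by
        rw [Finset.mem_sdiff] at hv
        obtain ⟨hvF, hvS⟩ := hv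
        have h1 := Finset.mem_filter.1 hvF
        have h2 := Finset.mem_Icc.1 h1.1
        have hvx : (v : ℝ) ≤ x := (Nat.le_floor_iff hx0.le).1 h2.2
        obtain ⟨n, hn, hnv⟩ := h1.2
        obtain ⟨g, w, hg0, hgp, hw, he⟩ := tot_struct (k := k) hn
        refine ⟨h2.1, hvx, g, ?_, w, hw, by rw [← hnv, he]; rfl⟩
        have hw0 := SS_pos hw
        rw [hG, Finset.mem_filter, Finset.mem_Icc]
        refine ⟨⟨?_, ?_⟩, fun p hp hpg => le_of_lv hk (hgp p hp hpg)⟩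
        · by_contra hcon
          have hg1 : g = 1 := by omega
          rw [hg1] at he
          simp only [Nat.primeFactors_one, Finset.prod_empty, one_mul] at he
          apply hvS
          rw [hS, Finset.mem_filter]
          refine ⟨h1.1, ?_⟩
          rw [← hnv, he]
          exact hw
        · refine le_trans ?_ h2.2
          rw [← hnv, he]
          calc g = g * 1 * 1 := by ring
            _ ≤ g * (∏ p ∈ g.primeFactors, (p - 1)) * w :=
              Nat.mul_le_mul (Nat.mul_le_mul_left g (prod_ge_one g)) hw0)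
    obtain ⟨hs1, hs2⟩ := sumG hz14 ⌊x⌋₊
    rw [← hG] at hs1 hs2
    -- second part
    set Q := (Icc 1 (⌊x⌋₊ + 1)).filter (fun q : ℕ => q.Prime ∧ z ≤ (q : ℝ)) with hQ
    have hQ2 : ∀ q ∈ Q, q.Prime ∧ z ≤ (q : ℝ) := fun q hq => (Finset.mem_filter.1 hq).2
    have hQc : ∀ q ∈ Q, (((q - 1) ^ 2 : ℕ) : ℝ) = ((q : ℝ) - 1) ^ 2 := by
      intro q hq
      rw [Nat.cast_pow, Nat.cast_sub (hQ2 q hq).1.one_le, Nat.cast_one]
    have hB2 := count_gen hC1 hA k x hbig Q (fun q => (q - 1) ^ 2)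
      (fun q => Real.sqrt ((q : ℝ) - 1))
      (fun q hq => by
        have := (hQ2 q hq).1.two_le
        exact Nat.one_le_pow _ _ (by omega))
      (fun q hq => by
        refine ⟨Real.sqrt_nonneg _, ?_⟩
        rw [hQc q hq]
        have h14 := hz14.trans (hQ2 q hq).2
        have h2 : Real.sqrt ((q : ℝ) - 1) ^ 2 = (q : ℝ) - 1 := Real.sq_sqrt (by linarith)
        refine le_of_eq ?_
        calc ((q : ℝ) - 1) ^ 2 = (Real.sqrt ((q : ℝ) - 1) ^ 2) ^ 2 := by rw [h2]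
          _ = Real.sqrt ((q : ℝ) - 1) ^ 4 := by ring)
      (S \ F)
      (fun v hv => by
        rw [Finset.mem_sdiff] at hv
        obtain ⟨hvS, hvF⟩ := hv
        have h1 := Finset.mem_filter.1 hvS
        have h2 := Finset.mem_Icc.1 h1.1
        have hvx : (v : ℝ) ≤ x := (Nat.le_floor_iff hx0.le).1 h2.2
        have hnt : ¬ ∃ n : ℕ, 0 < n ∧ Nat.totient n = v := by
          intro hcon
          apply hvF
          rw [hF, Finset.mem_filter]
          exact ⟨h1.1, hcon⟩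
        obtain ⟨q, w, hq, hqk, hw, he⟩ := ss_struct h1.2 hnt
        refine ⟨h2.1, hvx, q, ?_, w, hw, he⟩
        rw [hQ, Finset.mem_filter, Finset.mem_Icc]
        have hw0 := SS_pos hw
        refine ⟨⟨hq.one_le, ?_⟩, hq, le_of_lv hk hqk⟩
        have h3 : q - 1 ≤ v := by
          rw [he]
          have h4 := hq.two_le
          calc q - 1 = (q - 1) * 1 * 1 := by ring
            _ ≤ (q - 1) * (q - 1) * w := Nat.mul_le_mul (Nat.mul_le_mul_left _ (by omega)) hw0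
            _ = (q - 1) ^ 2 * w := by ring
        have h5 := h2.2
        omega)
    obtain ⟨hs3, hs4⟩ := sumQ hz14 Q hQ2
    -- combine
    rw [← hE0, ← hE, ← hX9] at hB1 hB2
    have hxl : 0 ≤ 10 * (x / Real.log x) * E := by positivity
    have c1 : ((F \ S).card : ℝ) ≤ 10 * (x / Real.log x) * E * (40 / z) + X9 * (40 / 3.7) :=
      hB1.trans (add_le_add (mul_le_mul_of_nonneg_left hs2 hxl)
        (mul_le_mul_of_nonneg_left hs1 hX90))
    have c2 : ((S \ F).card : ℝ) ≤ 10 * (x / Real.log x) * E * (6 / z) + X9 * (2 * (3 / 3.7)) :=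
      hB2.trans (add_le_add (mul_le_mul_of_nonneg_left hs4 hxl)
        (mul_le_mul_of_nonneg_left hs3 hX90))
    have hEz : E / z ≤ Real.exp ((C1 + 1000) * E0 - Real.exp k) := by
      rw [hE, hz, ← Real.exp_sub]
      refine Real.exp_le_exp.2 ?_
      nlinarith
    exact hcard.trans (combine (div_nonneg hx0.le hlogx.le) hX90 hX9le hC1 hEz
      (Real.exp_pos _).le c1 c2)

end SqAux

end P031
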