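import Vale.Agent.P031.SqAux

/-! P031: totients versus `SS k` (helper36). -/

namespace P031

open Finset Filter Topology
open scoped Classical

namespace SqAux

theorem totient_cons {k : ℕ} {m : ℕ} (hm : 0 < m) (hs : ∀ p, p.Prime → p ∣ m → lv p < k)
    (L : Multiset ℕ) (hL : ∀ q ∈ L, q.Prime ∧ k ≤ lv q) (hnd : L.Nodup) :
    0 < L.prod * m ∧ Nat.totient (L.prod * m) =
      (L.map (fun q => q - 1)).prod * Nat.totient m := by
  induction L using Multiset.induction with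
  | empty => simpa using hm
  | cons q L ih =>
    have hq := hL q (Multiset.mem_cons_self q L)
    have hL' : ∀ r ∈ L, r.Prime ∧ k ≤ lv r := fun r hr => hL r (Multiset.mem_cons_of_mem hr)
    rw [Multiset.nodup_cons] at hnd
    obtain ⟨h1, h2⟩ := ih hL' hnd.2
    have hcop : Nat.Coprime q (L.prod * m) := by
      rw [Nat.Prime.coprime_iff_not_dvd hq.1]
      intro hdvd
      rcases (Nat.Prime.dvd_mul hq.1).1 hdvd with h | h
      · obtain ⟨r, hr, hqr⟩ := Prime.exists_mem_multiset_dvd hq.1.prime h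
        have := (Nat.prime_dvd_prime_iff_eq hq.1 (hL' r hr).1).1 hqr
        rw [this] at hnd
        exact hnd.1 hr
      · have := hs q hq.1 h
        omega
    rw [Multiset.prod_cons, mul_assoc, Nat.totient_mul hcop, h2, Nat.totient_prime hq.1,
      Multiset.map_cons, Multiset.prod_cons, mul_assoc]
    exact ⟨Nat.mul_pos hq.1.pos h1, rfl⟩

theorem ss_struct {k v : ℕ} (hv : v ∈ SS k) (hnt : ¬ ∃ n : ℕ, 0 < n ∧ Nat.totient n = v) :
    ∃ q w : ℕ, q.Prime ∧ k ≤ lv q ∧ w ∈ SS k ∧ v = (q - 1) ^ 2 * w := by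
  obtain ⟨L, m, hm, hL, hs, rfl⟩ := hv
  by_cases hnd : L.Nodup
  · exfalso
    obtain ⟨h1, h2⟩ := totient_cons hm hs L hL hnd
    exact hnt ⟨_, h1, h2⟩
  · rw [Multiset.nodup_iff_ne_cons_cons] at hnd
    push Not at hnd
    obtain ⟨q, L', rfl⟩ := hnd
    have hq := hL q (Multiset.mem_cons_self q _)
    refine ⟨q, (L'.map (fun q => q - 1)).prod * Nat.totient m, hq.1, hq.2,
      ⟨L', m, hm, fun r hr => hL r (Multiset.mem_cons_of_mem (Multiset.mem_cons_of_mem hr)), hs,
        rfl⟩, ?_⟩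
    rw [Multiset.map_cons, Multiset.map_cons, Multiset.prod_cons, Multiset.prod_cons]
    ring

theorem tot_struct {k n : ℕ} (hn : 0 < n) : ∃ g w : ℕ, 0 < g ∧
    (∀ p, p.Prime → p ∣ g → k ≤ lv p) ∧ w ∈ SS k ∧
    Nat.totient n = g * (∏ p ∈ g.primeFactors, (p - 1)) * w := by
  set a := n.factorization with ha
  have ha1 : ∀ p ∈ n.primeFactors, 1 ≤ a p := by
    intro p hp
    exact (Nat.Prime.dvd_iff_one_le_factorization (Nat.prime_of_mem_primeFactors hp) hn.ne').1
      (Nat.dvd_of_mem_primeFactors hp)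
  set H := n.primeFactors.filter (fun p => k ≤ lv p) with hH
  set Lo := n.primeFactors.filter (fun p => ¬ k ≤ lv p) with hLo
  have hHp : ∀ p ∈ H, p.Prime ∧ k ≤ lv p := fun p hp =>
    ⟨Nat.prime_of_mem_primeFactors (Finset.mem_filter.1 hp).1, (Finset.mem_filter.1 hp).2⟩
  have hphi : Nat.totient n = (∏ p ∈ H, p ^ (a p - 1) * (p - 1)) *
      (∏ p ∈ Lo, p ^ (a p - 1) * (p - 1)) := by
    rw [Nat.totient_eq_prod_factorization hn.ne', Finsupp.prod, Nat.support_factorization,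
      ← Finset.prod_filter_mul_prod_filter_not n.primeFactors (fun p => k ≤ lv p)]
  -- the smooth part
  set f := a.filter (fun p => ¬ k ≤ lv p) with hf
  have hfs : f.support = Lo := by
    rw [hf, Finsupp.support_filter, ha, Nat.support_factorization]
  have hfp : ∀ p ∈ f.support, p.Prime := by
    intro p hp
    rw [hfs] at hp
    exact Nat.prime_of_mem_primeFactors (Finset.mem_filter.1 hp).1
  set m := f.prod (fun p e => p ^ e) with hm
  have hmf : m.factorization = f := Nat.prod_pow_factorization_eq_self hfp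
  have hm0 : 0 < m := by
    rw [hm, Finsupp.prod]
    exact Finset.prod_pos (fun p hp => pow_pos (hfp p hp).pos _)
  have hphim : Nat.totient m = ∏ p ∈ Lo, p ^ (a p - 1) * (p - 1) := by
    rw [Nat.totient_eq_prod_factorization hm0.ne', hmf, Finsupp.prod, hfs]
    refine Finset.prod_congr rfl (fun p hp => ?_)
    have hfa : f p = a p := Finsupp.filter_apply_pos (fun p => ¬ k ≤ lv p) a (Finset.mem_filter.1 hp).2
    rw [hfa]
  have hms : ∀ p, p.Prime → p ∣ m → lv p < k := by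
    intro p hp hpm
    have h1 : p ∈ m.primeFactors := Nat.mem_primeFactors.2 ⟨hp, hpm, hm0.ne'⟩
    rw [← Nat.support_factorization, hmf, hfs] at h1
    exact not_le.1 (Finset.mem_filter.1 h1).2
  -- the square part
  set g := ∏ p ∈ H, p ^ (a p - 1) with hg
  have hg0 : 0 < g := Finset.prod_pos (fun p hp => pow_pos (hHp p hp).1.pos _)
  have hgp : g.primeFactors = H.filter (fun p => 2 ≤ a p) := by
    ext p
    rw [Nat.mem_primeFactors, Finset.mem_filter]
    constructor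
    · rintro ⟨hp, hpg, -⟩
      rw [hg, Prime.dvd_finsetProd_iff hp.prime] at hpg
      obtain ⟨r, hr, hpr⟩ := hpg
      have h1 := hp.dvd_of_dvd_pow hpr
      have h2 := (Nat.prime_dvd_prime_iff_eq hp (hHp r hr).1).1 h1
      subst h2
      refine ⟨hr, ?_⟩
      by_contra hcon
      have h3 : a p - 1 = 0 := by omega
      rw [h3, pow_zero] at hpr
      exact hp.one_lt.ne' (Nat.dvd_one.1 hpr)
    · rintro ⟨hp, h2⟩
      refine ⟨(hHp p hp).1, ?_, hg0.ne'⟩
      refine (dvd_pow_self p ?_).trans (Finset.dvd_prod_of_mem (fun p => p ^ (a p - 1)) hp)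
      omega
  refine ⟨g, (∏ p ∈ H.filter (fun p => ¬ 2 ≤ a p), (p - 1)) * Nat.totient m, hg0, ?_, ?_, ?_⟩
  · intro p hp hpg
    have : p ∈ g.primeFactors := Nat.mem_primeFactors.2 ⟨hp, hpg, hg0.ne'⟩
    rw [hgp] at this
    exact (hHp p (Finset.mem_filter.1 this).1).2
  · refine ⟨(H.filter (fun p => ¬ 2 ≤ a p)).val, m, hm0, ?_, hms, ?_⟩
    · intro q hq
      exact hHp q (Finset.mem_filter.1 hq).1
    · rfl
  · rw [hphi, hphim, hgp, Finset.prod_mul_distrib]
    rw [← Finset.prod_filter_mul_prod_filter_not H (fun p => 2 ≤ a p) (fun p => p - 1)]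
    ring

/-- generic counting lemma -/
theorem count_gen {C1 : ℝ} (hC1 : 0 < C1)
    (hA : ∀ (k : ℕ) (t : ℝ), 16 ≤ t →
      (((Icc 1 ⌊t⌋₊).filter (fun u : ℕ => u ∈ SS k)).card : ℝ) ≤ t / Real.log t *
        Real.exp (C1 * ((k : ℝ) + 1 + (Real.log (Real.log (Real.log t) + 2)) ^ 2)))
    (k : ℕ) (x : ℝ) (hx : (16 : ℝ) ^ 10 ≤ x) {σ : Type} (S : Finset σ) (h : σ → ℕ)
    (ρ : σ → ℝ) (hh : ∀ s ∈ S, 1 ≤ h s) (hρ : ∀ s ∈ S, 0 ≤ ρ s ∧ (h s : ℝ) ≤ ρ s ^ 4)
    (B : Finset ℕ)
    (hB : ∀ v ∈ B, 1 ≤ v ∧ (v : ℝ) ≤ x ∧ ∃ s ∈ S, ∃ w ∈ SS k, v = h s * w) :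
    (B.card : ℝ) ≤ 10 * (x / Real.log x) *
      Real.exp (C1 * ((k : ℝ) + 1 + (Real.log (Real.log (Real.log x) + 2)) ^ 2)) *
      ∑ s ∈ S, 1 / (h s : ℝ) + x * x ^ (-(9 / 40 : ℝ)) * ∑ s ∈ S, ρ s / h s := by
  have hx0 : (0 : ℝ) < x := by linarith [pow_pos (by norm_num : (0 : ℝ) < 16) 10]
  have hx1 : (1 : ℝ) ≤ x := le_trans (by norm_num) hx
  have hsub : B ⊆ S.biUnion (fun s =>
      ((Icc 1 ⌊x / h s⌋₊).filter (fun u : ℕ => u ∈ SS k)).image (fun w => h s * w)) := by
    intro v hv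
    obtain ⟨hv1, hvx, s, hs, w, hw, rfl⟩ := hB v hv
    rw [Finset.mem_biUnion]
    refine ⟨s, hs, ?_⟩
    rw [Finset.mem_image]
    refine ⟨w, ?_, rfl⟩
    rw [Finset.mem_filter, Finset.mem_Icc]
    have hhs : (0 : ℝ) < h s := by
      have := hh s hs
      exact_mod_cast this
    refine ⟨⟨SS_pos hw, ?_⟩, hw⟩
    refine Nat.le_floor ?_
    rw [le_div_iff₀ hhs]
    push_cast at hvx
    linarith
  have hcard : (B.card : ℝ) ≤ ∑ s ∈ S,
      (((Icc 1 ⌊x / h s⌋₊).filter (fun u : ℕ => u ∈ SS k)).card : ℝ) := by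
    have h1 := (Finset.card_le_card hsub).trans Finset.card_biUnion_le
    have h2 : ∑ s ∈ S, (((Icc 1 ⌊x / h s⌋₊).filter (fun u : ℕ => u ∈ SS k)).image
        (fun w => h s * w)).card ≤
        ∑ s ∈ S, ((Icc 1 ⌊x / h s⌋₊).filter (fun u : ℕ => u ∈ SS k)).card :=
      Finset.sum_le_sum (fun s _ => Finset.card_image_le)
    exact_mod_cast h1.trans h2
  refine hcard.trans ?_
  rw [Finset.mul_sum, Finset.mul_sum, ← Finset.sum_add_distrib]
  refine Finset.sum_le_sum (fun s hs => ?_)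
  have hhs : (0 : ℝ) < h s := by
    have := hh s hs
    exact_mod_cast this
  obtain ⟨hρ0, hρ4⟩ := hρ s hs
  have hlogx : 0 < Real.log x := Real.log_pos (lt_of_lt_of_le (by norm_num) hx)
  set E := Real.exp (C1 * ((k : ℝ) + 1 + (Real.log (Real.log (Real.log x) + 2)) ^ 2)) with hE
  have hEpos : 0 < E := Real.exp_pos _
  by_cases hcase : (h s : ℝ) ≤ x ^ (9 / 10 : ℝ)
  · -- small `h`
    set t := x / h s with ht
    have hxx : x = x ^ (9 / 10 : ℝ) * x ^ (1 / 10 : ℝ) := by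
      rw [← Real.rpow_add hx0]
      norm_num
    have h110 : x ^ (1 / 10 : ℝ) ≤ t := by
      rw [ht, le_div_iff₀ hhs]
      calc x ^ (1 / 10 : ℝ) * h s ≤ x ^ (1 / 10 : ℝ) * x ^ (9 / 10 : ℝ) :=
            mul_le_mul_of_nonneg_left hcase (Real.rpow_nonneg hx0.le _)
        _ = x := by rw [mul_comm]; exact hxx.symm
    have h16 : (16 : ℝ) ≤ x ^ (1 / 10 : ℝ) := by
      have h1 : ((16 : ℝ) ^ 10) ^ (1 / 10 : ℝ) ≤ x ^ (1 / 10 : ℝ) :=
        Real.rpow_le_rpow (by positivity) hx (by norm_num)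
      have h2 : ((16 : ℝ) ^ 10) ^ (1 / 10 : ℝ) = 16 := by
        rw [← Real.rpow_natCast, ← Real.rpow_mul (by norm_num)]
        norm_num
      rw [h2] at h1
      exact h1
    have ht16 : 16 ≤ t := h16.trans h110
    have hb := hA k t ht16
    have htx : t ≤ x := by
      rw [ht, div_le_iff₀ hhs]
      have : (1 : ℝ) ≤ h s := by exact_mod_cast hh s hs
      nlinarith
    have hlogt : Real.log x / 10 ≤ Real.log t := by
      have h1 : Real.log (x ^ (1 / 10 : ℝ)) ≤ Real.log t :=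
        Real.log_le_log (by linarith) h110
      rw [Real.log_rpow hx0] at h1
      linarith
    have hlogt0 : 0 < Real.log t := by linarith
    have hloglog : Real.log (Real.log t) ≤ Real.log (Real.log x) :=
      Real.log_le_log hlogt0 (Real.log_le_log (by linarith) htx)
    have hll0 : 0 ≤ Real.log (Real.log t) := by
      refine Real.log_nonneg ?_
      rw [Real.le_log_iff_exp_le (by linarith)]
      have := Real.exp_one_lt_d9
      linarith
    have hL : Real.log (Real.log (Real.log t) + 2) ≤ Real.log (Real.log (Real.log x) + 2) :=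
      Real.log_le_log (by linarith) (by linarith)
    have hL0 : 0 ≤ Real.log (Real.log (Real.log t) + 2) := Real.log_nonneg (by linarith)
    have hE' : Real.exp (C1 * ((k : ℝ) + 1 + (Real.log (Real.log (Real.log t) + 2)) ^ 2)) ≤ E := by
      refine Real.exp_le_exp.2 (mul_le_mul_of_nonneg_left ?_ hC1.le)
      have := pow_le_pow_left₀ hL0 hL 2
      linarith
    have h3 : t / Real.log t ≤ 10 * (x / Real.log x) * (1 / h s) := by
      rw [ht]
      calc x / h s / Real.log (x / h s) ≤ x / h s / (Real.log x / 10) := by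
            refine div_le_div_of_nonneg_left (by positivity) (by positivity) hlogt
        _ = 10 * (x / Real.log x) * (1 / h s) := by
            field_simp
    have h4 : (0 : ℝ) ≤ x * x ^ (-(9 / 40 : ℝ)) * (ρ s / h s) := by
      have := Real.rpow_nonneg hx0.le (-(9 / 40 : ℝ))
      positivity
    have h5 : (0 : ℝ) ≤ t / Real.log t := by positivity
    calc (((Icc 1 ⌊t⌋₊).filter (fun u : ℕ => u ∈ SS k)).card : ℝ)
        ≤ t / Real.log t * Real.exp (C1 * ((k : ℝ) + 1 +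
          (Real.log (Real.log (Real.log t) + 2)) ^ 2)) := hb
      _ ≤ t / Real.log t * E := mul_le_mul_of_nonneg_left hE' h5
      _ ≤ (10 * (x / Real.log x) * (1 / h s)) * E := mul_le_mul_of_nonneg_right h3 hEpos.le
      _ = 10 * (x / Real.log x) * E * (1 / h s) := by ring
      _ ≤ _ := by linarith
  · -- large `h`
    push Not at hcase
    have h1 : (((Icc 1 ⌊x / h s⌋₊).filter (fun u : ℕ => u ∈ SS k)).card : ℝ) ≤ x / h s := by
      have h2 : ((Icc 1 ⌊x / h s⌋₊).filter (fun u : ℕ => u ∈ SS k)).card ≤ ⌊x / h s⌋₊ := by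
        refine (Finset.card_filter_le _ _).trans ?_
        rw [Nat.card_Icc]
        omega
      have h3 : (⌊x / h s⌋₊ : ℝ) ≤ x / h s := Nat.floor_le (by positivity)
      calc (((Icc 1 ⌊x / h s⌋₊).filter (fun u : ℕ => u ∈ SS k)).card : ℝ) ≤ (⌊x / h s⌋₊ : ℝ) := by
            exact_mod_cast h2
        _ ≤ x / h s := h3
    have hρ1 : x ^ (9 / 40 : ℝ) ≤ ρ s := by
      have h2 : (x ^ (9 / 40 : ℝ)) ^ 4 ≤ ρ s ^ 4 := by
        rw [← Real.rpow_natCast, ← Real.rpow_mul hx0.le]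
        have e : (9 / 40 : ℝ) * ((4 : ℕ) : ℝ) = 9 / 10 := by norm_num
        rw [e]
        linarith
      exact le_of_pow_le_pow_left₀ (by norm_num) hρ0 h2
    have h2 : 1 ≤ x ^ (-(9 / 40 : ℝ)) * ρ s := by
      rw [Real.rpow_neg hx0.le, inv_mul_eq_div, le_div_iff₀ (Real.rpow_pos_of_pos hx0 _)]
      linarith
    have h3 : (0 : ℝ) ≤ 10 * (x / Real.log x) * E * (1 / h s) := by positivity
    have h4 : x / h s ≤ x * x ^ (-(9 / 40 : ℝ)) * (ρ s / h s) := by
      calc x / h s = x / h s * 1 := by ring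
        _ ≤ x / h s * (x ^ (-(9 / 40 : ℝ)) * ρ s) := mul_le_mul_of_nonneg_left h2 (by positivity)
        _ = x * x ^ (-(9 / 40 : ℝ)) * (ρ s / h s) := by ring
    linarith

end SqAux

end P031
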