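import Mathlib

/-! Module M2a: combinatorics for the Brun-Hooley sieve. -/

namespace Vale.Agent.P031.Sv

open Finset Filter

noncomputable section

/-- truncated inclusion-exclusion sum `∑_{D ⊆ A, |D| ≤ n} ∏_{p ∈ D} (-z p)`. -/
def Etr (z : ℕ → ℝ) (n : ℕ) (A : Finset ℕ) : ℝ :=
  ∑ D ∈ A.powerset.filter (fun D => D.card ≤ n), ∏ p ∈ D, (-(z p))

theorem Etr_zero (z : ℕ → ℝ) (A : Finset ℕ) : Etr z 0 A = 1 := by
  unfold Etr
  have : A.powerset.filter (fun D => D.card ≤ 0) = {∅} := by
    ext D
    simp only [mem_filter, mem_powerset, nonpos_iff_eq_zero, card_eq_zero, mem_singleton]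
    constructor
    · exact fun h => h.2
    · rintro rfl
      simp
  rw [this]
  simp

theorem Etr_empty (z : ℕ → ℝ) (n : ℕ) : Etr z n ∅ = 1 := by
  unfold Etr
  simp [Finset.filter_singleton]

theorem Etr_insert (z : ℕ → ℝ) (n : ℕ) (a : ℕ) (A : Finset ℕ) (ha : a ∉ A) :
    Etr z (n + 1) (insert a A) = Etr z (n + 1) A - z a * Etr z n A := by
  unfold Etr
  rw [Finset.powerset_insert, Finset.filter_union, Finset.sum_union]
  · rw [sub_eq_add_neg]
    congr 1
    rw [Finset.filter_image, Finset.sum_image]
    · rw [← neg_mul, Finset.mul_sum]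
      have hset : A.powerset.filter (fun D => (insert a D).card ≤ n + 1) =
          A.powerset.filter (fun D => D.card ≤ n) := by
        ext D
        simp only [mem_filter, mem_powerset, and_congr_right_iff]
        intro hD
        rw [card_insert_of_notMem (fun h => ha (hD h))]
        omega
      rw [hset]
      refine Finset.sum_congr rfl ?_
      intro D hD
      simp only [mem_filter, mem_powerset] at hD
      rw [prod_insert (fun h => ha (hD.1 h))]
    · intro D hD D' hD' h
      simp only [mem_coe, mem_filter, mem_powerset] at hD hD'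
      have h1 : a ∉ D := fun h => ha (hD.1 h)
      have h2 : a ∉ D' := fun h => ha (hD'.1 h)
      rw [← erase_insert h1, ← erase_insert h2, h]
  · rw [Finset.disjoint_left]
    intro D hD hD'
    simp only [mem_filter, mem_powerset, mem_image] at hD hD'
    obtain ⟨⟨D0, _, rfl⟩, _⟩ := hD'
    exact ha (hD.1 (mem_insert_self a D0))

theorem bonferroni_aux (z : ℕ → ℝ) (A : Finset ℕ) (hz : ∀ p ∈ A, 0 ≤ z p ∧ z p ≤ 1) :
    ∀ n : ℕ, 0 ≤ (-1) ^ n * (Etr z n A - ∏ p ∈ A, (1 - z p)) := by
  induction A using Finset.induction_on with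
  | empty => intro n; simp [Etr_empty]
  | insert a A ha ih =>
    have hz' : ∀ p ∈ A, 0 ≤ z p ∧ z p ≤ 1 := fun p hp => hz p (mem_insert_of_mem hp)
    have hza := hz a (mem_insert_self a A)
    intro n
    cases n with
    | zero =>
      rw [Etr_zero]
      have : ∏ p ∈ insert a A, (1 - z p) ≤ 1 := by
        apply Finset.prod_le_one
        · intro p hp; linarith [(hz p hp).2]
        · intro p hp; linarith [(hz p hp).1]
      simpa using this
    | succ n =>
      rw [Etr_insert z n a A ha, prod_insert ha]
      have h1 := ih hz' (n + 1)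
      have h2 := ih hz' n
      have h3 := mul_nonneg hza.1 h2
      have : (-1 : ℝ) ^ (n + 1) * (Etr z (n + 1) A - z a * Etr z n A -
          (1 - z a) * ∏ p ∈ A, (1 - z p)) =
          (-1) ^ (n + 1) * (Etr z (n + 1) A - ∏ p ∈ A, (1 - z p)) +
          z a * ((-1) ^ n * (Etr z n A - ∏ p ∈ A, (1 - z p))) := by
        ring
      rw [this]
      linarith

theorem bonferroni_even (z : ℕ → ℝ) (m : ℕ) (A : Finset ℕ) (hz : ∀ p ∈ A, 0 ≤ z p ∧ z p ≤ 1) :
    ∏ p ∈ A, (1 - z p) ≤ Etr z (2 * m) A := by
  have h := bonferroni_aux z A hz (2 * m)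
  rw [pow_mul] at h
  norm_num at h
  linarith

theorem bonferroni_odd (z : ℕ → ℝ) (m : ℕ) (A : Finset ℕ) (hz : ∀ p ∈ A, 0 ≤ z p ∧ z p ≤ 1) :
    Etr z (2 * m + 1) A ≤ ∏ p ∈ A, (1 - z p) := by
  have h := bonferroni_aux z A hz (2 * m + 1)
  rw [pow_succ, pow_mul] at h
  norm_num at h
  linarith

theorem Etr_sub (z : ℕ → ℝ) (m : ℕ) (A : Finset ℕ) :
    Etr z (2 * m) A - Etr z (2 * m + 1) A =
      ∑ D ∈ A.powersetCard (2 * m + 1), ∏ p ∈ D, z p := by
  unfold Etr
  have hset : A.powerset.filter (fun D => D.card ≤ 2 * m + 1) =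
      A.powerset.filter (fun D => D.card ≤ 2 * m) ∪ A.powersetCard (2 * m + 1) := by
    ext D
    simp only [mem_filter, mem_powerset, mem_union, mem_powersetCard]
    constructor
    · rintro ⟨h1, h2⟩
      by_cases h : D.card ≤ 2 * m
      · exact Or.inl ⟨h1, h⟩
      · exact Or.inr ⟨h1, by omega⟩
    · rintro (⟨h1, h2⟩ | ⟨h1, h2⟩)
      · exact ⟨h1, by omega⟩
      · exact ⟨h1, by omega⟩
  rw [hset, Finset.sum_union]
  · have : ∑ D ∈ A.powersetCard (2 * m + 1), ∏ p ∈ D, (-(z p)) =
        -∑ D ∈ A.powersetCard (2 * m + 1), ∏ p ∈ D, z p := by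
      rw [← Finset.sum_neg_distrib]
      refine Finset.sum_congr rfl ?_
      intro D hD
      rw [mem_powersetCard] at hD
      rw [Finset.prod_neg, hD.2, pow_succ, pow_mul]
      norm_num
    rw [this]
    ring
  · rw [Finset.disjoint_left]
    intro D hD hD'
    simp only [mem_filter, mem_powerset, mem_powersetCard] at hD hD'
    omega

theorem esymm_insert (z : ℕ → ℝ) (n a : ℕ) (A : Finset ℕ) (ha : a ∉ A) :
    ∑ D ∈ (insert a A).powersetCard (n + 1), ∏ p ∈ D, z p =
      ∑ D ∈ A.powersetCard (n + 1), ∏ p ∈ D, z p +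
        z a * ∑ D ∈ A.powersetCard n, ∏ p ∈ D, z p := by
  rw [Finset.powersetCard_succ_insert ha, Finset.sum_union, Finset.sum_image, Finset.mul_sum]
  · congr 1
    refine Finset.sum_congr rfl ?_
    intro D hD
    rw [mem_powersetCard] at hD
    rw [prod_insert (fun h => ha (hD.1 h))]
  · intro D hD D' hD' h
    simp only [mem_coe, mem_powersetCard] at hD hD'
    have h1 : a ∉ D := fun h => ha (hD.1 h)
    have h2 : a ∉ D' := fun h => ha (hD'.1 h)
    rw [← erase_insert h1, ← erase_insert h2, h]
  · rw [Finset.disjoint_left]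
    intro D hD hD'
    simp only [mem_powersetCard, mem_image] at hD hD'
    obtain ⟨D0, _, rfl⟩ := hD'
    exact ha (hD.1 (mem_insert_self a D0))

theorem esymm_le (z : ℕ → ℝ) (n : ℕ) (A : Finset ℕ) (hz : ∀ p ∈ A, 0 ≤ z p) :
    ∑ D ∈ A.powersetCard n, ∏ p ∈ D, z p ≤ (∑ p ∈ A, z p) ^ n / (n.factorial : ℝ) := by
  induction A using Finset.induction_on generalizing n with
  | empty =>
    cases n with
    | zero => simp
    | succ n =>
      rw [Finset.powersetCard_eq_empty.2 (by simp)]
      simp
  | insert a A ha ih =>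
    have hz' : ∀ p ∈ A, 0 ≤ z p := fun p hp => hz p (mem_insert_of_mem hp)
    have hza := hz a (mem_insert_self a A)
    have hS : 0 ≤ ∑ p ∈ A, z p := Finset.sum_nonneg hz'
    cases n with
    | zero => simp
    | succ n =>
      rw [esymm_insert z n a A ha, sum_insert ha]
      have h1 := ih (n + 1) hz'
      have h2 := mul_le_mul_of_nonneg_left (ih n hz') hza
      refine (add_le_add h1 h2).trans ?_
      set S := ∑ p ∈ A, z p with hSdef
      have hfac : ((n + 1).factorial : ℝ) = ((n : ℝ) + 1) * (n.factorial : ℝ) := by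
        rw [Nat.factorial_succ]; push_cast; ring
      have hn : (0 : ℝ) < (n.factorial : ℝ) := by exact_mod_cast Nat.factorial_pos n
      have hn1 : (0 : ℝ) < (n : ℝ) + 1 := by positivity
      have key : S ^ (n + 1) + ((n : ℝ) + 1) * z a * S ^ n ≤ (z a + S) ^ (n + 1) := by
        have hb : ∀ k : ℕ, S ^ (k + 1) + ((k : ℝ) + 1) * z a * S ^ k ≤ (z a + S) ^ (k + 1) := by
          intro k
          induction k with
          | zero => simp; linarith
          | succ k ihk =>
            have h0 : (z a + S) ^ (k + 1 + 1) = (z a + S) * (z a + S) ^ (k + 1) := by ring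
            rw [h0]
            have h3 : (z a + S) * (S ^ (k + 1) + ((k : ℝ) + 1) * z a * S ^ k) ≤
                (z a + S) * (z a + S) ^ (k + 1) :=
              mul_le_mul_of_nonneg_left ihk (by linarith)
            refine le_trans ?_ h3
            have h4 : 0 ≤ ((k : ℝ) + 1) * z a ^ 2 * S ^ k := by positivity
            have h5 : (z a + S) * (S ^ (k + 1) + ((k : ℝ) + 1) * z a * S ^ k) =
                S ^ (k + 1 + 1) + (((k : ℝ) + 1) + 1) * z a * S ^ (k + 1) +
                ((k : ℝ) + 1) * z a ^ 2 * S ^ k := by ring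
            rw [h5]
            push_cast
            linarith
        exact hb n
      rw [hfac]
      rw [show z a * (S ^ n / (n.factorial : ℝ)) =
        (((n : ℝ) + 1) * z a * S ^ n) / (((n : ℝ) + 1) * (n.factorial : ℝ)) by field_simp]
      rw [← add_div]
      exact div_le_div_of_nonneg_right key (by positivity)

/-- product over blocks `β = i` (`i < r`) of sums over subsets of the block. -/
theorem block_prod (P : Finset ℕ) (β : ℕ → ℕ) (r : ℕ) (hβ : ∀ p ∈ P, β p < r)
    (c : ℕ → ℕ → ℝ) (g : ℕ → ℝ) :
    ∑ D ∈ P.powerset, (∏ i ∈ range r, c i ((D.filter (fun p => β p = i)).card)) *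
        ∏ p ∈ D, g p =
      ∏ i ∈ range r, ∑ D ∈ (P.filter (fun p => β p = i)).powerset,
        c i D.card * ∏ p ∈ D, g p := by
  induction r generalizing P with
  | zero =>
    have hP : P = ∅ := by
      rw [Finset.eq_empty_iff_forall_notMem]
      intro p hp
      exact absurd (hβ p hp) (by omega)
    subst hP
    simp
  | succ r ih =>
    rw [prod_range_succ]
    have hP' : ∀ p ∈ P.filter (fun p => β p < r), β p < r := by
      intro p hp
      exact (mem_filter.1 hp).2
    have hfil : ∀ i ∈ range r, (P.filter (fun p => β p < r)).filter (fun p => β p = i) =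
        P.filter (fun p => β p = i) := by
      intro i hi
      rw [mem_range] at hi
      ext p
      simp only [mem_filter]
      constructor
      · rintro ⟨⟨h1, _⟩, h3⟩
        exact ⟨h1, h3⟩
      · rintro ⟨h1, h3⟩
        exact ⟨⟨h1, by omega⟩, h3⟩
    have hih := ih (P.filter (fun p => β p < r)) hP'
    rw [Finset.prod_congr rfl (fun i hi => by rw [← hfil i hi]), ← hih, Finset.sum_mul_sum,
      ← Finset.sum_product']
    refine Finset.sum_nbij' (fun D => (D.filter (fun p => β p < r), D.filter (fun p => β p = r)))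
      (fun q => q.1 ∪ q.2) ?_ ?_ ?_ ?_ ?_
    · intro D hD
      rw [mem_powerset] at hD
      simp only [mem_product, mem_powerset]
      exact ⟨filter_subset_filter _ hD, filter_subset_filter _ hD⟩
    · rintro ⟨D1, D2⟩ hq
      simp only [mem_product, mem_powerset] at hq ⊢
      exact union_subset (hq.1.trans (filter_subset _ _)) (hq.2.trans (filter_subset _ _))
    · intro D hD
      rw [mem_powerset] at hD
      ext p
      simp only [mem_union, mem_filter]
      constructor
      · rintro (h | h) <;> exact h.1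
      · intro hp
        have := hβ p (hD hp)
        rcases Nat.lt_or_ge (β p) r with h | h
        · exact Or.inl ⟨hp, h⟩
        · exact Or.inr ⟨hp, by omega⟩
    · rintro ⟨D1, D2⟩ hq
      simp only [mem_product, mem_powerset] at hq
      have h1 : ∀ p ∈ D1, β p < r := fun p hp => (mem_filter.1 (hq.1 hp)).2
      have h2 : ∀ p ∈ D2, β p = r := fun p hp => (mem_filter.1 (hq.2 hp)).2
      simp only [Prod.mk.injEq]
      constructor
      · ext p
        simp only [mem_union, mem_filter]
        constructor
        · rintro ⟨h | h, h3⟩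
          · exact h
          · have := h2 p h; omega
        · intro hp
          exact ⟨Or.inl hp, h1 p hp⟩
      · ext p
        simp only [mem_union, mem_filter]
        constructor
        · rintro ⟨h | h, h3⟩
          · have := h1 p h; omega
          · exact h
        · intro hp
          exact ⟨Or.inr hp, h2 p hp⟩
    · intro D hD
      rw [mem_powerset] at hD
      simp only
      have hDfil : ∀ i ∈ range r, (D.filter (fun p => β p < r)).filter (fun p => β p = i) =
          D.filter (fun p => β p = i) := by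
        intro i hi
        rw [mem_range] at hi
        ext p
        simp only [mem_filter]
        constructor
        · rintro ⟨⟨h1, _⟩, h3⟩
          exact ⟨h1, h3⟩
        · rintro ⟨h1, h3⟩
          exact ⟨⟨h1, by omega⟩, h3⟩
      have hprod : ∏ p ∈ D, g p = (∏ p ∈ D.filter (fun p => β p < r), g p) *
          ∏ p ∈ D.filter (fun p => β p = r), g p := by
        rw [← Finset.prod_filter_mul_prod_filter_not D (fun p => β p < r)]
        congr 1
        refine Finset.prod_congr ?_ (fun _ _ => rfl)
        ext p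
        simp only [mem_filter]
        constructor
        · rintro ⟨h1, h2⟩
          have := hβ p (hD h1)
          exact ⟨h1, by omega⟩
        · rintro ⟨h1, h2⟩
          exact ⟨h1, by omega⟩
      rw [prod_range_succ, hprod,
        Finset.prod_congr rfl (fun i hi => by rw [← hDfil i hi])]
      ring

theorem prod_sub_prod_le (r : ℕ) (x y : ℕ → ℝ) (h : ∀ i < r, 0 ≤ x i ∧ x i ≤ y i) :
    ∏ i ∈ range r, y i - ∏ i ∈ range r, x i ≤
      ∑ l ∈ range r, (y l - x l) * ∏ i ∈ (range r).erase l, y i := by
  induction r with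
  | zero => simp
  | succ r ih =>
    have h' : ∀ i < r, 0 ≤ x i ∧ x i ≤ y i := fun i hi => h i (by omega)
    have hr := h r (by omega)
    have hyr : 0 ≤ y r := hr.1.trans hr.2
    rw [prod_range_succ, prod_range_succ, sum_range_succ]
    have hlast : (range (r + 1)).erase r = range r := by
      ext i
      simp only [mem_erase, mem_range]
      omega
    rw [hlast]
    have hsum : ∑ l ∈ range r, (y l - x l) * ∏ i ∈ (range (r + 1)).erase l, y i =
        y r * ∑ l ∈ range r, (y l - x l) * ∏ i ∈ (range r).erase l, y i := by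
      rw [Finset.mul_sum]
      refine Finset.sum_congr rfl ?_
      intro l hl
      rw [mem_range] at hl
      have : (range (r + 1)).erase l = insert r ((range r).erase l) := by
        ext i
        simp only [mem_erase, mem_range, mem_insert]
        omega
      rw [this, prod_insert (by simp)]
      ring
    rw [hsum]
    have h1 := mul_le_mul_of_nonneg_left (ih h') hyr
    have h2 : ∏ i ∈ range r, x i ≤ ∏ i ∈ range r, y i :=
      Finset.prod_le_prod (fun i hi => (h' i (mem_range.1 hi)).1)
        (fun i hi => (h' i (mem_range.1 hi)).2)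
    have h3 : (y r - x r) * ∏ i ∈ range r, x i ≤ (y r - x r) * ∏ i ∈ range r, y i :=
      mul_le_mul_of_nonneg_left h2 (by linarith)
    nlinarith [h1, h3]

end

end Vale.Agent.P031.Sv
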