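import Vale.Agent.P031.SvLocal

/-! Brun's pure sieve for the forms `n`, `A n + 1` (`A ∈ S`). -/

namespace Vale.Agent.P031.Sv

open Finset Filter

noncomputable section

theorem avg_prod_zf (S : Finset ℕ) (D : Finset ℕ) (hD : ∀ p ∈ D, p.Prime) :
    avg (fun n => ∏ p ∈ D, zf S p n) (∏ p ∈ D, p) = ∏ p ∈ D, gS S p := by
  have h := avg_prod_coprime D (fun p n => zf S p n) (fun p => p)
    (fun p hp => (hD p hp).pos)
    (fun p hp q hq hpq => (Nat.coprime_primes (hD p (by exact_mod_cast hp))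
      (hD q (by exact_mod_cast hq))).2 hpq)
    (fun p _ x => zf_periodic S p x)
  exact h

theorem sum_prod_zf (S : Finset ℕ) (D : Finset ℕ) (hD : ∀ p ∈ D, p.Prime) (N : ℕ) :
    |∑ n ∈ range N, ∏ p ∈ D, zf S p n - N * ∏ p ∈ D, gS S p| ≤ ((∏ p ∈ D, p : ℕ) : ℝ) := by
  rw [← avg_prod_zf S D hD]
  apply sum_periodic
  · exact Finset.prod_pos (fun p hp => (hD p hp).pos)
  · intro x
    exact prod_periodic D (fun p n => zf S p n) (fun p => p) (fun p _ x => zf_periodic S p x) x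
  · intro x
    exact ⟨Finset.prod_nonneg (fun p _ => zf_nonneg S p x),
      Finset.prod_le_one (fun p _ => zf_nonneg S p x) (fun p _ => zf_le_one S p x)⟩

theorem brun (S : Finset ℕ) (z m N : ℕ) (hz : 1 ≤ z) :
    (((range N).filter
      (fun n => ∀ p ∈ Nat.primesLE z, ¬ p ∣ n * ∏ A ∈ S, (A * n + 1))).card : ℝ) ≤
      N * (Real.exp (-∑ p ∈ Nat.primesLE z, gS S p) +
        (∑ p ∈ Nat.primesLE z, gS S p) ^ (2 * m + 1) / ((2 * m + 1).factorial : ℝ)) +
      ((z : ℝ) ^ (2 * m)) ^ 2 := by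
  set P := Nat.primesLE z with hP
  have hprime : ∀ p ∈ P, p.Prime := fun p hp => (Nat.mem_primesLE.1 hp).2
  have hle : ∀ p ∈ P, p ≤ z := fun p hp => (Nat.mem_primesLE.1 hp).1
  -- indicator
  have h1 : (((range N).filter
      (fun n => ∀ p ∈ P, ¬ p ∣ n * ∏ A ∈ S, (A * n + 1))).card : ℝ) =
      ∑ n ∈ range N, ∏ p ∈ P, (1 - zf S p n) := by
    rw [← Finset.sum_boole]
    apply Finset.sum_congr rfl
    intro n _
    split_ifs with h
    · symm
      apply Finset.prod_eq_one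
      intro p hp
      unfold zf
      rw [if_neg (h p hp)]
      ring
    · push Not at h
      obtain ⟨p, hp, hpd⟩ := h
      symm
      apply Finset.prod_eq_zero hp
      unfold zf
      rw [if_pos hpd]
      ring
  rw [h1]
  set F := P.powerset.filter (fun D => D.card ≤ 2 * m) with hF
  have hFsub : ∀ D ∈ F, D ⊆ P := fun D hD => mem_powerset.1 (mem_filter.1 hD).1
  have hFcard : ∀ D ∈ F, D.card ≤ 2 * m := fun D hD => (mem_filter.1 hD).2
  have hprodle : ∀ D ∈ F, ∏ p ∈ D, p ≤ z ^ (2 * m) := by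
    intro D hD
    calc ∏ p ∈ D, p ≤ ∏ p ∈ D, z := Finset.prod_le_prod' (fun p hp => hle p (hFsub D hD hp))
      _ = z ^ D.card := by rw [Finset.prod_const]
      _ ≤ z ^ (2 * m) := Nat.pow_le_pow_right hz (hFcard D hD)
  have h2 : ∑ n ∈ range N, ∏ p ∈ P, (1 - zf S p n) ≤
      ∑ n ∈ range N, Etr (fun p => zf S p n) (2 * m) P := by
    apply Finset.sum_le_sum
    intro n _
    exact bonferroni_even _ m P (fun p _ => ⟨zf_nonneg S p n, zf_le_one S p n⟩)
  have h3 : ∑ n ∈ range N, Etr (fun p => zf S p n) (2 * m) P =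
      ∑ D ∈ F, ∑ n ∈ range N, ∏ p ∈ D, (-(zf S p n)) := by
    unfold Etr
    rw [Finset.sum_comm]
  have h4 : ∀ D ∈ F, ∑ n ∈ range N, ∏ p ∈ D, (-(zf S p n)) ≤
      N * ∏ p ∈ D, (-(gS S p)) + (z : ℝ) ^ (2 * m) := by
    intro D hD
    have e1 : ∑ n ∈ range N, ∏ p ∈ D, (-(zf S p n)) =
        (-1) ^ D.card * ∑ n ∈ range N, ∏ p ∈ D, zf S p n := by
      rw [Finset.mul_sum]
      apply Finset.sum_congr rfl
      intro n _
      rw [Finset.prod_neg]
    have e2 : ∏ p ∈ D, (-(gS S p)) = (-1) ^ D.card * ∏ p ∈ D, gS S p := by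
      rw [Finset.prod_neg]
    have e3 := sum_prod_zf S D (fun p hp => hprime p (hFsub D hD hp)) N
    have e4 : ((∏ p ∈ D, p : ℕ) : ℝ) ≤ (z : ℝ) ^ (2 * m) := by
      exact_mod_cast hprodle D hD
    rw [e1, e2]
    have e5 := abs_le.1 (e3.trans e4)
    rcases neg_one_pow_eq_or ℝ D.card with h | h
    · rw [h]; linarith [e5.2]
    · rw [h]; linarith [e5.1]
  have h5 : ∑ D ∈ F, ∑ n ∈ range N, ∏ p ∈ D, (-(zf S p n)) ≤
      N * Etr (gS S) (2 * m) P + (F.card : ℝ) * (z : ℝ) ^ (2 * m) := by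
    refine (Finset.sum_le_sum h4).trans ?_
    rw [Finset.sum_add_distrib, Finset.sum_const, nsmul_eq_mul, ← Finset.mul_sum]
    rfl
  have h6 : (F.card : ℝ) ≤ (z : ℝ) ^ (2 * m) := by
    exact_mod_cast card_fam_le z (z ^ (2 * m)) F hFsub hprodle
  have h7 : Etr (gS S) (2 * m) P ≤ Real.exp (-∑ p ∈ P, gS S p) +
      (∑ p ∈ P, gS S p) ^ (2 * m + 1) / ((2 * m + 1).factorial : ℝ) := by
    have e1 := Etr_sub (gS S) m P
    have e2 := bonferroni_odd (gS S) m P
      (fun p hp => ⟨gS_nonneg S p, gS_le_one S p (hprime p hp)⟩)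
    have e3 := esymm_le (gS S) (2 * m + 1) P (fun p _ => gS_nonneg S p)
    have e4 : ∏ p ∈ P, (1 - gS S p) ≤ Real.exp (-∑ p ∈ P, gS S p) := by
      rw [← Finset.sum_neg_distrib, Real.exp_sum]
      apply Finset.prod_le_prod
      · intro p hp
        linarith [gS_le_one S p (hprime p hp)]
      · intro p _
        have := Real.add_one_le_exp (-(gS S p))
        linarith
    linarith
  have hz0 : (0 : ℝ) ≤ (z : ℝ) ^ (2 * m) := by positivity
  calc ∑ n ∈ range N, ∏ p ∈ P, (1 - zf S p n)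
      ≤ N * Etr (gS S) (2 * m) P + (F.card : ℝ) * (z : ℝ) ^ (2 * m) := by
        rw [h3] at h2
        exact h2.trans h5
    _ ≤ N * (Real.exp (-∑ p ∈ P, gS S p) +
        (∑ p ∈ P, gS S p) ^ (2 * m + 1) / ((2 * m + 1).factorial : ℝ)) +
        (z : ℝ) ^ (2 * m) * (z : ℝ) ^ (2 * m) := by
        apply add_le_add
        · exact mul_le_mul_of_nonneg_left h7 (Nat.cast_nonneg N)
        · exact mul_le_mul_of_nonneg_right h6 hz0
    _ = _ := by rw [← sq]

end

end Vale.Agent.P031.Sv
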