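import Vale.Agent.P031.SvTools
import Vale.Agent.P031.SvBH

/-! Local densities for the forms `n`, `A n + 1` (`A ∈ S`). -/

namespace Vale.Agent.P031.Sv

open Finset Filter

noncomputable section

/-- indicator of `p ∣ n ∏_{A ∈ S} (A n + 1)`. -/
def zf (S : Finset ℕ) (p n : ℕ) : ℝ := if p ∣ n * ∏ A ∈ S, (A * n + 1) then 1 else 0

theorem zf_nonneg (S : Finset ℕ) (p n : ℕ) : 0 ≤ zf S p n := by
  unfold zf; split_ifs <;> norm_num

theorem zf_le_one (S : Finset ℕ) (p n : ℕ) : zf S p n ≤ 1 := by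
  unfold zf; split_ifs <;> norm_num

theorem bad_iff (S : Finset ℕ) (p n : ℕ) :
    p ∣ n * ∏ A ∈ S, (A * n + 1) ↔
      ((n : ZMod p) * ∏ A ∈ S, ((A : ZMod p) * (n : ZMod p) + 1)) = 0 := by
  rw [← ZMod.natCast_eq_zero_iff]
  push_cast
  rfl

theorem zf_periodic (S : Finset ℕ) (p n : ℕ) : zf S p (n + p) = zf S p n := by
  unfold zf
  congr 1
  rw [bad_iff, bad_iff]
  push_cast
  simp

/-- the local density. -/
def gS (S : Finset ℕ) (p : ℕ) : ℝ := avg (zf S p) p

theorem gS_eq (S : Finset ℕ) (p : ℕ) :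
    gS S p = (((range p).filter (fun n => p ∣ n * ∏ A ∈ S, (A * n + 1))).card : ℝ) / p := by
  unfold gS avg zf
  rw [Finset.sum_boole]

theorem gS_nonneg (S : Finset ℕ) (p : ℕ) : 0 ≤ gS S p := by
  rw [gS_eq]; positivity

theorem gS_le_one (S : Finset ℕ) (p : ℕ) (hp : p.Prime) : gS S p ≤ 1 := by
  rw [gS_eq]
  have : (0 : ℝ) < p := by exact_mod_cast hp.pos
  rw [div_le_one this]
  have h := Finset.card_filter_le (range p) (fun n => p ∣ n * ∏ A ∈ S, (A * n + 1))
  rw [card_range] at h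
  exact_mod_cast h

theorem card_root_le (A p : ℕ) (hp : p.Prime) :
    ((range p).filter (fun n => p ∣ A * n + 1)).card ≤ 1 := by
  rw [Finset.card_le_one]
  intro a ha b hb
  rw [mem_filter, mem_range] at ha hb
  have : Fact p.Prime := ⟨hp⟩
  have h1 : (A : ZMod p) * (a : ZMod p) + 1 = 0 := by
    have := (ZMod.natCast_eq_zero_iff (A * a + 1) p).2 ha.2
    push_cast at this
    exact this
  have h2 : (A : ZMod p) * (b : ZMod p) + 1 = 0 := by
    have := (ZMod.natCast_eq_zero_iff (A * b + 1) p).2 hb.2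
    push_cast at this
    exact this
  have hA : (A : ZMod p) ≠ 0 := by
    intro h
    rw [h] at h1
    simp at h1
  have h3 : (A : ZMod p) * (a : ZMod p) = (A : ZMod p) * (b : ZMod p) := by
    have : (A : ZMod p) * (a : ZMod p) + 1 = (A : ZMod p) * (b : ZMod p) + 1 := by rw [h1, h2]
    exact add_right_cancel this
  have h4 : (a : ZMod p) = (b : ZMod p) := mul_left_cancel₀ hA h3
  have h5 := (ZMod.natCast_eq_natCast_iff a b p).1 h4
  have h6 : a % p = b % p := h5
  rwa [Nat.mod_eq_of_lt ha.1, Nat.mod_eq_of_lt hb.1] at h6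

theorem gS_le (S : Finset ℕ) (p : ℕ) (hp : p.Prime) : gS S p ≤ ((S.card : ℝ) + 1) / p := by
  rw [gS_eq]
  have hp0 : (0 : ℝ) < p := by exact_mod_cast hp.pos
  apply div_le_div_of_nonneg_right _ hp0.le
  have hsub : (range p).filter (fun n => p ∣ n * ∏ A ∈ S, (A * n + 1)) ⊆
      {0} ∪ S.biUnion (fun A => (range p).filter (fun n => p ∣ A * n + 1)) := by
    intro n hn
    rw [mem_filter, mem_range] at hn
    rw [mem_union, mem_singleton, mem_biUnion]
    rcases (hp.dvd_mul).1 hn.2 with h | h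
    · left
      by_contra h0
      have := Nat.le_of_dvd (Nat.pos_of_ne_zero h0) h
      omega
    · right
      obtain ⟨A, hA, hAd⟩ := (Prime.dvd_finsetProd_iff hp.prime _).1 h
      exact ⟨A, hA, by rw [mem_filter, mem_range]; exact ⟨hn.1, hAd⟩⟩
  have h1 := card_le_card hsub
  have h2 : (S.biUnion (fun A => (range p).filter (fun n => p ∣ A * n + 1))).card ≤ S.card * 1 :=
    card_biUnion_le_card_mul _ _ _ (fun A _ => card_root_le A p hp)
  have h3 := card_union_le ({0} : Finset ℕ)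
    (S.biUnion (fun A => (range p).filter (fun n => p ∣ A * n + 1)))
  rw [card_singleton] at h3
  have : ((range p).filter (fun n => p ∣ n * ∏ A ∈ S, (A * n + 1))).card ≤ S.card + 1 := by omega
  exact_mod_cast this

theorem gS_ge_one (S : Finset ℕ) (p : ℕ) (hp : p.Prime) : 1 / (p : ℝ) ≤ gS S p := by
  rw [gS_eq]
  have hp0 : (0 : ℝ) < p := by exact_mod_cast hp.pos
  apply div_le_div_of_nonneg_right _ hp0.le
  have : 0 < ((range p).filter (fun n => p ∣ n * ∏ A ∈ S, (A * n + 1))).card := by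
    apply card_pos.2
    refine ⟨0, ?_⟩
    rw [mem_filter, mem_range]
    exact ⟨hp.pos, by simp⟩
  exact_mod_cast this

/-- the discriminant. -/
def disc (S : Finset ℕ) : ℕ :=
  (∏ A ∈ S, A) * ∏ A ∈ S, ∏ B ∈ S.filter (fun B => B < A), (A - B)

theorem disc_ne_zero (S : Finset ℕ) (hS : ∀ A ∈ S, 1 ≤ A) : disc S ≠ 0 := by
  unfold disc
  apply mul_ne_zero
  · apply Finset.prod_ne_zero_iff.2
    intro A hA
    have := hS A hA
    omega
  · apply Finset.prod_ne_zero_iff.2
    intro A _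
    apply Finset.prod_ne_zero_iff.2
    intro B hB
    rw [mem_filter] at hB
    omega

theorem gS_ge (S : Finset ℕ) (p : ℕ) (hp : p.Prime) (hd : ¬ p ∣ disc S) :
    ((S.card : ℝ) + 1) / p ≤ gS S p := by
  rw [gS_eq]
  have : Fact p.Prime := ⟨hp⟩
  have hp0 : (0 : ℝ) < p := by exact_mod_cast hp.pos
  apply div_le_div_of_nonneg_right _ hp0.le
  have hA0 : ∀ A ∈ S, (A : ZMod p) ≠ 0 := by
    intro A hA h
    apply hd
    unfold disc
    apply Dvd.dvd.mul_right
    exact dvd_trans ((ZMod.natCast_eq_zero_iff A p).1 h) (dvd_prod_of_mem _ hA)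
  have hAB : ∀ A ∈ S, ∀ B ∈ S, (A : ZMod p) = (B : ZMod p) → A = B := by
    have key : ∀ A ∈ S, ∀ B ∈ S, B < A → (A : ZMod p) ≠ (B : ZMod p) := by
      intro A hA B hB hlt h
      apply hd
      unfold disc
      apply Dvd.dvd.mul_left
      refine dvd_trans ?_ (dvd_prod_of_mem _ hA)
      refine dvd_trans ?_ (dvd_prod_of_mem _ (mem_filter.2 ⟨hB, hlt⟩))
      rw [← ZMod.natCast_eq_zero_iff, Nat.cast_sub hlt.le, h, sub_self]
    intro A hA B hB h
    rcases lt_trichotomy A B with h1 | h1 | h1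
    · exact absurd h.symm (key B hB A hA h1)
    · exact h1
    · exact absurd h (key A hA B hB h1)
  have hcard : S.card + 1 ≤
      ((range p).filter (fun n => p ∣ n * ∏ A ∈ S, (A * n + 1))).card := by
    have hinj : Set.InjOn (fun A : ℕ => (-((A : ZMod p))⁻¹).val) (S : Set ℕ) := by
      intro A hA B hB h
      apply hAB A (by exact_mod_cast hA) B (by exact_mod_cast hB)
      have h1 : -((A : ZMod p))⁻¹ = -((B : ZMod p))⁻¹ := ZMod.val_injective p h
      exact inv_injective (neg_injective h1)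
    have hnot : 0 ∉ S.image (fun A : ℕ => (-((A : ZMod p))⁻¹).val) := by
      intro h
      rw [mem_image] at h
      obtain ⟨A, hA, hA'⟩ := h
      rw [ZMod.val_eq_zero, neg_eq_zero, inv_eq_zero] at hA'
      exact hA0 A hA hA'
    have h1 : (insert 0 (S.image (fun A : ℕ => (-((A : ZMod p))⁻¹).val))).card = S.card + 1 := by
      rw [card_insert_of_notMem hnot, card_image_of_injOn hinj]
    rw [← h1]
    apply card_le_card
    intro n hn
    rw [mem_insert, mem_image] at hn
    rw [mem_filter, mem_range]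
    rcases hn with rfl | ⟨A, hA, rfl⟩
    · exact ⟨hp.pos, by simp⟩
    · refine ⟨ZMod.val_lt _, ?_⟩
      rw [bad_iff]
      apply mul_eq_zero_of_right
      apply Finset.prod_eq_zero hA
      rw [ZMod.natCast_zmod_val, mul_neg, mul_inv_cancel₀ (hA0 A hA)]
      ring
  exact_mod_cast hcard

end

end Vale.Agent.P031.Sv
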