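import Vale.Agent.P031.SvBrun

/-! Bounds for `∑ 1/p`. -/

namespace Vale.Agent.P031.Sv

open Finset Filter

noncomputable section

theorem S0_lower (z : ℕ) (hz : 2 ≤ z) : Real.log (Real.log z) - 1 ≤ MertensAux.S0 z := by
  have hz1 : 1 ≤ z := by omega
  have hzR : (2 : ℝ) ≤ z := by exact_mod_cast hz
  have hlog : 0 < Real.log z := Real.log_pos (by linarith)
  have h1 := V_mul_log_le z hz1
  have h2 : Real.exp (-(MertensAux.S0 z + 1)) ≤ V z := by
    unfold V
    have h3 : ∀ p ∈ Nat.primesLE z,
        Real.exp (-(1 / (p : ℝ) + (1 / ((p : ℝ) - 1) - 1 / p))) ≤ 1 - 1 / (p : ℝ) :=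
      fun p hp => MertensAux.one_sub_inv_ge p (Nat.mem_primesLE.1 hp).2.two_le
    refine le_trans ?_ (Finset.prod_le_prod (fun p _ => (Real.exp_pos _).le) h3)
    rw [← Real.exp_sum]
    apply Real.exp_le_exp.2
    rw [Finset.sum_neg_distrib, Finset.sum_add_distrib]
    have h4 := MertensAux.tele_sum z hz1
    have h5 : (0 : ℝ) ≤ 1 / z := by positivity
    unfold MertensAux.S0
    linarith
  have h3 : Real.exp (-(MertensAux.S0 z + 1)) * Real.log z ≤ 1 :=
    (mul_le_mul_of_nonneg_right h2 hlog.le).trans h1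
  have h4 : Real.log z ≤ Real.exp (MertensAux.S0 z + 1) := by
    rw [Real.exp_neg] at h3
    have h5 := Real.exp_pos (MertensAux.S0 z + 1)
    rw [inv_mul_le_iff₀ h5] at h3
    linarith
  have h5 := Real.log_le_log hlog h4
  rw [Real.log_exp] at h5
  linarith

theorem card_primeFactors_le (M : ℕ) (hM : M ≠ 0) :
    (M.primeFactors.card : ℝ) ≤ Real.log M / Real.log 2 := by
  have h1 : 2 ^ M.primeFactors.card ≤ M := by
    have h2 : 2 ^ M.primeFactors.card ≤ ∏ p ∈ M.primeFactors, p :=
      Finset.pow_card_le_prod _ _ _ (fun p hp => (Nat.prime_of_mem_primeFactors hp).two_le)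
    exact h2.trans (Nat.le_of_dvd (Nat.pos_of_ne_zero hM) (Nat.prod_primeFactors_dvd M))
  have h2 : ((2 : ℝ)) ^ M.primeFactors.card ≤ M := by exact_mod_cast h1
  have h3 := Real.log_le_log (by positivity) h2
  rw [Real.log_pow] at h3
  rw [le_div_iff₀ (Real.log_pos (by norm_num))]
  exact h3

/-- `∑_{p ∣ M} 1/p ≤ log log (log M + 3) + C`. -/
theorem exists_sigma_bound : ∃ C : ℝ, 0 < C ∧ ∀ M : ℕ, M ≠ 0 →
    ∑ p ∈ M.primeFactors, 1 / (p : ℝ) ≤ Real.log (Real.log (Real.log M + 3)) + C := by
  obtain ⟨C0, hC0⟩ := MertensAux.exists_S0_bound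
  refine ⟨|C0| + 4, by positivity, fun M hM => ?_⟩
  have hM1 : (1 : ℝ) ≤ M := by exact_mod_cast Nat.one_le_iff_ne_zero.2 hM
  have hlM : 0 ≤ Real.log M := Real.log_nonneg hM1
  set L : ℕ := ⌈Real.log M⌉₊ + 3 with hL
  have hL1 : Real.log M + 3 ≤ L := by
    rw [hL]; push_cast
    linarith [Nat.le_ceil (Real.log M)]
  have hL2 : (L : ℝ) ≤ 2 * (Real.log M + 3) := by
    rw [hL]; push_cast
    have := Nat.ceil_lt_add_one hlM
    linarith
  have hL0 : (0 : ℝ) < L := by linarith
  have h1 : ∑ p ∈ M.primeFactors, 1 / (p : ℝ) ≤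
      MertensAux.S0 L + (M.primeFactors.card : ℝ) * (1 / L) := by
    rw [← Finset.sum_filter_add_sum_filter_not M.primeFactors (fun p => p ≤ L)]
    apply add_le_add
    · unfold MertensAux.S0
      apply Finset.sum_le_sum_of_subset_of_nonneg
      · intro p hp
        rw [mem_filter] at hp
        rw [Nat.mem_primesLE]
        exact ⟨hp.2, Nat.prime_of_mem_primeFactors hp.1⟩
      · intro p _ _
        positivity
    · calc ∑ p ∈ M.primeFactors.filter (fun p => ¬ p ≤ L), 1 / (p : ℝ)
          ≤ ∑ p ∈ M.primeFactors.filter (fun p => ¬ p ≤ L), 1 / (L : ℝ) := by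
            apply Finset.sum_le_sum
            intro p hp
            rw [mem_filter, not_le] at hp
            apply one_div_le_one_div_of_le hL0
            exact_mod_cast hp.2.le
        _ = ((M.primeFactors.filter (fun p => ¬ p ≤ L)).card : ℝ) * (1 / L) := by
            rw [Finset.sum_const, nsmul_eq_mul]
        _ ≤ (M.primeFactors.card : ℝ) * (1 / L) := by
            apply mul_le_mul_of_nonneg_right _ (by positivity)
            exact_mod_cast Finset.card_filter_le _ _
  have h2 : (M.primeFactors.card : ℝ) * (1 / L) ≤ 2 := by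
    have h3 := card_primeFactors_le M hM
    have h4 : (0.69 : ℝ) < Real.log 2 := by linarith [Real.log_two_gt_d9]
    have h5 : Real.log M / Real.log 2 ≤ 2 * L := by
      rw [div_le_iff₀ (by linarith)]
      nlinarith
    rw [mul_one_div, div_le_iff₀ hL0]
    linarith
  have h3 := hC0 L (by omega)
  have h4 : Real.log (Real.log L) ≤ Real.log (Real.log (Real.log M + 3)) + 1 := by
    set u := Real.log M + 3 with hu
    have hu3 : (3 : ℝ) ≤ u := by linarith
    have hlu : (1 : ℝ) < Real.log u := by
      have := Real.exp_one_lt_d9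
      rw [Real.lt_log_iff_exp_lt (by linarith)]
      linarith
    have h5 : Real.log L ≤ 2 * Real.log u := by
      calc Real.log L ≤ Real.log (2 * u) := Real.log_le_log hL0 hL2
        _ = Real.log 2 + Real.log u := Real.log_mul (by norm_num) (by linarith)
        _ ≤ 2 * Real.log u := by
            have := Real.log_le_log (by norm_num : (0 : ℝ) < 2) (by linarith : (2 : ℝ) ≤ u)
            linarith
    have h6 : 0 < Real.log L := Real.log_pos (by linarith)
    calc Real.log (Real.log L) ≤ Real.log (2 * Real.log u) := Real.log_le_log h6 h5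
      _ = Real.log 2 + Real.log (Real.log u) := Real.log_mul (by norm_num) (by linarith)
      _ ≤ Real.log (Real.log u) + 1 := by linarith [Real.log_two_lt_d9]
  have h5 := le_abs_self C0
  linarith

end

end Vale.Agent.P031.Sv
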