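import Mathlib

/-! Elementary tools for the sieve (periodic means, Mertens upper bounds). -/

namespace Vale.Agent.P031.Sv

open Finset Filter

noncomputable section

/-- mean of `f` over `{0, ..., Q-1}`. -/
def avg (f : ℕ → ℝ) (Q : ℕ) : ℝ := (∑ x ∈ range Q, f x) / (Q : ℝ)

/-- `V y = ∏_{p ≤ y} (1 - 1/p)`. -/
def V (y : ℕ) : ℝ := ∏ p ∈ Nat.primesLE y, (1 - 1 / (p : ℝ))

theorem avg_mul_const (f : ℕ → ℝ) (Q : ℕ) (c : ℝ) : avg (fun x => c * f x) Q = c * avg f Q := by
  unfold avg
  rw [← Finset.mul_sum, mul_div_assoc]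

theorem avg_add (f g : ℕ → ℝ) (Q : ℕ) : avg (fun x => f x + g x) Q = avg f Q + avg g Q := by
  unfold avg
  rw [Finset.sum_add_distrib, add_div]

theorem avg_sum {ι : Type*} (s : Finset ι) (f : ι → ℕ → ℝ) (Q : ℕ) :
    avg (fun x => ∑ i ∈ s, f i x) Q = ∑ i ∈ s, avg (f i) Q := by
  unfold avg
  rw [Finset.sum_comm, Finset.sum_div]

theorem avg_mono (f g : ℕ → ℝ) (Q : ℕ) (h : ∀ x < Q, f x ≤ g x) : avg f Q ≤ avg g Q := by
  unfold avg
  apply div_le_div_of_nonneg_right _ (Nat.cast_nonneg _)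
  exact Finset.sum_le_sum (fun x hx => h x (Finset.mem_range.mp hx))

theorem avg_nonneg (f : ℕ → ℝ) (Q : ℕ) (h : ∀ x < Q, 0 ≤ f x) : 0 ≤ avg f Q := by
  unfold avg
  apply div_nonneg _ (Nat.cast_nonneg _)
  exact Finset.sum_nonneg (fun x hx => h x (Finset.mem_range.mp hx))

theorem avg_const (c : ℝ) (Q : ℕ) (hQ : 0 < Q) : avg (fun _ => c) Q = c := by
  unfold avg
  have : (Q : ℝ) ≠ 0 := by positivity
  simp [this]

theorem avg_congr (f g : ℕ → ℝ) (Q : ℕ) (h : ∀ x < Q, f x = g x) : avg f Q = avg g Q := by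
  unfold avg
  rw [Finset.sum_congr rfl (fun x hx => h x (Finset.mem_range.mp hx))]

theorem sum_range_mul_periodic (f : ℕ → ℝ) (Q k : ℕ) (hf : ∀ x, f (x + Q) = f x) :
    ∑ x ∈ range (Q * k), f x = k * ∑ x ∈ range Q, f x := by
  induction k with
  | zero => simp
  | succ k ih =>
    rw [Nat.mul_succ, Finset.sum_range_add, ih]
    have : ∀ m x, f (Q * m + x) = f x := by
      intro m
      induction m with
      | zero => intro x; simp
      | succ m ihm => intro x; rw [Nat.mul_succ, add_right_comm, hf, ihm]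
    simp only [this]
    push_cast
    ring

theorem periodic_mul (f : ℕ → ℝ) (Q : ℕ) (hf : ∀ x, f (x + Q) = f x) (m x : ℕ) :
    f (x + Q * m) = f x := by
  induction m with
  | zero => simp
  | succ m ih => rw [Nat.mul_succ, ← add_assoc, hf, ih]

theorem periodic_mod (f : ℕ → ℝ) (Q : ℕ) (hf : ∀ x, f (x + Q) = f x) (x : ℕ) :
    f (x % Q) = f x := by
  conv_rhs => rw [← Nat.mod_add_div x Q]
  rw [periodic_mul f Q hf]

theorem avg_period_mul (f : ℕ → ℝ) (Q k : ℕ) (hk : 0 < k) (hf : ∀ x, f (x + Q) = f x) :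
    avg f (Q * k) = avg f Q := by
  unfold avg
  rw [sum_range_mul_periodic f Q k hf]
  have hk' : (k : ℝ) ≠ 0 := by positivity
  push_cast
  rw [mul_comm (Q : ℝ) k, mul_div_mul_left _ _ hk']

/-- A `Q`-periodic function with values in `[0,1]`: sum over `range N` is `N * mean + O(Q)`. -/
theorem sum_periodic (f : ℕ → ℝ) (Q : ℕ) (hQ : 0 < Q) (hper : ∀ x, f (x + Q) = f x)
    (hf : ∀ x, 0 ≤ f x ∧ f x ≤ 1) (N : ℕ) :
    |∑ x ∈ range N, f x - N * avg f Q| ≤ Q := by
  have hQ' : (0 : ℝ) < Q := by positivity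
  have hN : N = Q * (N / Q) + N % Q := (Nat.div_add_mod N Q).symm
  have hr : N % Q < Q := Nat.mod_lt _ hQ
  set k := N / Q
  set r := N % Q
  have h1 : ∑ x ∈ range N, f x = k * ∑ x ∈ range Q, f x + ∑ x ∈ range r, f x := by
    rw [hN, Finset.sum_range_add, sum_range_mul_periodic f Q k hper]
    congr 1
    apply Finset.sum_congr rfl
    intro x _
    rw [add_comm, periodic_mul f Q hper]
  have h2 : (N : ℝ) = Q * k + r := by
    conv_lhs => rw [hN]
    push_cast; ring
  have hS0 : 0 ≤ ∑ x ∈ range Q, f x := Finset.sum_nonneg (fun x _ => (hf x).1)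
  have hS1 : ∑ x ∈ range Q, f x ≤ Q := by
    calc ∑ x ∈ range Q, f x ≤ ∑ x ∈ range Q, (1 : ℝ) := Finset.sum_le_sum (fun x _ => (hf x).2)
      _ = Q := by simp
  have hA0 : 0 ≤ avg f Q := div_nonneg hS0 hQ'.le
  have hA1 : avg f Q ≤ 1 := by
    unfold avg; rw [div_le_one hQ']; exact hS1
  have hS : ∑ x ∈ range Q, f x = Q * avg f Q := by
    unfold avg; field_simp
  have hT0 : 0 ≤ ∑ x ∈ range r, f x := Finset.sum_nonneg (fun x _ => (hf x).1)
  have hT1 : ∑ x ∈ range r, f x ≤ r := by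
    calc ∑ x ∈ range r, f x ≤ ∑ x ∈ range r, (1 : ℝ) := Finset.sum_le_sum (fun x _ => (hf x).2)
      _ = r := by simp
  have hrQ : (r : ℝ) ≤ Q := by exact_mod_cast hr.le
  rw [h1, h2, hS]
  have : (k : ℝ) * (Q * avg f Q) + ∑ x ∈ range r, f x - (Q * k + r) * avg f Q =
      ∑ x ∈ range r, f x - r * avg f Q := by ring
  rw [this, abs_le]
  have hr0 : (0 : ℝ) ≤ r := Nat.cast_nonneg _
  constructor
  · nlinarith
  · nlinarith

/-- Chinese remainder theorem: independence for coprime moduli. -/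
theorem avg_mul_coprime (f g : ℕ → ℝ) (m n : ℕ) (hm : 0 < m) (hn : 0 < n) (hc : Nat.Coprime m n)
    (hf : ∀ x, f (x + m) = f x) (hg : ∀ x, g (x + n) = g x) :
    avg (fun x => f x * g x) (m * n) = avg f m * avg g n := by
  unfold avg
  rw [div_mul_div_comm, Finset.sum_mul_sum]
  push_cast
  congr 1
  rw [← Finset.sum_product']
  symm
  apply Finset.sum_bij' (i := fun (a : ℕ × ℕ) _ => (Nat.chineseRemainder hc a.1 a.2 : ℕ))
    (j := fun (x : ℕ) _ => (x % m, x % n))
  · intro a ha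
    rw [Finset.mem_range]
    exact Nat.chineseRemainder_lt_mul hc _ _ hm.ne' hn.ne'
  · intro x hx
    simp [Nat.mod_lt _ hm, Nat.mod_lt _ hn]
  · intro a ha
    simp only [Finset.mem_product, Finset.mem_range] at ha
    have h := (Nat.chineseRemainder hc a.1 a.2).2
    ext
    · simp only
      rw [h.1, Nat.mod_eq_of_lt ha.1]
    · simp only
      rw [h.2, Nat.mod_eq_of_lt ha.2]
  · intro x hx
    rw [Finset.mem_range] at hx
    have h := (Nat.chineseRemainder hc (x % m) (x % n)).2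
    have h1 := h.1.trans (Nat.mod_modEq x m)
    have h2 := h.2.trans (Nat.mod_modEq x n)
    have h3 := (Nat.modEq_and_modEq_iff_modEq_mul hc).mp ⟨h1, h2⟩
    have h4 := Nat.chineseRemainder_lt_mul hc (x % m) (x % n) hm.ne' hn.ne'
    exact Nat.ModEq.eq_of_lt_of_lt h3 h4 hx
  · intro a ha
    have h := (Nat.chineseRemainder hc a.1 a.2).2
    simp only [Finset.mem_product, Finset.mem_range] at ha
    have e1 : f (Nat.chineseRemainder hc a.1 a.2) = f a.1 := by
      rw [← periodic_mod f m hf, h.1, Nat.mod_eq_of_lt ha.1]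
    have e2 : g (Nat.chineseRemainder hc a.1 a.2) = g a.2 := by
      rw [← periodic_mod g n hg, h.2, Nat.mod_eq_of_lt ha.2]
    simp only [e1, e2]

/-- Independence for a finite product over pairwise coprime moduli. -/
theorem avg_prod_coprime {ι : Type*} [DecidableEq ι] (s : Finset ι) (f : ι → ℕ → ℝ) (m : ι → ℕ)
    (hm : ∀ i ∈ s, 0 < m i) (hc : (s : Set ι).Pairwise (fun i j => Nat.Coprime (m i) (m j)))
    (hf : ∀ i ∈ s, ∀ x, f i (x + m i) = f i x) :
    avg (fun x => ∏ i ∈ s, f i x) (∏ i ∈ s, m i) = ∏ i ∈ s, avg (f i) (m i) := by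
  induction s using Finset.induction_on with
  | empty => simp [avg]
  | insert a s ha ih =>
    rw [Finset.prod_insert ha, Finset.prod_insert ha]
    simp only [Finset.prod_insert ha]
    have hm' : ∀ i ∈ s, 0 < m i := fun i hi => hm i (Finset.mem_insert_of_mem hi)
    have hf' : ∀ i ∈ s, ∀ x, f i (x + m i) = f i x :=
      fun i hi => hf i (Finset.mem_insert_of_mem hi)
    have hc' : (s : Set ι).Pairwise (fun i j => Nat.Coprime (m i) (m j)) := by
      intro i hi j hj hij
      exact hc (by simp [Finset.mem_coe.mp hi]) (by simp [Finset.mem_coe.mp hj]) hij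
    rw [← ih hm' hc' hf']
    apply avg_mul_coprime
    · exact hm a (Finset.mem_insert_self _ _)
    · exact Finset.prod_pos hm'
    · apply Nat.Coprime.prod_right
      intro i hi
      apply hc (by simp) (by simp [hi])
      rintro rfl
      exact ha hi
    · exact hf a (Finset.mem_insert_self _ _)
    · intro x
      apply Finset.prod_congr rfl
      intro i hi
      obtain ⟨c, hc⟩ := Finset.dvd_prod_of_mem m hi
      rw [hc, periodic_mul (f i) (m i) (hf' i hi)]

/-- Periodicity of a product. -/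
theorem prod_periodic {ι : Type*} (s : Finset ι) (f : ι → ℕ → ℝ) (m : ι → ℕ)
    (hf : ∀ i ∈ s, ∀ x, f i (x + m i) = f i x) (x : ℕ) :
    ∏ i ∈ s, f i (x + ∏ i ∈ s, m i) = ∏ i ∈ s, f i x := by
  apply Finset.prod_congr rfl
  intro i hi
  obtain ⟨c, hc⟩ := Finset.dvd_prod_of_mem m hi
  rw [hc, periodic_mul (f i) (m i) (hf i hi)]

namespace MertensAux

theorem one_sub_pos (p : ℕ) (hp : p.Prime) : (0 : ℝ) < 1 - 1 / (p : ℝ) := by
  have h2 : (2 : ℝ) ≤ p := by exact_mod_cast hp.two_le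
  have : 1 / (p : ℝ) ≤ 1 / 2 := one_div_le_one_div_of_le (by norm_num) h2
  linarith

theorem one_sub_le_one (p : ℕ) : 1 - 1 / (p : ℝ) ≤ 1 := by
  have : 0 ≤ 1 / (p : ℝ) := by positivity
  linarith

end MertensAux

open MertensAux

theorem V_pos (y : ℕ) : 0 < V y :=
  Finset.prod_pos (fun p hp => one_sub_pos p (Nat.mem_primesLE.1 hp).2)

theorem V_le_one (y : ℕ) : V y ≤ 1 :=
  Finset.prod_le_one (fun p hp => (one_sub_pos p (Nat.mem_primesLE.1 hp).2).le)
    (fun p _ => one_sub_le_one p)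

theorem V_antitone : Antitone V := by
  intro a b hab
  unfold V
  have hsub : Nat.primesLE a ⊆ Nat.primesLE b := by
    intro p hp
    rw [Nat.mem_primesLE] at hp ⊢
    exact ⟨hp.1.trans hab, hp.2⟩
  rw [← Finset.prod_sdiff hsub]
  have h1 : ∏ p ∈ Nat.primesLE b \ Nat.primesLE a, (1 - 1 / (p : ℝ)) ≤ 1 :=
    Finset.prod_le_one
      (fun p hp => (one_sub_pos p (Nat.mem_primesLE.1 (Finset.mem_sdiff.1 hp).1).2).le)
      (fun p _ => one_sub_le_one p)
  have h2 : 0 ≤ ∏ p ∈ Nat.primesLE a, (1 - 1 / (p : ℝ)) := (V_pos a).le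
  exact mul_le_of_le_one_left h2 h1

namespace MertensAux

/-- the function `n ↦ 1/n` as a monoid homomorphism. -/
def invHom : ℕ →* ℝ where
  toFun n := (n : ℝ)⁻¹
  map_one' := by simp
  map_mul' a b := by
    push_cast
    rw [mul_inv]

theorem invHom_apply (n : ℕ) : invHom n = (n : ℝ)⁻¹ := rfl

theorem invHom_norm_lt {p : ℕ} (hp : p.Prime) : ‖invHom p‖ < 1 := by
  rw [invHom_apply, norm_inv, Real.norm_natCast]
  have h2 : (2 : ℝ) ≤ p := by exact_mod_cast hp.two_le
  exact inv_lt_one_of_one_lt₀ (by linarith)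

theorem sum_inv_le_prod (s : Finset ℕ) (hs : ∀ p ∈ s, p.Prime) (F : Finset ℕ)
    (hF : ∀ n ∈ F, n ∈ Nat.factoredNumbers s) :
    ∑ n ∈ F, 1 / (n : ℝ) ≤ ∏ p ∈ s, (1 - 1 / (p : ℝ))⁻¹ := by
  obtain ⟨_, h⟩ := EulerProduct.summable_and_hasSum_factoredNumbers_prod_filter_prime_geometric
    (f := invHom) (fun hp => invHom_norm_lt hp) s
  rw [Finset.filter_true_of_mem hs] at h
  have h2 : ∏ p ∈ s, (1 - 1 / (p : ℝ))⁻¹ = ∏ p ∈ s, (1 - invHom p)⁻¹ := by
    refine Finset.prod_congr rfl (fun p _ => ?_)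
    rw [invHom_apply, one_div]
  rw [h2]
  have h3 : ∑ n ∈ F, 1 / (n : ℝ) =
      ∑ m ∈ F.subtype (fun n => n ∈ Nat.factoredNumbers s), invHom m := by
    rw [Finset.sum_subtype_eq_sum_filter, Finset.filter_true_of_mem hF]
    refine Finset.sum_congr rfl (fun n _ => ?_)
    rw [invHom_apply, one_div]
  rw [h3]
  apply sum_le_hasSum _ _ h
  intro m _
  rw [invHom_apply]
  positivity

theorem log_le_sum_inv (n : ℕ) : Real.log ((n : ℝ) + 1) ≤ ∑ i ∈ Icc 1 n, 1 / (i : ℝ) := by
  have h := log_add_one_le_harmonic n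
  rw [harmonic_eq_sum_Icc] at h
  push_cast at h
  simpa [one_div] using h

end MertensAux

/-- `V(z) ≤ 1/log z`. -/
theorem V_mul_log_le (z : ℕ) (hz : 1 ≤ z) : V z * Real.log z ≤ 1 := by
  have h1 := sum_inv_le_prod (Nat.primesLE z) (fun p hp => (Nat.mem_primesLE.1 hp).2) (Icc 1 z)
    (fun n hn => by
      rw [Finset.mem_Icc] at hn
      refine ⟨by omega, fun p hp => ?_⟩
      rw [Nat.mem_primeFactorsList (by omega)] at hp
      rw [Nat.mem_primesLE]
      exact ⟨(Nat.le_of_dvd (by omega) hp.2).trans hn.2, hp.1⟩)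
  rw [Finset.prod_inv_distrib] at h1
  have h2 := log_le_sum_inv z
  have hV := V_pos z
  have h3 : Real.log z ≤ Real.log ((z : ℝ) + 1) := by
    apply Real.log_le_log
    · exact_mod_cast hz
    · linarith
  have h4 : Real.log z ≤ (V z)⁻¹ := h3.trans (h2.trans h1)
  calc V z * Real.log z ≤ V z * (V z)⁻¹ := mul_le_mul_of_nonneg_left h4 hV.le
    _ = 1 := mul_inv_cancel₀ hV.ne'

namespace MertensAux

/-- `∑_{p ≤ n} log p / p`. -/
def S1 (n : ℕ) : ℝ := ∑ p ∈ Nat.primesLE n, Real.log p / p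

theorem S1_nonneg (n : ℕ) : 0 ≤ S1 n := by
  apply Finset.sum_nonneg
  intro p hp
  have : 1 ≤ p := ((Nat.mem_primesLE.1 hp).2).one_lt.le
  have h1 : (1 : ℝ) ≤ p := by exact_mod_cast this
  exact div_nonneg (Real.log_nonneg h1) (by positivity)

theorem log_factorial_ge (n : ℕ) :
    ∑ p ∈ Nat.primesLE n, Real.log p * ((n / p : ℕ) : ℝ) ≤ Real.log (n.factorial : ℝ) := by
  have h1 : Real.log (n.factorial : ℝ) = ∑ k ∈ Icc 1 n, Real.log (k : ℝ) := by
    induction n with
    | zero => simp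
    | succ n ih =>
      rw [Nat.factorial_succ, Finset.sum_Icc_succ_top (by omega), ← ih]
      push_cast
      rw [Real.log_mul (by positivity) (by exact_mod_cast n.factorial_ne_zero)]
      ring
  rw [h1]
  have h2 : ∀ k ∈ Icc 1 n, ∑ p ∈ Nat.primesLE n, (if p ∣ k then Real.log p else 0) ≤
      Real.log (k : ℝ) := by
    intro k hk
    rw [Finset.mem_Icc] at hk
    rw [← Finset.sum_filter]
    have h3 : (Nat.primesLE n).filter (fun p => p ∣ k) = k.primeFactors := by
      ext p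
      rw [Finset.mem_filter, Nat.mem_primesLE, Nat.mem_primeFactors]
      constructor
      · rintro ⟨⟨_, hp⟩, hd⟩
        exact ⟨hp, hd, by omega⟩
      · rintro ⟨hp, hd, _⟩
        exact ⟨⟨(Nat.le_of_dvd (by omega) hd).trans hk.2, hp⟩, hd⟩
    rw [h3, ← Real.log_prod]
    · apply Real.log_le_log
      · apply Finset.prod_pos
        intro p hp
        exact_mod_cast (Nat.prime_of_mem_primeFactors hp).pos
      · have h4 := Nat.le_of_dvd (by omega) (Nat.prod_primeFactors_dvd k)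
        have h5 : ((∏ p ∈ k.primeFactors, p : ℕ) : ℝ) ≤ k := by exact_mod_cast h4
        push_cast at h5
        exact h5
    · intro p hp
      have := (Nat.prime_of_mem_primeFactors hp).ne_zero
      exact_mod_cast this
  refine le_trans (le_of_eq ?_) (Finset.sum_le_sum h2)
  rw [Finset.sum_comm]
  refine Finset.sum_congr rfl (fun p _ => ?_)
  rw [← Finset.sum_filter, Finset.sum_const, nsmul_eq_mul, mul_comm]
  congr 2
  have := Nat.Ioc_filter_dvd_card_eq_div n p
  rw [← this]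
  congr 1

theorem S1_le (n : ℕ) (hn : 1 ≤ n) : S1 n ≤ Real.log n + Real.log 4 := by
  have hn' : (0 : ℝ) < n := by exact_mod_cast hn
  have h1 := log_factorial_ge n
  have h2 : Real.log (n.factorial : ℝ) ≤ n * Real.log n := by
    rw [← Real.log_pow]
    apply Real.log_le_log (by exact_mod_cast n.factorial_pos)
    exact_mod_cast n.factorial_le_pow
  have h3 : ∑ p ∈ Nat.primesLE n, Real.log p ≤ Real.log 4 * n := by
    rw [← Chebyshev.theta_eq_sum_primesLE_log]
    exact Chebyshev.theta_le_log4_mul_x hn'.le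
  have h4 : n * S1 n ≤ ∑ p ∈ Nat.primesLE n, Real.log p * ((n / p : ℕ) : ℝ) +
      ∑ p ∈ Nat.primesLE n, Real.log p := by
    unfold S1
    rw [Finset.mul_sum, ← Finset.sum_add_distrib]
    refine Finset.sum_le_sum (fun p hp => ?_)
    have hpp := (Nat.mem_primesLE.1 hp).2
    have hp1 : (1 : ℝ) ≤ p := by exact_mod_cast hpp.one_lt.le
    have hp0 : (0 : ℝ) < p := by linarith
    have hlog : 0 ≤ Real.log p := Real.log_nonneg hp1
    have h5 : (n : ℝ) / p ≤ ((n / p : ℕ) : ℝ) + 1 := by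
      rw [div_le_iff₀ hp0]
      have h6 : n < (n / p + 1) * p := by
        have := Nat.lt_div_mul_add (a := n) hpp.pos
        linarith
      have h7 : (n : ℝ) < ((n / p : ℕ) + 1) * p := by exact_mod_cast h6
      linarith
    calc (n : ℝ) * (Real.log p / p) = Real.log p * ((n : ℝ) / p) := by ring
      _ ≤ Real.log p * (((n / p : ℕ) : ℝ) + 1) := mul_le_mul_of_nonneg_left h5 hlog
      _ = _ := by ring
  have h5 : n * S1 n ≤ n * (Real.log n + Real.log 4) := by linarith
  exact le_of_mul_le_mul_left h5 hn'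

theorem primesLE_succ_sum (f : ℕ → ℝ) (n : ℕ) : ∑ p ∈ Nat.primesLE (n + 1), f p =
    ∑ p ∈ Nat.primesLE n, f p + (if (n + 1).Prime then f (n + 1) else 0) := by
  rw [Nat.primesLE_eq_filter_range, Nat.primesLE_eq_filter_range, Finset.sum_filter,
    Finset.sum_filter, Finset.sum_range_succ]

/-- `∑_{p ≤ n} 1 / p`. -/
def S0 (n : ℕ) : ℝ := ∑ p ∈ Nat.primesLE n, 1 / (p : ℝ)

theorem abel_step (n : ℕ) (hn : 2 ≤ n) :
    S0 n - S1 n / Real.log n ≤ Real.log (Real.log n) - Real.log (Real.log 2) +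
      Real.log 4 / Real.log 2 - Real.log 4 / Real.log n := by
  induction n, hn using Nat.le_induction with
  | base =>
    have h2 : Nat.primesLE 2 = {2} := by decide
    unfold S0 S1
    rw [h2]
    simp only [Finset.sum_singleton]
    have : Real.log 2 ≠ 0 := (Real.log_pos (by norm_num)).ne'
    push_cast
    field_simp
    norm_num
  | succ n hn ih =>
    have hn2 : (2 : ℝ) ≤ n := by exact_mod_cast hn
    have hlog : 0 < Real.log n := Real.log_pos (by linarith)
    have hlog' : Real.log n < Real.log ((n : ℝ) + 1) := Real.log_lt_log (by linarith) (by linarith)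
    have hlog1 : 0 < Real.log ((n : ℝ) + 1) := hlog.trans hlog'
    have e1 : S0 (n + 1) - S1 (n + 1) / Real.log ((n + 1 : ℕ) : ℝ) =
        S0 n - S1 n / Real.log ((n : ℝ) + 1) := by
      unfold S0 S1
      rw [primesLE_succ_sum, primesLE_succ_sum]
      push_cast
      have hn1 : ((n : ℝ) + 1) ≠ 0 := by positivity
      split_ifs
      · field_simp
        ring
      · ring
    rw [e1]
    push_cast
    have h1 := S1_le n (by omega)
    have h4 : 0 < Real.log 4 := Real.log_pos (by norm_num)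
    have h2 : 1 - Real.log n / Real.log ((n : ℝ) + 1) ≤
        Real.log (Real.log ((n : ℝ) + 1)) - Real.log (Real.log n) := by
      rw [← Real.log_div hlog1.ne' hlog.ne']
      have := Real.log_le_sub_one_of_pos (div_pos hlog hlog1)
      have h5 : Real.log (Real.log n / Real.log ((n : ℝ) + 1)) =
          - Real.log (Real.log ((n : ℝ) + 1) / Real.log n) := by
        rw [← Real.log_inv, inv_div]
      linarith
    have hd : 0 ≤ 1 / Real.log n - 1 / Real.log ((n : ℝ) + 1) := by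
      have := one_div_le_one_div_of_le hlog hlog'.le
      linarith
    have h3 : S1 n / Real.log n - S1 n / Real.log ((n : ℝ) + 1) ≤
        (Real.log n + Real.log 4) * (1 / Real.log n - 1 / Real.log ((n : ℝ) + 1)) := by
      calc S1 n / Real.log n - S1 n / Real.log ((n : ℝ) + 1) =
          S1 n * (1 / Real.log n - 1 / Real.log ((n : ℝ) + 1)) := by ring
        _ ≤ _ := mul_le_mul_of_nonneg_right h1 hd
    have h6 : (Real.log n + Real.log 4) * (1 / Real.log n - 1 / Real.log ((n : ℝ) + 1)) =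
        (1 - Real.log n / Real.log ((n : ℝ) + 1)) + Real.log 4 / Real.log n -
          Real.log 4 / Real.log ((n : ℝ) + 1) := by
      field_simp
      ring
    linarith

theorem exists_S0_bound : ∃ C : ℝ, ∀ n : ℕ, 2 ≤ n → S0 n ≤ Real.log (Real.log n) + C := by
  refine ⟨1 - Real.log (Real.log 2) + Real.log 4 / Real.log 2, fun n hn => ?_⟩
  have hn2 : (2 : ℝ) ≤ n := by exact_mod_cast hn
  have hlog : 0 < Real.log n := Real.log_pos (by linarith)
  have h1 := abel_step n hn
  have h2 := S1_le n (by omega)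
  have h3 : S1 n / Real.log n ≤ 1 + Real.log 4 / Real.log n := by
    rw [div_le_iff₀ hlog]
    have : (1 + Real.log 4 / Real.log n) * Real.log n = Real.log n + Real.log 4 := by
      field_simp
    linarith
  linarith

theorem one_sub_inv_ge (p : ℕ) (hp : 2 ≤ p) :
    Real.exp (-(1 / (p : ℝ) + (1 / ((p : ℝ) - 1) - 1 / p))) ≤ 1 - 1 / (p : ℝ) := by
  have hp2 : (2 : ℝ) ≤ p := by exact_mod_cast hp
  have h1 : 1 / (p : ℝ) + (1 / ((p : ℝ) - 1) - 1 / p) = 1 / ((p : ℝ) - 1) := by ring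
  rw [h1, Real.exp_neg, inv_le_comm₀ (Real.exp_pos _)]
  · have h2 := Real.add_one_le_exp (1 / ((p : ℝ) - 1))
    have h3 : (1 - 1 / (p : ℝ))⁻¹ = 1 / ((p : ℝ) - 1) + 1 := by
      have : (p : ℝ) - 1 ≠ 0 := by linarith
      have : (p : ℝ) ≠ 0 := by linarith
      field_simp
      ring
    rw [h3]; exact h2
  · have : 1 / (p : ℝ) ≤ 1 / 2 := one_div_le_one_div_of_le (by norm_num) hp2
    linarith

theorem tele_sum (n : ℕ) (hn : 1 ≤ n) :
    ∑ p ∈ Nat.primesLE n, (1 / ((p : ℝ) - 1) - 1 / p) ≤ 1 - 1 / n := by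
  induction n, hn using Nat.le_induction with
  | base => simp
  | succ n hn ih =>
    rw [primesLE_succ_sum (fun p => 1 / ((p : ℝ) - 1) - 1 / p)]
    have hn1 : (1 : ℝ) ≤ n := by exact_mod_cast hn
    have h1 : 1 / ((n : ℝ) + 1) ≤ 1 / n := one_div_le_one_div_of_le (by linarith) (by linarith)
    push_cast
    split_ifs
    · have : (n : ℝ) + 1 - 1 = n := by ring
      rw [this]
      linarith
    · linarith

end MertensAux

theorem card_fam_le (y M : ℕ) (F : Finset (Finset ℕ)) (hF : ∀ D ∈ F, D ⊆ Nat.primesLE y)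
    (hM : ∀ D ∈ F, ∏ p ∈ D, p ≤ M) : F.card ≤ M := by
  have hinj : Set.InjOn (fun D : Finset ℕ => ∏ p ∈ D, p) (F : Set (Finset ℕ)) := by
    intro D hD D' hD' h
    have key : ∀ E ∈ F, (∏ p ∈ E, p).primeFactors = E := by
      intro E hE
      exact Nat.primeFactors_prod (fun p hp => (Nat.mem_primesLE.1 (hF E hE hp)).2)
    have h1 := key D (by exact_mod_cast hD)
    have h2 := key D' (by exact_mod_cast hD')
    rw [← h1, ← h2]
    exact congrArg Nat.primeFactors h
  have hmaps : ∀ D ∈ F, ∏ p ∈ D, p ∈ Icc 1 M := by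
    intro D hD
    rw [mem_Icc]
    exact ⟨Finset.prod_pos (fun p hp => (Nat.mem_primesLE.1 (hF D hD hp)).2.pos), hM D hD⟩
  have := Finset.card_le_card_of_injOn _ hmaps hinj
  simpa using this


end

end Vale.Agent.P031.Sv
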