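import Vale.Agent.P031.TRecG
import Vale.Agent.P031.Tail
import Vale.Agent.P031.PZero

/-! P031, [TREC], part 2: the counting function of `SS k` in terms of the sum over `SSl k b`. -/

namespace P031

open Finset
open scoped Classical

namespace TR

theorem GJ_of_card_le {L : Multiset ℕ} {j : ℕ} (hc : L.card ≤ j) (hp : ∀ q ∈ L, q.Prime) :
    (L.map (fun q => q - 1)).prod ∈ GJ j := by
  refine ⟨L + Multiset.replicate (j - L.card) 2, ?_, ?_, ?_⟩
  · rw [Multiset.card_add, Multiset.card_replicate]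
    omega
  · intro q hq
    rcases Multiset.mem_add.1 hq with h | h
    · exact hp q h
    · rw [Multiset.eq_of_mem_replicate h]
      exact Nat.prime_two
  · rw [Multiset.map_add, Multiset.prod_add, Multiset.map_replicate, Multiset.prod_replicate]
    simp

theorem SS_split {k b u : ℕ} (hu : u ∈ SS k) :
    (∃ L : Multiset ℕ, L.card = 24 ∧ (∀ q ∈ L, q.Prime ∧ b ≤ lv q) ∧
      (L.map (fun q => q - 1)).prod ∣ u) ∨ (∃ g ∈ GJ 23, ∃ w ∈ SSl k b, u = g * w) := by
  obtain ⟨L, m, hm, hL, hm2, rfl⟩ := hu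
  set L1 := L.filter (fun q => b ≤ lv q) with hL1
  set L2 := L.filter (fun q => ¬ b ≤ lv q) with hL2
  have hadd : L1 + L2 = L := Multiset.filter_add_not _ _
  have hprod : (L.map (fun q => q - 1)).prod =
      (L1.map (fun q => q - 1)).prod * (L2.map (fun q => q - 1)).prod := by
    rw [← hadd, Multiset.map_add, Multiset.prod_add]
  have h1 : ∀ q ∈ L1, q.Prime ∧ b ≤ lv q := by
    intro q hq
    rw [hL1, Multiset.mem_filter] at hq
    exact ⟨(hL q hq.1).1, hq.2⟩
  rcases le_or_gt 24 L1.card with hc | hc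
  · left
    obtain ⟨l, hl⟩ : ∃ l : List ℕ, (l : Multiset ℕ) = L1 := Quot.exists_rep L1
    refine ⟨((l.take 24 : List ℕ) : Multiset ℕ), ?_, ?_, ?_⟩
    · rw [← hl, Multiset.coe_card] at hc
      rw [Multiset.coe_card, List.length_take]
      omega
    · intro q hq
      refine h1 q ?_
      rw [← hl]
      exact List.mem_of_mem_take (Multiset.mem_coe.1 hq)
    · have hle : ((l.take 24 : List ℕ) : Multiset ℕ) ≤ L1 := by
        rw [← hl]
        exact Multiset.coe_le.2 (List.take_sublist 24 l).subperm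
      have h2 : (((l.take 24 : List ℕ) : Multiset ℕ).map (fun q => q - 1)).prod ∣
          (L1.map (fun q => q - 1)).prod :=
        Multiset.prod_dvd_prod_of_le (Multiset.map_le_map hle)
      rw [hprod, mul_assoc]
      exact h2.mul_right _
  · right
    refine ⟨(L1.map (fun q => q - 1)).prod, GJ_of_card_le (by omega) fun q hq => (h1 q hq).1,
      (L2.map (fun q => q - 1)).prod * Nat.totient m, ⟨L2, m, hm, ?_, hm2, rfl⟩, ?_⟩
    · intro q hq
      rw [hL2, Multiset.mem_filter] at hq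
      have := hL q hq.1
      exact ⟨this.1, this.2, by omega⟩
    · rw [hprod, mul_assoc]

theorem SSl_pos {k b w : ℕ} (hw : w ∈ SSl k b) : 0 < w := by
  obtain ⟨L, m, hm, hL, -, rfl⟩ := hw
  refine Nat.mul_pos ?_ (Nat.totient_pos.2 hm)
  refine Nat.pos_of_ne_zero ?_
  intro h
  rw [Multiset.prod_eq_zero_iff, Multiset.mem_map] at h
  obtain ⟨q, hq, hq0⟩ := h
  have := (hL q hq).1.two_le
  omega

theorem exp_calc {t b : ℝ} (ht : 16 ≤ t) (hb : b ≤ 45 / 100 * Real.log (Real.log t) + 1) :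
    Real.exp (8 * b) * Real.exp (-(Real.log √t / Real.exp b)) ≤
      Real.exp 200 / Real.log t := by
  have hlog : 1 < Real.log t := by
    have h1 := log16
    have h2 : Real.log 16 ≤ Real.log t := Real.log_le_log (by norm_num) ht
    have h3 := Real.exp_one_gt_d9
    linarith
  set τ := Real.log (Real.log t) with hτ
  have hτ0 : 0 ≤ τ := Real.log_nonneg hlog.le
  have hexp : Real.exp τ = Real.log t := Real.exp_log (by linarith)
  rw [le_div_iff₀ (by linarith), ← hexp, ← Real.exp_add, ← Real.exp_add]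
  refine Real.exp_le_exp.2 ?_
  rw [Real.log_sqrt (by linarith), ← hexp]
  have h1 : Real.exp τ / 2 / Real.exp b ≥ 277 / 10000 * τ ^ 2 := by
    have h2 : Real.exp τ / 2 / Real.exp b = Real.exp (τ - b) / 2 := by
      rw [Real.exp_sub]; ring
    rw [h2]
    have h3 : Real.exp (55 / 100 * τ - 1) ≤ Real.exp (τ - b) :=
      Real.exp_le_exp.2 (by linarith)
    have h4 : Real.exp (55 / 100 * τ - 1) = Real.exp (55 / 100 * τ) / Real.exp 1 :=
      Real.exp_sub _ _
    have h5 := Real.quadratic_le_exp_of_nonneg (show 0 ≤ 55 / 100 * τ by positivity)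
    have h6 := Real.exp_one_lt_d9
    have h7 : (55 / 100 * τ) ^ 2 / 2 / 2.7182818286 ≤ Real.exp (55 / 100 * τ) / Real.exp 1 := by
      refine div_le_div₀ (Real.exp_pos _).le (by nlinarith) (Real.exp_pos _) h6.le
    have h8 : (0 : ℝ) ≤ τ ^ 2 := by positivity
    have h9 : 2 * (277 / 10000 * τ ^ 2) ≤ (55 / 100 * τ) ^ 2 / 2 / 2.7182818286 := by
      rw [le_div_iff₀ (by norm_num)]
      nlinarith
    linarith
  nlinarith [sq_nonneg (τ - 83)]

theorem a_pre : ∃ C : ℝ, 0 < C ∧ ∀ (k b : ℕ) (t H : ℝ), 16 ≤ t → k ≤ b → 1 ≤ b →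
    (45 / 100 : ℝ) * Real.log (Real.log t) ≤ b →
    (b : ℝ) ≤ 45 / 100 * Real.log (Real.log t) + 1 → 1 ≤ H →
    (∀ T : ℕ, ∑ u ∈ (Icc 1 T).filter (fun u => u ∈ SSl k b), (1 : ℝ) / u ≤ H) →
    (((Icc 1 ⌊t⌋₊).filter (fun u : ℕ => u ∈ SS k)).card : ℝ) ≤
      C * (t / Real.log t) * l2 t ^ 23 * H := by
  obtain ⟨CT, hCT, hT⟩ := ss_tail
  obtain ⟨CP, hCP, hP⟩ := p0_bound
  obtain ⟨CG, hCG, hG⟩ := GJ_count 23
  refine ⟨CP + 2 * CG + CG * CT * Real.exp 200, by positivity, ?_⟩
  intro k b t H ht hkb hb1 hb2 hb3 hH hsum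
  have ht0 : 0 < t := by linarith
  have hs0 : 0 < √t := Real.sqrt_pos.2 ht0
  have hs1 : 1 ≤ √t := Real.one_le_sqrt.2 (by linarith)
  have hs2 : √t * √t = t := Real.mul_self_sqrt ht0.le
  have hlog : 1 < Real.log t := by
    have h1 := log16
    have h2 : Real.log 16 ≤ Real.log t := Real.log_le_log (by norm_num) ht
    have h3 := Real.exp_one_gt_d9
    linarith
  have hl2 : 1 ≤ l2 t := one_le_l2 ht0.le
  have hl23 : 1 ≤ l2 t ^ 23 := one_le_pow₀ hl2
  -- covering
  set P0 := (Icc 1 ⌊t⌋₊).filter (fun v : ℕ => ∃ L : Multiset ℕ, L.card = 24 ∧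
      (∀ q ∈ L, q.Prime ∧ (45 / 100 : ℝ) * Real.log (Real.log t) ≤ (lv q : ℝ) + 1) ∧
      (L.map (fun q => q - 1)).prod ∣ v) with hP0
  set W := (Icc 1 ⌊t⌋₊).filter (fun w => w ∈ SSl k b) with hW
  set Q : Finset (Σ _ : ℕ, ℕ) := W.sigma
    (fun w => (Icc 1 ⌊t / w⌋₊).filter (fun n => n ∈ GJ 23)) with hQ
  have hsub : (Icc 1 ⌊t⌋₊).filter (fun u : ℕ => u ∈ SS k) ⊆
      P0 ∪ Q.image (fun a => a.2 * a.1) := by
    intro u hu
    rw [Finset.mem_filter, Finset.mem_Icc] at hu
    obtain ⟨⟨hu1, hu2⟩, hu3⟩ := hu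
    rw [Finset.mem_union]
    rcases SS_split (b := b) hu3 with ⟨L, hL1, hL2, hL3⟩ | ⟨g, hg, w, hw, rfl⟩
    · left
      rw [hP0, Finset.mem_filter, Finset.mem_Icc]
      refine ⟨⟨hu1, hu2⟩, L, hL1, fun q hq => ⟨(hL2 q hq).1, ?_⟩, hL3⟩
      have h1 : (b : ℝ) ≤ lv q := by exact_mod_cast (hL2 q hq).2
      linarith
    · right
      have hw0 := SSl_pos hw
      have hg0 : 0 < g := by
        rcases Nat.eq_zero_or_pos g with h | h
        · subst h; simp at hu1
        · exact h
      have huX : ((g * w : ℕ) : ℝ) ≤ t := (Nat.le_floor_iff ht0.le).1 hu2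
      rw [Nat.cast_mul] at huX
      have hwR : (0 : ℝ) < w := by exact_mod_cast hw0
      rw [Finset.mem_image]
      refine ⟨⟨w, g⟩, ?_, rfl⟩
      rw [hQ, Finset.mem_sigma, hW, Finset.mem_filter, Finset.mem_filter, Finset.mem_Icc,
        Finset.mem_Icc]
      refine ⟨⟨⟨hw0, (Nat.le_mul_of_pos_left w hg0).trans hu2⟩, hw⟩, ⟨hg0, ?_⟩, hg⟩
      refine Nat.le_floor ?_
      simp only
      rw [le_div_iff₀ hwR]
      exact huX
  have hcard : (((Icc 1 ⌊t⌋₊).filter (fun u : ℕ => u ∈ SS k)).card : ℝ) ≤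
      (P0.card : ℝ) + Q.card := by
    have h1 := Finset.card_le_card hsub
    have h2 := Finset.card_union_le P0 (Q.image (fun a => a.2 * a.1))
    have h3 := Finset.card_image_le (s := Q) (f := fun a => a.2 * a.1)
    have h5 : ((Icc 1 ⌊t⌋₊).filter (fun u : ℕ => u ∈ SS k)).card ≤ P0.card + Q.card := by
      omega
    exact_mod_cast h5
  -- first part
  have hc1 : (P0.card : ℝ) ≤ CP * (t / Real.log t) * l2 t ^ 23 * H := by
    refine (hP t ht).trans ?_
    have h1 : Real.exp (-(105 / 100) * Real.log (Real.log t)) ≤ 1 / Real.log t := by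
      have h2 : 0 ≤ Real.log (Real.log t) := Real.log_nonneg hlog.le
      calc Real.exp (-(105 / 100) * Real.log (Real.log t))
          ≤ Real.exp (-Real.log (Real.log t)) := Real.exp_le_exp.2 (by linarith)
        _ = 1 / Real.log t := by rw [Real.exp_neg, Real.exp_log (by linarith), one_div]
    have h3 : 1 ≤ l2 t ^ 23 * H := one_le_mul_of_one_le_of_one_le hl23 hH
    calc CP * t * Real.exp (-(105 / 100) * Real.log (Real.log t))
        ≤ CP * t * (1 / Real.log t) := mul_le_mul_of_nonneg_left h1 (by positivity)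
      _ = CP * (t / Real.log t) * 1 := by ring
      _ ≤ CP * (t / Real.log t) * (l2 t ^ 23 * H) :=
          mul_le_mul_of_nonneg_left h3 (by positivity)
      _ = _ := by ring
  -- second part
  have hterm : ∀ w ∈ W, ((((Icc 1 ⌊t / w⌋₊).filter (fun n => n ∈ GJ 23)).card : ℕ) : ℝ) ≤
      2 * CG * (t / Real.log t) * l2 t ^ 23 * (1 / w) +
        (if √t < w then CG * t * l2 t ^ 23 * (1 / w) else 0) := by
    intro w hw
    rw [hW, Finset.mem_filter, Finset.mem_Icc] at hw
    have hw0 : (0 : ℝ) < w := by exact_mod_cast hw.1.1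
    have hwt : (w : ℝ) ≤ t := (Nat.le_floor_iff ht0.le).1 hw.1.2
    have hw1 : (1 : ℝ) ≤ w := by exact_mod_cast hw.1.1
    have hY1 : 1 ≤ t / w := by rw [le_div_iff₀ hw0]; linarith
    have hYt : t / w ≤ t := div_le_self ht0.le hw1
    have e1 := hG (t / w) hY1
    have e2 := one_le_l1 hY1
    have e3 : l2 (t / w) ^ 23 ≤ l2 t ^ 23 :=
      pow_le_pow_left₀ (by have := one_le_l2 (show 0 ≤ t / w by linarith); linarith)
        (l2_mono (by linarith) hYt) 23
    have e4 : CG * (t / w) * l2 (t / w) ^ 23 / l1 (t / w) ≤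
        CG * (t / w) * l2 t ^ 23 / l1 (t / w) := by
      refine div_le_div_of_nonneg_right ?_ (by linarith)
      exact mul_le_mul_of_nonneg_left e3 (by positivity)
    refine (e1.trans e4).trans ?_
    have hnn : 0 ≤ 2 * CG * (t / Real.log t) * l2 t ^ 23 * (1 / w) := by positivity
    split_ifs with h
    · have : CG * (t / w) * l2 t ^ 23 / l1 (t / w) ≤ CG * (t / w) * l2 t ^ 23 :=
        div_le_self (by positivity) e2
      have e5 : CG * (t / w) * l2 t ^ 23 = CG * t * l2 t ^ 23 * (1 / w) := by ring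
      linarith
    · push Not at h
      have hY : √t ≤ t / w := by
        rw [le_div_iff₀ hw0]
        nlinarith
      have e5 := l1_sqrt (show 1 ≤ t by linarith) hY
      have e6 : Real.log t ≤ l1 t := Real.log_le_log ht0 (by linarith)
      have e7 : CG * (t / w) * l2 t ^ 23 / l1 (t / w) ≤
          CG * (t / w) * l2 t ^ 23 / (Real.log t / 2) := by
        refine div_le_div_of_nonneg_left (by positivity) (by linarith) (by linarith)
      have e8 : CG * (t / w) * l2 t ^ 23 / (Real.log t / 2) =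
          2 * CG * (t / Real.log t) * l2 t ^ 23 * (1 / w) := by field_simp
      linarith
  have hc2 : (Q.card : ℝ) ≤ (2 * CG + CG * CT * Real.exp 200) * (t / Real.log t) *
      l2 t ^ 23 * H := by
    rw [hQ, Finset.card_sigma]
    push_cast
    refine (Finset.sum_le_sum hterm).trans ?_
    rw [Finset.sum_add_distrib, ← Finset.mul_sum, ← Finset.sum_filter, ← Finset.mul_sum]
    have h1 := hsum ⌊t⌋₊
    have h2 : W.filter (fun w : ℕ => √t < w) =
        (Icc 1 ⌊t⌋₊).filter (fun u : ℕ => u ∈ SSl k b ∧ √t < u) := by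
      rw [hW, Finset.filter_filter]
    have h3 := hT k b ⌊t⌋₊ √t hb1 hkb hs1
    rw [← h2] at h3
    have h4 := exp_calc ht hb3
    have h5 : ∑ u ∈ W.filter (fun w : ℕ => √t < w), (1 : ℝ) / u ≤
        CT * (Real.exp 200 / Real.log t) := by
      refine h3.trans ?_
      rw [mul_assoc]
      exact mul_le_mul_of_nonneg_left h4 hCT.le
    calc 2 * CG * (t / Real.log t) * l2 t ^ 23 * ∑ i ∈ W, (1 : ℝ) / i +
          CG * t * l2 t ^ 23 * ∑ i ∈ W.filter (fun w : ℕ => √t < w), (1 : ℝ) / i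
        ≤ 2 * CG * (t / Real.log t) * l2 t ^ 23 * H +
          CG * t * l2 t ^ 23 * (CT * (Real.exp 200 / Real.log t)) :=
          add_le_add (mul_le_mul_of_nonneg_left h1 (by positivity))
            (mul_le_mul_of_nonneg_left h5 (by positivity))
      _ = 2 * CG * (t / Real.log t) * l2 t ^ 23 * H +
          CG * CT * Real.exp 200 * (t / Real.log t) * l2 t ^ 23 * 1 := by ring
      _ ≤ 2 * CG * (t / Real.log t) * l2 t ^ 23 * H +
          CG * CT * Real.exp 200 * (t / Real.log t) * l2 t ^ 23 * H :=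
          add_le_add le_rfl (mul_le_mul_of_nonneg_left hH (by positivity))
      _ = _ := by ring
  calc (((Icc 1 ⌊t⌋₊).filter (fun u : ℕ => u ∈ SS k)).card : ℝ)
      ≤ (P0.card : ℝ) + Q.card := hcard
    _ ≤ CP * (t / Real.log t) * l2 t ^ 23 * H +
        (2 * CG + CG * CT * Real.exp 200) * (t / Real.log t) * l2 t ^ 23 * H :=
        add_le_add hc1 hc2
    _ = _ := by ring

end TR

end P031
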