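import Vale.Agent.P031.TRecA

/-! P031, [TREC], part 3: the recursion for the sums over `SSl k y`. -/

namespace P031

open Finset
open scoped Classical

namespace TR

/-- dyadic partial summation -/
theorem dyadic (S : Set ℕ) (n : ℕ) :
    ∑ u ∈ (Icc 1 n).filter (fun u => u ∈ S), (1 : ℝ) / u ≤
      ∑ i ∈ Finset.range (Nat.clog 2 n + 1),
        2 / 2 ^ i * (((Icc 1 (2 ^ i)).filter (fun u => u ∈ S)).card : ℝ) := by
  rw [← Finset.sum_fiberwise_of_maps_to (s := (Icc 1 n).filter (fun u => u ∈ S))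
    (t := Finset.range (Nat.clog 2 n + 1)) (g := Nat.clog 2)]
  · refine Finset.sum_le_sum fun i _ => ?_
    have h1 : ∀ u ∈ ((Icc 1 n).filter (fun u => u ∈ S)).filter (fun u => Nat.clog 2 u = i),
        (1 : ℝ) / u ≤ 2 / 2 ^ i := by
      intro u hu
      rw [Finset.mem_filter, Finset.mem_filter, Finset.mem_Icc] at hu
      obtain ⟨⟨⟨hu1, -⟩, -⟩, hi⟩ := hu
      have hu0 : (0 : ℝ) < u := by exact_mod_cast hu1
      have h2 : 2 ^ i ≤ 2 * u := by
        rcases Nat.lt_or_ge 1 u with h | h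
        · have h3 := Nat.pow_pred_clog_lt_self (b := 2) (by norm_num) h
          have h4 := Nat.clog_pos (b := 2) (by norm_num) h
          rw [hi] at h3 h4
          have h5 : 2 ^ i = 2 * 2 ^ (i - 1) := by
            rw [← pow_succ', Nat.sub_add_cancel h4]
          have h6 : 2 ^ (i - 1) < u := h3
          omega
        · have : u = 1 := by omega
          subst this
          rw [Nat.clog_one_right] at hi
          subst hi
          norm_num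
      have h2' : (2 : ℝ) ^ i ≤ 2 * u := by exact_mod_cast h2
      rw [div_le_div_iff₀ hu0 (by positivity)]
      linarith
    refine (Finset.sum_le_card_nsmul _ _ _ h1).trans ?_
    rw [nsmul_eq_mul, mul_comm]
    refine mul_le_mul_of_nonneg_left ?_ (by positivity)
    have h7 : ((Icc 1 n).filter (fun u => u ∈ S)).filter (fun u => Nat.clog 2 u = i) ⊆
        (Icc 1 (2 ^ i)).filter (fun u => u ∈ S) := by
      intro u hu
      rw [Finset.mem_filter, Finset.mem_filter, Finset.mem_Icc] at hu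
      rw [Finset.mem_filter, Finset.mem_Icc]
      refine ⟨⟨hu.1.1.1, ?_⟩, hu.1.2⟩
      rw [← hu.2]
      exact Nat.le_pow_clog (by norm_num) u
    exact_mod_cast Finset.card_le_card h7
  · intro u hu
    rw [Finset.mem_filter, Finset.mem_Icc] at hu
    rw [Finset.mem_range]
    exact Nat.lt_succ_of_le (Nat.clog_mono_right 2 hu.1.2)

theorem sum_range_inv (I : ℕ) : ∑ i ∈ Finset.range (I + 1), (1 : ℝ) / i ≤ 1 + Real.log I := by
  rw [Finset.sum_range_succ']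
  have h := harmonic_le_one_add_log I
  unfold harmonic at h
  push_cast at h
  simp only [Nat.cast_zero, div_zero, add_zero]
  refine le_trans (le_of_eq ?_) h
  refine Finset.sum_congr rfl fun i _ => ?_
  push_cast
  rw [one_div]

theorem sum_range_ite (I : ℕ) {R : ℝ} (hR : 0 ≤ R) :
    ∑ i ∈ Finset.range (I + 1), (if (i : ℝ) ≤ R then (2 : ℝ) else 0) ≤ 2 * (R + 1) := by
  rw [← Finset.sum_filter, Finset.sum_const, nsmul_eq_mul, mul_comm]
  refine mul_le_mul_of_nonneg_left ?_ (by norm_num)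
  have hsub : (Finset.range (I + 1)).filter (fun i : ℕ => (i : ℝ) ≤ R) ⊆
      Finset.range (⌊R⌋₊ + 1) := by
    intro i hi
    rw [Finset.mem_filter] at hi
    rw [Finset.mem_range]
    exact Nat.lt_succ_of_le (Nat.le_floor hi.2)
  have h := Finset.card_le_card hsub
  rw [Finset.card_range] at h
  have h2 : (((Finset.range (I + 1)).filter (fun i : ℕ => (i : ℝ) ≤ R)).card : ℝ) ≤
      (⌊R⌋₊ : ℝ) + 1 := by exact_mod_cast h
  have := Nat.floor_le hR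
  linarith

theorem SSl_mono {k y y' : ℕ} (h : y ≤ y') : SSl k y ⊆ SSl k y' := by
  rintro u ⟨L, m, hm, hL, hm2, rfl⟩
  exact ⟨L, m, hm, fun q hq => ⟨(hL q hq).1, (hL q hq).2.1, (hL q hq).2.2.trans_le h⟩, hm2, rfl⟩

theorem SSl_subset_SS {k y : ℕ} : SSl k y ⊆ SS k := by
  rintro u ⟨L, m, hm, hL, hm2, rfl⟩
  exact ⟨L, m, hm, fun q hq => ⟨(hL q hq).1, (hL q hq).2.1⟩, hm2, rfl⟩

theorem card_le_pow (S : Set ℕ) (i : ℕ) :
    (((Icc 1 (2 ^ i)).filter (fun u => u ∈ S)).card : ℝ) ≤ 2 ^ i := by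
  have h := Finset.card_filter_le (Icc 1 (2 ^ i)) (fun u => u ∈ S)
  rw [Nat.card_Icc, Nat.add_sub_cancel] at h
  exact_mod_cast h

/-- numerical facts about the cut-off `Z` -/
theorem cut_facts {y : ℝ} (hy : 1 ≤ y) :
    10 ≤ Real.exp (9 * y * Real.exp y) ∧ Real.log (9 * y * Real.exp y * Real.exp 1) =
      Real.log (9 * y) + y + 1 := by
  have hE : 1 ≤ Real.exp y := Real.one_le_exp (by linarith)
  constructor
  · have := Real.add_one_le_exp (9 * y * Real.exp y)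
    nlinarith
  · rw [Real.log_mul (by positivity) (Real.exp_pos _).ne', Real.log_mul (by positivity)
      (Real.exp_pos _).ne', Real.log_exp, Real.log_exp]

theorem log18 : Real.log 18 ≤ 3 := by
  have h1 : Real.log 18 = Real.log 16 + Real.log (18 / 16) := by
    rw [← Real.log_mul (by norm_num) (by norm_num)]
    norm_num
  have h2 : Real.log 16 = 4 * Real.log 2 := by
    rw [show (16 : ℝ) = 2 ^ 4 by norm_num, Real.log_pow]
    norm_num
  have h3 := Real.log_le_sub_one_of_pos (show (0 : ℝ) < 18 / 16 by norm_num)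
  have h4 := Real.log_two_lt_d9
  linarith

/-- bounds for `t ≤ 2 Z` -/
theorem t_facts {y t : ℝ} (hy : 1 ≤ y) (ht : 16 ≤ t)
    (ht2 : t ≤ 2 * Real.exp (9 * y * Real.exp y)) :
    Real.log (Real.log t) ≤ Real.log (9 * y) + y + 1 ∧ l2 t ≤ 3 * (y + 1) := by
  obtain ⟨hZ, he⟩ := cut_facts hy
  have hE : 1 ≤ Real.exp y := Real.one_le_exp (by linarith)
  have hyE : 1 ≤ y * Real.exp y := one_le_mul_of_one_le_of_one_le hy hE
  have hlog1 : 1 < Real.log t := by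
    have h1 := log16
    have h2 : Real.log 16 ≤ Real.log t := Real.log_le_log (by norm_num) ht
    have h3 := Real.exp_one_gt_d9
    linarith
  set Z := Real.exp (9 * y * Real.exp y) with hZdef
  have hlogZ : Real.log Z = 9 * y * Real.exp y := Real.log_exp _
  constructor
  · have h1 : Real.log t ≤ 9 * y * Real.exp y * Real.exp 1 := by
      have h2 : Real.log t ≤ Real.log (2 * Z) := Real.log_le_log (by linarith) ht2
      rw [Real.log_mul (by norm_num) (by positivity), hlogZ] at h2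
      have h3 := Real.log_two_lt_d9
      have h4 := Real.exp_one_gt_d9
      nlinarith
    rw [← he]
    exact Real.log_le_log (by linarith) h1
  · unfold l2
    have h1 : Real.log (t + 16) ≤ 18 * (y * Real.exp y) := by
      have h2 : Real.log (t + 16) ≤ Real.log (Z ^ 2) :=
        Real.log_le_log (by linarith) (by nlinarith)
      rw [Real.log_pow, hlogZ] at h2
      push_cast at h2
      linarith
    have h3 : Real.log (Real.log (t + 16)) ≤ Real.log (18 * (y * Real.exp y)) := by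
      refine Real.log_le_log ?_ h1
      exact lt_of_lt_of_le (Real.exp_pos 1) (exp_one_le_log (by linarith))
    rw [Real.log_mul (by norm_num) (by positivity), Real.log_mul (by positivity)
      (by positivity), Real.log_exp] at h3
    have h4 := log18
    have h5 := Real.log_le_sub_one_of_pos (show 0 < y by linarith)
    linarith

/-- hypothesis: the a-priori bound `a_pre` with constant `Ca` -/
def APre (Ca : ℝ) : Prop := ∀ (k b : ℕ) (t H : ℝ), 16 ≤ t → k ≤ b → 1 ≤ b →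
    (45 / 100 : ℝ) * Real.log (Real.log t) ≤ b →
    (b : ℝ) ≤ 45 / 100 * Real.log (Real.log t) + 1 → 1 ≤ H →
    (∀ T : ℕ, ∑ u ∈ (Icc 1 T).filter (fun u => u ∈ SSl k b), (1 : ℝ) / u ≤ H) →
    (((Icc 1 ⌊t⌋₊).filter (fun u : ℕ => u ∈ SS k)).card : ℝ) ≤
      Ca * (t / Real.log t) * l2 t ^ 23 * H

theorem sum_mono {S S' : Set ℕ} (h : S ⊆ S') (T : ℕ) :
    ∑ u ∈ (Icc 1 T).filter (fun u => u ∈ S), (1 : ℝ) / u ≤
      ∑ u ∈ (Icc 1 T).filter (fun u => u ∈ S'), (1 : ℝ) / u := by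
  refine Finset.sum_le_sum_of_subset_of_nonneg ?_ fun _ _ _ => by positivity
  intro u hu
  rw [Finset.mem_filter] at hu ⊢
  exact ⟨hu.1, h hu.2⟩

theorem one_lt_log {t : ℝ} (ht : 16 ≤ t) : 1 < Real.log t := by
  have h1 := log16
  have h2 : Real.log 16 ≤ Real.log t := Real.log_le_log (by norm_num) ht
  have h3 := Real.exp_one_gt_d9
  linarith

/-- the main case of one dyadic block -/
theorem block_main {Ca : ℝ} (hCa : 0 < Ca) (hA : APre Ca) {k y b b' i : ℕ} {H : ℝ}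
    (hy : (1 : ℝ) ≤ y) (hH : 1 ≤ H) (h4 : 4 ≤ i)
    (ht2 : (2 : ℝ) ^ i ≤ 2 * Real.exp (9 * y * Real.exp y))
    (hb1 : (45 / 100 : ℝ) * Real.log (Real.log (2 ^ i)) ≤ b)
    (hb2 : (b : ℝ) ≤ 45 / 100 * Real.log (Real.log (2 ^ i)) + 1) (hb0 : 1 ≤ b)
    (hkb : k ≤ b) (hbb : b ≤ b')
    (hsum : ∀ T : ℕ, ∑ u ∈ (Icc 1 T).filter (fun u => u ∈ SSl k b'), (1 : ℝ) / u ≤ H) :
    2 / 2 ^ i * (((Icc 1 (2 ^ i)).filter (fun u => u ∈ SS k)).card : ℝ) ≤
      2 * Ca * (3 * ((y : ℝ) + 1)) ^ 23 / Real.log 2 * H * (1 / i) := by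
  have ht16 : (16 : ℝ) ≤ 2 ^ i := by
    calc (16 : ℝ) = 2 ^ 4 := by norm_num
      _ ≤ 2 ^ i := pow_le_pow_right₀ (by norm_num) h4
  obtain ⟨-, hl⟩ := t_facts hy ht16 ht2
  have hfl : ⌊(2 : ℝ) ^ i⌋₊ = 2 ^ i := by
    have : ((2 : ℝ) ^ i) = ((2 ^ i : ℕ) : ℝ) := by push_cast; rfl
    rw [this, Nat.floor_natCast]
  have h1 := hA k b (2 ^ i) H ht16 hkb hb0 hb1 hb2 hH
    (fun T => (sum_mono (SSl_mono hbb) T).trans (hsum T))
  rw [hfl] at h1
  have hlogt : Real.log ((2 : ℝ) ^ i) = i * Real.log 2 := Real.log_pow _ _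
  have hlog1 := one_lt_log ht16
  have hl1 : 1 ≤ l2 ((2 : ℝ) ^ i) := one_le_l2 (by linarith)
  have hi0 : (0 : ℝ) < i := by exact_mod_cast (by omega : 0 < i)
  have hlog2 : 0 < Real.log 2 := Real.log_pos (by norm_num)
  obtain ⟨t, ht⟩ : ∃ t : ℝ, t = 2 ^ i := ⟨_, rfl⟩
  rw [← ht] at h1 hl hlogt hlog1 hl1 ht16 ⊢
  have h2 : l2 t ^ 23 ≤ (3 * ((y : ℝ) + 1)) ^ 23 := pow_le_pow_left₀ (by linarith) hl 23
  obtain ⟨Y, hY⟩ : ∃ Y : ℝ, Y = (3 * ((y : ℝ) + 1)) ^ 23 := ⟨_, rfl⟩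
  rw [← hY] at h2 ⊢
  obtain ⟨Lt, hLt⟩ : ∃ Lt : ℝ, Lt = l2 t ^ 23 := ⟨_, rfl⟩
  rw [← hLt] at h1 h2
  have ht0 : 0 < t := by linarith
  calc 2 / t * (((Icc 1 (2 ^ i)).filter (fun u => u ∈ SS k)).card : ℝ)
      ≤ 2 / t * (Ca * (t / Real.log t) * Lt * H) := mul_le_mul_of_nonneg_left h1 (by positivity)
    _ = 2 * Ca / Real.log t * H * Lt := by field_simp
    _ ≤ 2 * Ca / Real.log t * H * Y := mul_le_mul_of_nonneg_left h2 (by positivity)
    _ = 2 * Ca * Y / Real.log 2 * H * (1 / i) := by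
        rw [hlogt]
        field_simp

/-- one dyadic block -/
theorem block {Ca : ℝ} (hCa : 0 < Ca) (hA : APre Ca) {k y b' i : ℕ} {H : ℝ}
    (hy : (1 : ℝ) ≤ y) (hH : 1 ≤ H)
    (ht2 : (2 : ℝ) ^ i ≤ 2 * Real.exp (9 * y * Real.exp y))
    (hb' : 45 / 100 * (Real.log (9 * (y : ℝ)) + y + 1) + 1 ≤ (b' : ℝ))
    (hsum : ∀ T : ℕ, ∑ u ∈ (Icc 1 T).filter (fun u => u ∈ SSl k b'), (1 : ℝ) / u ≤ H) :
    2 / 2 ^ i * (((Icc 1 (2 ^ i)).filter (fun u => u ∈ SS k)).card : ℝ) ≤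
        (if (i : ℝ) ≤ 3 * Real.exp (3 * k) then 2 else 0) +
          2 * Ca * (3 * ((y : ℝ) + 1)) ^ 23 / Real.log 2 * H * (1 / i) := by
  have hlog2 : 0 < Real.log 2 := Real.log_pos (by norm_num)
  have he3 : 1 ≤ Real.exp (3 * (k : ℝ)) := Real.one_le_exp (by positivity)
  have hcard := card_le_pow (SS k) i
  have hp : (0 : ℝ) < 2 ^ i := by positivity
  have hle2 : 2 / 2 ^ i * (((Icc 1 (2 ^ i)).filter (fun u => u ∈ SS k)).card : ℝ) ≤ 2 := by
    calc 2 / 2 ^ i * (((Icc 1 (2 ^ i)).filter (fun u => u ∈ SS k)).card : ℝ)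
        ≤ 2 / 2 ^ i * 2 ^ i := mul_le_mul_of_nonneg_left hcard (by positivity)
      _ = 2 := div_mul_cancel₀ _ hp.ne'
  have hnn : 0 ≤ 2 * Ca * (3 * ((y : ℝ) + 1)) ^ 23 / Real.log 2 * H * (1 / (i : ℝ)) := by
    positivity
  rcases Nat.lt_or_ge i 4 with h4 | h4
  · have hi3 : (i : ℝ) ≤ 3 := by exact_mod_cast (by omega : i ≤ 3)
    rw [if_pos (by linarith)]
    linarith
  · have ht16 : (16 : ℝ) ≤ 2 ^ i := by
      calc (16 : ℝ) = 2 ^ 4 := by norm_num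
        _ ≤ 2 ^ i := pow_le_pow_right₀ (by norm_num) h4
    obtain ⟨hτ, -⟩ := t_facts hy ht16 ht2
    have hlog1 := one_lt_log ht16
    have hτ0 : 0 < Real.log (Real.log ((2 : ℝ) ^ i)) := Real.log_pos hlog1
    obtain ⟨b, hb⟩ : ∃ b : ℕ, b = ⌈(45 / 100 : ℝ) * Real.log (Real.log (2 ^ i))⌉₊ := ⟨_, rfl⟩
    have hb1 : (45 / 100 : ℝ) * Real.log (Real.log (2 ^ i)) ≤ b := by
      rw [hb]; exact Nat.le_ceil _
    have hb2 : (b : ℝ) < 45 / 100 * Real.log (Real.log (2 ^ i)) + 1 := by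
      rw [hb]; exact Nat.ceil_lt_add_one (by positivity)
    have hb0 : 1 ≤ b := Nat.one_le_iff_ne_zero.2 (by
      intro h0
      rw [h0, Nat.cast_zero] at hb1
      linarith)
    rcases le_or_gt k b with hkb2 | hkb2
    · have hbb : b ≤ b' := by
        have : (b : ℝ) ≤ b' := by linarith
        exact_mod_cast this
      have h1 := block_main hCa hA hy hH h4 ht2 hb1 hb2.le hb0 hkb2 hbb hsum
      have h5 : (0 : ℝ) ≤ if (i : ℝ) ≤ 3 * Real.exp (3 * k) then (2 : ℝ) else 0 := by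
        split_ifs <;> norm_num
      linarith
    · have h1 : (b : ℝ) < k := by exact_mod_cast hkb2
      have h2 : Real.log (Real.log ((2 : ℝ) ^ i)) ≤ 3 * k := by
        have : (0 : ℝ) ≤ k := by positivity
        linarith
      have h3 : Real.log ((2 : ℝ) ^ i) ≤ Real.exp (3 * k) := by
        rw [← Real.exp_log (show 0 < Real.log ((2 : ℝ) ^ i) by linarith)]
        exact Real.exp_le_exp.2 h2
      have h4 : (i : ℝ) ≤ 3 * Real.exp (3 * k) := by
        rw [Real.log_pow] at h3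
        have h5 := Real.log_two_gt_d9
        have h6 : (0 : ℝ) ≤ i := by positivity
        nlinarith
      rw [if_pos h4]
      linarith

/-- the number of dyadic blocks -/
theorem blocks {Z y : ℝ} (hy : 1 ≤ y) (hZ : Z = Real.exp (9 * y * Real.exp y)) :
    0 < Nat.clog 2 ⌊Z⌋₊ ∧ (2 : ℝ) ^ Nat.clog 2 ⌊Z⌋₊ ≤ 2 * Z ∧
      1 + Real.log (Nat.clog 2 ⌊Z⌋₊) ≤ 4 * (y + 1) := by
  have hE : 1 ≤ Real.exp y := Real.one_le_exp (by linarith)
  have hyE : 1 ≤ y * Real.exp y := one_le_mul_of_one_le_of_one_le hy hE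
  obtain ⟨hZ10, -⟩ := cut_facts hy
  rw [← hZ] at hZ10
  have hlogZ : Real.log Z = 9 * y * Real.exp y := by rw [hZ, Real.log_exp]
  obtain ⟨n, hn⟩ : ∃ n : ℕ, n = ⌊Z⌋₊ := ⟨_, rfl⟩
  rw [← hn]
  obtain ⟨I, hI⟩ : ∃ I : ℕ, I = Nat.clog 2 n := ⟨_, rfl⟩
  rw [← hI]
  have hn1 : 1 < n := by
    have : 2 ≤ n := by
      rw [hn]
      exact Nat.le_floor (by push_cast; linarith)
    omega
  have hnZ : (n : ℝ) ≤ Z := by rw [hn]; exact Nat.floor_le (by linarith)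
  have hI0 : 0 < I := by rw [hI]; exact Nat.clog_pos (by norm_num) hn1
  have h2I : (2 : ℝ) ^ I ≤ 2 * Z := by
    have h3 := Nat.pow_pred_clog_lt_self (b := 2) (by norm_num) hn1
    rw [← hI] at h3
    have h5 : 2 ^ I = 2 * 2 ^ (I - 1) := by
      rw [← pow_succ', Nat.sub_add_cancel hI0]
    have h6 : 2 ^ (I - 1) < n := h3
    have h7 : 2 ^ I ≤ 2 * n := by omega
    have h8 : (2 : ℝ) ^ I ≤ 2 * n := by exact_mod_cast h7
    linarith
  refine ⟨hI0, h2I, ?_⟩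
  have h4 : (I : ℝ) * Real.log 2 ≤ Real.log 2 + 9 * y * Real.exp y := by
    rw [← hlogZ, ← Real.log_mul (by norm_num) (by linarith), ← Real.log_pow]
    exact Real.log_le_log (by positivity) h2I
  have h5 : (I : ℝ) ≤ 14 * (y * Real.exp y) := by
    have h6 := Real.log_two_gt_d9
    have h7 := Real.log_two_lt_d9
    have h8 : (0 : ℝ) ≤ I := by positivity
    nlinarith
  have hI0' : (0 : ℝ) < I := by exact_mod_cast hI0
  have h6 : Real.log I ≤ Real.log (18 * (y * Real.exp y)) :=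
    Real.log_le_log hI0' (by linarith)
  rw [Real.log_mul (by norm_num) (by positivity), Real.log_mul (by positivity)
    (by positivity), Real.log_exp] at h6
  have h7 := log18
  have h8 := Real.log_le_sub_one_of_pos (show 0 < y by linarith)
  linarith

/-- splitting a sum over `SSl k y` at `Z` -/
theorem split_sum (k y T : ℕ) {Z : ℝ} {S : Set ℕ} (hS : SSl k y ⊆ S) :
    ∑ u ∈ (Icc 1 T).filter (fun u => u ∈ SSl k y), (1 : ℝ) / u ≤
      ∑ u ∈ (Icc 1 ⌊Z⌋₊).filter (fun u => u ∈ S), (1 : ℝ) / u +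
      ∑ u ∈ (Icc 1 T).filter (fun u : ℕ => u ∈ SSl k y ∧ Z < u), (1 : ℝ) / u := by
  have hsub : (Icc 1 T).filter (fun u => u ∈ SSl k y) ⊆
      (Icc 1 ⌊Z⌋₊).filter (fun u => u ∈ S) ∪
        (Icc 1 T).filter (fun u : ℕ => u ∈ SSl k y ∧ Z < u) := by
    intro u hu
    rw [Finset.mem_filter, Finset.mem_Icc] at hu
    rw [Finset.mem_union, Finset.mem_filter, Finset.mem_filter, Finset.mem_Icc, Finset.mem_Icc]
    rcases le_or_gt (u : ℝ) Z with h | h
    · left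
      exact ⟨⟨hu.1.1, Nat.le_floor h⟩, hS hu.2⟩
    · right
      exact ⟨hu.1, hu.2, h⟩
  refine (Finset.sum_le_sum_of_subset_of_nonneg hsub fun _ _ _ => by positivity).trans ?_
  have := Finset.sum_union_inter (s₁ := (Icc 1 ⌊Z⌋₊).filter (fun u => u ∈ S))
    (s₂ := (Icc 1 T).filter (fun u : ℕ => u ∈ SSl k y ∧ Z < u)) (f := fun u : ℕ => (1 : ℝ) / u)
  have h0 : 0 ≤ ∑ u ∈ (Icc 1 ⌊Z⌋₊).filter (fun u => u ∈ S) ∩
      (Icc 1 T).filter (fun u : ℕ => u ∈ SSl k y ∧ Z < u), (1 : ℝ) / u :=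
    Finset.sum_nonneg fun _ _ => by positivity
  linarith

theorem small_sum {Ca : ℝ} (hCa : 0 < Ca) (hA : APre Ca) {k y b' : ℕ} {H : ℝ}
    (hy : (1 : ℝ) ≤ y) (hH : 1 ≤ H)
    (hb' : 45 / 100 * (Real.log (9 * (y : ℝ)) + y + 1) + 1 ≤ (b' : ℝ))
    (hsum : ∀ T : ℕ, ∑ u ∈ (Icc 1 T).filter (fun u => u ∈ SSl k b'), (1 : ℝ) / u ≤ H) :
    ∑ u ∈ (Icc 1 ⌊Real.exp (9 * y * Real.exp y)⌋₊).filter (fun u => u ∈ SS k), (1 : ℝ) / u ≤
      8 * Real.exp (3 * k) +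
        2 * Ca * (3 * ((y : ℝ) + 1)) ^ 23 / Real.log 2 * H * (4 * ((y : ℝ) + 1)) := by
  obtain ⟨Z, hZ⟩ : ∃ Z, Z = Real.exp (9 * (y : ℝ) * Real.exp y) := ⟨_, rfl⟩
  obtain ⟨hI0, h2I, hlI⟩ := blocks hy hZ
  rw [← hZ]
  have hlog2 : 0 < Real.log 2 := Real.log_pos (by norm_num)
  obtain ⟨K1, hK1⟩ : ∃ K1 : ℝ, K1 = 2 * Ca * (3 * ((y : ℝ) + 1)) ^ 23 / Real.log 2 := ⟨_, rfl⟩
  have hK1n : 0 ≤ K1 := by rw [hK1]; positivity
  refine (dyadic (SS k) ⌊Z⌋₊).trans ?_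
  obtain ⟨I, hI⟩ : ∃ I : ℕ, I = Nat.clog 2 ⌊Z⌋₊ := ⟨_, rfl⟩
  rw [← hI] at hI0 h2I hlI ⊢
  have hterm : ∀ i ∈ Finset.range (I + 1),
      2 / 2 ^ i * (((Icc 1 (2 ^ i)).filter (fun u => u ∈ SS k)).card : ℝ) ≤
        (if (i : ℝ) ≤ 3 * Real.exp (3 * k) then 2 else 0) + K1 * H * (1 / i) := by
    intro i hi
    rw [Finset.mem_range] at hi
    rw [hK1]
    refine block hCa hA hy hH ?_ hb' hsum
    rw [← hZ]
    exact le_trans (pow_le_pow_right₀ (by norm_num) (by omega)) h2I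
  refine (Finset.sum_le_sum hterm).trans ?_
  rw [Finset.sum_add_distrib, ← Finset.mul_sum, ← hK1]
  have h1 := sum_range_ite I (show 0 ≤ 3 * Real.exp (3 * (k : ℝ)) by positivity)
  have h2 := sum_range_inv I
  have he3 : 1 ≤ Real.exp (3 * (k : ℝ)) := Real.one_le_exp (by positivity)
  have h4 : K1 * H * ∑ i ∈ Finset.range (I + 1), (1 : ℝ) / i ≤
      K1 * H * (4 * ((y : ℝ) + 1)) :=
    mul_le_mul_of_nonneg_left (h2.trans hlI) (by positivity)
  linarith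

theorem h_rec : ∃ C : ℝ, 1 ≤ C ∧ ∀ (k y b' : ℕ) (H : ℝ), 1 ≤ y → k ≤ y →
    45 / 100 * (Real.log (9 * (y : ℝ)) + y + 1) + 1 ≤ (b' : ℝ) → 1 ≤ H →
    (∀ T : ℕ, ∑ u ∈ (Icc 1 T).filter (fun u => u ∈ SSl k b'), (1 : ℝ) / u ≤ H) →
    ∀ T : ℕ, ∑ u ∈ (Icc 1 T).filter (fun u => u ∈ SSl k y), (1 : ℝ) / u ≤
      C * ((y : ℝ) + 1) ^ 24 * H + C * Real.exp (3 * k) := by
  obtain ⟨CT, hCT, hT⟩ := ss_tail
  obtain ⟨Ca, hCa, hA⟩ := a_pre
  have hlog2 : 0 < Real.log 2 := Real.log_pos (by norm_num)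
  obtain ⟨K0, hK0⟩ : ∃ K0 : ℝ, K0 = 8 * Ca * 3 ^ 23 / Real.log 2 := ⟨_, rfl⟩
  have hK0n : 0 ≤ K0 := by rw [hK0]; positivity
  refine ⟨CT + 8 + K0, by linarith, ?_⟩
  intro k y b' H hy hky hb' hH hsum T
  have hyR : (1 : ℝ) ≤ y := by exact_mod_cast hy
  obtain ⟨hZ10, -⟩ := cut_facts hyR
  have hsmall := small_sum hCa hA hyR hH hb' hsum
  obtain ⟨Z, hZ⟩ : ∃ Z, Z = Real.exp (9 * (y : ℝ) * Real.exp y) := ⟨_, rfl⟩
  rw [← hZ] at hZ10 hsmall
  have hlogZ : Real.log Z = 9 * y * Real.exp y := by rw [hZ, Real.log_exp]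
  have he3 : 1 ≤ Real.exp (3 * (k : ℝ)) := Real.one_le_exp (by positivity)
  -- large part
  have hlarge : ∑ u ∈ (Icc 1 T).filter (fun u : ℕ => u ∈ SSl k y ∧ Z < u), (1 : ℝ) / u ≤ CT := by
    refine (hT k y T Z hy hky (by linarith)).trans ?_
    rw [hlogZ, mul_assoc, ← Real.exp_add]
    have e1 : 8 * (y : ℝ) + -(9 * y * Real.exp y / Real.exp y) = -y := by
      rw [mul_div_assoc, div_self (Real.exp_pos _).ne']
      ring
    rw [e1]
    have : Real.exp (-(y : ℝ)) ≤ 1 := Real.exp_le_one_iff.2 (by linarith)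
    nlinarith
  have hsplit := split_sum k y T (Z := Z) (SSl_subset_SS (k := k) (y := y))
  have hK1e : 2 * Ca * (3 * ((y : ℝ) + 1)) ^ 23 / Real.log 2 * H * (4 * ((y : ℝ) + 1)) =
      K0 * (((y : ℝ) + 1) ^ 24 * H) := by
    rw [hK0, mul_pow]
    ring
  rw [hK1e] at hsmall
  obtain ⟨Y, hY⟩ : ∃ Y : ℝ, Y = ((y : ℝ) + 1) ^ 24 * H := ⟨_, rfl⟩
  have hY0 : 0 ≤ Y := by rw [hY]; positivity
  rw [mul_assoc (CT + 8 + K0), ← hY]
  rw [← hY] at hsmall
  have hf3 : 0 ≤ (CT + 8) * Y := by positivity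
  have hf4 : 0 ≤ K0 * Real.exp (3 * k) := by positivity
  have hf5 : CT ≤ CT * Real.exp (3 * k) := le_mul_of_one_le_right hCT.le he3
  nlinarith

end TR

end P031
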