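import Vale.Agent.P031.Cheb
import Vale.Agent.P031.Mert

/-! P031, [TREC], part 1: counting products of a bounded number of shifted primes. -/

namespace P031

open Finset
open scoped Classical

namespace TR

/-- products of `j` shifted primes -/
def GJ (j : ℕ) : Set ℕ :=
  {n | ∃ L : Multiset ℕ, L.card = j ∧ (∀ q ∈ L, q.Prime) ∧ n = (L.map (fun q => q - 1)).prod}

theorem GJ_zero {n : ℕ} (h : n ∈ GJ 0) : n = 1 := by
  obtain ⟨L, hL, -, rfl⟩ := h
  rw [Multiset.card_eq_zero] at hL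
  subst hL
  simp

theorem GJ_succ {j n : ℕ} (h : n ∈ GJ (j + 1)) :
    ∃ m ∈ GJ j, ∃ q : ℕ, q.Prime ∧ n = m * (q - 1) := by
  obtain ⟨L, hL, hp, rfl⟩ := h
  obtain ⟨q, hq⟩ := Multiset.card_pos_iff_exists_mem.1 (show 0 < L.card by omega)
  obtain ⟨L', rfl⟩ := Multiset.exists_cons_of_mem hq
  refine ⟨(L'.map (fun q => q - 1)).prod, ⟨L', ?_, fun r hr => hp r (Multiset.mem_cons_of_mem hr),
    rfl⟩, q, hp q (Multiset.mem_cons_self _ _), ?_⟩
  · rw [Multiset.card_cons] at hL
    omega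
  · rw [Multiset.map_cons, Multiset.prod_cons, mul_comm]

noncomputable def l1 (x : ℝ) : ℝ := Real.log (x + 2)
noncomputable def l2 (x : ℝ) : ℝ := Real.log (Real.log (x + 16))

theorem log16 : Real.exp 1 ≤ Real.log 16 := by
  have h : Real.log 16 = 4 * Real.log 2 := by
    rw [show (16 : ℝ) = 2 ^ 4 by norm_num, Real.log_pow]
    norm_num
  rw [h]
  have := Real.log_two_gt_d9
  have := Real.exp_one_lt_d9
  linarith

theorem exp_one_le_log {x : ℝ} (hx : 0 ≤ x) : Real.exp 1 ≤ Real.log (x + 16) :=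
  log16.trans (Real.log_le_log (by norm_num) (by linarith))

theorem one_le_l2 {x : ℝ} (hx : 0 ≤ x) : 1 ≤ l2 x := by
  unfold l2
  rw [Real.le_log_iff_exp_le (lt_of_lt_of_le (Real.exp_pos _) (exp_one_le_log hx))]
  exact exp_one_le_log hx

theorem l2_mono {x y : ℝ} (hx : 0 ≤ x) (hxy : x ≤ y) : l2 x ≤ l2 y := by
  unfold l2
  refine Real.log_le_log (lt_of_lt_of_le (Real.exp_pos _) (exp_one_le_log hx)) ?_
  exact Real.log_le_log (by linarith) (by linarith)

theorem one_le_l1 {x : ℝ} (hx : 1 ≤ x) : 1 ≤ l1 x := by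
  unfold l1
  rw [Real.le_log_iff_exp_le (by linarith)]
  have := Real.exp_one_lt_d9
  linarith

theorem l1_mono {x y : ℝ} (hx : 0 ≤ x) (hxy : x ≤ y) : l1 x ≤ l1 y :=
  Real.log_le_log (by linarith) (by linarith)

theorem l1_sqrt {x y : ℝ} (hx : 1 ≤ x) (hy : √x ≤ y) : l1 x ≤ 2 * l1 y := by
  have hs : 0 ≤ √x := Real.sqrt_nonneg x
  have h1 : l1 x ≤ 2 * l1 √x := by
    unfold l1
    have e : 2 * Real.log (√x + 2) = Real.log ((√x + 2) ^ 2) := by
      rw [Real.log_pow]; norm_num
    rw [e]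
    refine Real.log_le_log (by linarith) ?_
    have := Real.sq_sqrt (show 0 ≤ x by linarith)
    nlinarith
  have h2 := l1_mono hs hy
  linarith

/-- covering bound -/
theorem sum_cover {α : Type} (S : Finset ℕ) (P : Finset α) (f : α → ℕ) (g : ℕ → ℝ)
    (hg : ∀ n, 0 ≤ g n) (h : ∀ n ∈ S, ∃ a ∈ P, f a = n) :
    ∑ n ∈ S, g n ≤ ∑ a ∈ P, g (f a) := by
  rw [Finset.sum_comp g f]
  have hsub : S ⊆ P.image f := by
    intro n hn
    obtain ⟨a, ha, rfl⟩ := h n hn
    exact Finset.mem_image_of_mem f ha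
  refine (Finset.sum_le_sum_of_subset_of_nonneg hsub fun _ _ _ => hg _).trans ?_
  refine Finset.sum_le_sum fun b hb => ?_
  obtain ⟨a, ha, hab⟩ := Finset.mem_image.1 hb
  have hc : 1 ≤ (P.filter fun a => f a = b).card :=
    Finset.card_pos.2 ⟨a, Finset.mem_filter.2 ⟨ha, hab⟩⟩
  rw [nsmul_eq_mul]
  have hc' : (1 : ℝ) ≤ ((P.filter fun a => f a = b).card : ℝ) := by exact_mod_cast hc
  nlinarith [hg b]

theorem mem_primesLE {n p : ℕ} : p ∈ Nat.primesLE n ↔ p ≤ n ∧ p.Prime := Nat.mem_primesLE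

theorem card_primesLE (n : ℕ) : (Nat.primesLE n).card = Nat.primeCounting n := by
  rw [Nat.primeCounting, Nat.primeCounting', Nat.count_eq_card_filter_range]
  rfl

/-- sum of `1/(q-1)` -/
theorem sum_recip : ∃ c : ℝ, 1 ≤ c ∧ ∀ (n : ℕ) (X : ℝ), 0 ≤ X → (n : ℝ) ≤ X + 1 →
    ∑ q ∈ Nat.primesLE n, (1 : ℝ) / ((q : ℝ) - 1) ≤ c * l2 X := by
  obtain ⟨B, C, hBC⟩ := mertens_two
  have hl2 : 0 < Real.log 2 := Real.log_pos (by norm_num)
  refine ⟨2 * (1 + |B| + |C| / Real.log 2), ?_, ?_⟩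
  · have : 0 ≤ |C| / Real.log 2 := by positivity
    have := abs_nonneg B
    linarith
  · intro n X hX hn
    have hl := one_le_l2 hX
    have hCl : 0 ≤ |C| / Real.log 2 := by positivity
    rcases lt_or_ge n 2 with h2 | h2
    · have he : Nat.primesLE n = ∅ := by
        ext p
        rw [mem_primesLE]
        simp only [Finset.notMem_empty, iff_false, not_and]
        intro hp hpp
        have := hpp.two_le
        omega
      rw [he, Finset.sum_empty]
      have := abs_nonneg B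
      positivity
    · have h3 := (abs_le.1 (hBC n h2)).2
      have hn2 : (2 : ℝ) ≤ n := by exact_mod_cast h2
      have h4 : C / Real.log n ≤ |C| / Real.log 2 := by
        have : Real.log 2 ≤ Real.log n := Real.log_le_log (by norm_num) hn2
        calc C / Real.log n ≤ |C| / Real.log n :=
              div_le_div_of_nonneg_right (le_abs_self C) (by linarith)
          _ ≤ |C| / Real.log 2 := div_le_div_of_nonneg_left (abs_nonneg C) hl2 this
      have h5 : Real.log (Real.log n) ≤ l2 X := by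
        unfold l2
        refine Real.log_le_log (Real.log_pos (by linarith)) ?_
        exact Real.log_le_log (by linarith) (by linarith)
      have h6 : ∑ q ∈ Nat.primesLE n, (1 : ℝ) / ((q : ℝ) - 1) ≤
          2 * ∑ q ∈ Nat.primesLE n, (1 : ℝ) / q := by
        rw [Finset.mul_sum]
        refine Finset.sum_le_sum fun q hq => ?_
        have hq2 : (2 : ℝ) ≤ q := by exact_mod_cast (mem_primesLE.1 hq).2.two_le
        rw [← mul_div_assoc, mul_one, div_le_div_iff₀ (by linarith) (by linarith)]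
        linarith
      have h7 := le_abs_self B
      have h8 := abs_nonneg B
      nlinarith

/-- reciprocal sums over `GJ j` -/
theorem GJ_sum {c : ℝ} (hc1 : 1 ≤ c) (hc : ∀ (n : ℕ) (X : ℝ), 0 ≤ X → (n : ℝ) ≤ X + 1 →
    ∑ q ∈ Nat.primesLE n, (1 : ℝ) / ((q : ℝ) - 1) ≤ c * l2 X) (j T : ℕ) :
    ∑ n ∈ (Icc 1 T).filter (fun n => n ∈ GJ j), (1 : ℝ) / n ≤ (c * l2 T) ^ j := by
  induction j with
  | zero =>
    rw [pow_zero]
    have hsub : (Icc 1 T).filter (fun n => n ∈ GJ 0) ⊆ {1} := by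
      intro n hn
      rw [Finset.mem_filter] at hn
      rw [Finset.mem_singleton]
      exact GJ_zero hn.2
    refine (Finset.sum_le_sum_of_subset_of_nonneg hsub fun n _ _ => by positivity).trans ?_
    simp
  | succ j ih =>
    have h1 : ∑ n ∈ (Icc 1 T).filter (fun n => n ∈ GJ (j + 1)), (1 : ℝ) / n ≤
        ∑ a ∈ ((Icc 1 T).filter (fun n => n ∈ GJ j)) ×ˢ Nat.primesLE (T + 1),
          (1 : ℝ) / ((a.1 * (a.2 - 1) : ℕ) : ℝ) := by
      refine sum_cover _ _ (fun a : ℕ × ℕ => a.1 * (a.2 - 1)) (fun n => (1 : ℝ) / n)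
        (fun n => by positivity) ?_
      intro n hn
      rw [Finset.mem_filter, Finset.mem_Icc] at hn
      obtain ⟨m, hm, q, hq, rfl⟩ := GJ_succ hn.2
      have hm0 : 0 < m := by
        rcases Nat.eq_zero_or_pos m with h | h
        · subst h; simp at hn
        · exact h
      have hq2 := hq.two_le
      refine ⟨(m, q), ?_, rfl⟩
      rw [Finset.mem_product, Finset.mem_filter, Finset.mem_Icc, mem_primesLE]
      refine ⟨⟨⟨hm0, ?_⟩, hm⟩, ?_, hq⟩
      · exact (Nat.le_mul_of_pos_right m (by omega)).trans hn.1.2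
      · have : q - 1 ≤ T := (Nat.le_mul_of_pos_left (q - 1) hm0).trans hn.1.2
        simp only
        omega
    refine h1.trans ?_
    rw [Finset.sum_product]
    have h2 : ∀ m ∈ (Icc 1 T).filter (fun n => n ∈ GJ j),
        ∑ q ∈ Nat.primesLE (T + 1), (1 : ℝ) / ((m * (q - 1) : ℕ) : ℝ) =
          (1 : ℝ) / m * ∑ q ∈ Nat.primesLE (T + 1), (1 : ℝ) / ((q : ℝ) - 1) := by
      intro m _
      rw [Finset.mul_sum]
      refine Finset.sum_congr rfl fun q hq => ?_
      have hq2 := (mem_primesLE.1 hq).2.two_le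
      rw [Nat.cast_mul, Nat.cast_sub (by omega), Nat.cast_one, one_div_mul_one_div]
    rw [Finset.sum_congr rfl h2, ← Finset.sum_mul, pow_succ]
    have h3 := hc (T + 1) T (by positivity) (by push_cast; exact le_rfl)
    have h4 : 0 ≤ ∑ q ∈ Nat.primesLE (T + 1), (1 : ℝ) / ((q : ℝ) - 1) := by
      refine Finset.sum_nonneg fun q hq => ?_
      have hq2 : (2 : ℝ) ≤ q := by exact_mod_cast (mem_primesLE.1 hq).2.two_le
      exact div_nonneg zero_le_one (by linarith)
    have h5 := one_le_l2 (show (0 : ℝ) ≤ T by positivity)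
    exact mul_le_mul ih h3 h4 (by positivity)

/-- number of primes -/
theorem prime_count : ∃ C : ℝ, 0 < C ∧ ∀ (X Y : ℝ), 1 ≤ X → √X ≤ Y →
    ((Nat.primesLE ⌊Y + 1⌋₊).card : ℝ) ≤ C * Y / l1 X := by
  obtain ⟨C, hC, h⟩ := pi_upper
  refine ⟨8 * C, by positivity, fun X Y hX hY => ?_⟩
  have hs1 : 1 ≤ √X := Real.one_le_sqrt.2 hX
  have hY1 : 1 ≤ Y := hs1.trans hY
  rw [card_primesLE]
  refine (h (Y + 1) (by linarith)).trans ?_
  have hl : 0 < Real.log (Y + 1) := Real.log_pos (by linarith)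
  have hl1 := one_le_l1 hX
  have h1 : l1 X ≤ 2 * Real.log (Y + 1) := by
    have e : 2 * Real.log (√X + 1) = Real.log ((√X + 1) ^ 2) := by
      rw [Real.log_pow]; norm_num
    have h2 : l1 X ≤ 2 * Real.log (√X + 1) := by
      rw [e]
      unfold l1
      refine Real.log_le_log (by linarith) ?_
      have h3 := Real.sq_sqrt (show 0 ≤ X by linarith)
      nlinarith
    have h5 : Real.log (√X + 1) ≤ Real.log (Y + 1) :=
      Real.log_le_log (by linarith) (by linarith)
    linarith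
  rw [div_le_div_iff₀ hl (by linarith)]
  calc C * (Y + 1) * l1 X ≤ C * (2 * Y) * (2 * Real.log (Y + 1)) := by
        refine mul_le_mul ?_ h1 (by linarith) (by positivity)
        exact mul_le_mul_of_nonneg_left (by linarith) hC.le
    _ ≤ 8 * C * Y * Real.log (Y + 1) := by
        have : 0 ≤ C * Y * Real.log (Y + 1) := by positivity
        linarith

/-- number of products of `j` shifted primes -/
theorem GJ_count (j : ℕ) : ∃ C : ℝ, 0 < C ∧ ∀ X : ℝ, 1 ≤ X →
    (((Icc 1 ⌊X⌋₊).filter (fun n => n ∈ GJ j)).card : ℝ) ≤ C * X * l2 X ^ j / l1 X := by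
  obtain ⟨c, hc1, hc⟩ := sum_recip
  obtain ⟨Cp, hCp, hp⟩ := prime_count
  induction j with
  | zero =>
    refine ⟨2, by norm_num, fun X hX => ?_⟩
    have hsub : (Icc 1 ⌊X⌋₊).filter (fun n => n ∈ GJ 0) ⊆ {1} := by
      intro n hn
      rw [Finset.mem_filter] at hn
      rw [Finset.mem_singleton]
      exact GJ_zero hn.2
    have h1 : (((Icc 1 ⌊X⌋₊).filter (fun n => n ∈ GJ 0)).card : ℝ) ≤ 1 := by
      have := Finset.card_le_card hsub
      rw [Finset.card_singleton] at this
      exact_mod_cast this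
    refine h1.trans ?_
    have hl := one_le_l1 hX
    rw [pow_zero, mul_one, le_div_iff₀ (by linarith), one_mul]
    unfold l1
    have := Real.log_le_sub_one_of_pos (show 0 < X + 2 by linarith)
    linarith
  | succ j ih =>
    obtain ⟨Cj, hCj, hj⟩ := ih
    refine ⟨Cp * c ^ j + 2 * Cj * c, by positivity, fun X hX => ?_⟩
    have hX0 : 0 < X := by linarith
    have hs1 : 1 ≤ √X := Real.one_le_sqrt.2 hX
    have hs2 : √X * √X = X := Real.mul_self_sqrt hX0.le
    have hl1 := one_le_l1 hX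
    have hl2 := one_le_l2 hX0.le
    set P1 : Finset (Σ _ : ℕ, ℕ) := ((Icc 1 ⌊√X⌋₊).filter (fun n => n ∈ GJ j)).sigma
      (fun m => Nat.primesLE ⌊X / m + 1⌋₊) with hP1
    set P2 : Finset (Σ _ : ℕ, ℕ) := (Nat.primesLE ⌊√X + 1⌋₊).sigma
      (fun q => (Icc 1 ⌊X / ((q : ℝ) - 1)⌋₊).filter (fun n => n ∈ GJ j)) with hP2
    have hsub : (Icc 1 ⌊X⌋₊).filter (fun n => n ∈ GJ (j + 1)) ⊆
        P1.image (fun a => a.1 * (a.2 - 1)) ∪ P2.image (fun a => a.2 * (a.1 - 1)) := by
      intro n hn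
      rw [Finset.mem_filter, Finset.mem_Icc] at hn
      obtain ⟨⟨hn1, hn2⟩, hn3⟩ := hn
      obtain ⟨m, hm, q, hq, rfl⟩ := GJ_succ hn3
      have hm0 : 0 < m := by
        rcases Nat.eq_zero_or_pos m with h | h
        · subst h; simp at hn1
        · exact h
      have hq2 := hq.two_le
      have hnX : ((m * (q - 1) : ℕ) : ℝ) ≤ X := (Nat.le_floor_iff hX0.le).1 hn2
      rw [Nat.cast_mul, Nat.cast_sub (by omega), Nat.cast_one] at hnX
      have hmR : (1 : ℝ) ≤ m := by exact_mod_cast hm0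
      have hqR : (2 : ℝ) ≤ q := by exact_mod_cast hq2
      rw [Finset.mem_union, Finset.mem_image, Finset.mem_image]
      rcases le_or_gt (m : ℝ) (√X) with h | h
      · left
        refine ⟨⟨m, q⟩, ?_, rfl⟩
        rw [hP1, Finset.mem_sigma, Finset.mem_filter, Finset.mem_Icc, mem_primesLE]
        refine ⟨⟨⟨hm0, Nat.le_floor h⟩, hm⟩, ?_, hq⟩
        refine Nat.le_floor ?_
        have : (q : ℝ) - 1 ≤ X / m := by
          rw [le_div_iff₀ (by linarith)]
          linarith
        simp only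
        linarith
      · right
        refine ⟨⟨q, m⟩, ?_, rfl⟩
        rw [hP2, Finset.mem_sigma, mem_primesLE, Finset.mem_filter, Finset.mem_Icc]
        refine ⟨⟨?_, hq⟩, ⟨hm0, ?_⟩, hm⟩
        · refine Nat.le_floor ?_
          have : (q : ℝ) - 1 ≤ √X := by
            by_contra hcon
            push Not at hcon
            nlinarith
          simp only
          linarith
        · refine Nat.le_floor ?_
          simp only
          rw [le_div_iff₀ (by linarith)]
          exact hnX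
    have hcard : (((Icc 1 ⌊X⌋₊).filter (fun n => n ∈ GJ (j + 1))).card : ℝ) ≤
        (P1.card : ℝ) + P2.card := by
      have h1 := Finset.card_le_card hsub
      have h2 := Finset.card_union_le (P1.image (fun a => a.1 * (a.2 - 1)))
        (P2.image (fun a => a.2 * (a.1 - 1)))
      have h3 := Finset.card_image_le (s := P1) (f := fun a => a.1 * (a.2 - 1))
      have h4 := Finset.card_image_le (s := P2) (f := fun a => a.2 * (a.1 - 1))
      have h5 : ((Icc 1 ⌊X⌋₊).filter (fun n => n ∈ GJ (j + 1))).card ≤ P1.card + P2.card := by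
        omega
      exact_mod_cast h5
    have hc1' : (P1.card : ℝ) ≤ Cp * c ^ j * X * l2 X ^ (j + 1) / l1 X := by
      rw [hP1, Finset.card_sigma]
      push_cast
      have h1 : ∀ m ∈ (Icc 1 ⌊√X⌋₊).filter (fun n => n ∈ GJ j),
          ((Nat.primesLE ⌊X / m + 1⌋₊).card : ℝ) ≤ Cp * X / l1 X * (1 / m) := by
        intro m hm
        rw [Finset.mem_filter, Finset.mem_Icc] at hm
        have hm0 : (0 : ℝ) < m := by exact_mod_cast hm.1.1
        have hmX : (m : ℝ) ≤ √X := (Nat.le_floor_iff (by positivity)).1 hm.1.2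
        have hY : √X ≤ X / m := by
          rw [le_div_iff₀ hm0]
          nlinarith
        refine (hp X (X / m) hX hY).trans (le_of_eq ?_)
        field_simp
      refine (Finset.sum_le_sum h1).trans ?_
      rw [← Finset.mul_sum]
      have h2 := GJ_sum hc1 hc j ⌊√X⌋₊
      have h3 : l2 (⌊√X⌋₊ : ℝ) ≤ l2 X := by
        refine l2_mono (by positivity) ?_
        have := Nat.floor_le (Real.sqrt_nonneg X)
        nlinarith
      have h4 : 1 ≤ l2 (⌊√X⌋₊ : ℝ) := one_le_l2 (by positivity)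
      have h5 : (c * l2 (⌊√X⌋₊ : ℝ)) ^ j ≤ c ^ j * l2 X ^ (j + 1) := by
        rw [mul_pow]
        refine mul_le_mul_of_nonneg_left ?_ (by positivity)
        calc l2 (⌊√X⌋₊ : ℝ) ^ j ≤ l2 X ^ j := pow_le_pow_left₀ (by linarith) h3 j
          _ ≤ l2 X ^ (j + 1) := pow_le_pow_right₀ hl2 (by omega)
      calc Cp * X / l1 X * ∑ i ∈ (Icc 1 ⌊√X⌋₊).filter (fun n => n ∈ GJ j), (1 : ℝ) / i
          ≤ Cp * X / l1 X * (c ^ j * l2 X ^ (j + 1)) :=
            mul_le_mul_of_nonneg_left (h2.trans h5) (by positivity)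
        _ = _ := by ring
    have hc2' : (P2.card : ℝ) ≤ 2 * Cj * c * X * l2 X ^ (j + 1) / l1 X := by
      rw [hP2, Finset.card_sigma]
      push_cast
      have h1 : ∀ q ∈ Nat.primesLE ⌊√X + 1⌋₊,
          ((((Icc 1 ⌊X / ((q : ℝ) - 1)⌋₊).filter (fun n => n ∈ GJ j)).card : ℕ) : ℝ) ≤
            2 * Cj * X * l2 X ^ j / l1 X * (1 / ((q : ℝ) - 1)) := by
        intro q hq
        rw [mem_primesLE] at hq
        have hq2 : (2 : ℝ) ≤ q := by exact_mod_cast hq.2.two_le
        have hq0 : (0 : ℝ) < (q : ℝ) - 1 := by linarith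
        have hqX : (q : ℝ) ≤ √X + 1 := (Nat.le_floor_iff (by positivity)).1 hq.1
        have hY : √X ≤ X / ((q : ℝ) - 1) := by
          rw [le_div_iff₀ hq0]
          nlinarith
        have hYX : X / ((q : ℝ) - 1) ≤ X := div_le_self hX0.le (by linarith)
        have hY1 : 1 ≤ X / ((q : ℝ) - 1) := hs1.trans hY
        refine (hj _ hY1).trans ?_
        have e1 := l1_sqrt hX hY
        have e2 := one_le_l1 hY1
        have e3 : l2 (X / ((q : ℝ) - 1)) ^ j ≤ l2 X ^ j :=
          pow_le_pow_left₀ (by have := one_le_l2 (show 0 ≤ X / ((q : ℝ) - 1) by linarith); linarith)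
            (l2_mono (by linarith) hYX) j
        calc Cj * (X / ((q : ℝ) - 1)) * l2 (X / ((q : ℝ) - 1)) ^ j / l1 (X / ((q : ℝ) - 1))
            ≤ Cj * (X / ((q : ℝ) - 1)) * l2 X ^ j / l1 (X / ((q : ℝ) - 1)) := by
              refine div_le_div_of_nonneg_right ?_ (by linarith)
              exact mul_le_mul_of_nonneg_left e3 (by positivity)
          _ ≤ Cj * (X / ((q : ℝ) - 1)) * l2 X ^ j / (l1 X / 2) := by
              refine div_le_div_of_nonneg_left (by positivity) (by linarith) (by linarith)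
          _ = _ := by field_simp
      refine (Finset.sum_le_sum h1).trans ?_
      rw [← Finset.mul_sum]
      have h2 := hc ⌊√X + 1⌋₊ X hX0.le (by
        have := Nat.floor_le (show 0 ≤ √X + 1 by positivity)
        nlinarith)
      calc 2 * Cj * X * l2 X ^ j / l1 X * ∑ i ∈ Nat.primesLE ⌊√X + 1⌋₊, (1 : ℝ) / ((i : ℝ) - 1)
          ≤ 2 * Cj * X * l2 X ^ j / l1 X * (c * l2 X) :=
            mul_le_mul_of_nonneg_left h2 (by positivity)
        _ = _ := by ring
    calc (((Icc 1 ⌊X⌋₊).filter (fun n => n ∈ GJ (j + 1))).card : ℝ)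
        ≤ (P1.card : ℝ) + P2.card := hcard
      _ ≤ Cp * c ^ j * X * l2 X ^ (j + 1) / l1 X + 2 * Cj * c * X * l2 X ^ (j + 1) / l1 X :=
          add_le_add hc1' hc2'
      _ = _ := by ring

end TR

end P031
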